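import Vale.Agent.P188.Stmts
import Vale.Agent.P115.Birkhoff

namespace Vale.Agent.P188

open MeasureTheory Filter Finset Vale.Agent.P115

variable {Ω : Type} [MeasurableSpace Ω]

lemma me_int {μ : Measure Ω} [IsFiniteMeasure μ] {T : Ω → Ω} (hT : MeasurePreserving T μ μ)
    {g : Ω → ℝ} (hg : Integrable g μ) (n : ℕ) : Integrable (runMax T g n) μ := by
  induction n with
  | zero => exact integrable_zero _ _ _
  | succ n ih =>
    exact (integrable_zero _ _ _).sup (hg.add (hT.integrable_comp_of_integrable ih))

lemma me_hopf_fin {μ : Measure Ω} [IsFiniteMeasure μ] {T : Ω → Ω} (hT : MeasurePreserving T μ μ)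
    {g : Ω → ℝ} (hg : Measurable g) (hgi : Integrable g μ) (n : ℕ) :
    0 ≤ ∫ x in {x | 0 < runMax T g (n + 1) x}, g x ∂μ := by
  have hm := fun n => measurable_runMax hT.measurable hg n
  have hint := me_int hT hgi
  have hintT : Integrable (fun x => runMax T g n (T x)) μ :=
    (hT.integrable_comp_of_integrable (hint n))
  have hS : MeasurableSet {x | 0 < runMax T g (n + 1) x} :=
    measurableSet_lt measurable_const (hm _)
  have h1 : ∀ x, runMax T g (n + 1) x ≤
      {x | 0 < runMax T g (n + 1) x}.indicator g x + runMax T g n (T x) := by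
    intro x
    by_cases hx : 0 < runMax T g (n + 1) x
    · rw [Set.indicator_of_mem (by exact hx)]
      simp only [runMax] at hx ⊢
      rcases le_total 0 (g x + runMax T g n (T x)) with h | h
      · rw [max_eq_right h]
      · rw [max_eq_left h] at hx; exact absurd hx (lt_irrefl _)
    · rw [Set.indicator_of_notMem (by exact hx)]
      have := runMax_nonneg T g n (T x)
      linarith [not_lt.1 hx]
  have h2 : ∫ x, runMax T g (n + 1) x ∂μ ≤
      ∫ x, ({x | 0 < runMax T g (n + 1) x}.indicator g x + runMax T g n (T x)) ∂μ :=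
    integral_mono (hint _) ((hgi.indicator hS).add hintT) h1
  rw [integral_add (hgi.indicator hS) hintT, integral_indicator hS] at h2
  have h3 : ∫ x, runMax T g n (T x) ∂μ = ∫ x, runMax T g n x ∂μ := by
    have := integral_map (μ := μ) (φ := T) hT.measurable.aemeasurable (f := runMax T g n)
      (by rw [hT.map_eq]; exact (hm n).aestronglyMeasurable)
    rw [hT.map_eq] at this
    exact this.symm
  have h4 : ∫ x, runMax T g n x ∂μ ≤ ∫ x, runMax T g (n + 1) x ∂μ :=
    integral_mono (hint _) (hint _) fun x => runMax_le_succ T g n x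
  linarith

lemma me_hopf {μ : Measure Ω} [IsFiniteMeasure μ] {T : Ω → Ω} (hT : MeasurePreserving T μ μ)
    {g : Ω → ℝ} (hg : Measurable g) (hgi : Integrable g μ) :
    0 ≤ ∫ x in ⋃ n, {x | 0 < runMax T g (n + 1) x}, g x ∂μ := by
  have hm := fun n => measurable_runMax hT.measurable hg n
  have hS : ∀ n, MeasurableSet {x | 0 < runMax T g (n + 1) x} := fun n =>
    measurableSet_lt measurable_const (hm _)
  have hmono : Monotone fun n => {x | 0 < runMax T g (n + 1) x} := by
    intro a b hab x hx
    exact lt_of_lt_of_le hx (runMax_mono T g x (Nat.succ_le_succ hab))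
  have := tendsto_setIntegral_of_monotone hS hmono hgi.integrableOn
  exact ge_of_tendsto' this fun n => me_hopf_fin hT hg hgi n

theorem maxErg_pf : MaxErg_stmt := by
  intro Ω _ μ _ T hT h hh h0 hhi l hl
  set g : Ω → ℝ := fun x => h x - l with hg
  have hgm : Measurable g := hh.sub measurable_const
  have hU := me_hopf hT hgm (hhi.sub (integrable_const l))
  set U := ⋃ n, {x | 0 < runMax T g (n + 1) x} with hUdef
  have hsub : {x | ∃ N : ℕ, l * N < ∑ i ∈ range N, h (T^[i] x)} ⊆ U := by
    rintro x ⟨N, hN⟩
    refine Set.mem_iUnion.2 ⟨N, ?_⟩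
    have h1 := sum_le_runMax T g N x
    have h2 := runMax_le_succ T g N x
    simp only [hg, sum_sub_distrib, sum_const, card_range, nsmul_eq_mul] at h1
    change 0 < runMax T g (N + 1) x
    simp only [hg] at h2 ⊢
    linarith
  have h5 : ∫ x in U, g x ∂μ = ∫ x in U, h x ∂μ - μ.real U * l := by
    simp only [hg]
    rw [integral_sub hhi.integrableOn (integrable_const _)]
    simp
  have h6 : ∫ x in U, h x ∂μ ≤ ∫ x, h x ∂μ :=
    setIntegral_le_integral hhi (Eventually.of_forall h0)
  have h7 : μ.real U ≤ (∫ x, h x ∂μ) / l := by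
    rw [le_div_iff₀ hl]; linarith
  exact (measureReal_mono hsub).trans h7

end Vale.Agent.P188
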