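import Vale.Agent.P188.LayerB

/-! P188: the base of the tower induction. -/

namespace Vale.Agent.P188

open Function MeasureTheory Filter
open scoped ENNReal NNReal Topology

/-- One half of the Choquet-Deny theorem for finitely supported measures. -/
theorem base_cd_le {Γ 𝒮 : Type} [Group Γ] [Fintype 𝒮] (e : 𝒮 → Γ)
    (hc : ∀ g h : Γ, g * h = h * g) (p : 𝒮 → ℝ) (hp : ∀ ς, 0 < p ς) (hp1 : ∑ ς, p ς = 1)
    (f : Γ → ℝ) (hb : ∀ γ, |f γ| ≤ 1) (hh : ∀ γ, f γ = ∑ ς, p ς * f (γ * e ς)) (ς₀ : 𝒮)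
    (γ₀ : Γ) : f (γ₀ * e ς₀) ≤ f γ₀ := by
  set g : Γ → ℝ := fun γ => f (γ * e ς₀) - f γ with hg
  have hgb : ∀ γ, g γ ≤ 2 := fun γ => by
    have h1 := abs_le.1 (hb (γ * e ς₀))
    have h2 := abs_le.1 (hb γ)
    simp only [hg]
    linarith
  have hbdd : BddAbove (Set.range g) := ⟨2, by rintro _ ⟨γ, rfl⟩; exact hgb γ⟩
  set M : ℝ := ⨆ γ, g γ with hM
  have hle : ∀ γ, g γ ≤ M := fun γ => le_ciSup hbdd γ
  have hgh : ∀ γ, g γ = ∑ ς, p ς * g (γ * e ς) := by
    intro γ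
    simp only [hg, mul_sub, Finset.sum_sub_distrib]
    rw [← hh γ, hh (γ * e ς₀)]
    congr 1
    refine Finset.sum_congr rfl fun ς _ => ?_
    rw [mul_assoc, mul_assoc, hc (e ς₀)]
  have hD : ∀ γ, p ς₀ * (M - g (γ * e ς₀)) ≤ M - g γ := by
    intro γ
    have h1 : M - g γ = ∑ ς, p ς * (M - g (γ * e ς)) := by
      simp only [mul_sub, Finset.sum_sub_distrib]
      rw [← Finset.sum_mul, hp1, one_mul, ← hgh γ]
    rw [h1]
    exact Finset.single_le_sum (f := fun ς => p ς * (M - g (γ * e ς)))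
      (fun ς _ => mul_nonneg (hp ς).le (sub_nonneg.2 (hle _))) (Finset.mem_univ ς₀)
  have hm : ∀ m : ℕ, ∃ K : ℝ, 0 ≤ K ∧ ∀ γ,
      m * M - (f (γ * e ς₀ ^ m) - f γ) ≤ K * (M - g γ) := by
    intro m
    induction m with
    | zero => exact ⟨0, le_rfl, fun γ => by simp⟩
    | succ m ih =>
      obtain ⟨K, hK, ih⟩ := ih
      refine ⟨K / p ς₀ + 1, by have := hp ς₀; positivity, fun γ => ?_⟩
      have h1 := ih (γ * e ς₀)
      have h2 : M - g (γ * e ς₀) ≤ (M - g γ) / p ς₀ := by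
        rw [le_div_iff₀' (hp ς₀)]; exact hD γ
      have h3 := mul_le_mul_of_nonneg_left h2 hK
      have h4 : γ * e ς₀ * e ς₀ ^ m = γ * e ς₀ ^ (m + 1) := by rw [pow_succ', mul_assoc]
      rw [h4] at h1
      have h5 : g γ = f (γ * e ς₀) - f γ := rfl
      have h6 : (K / p ς₀ + 1) * (M - g γ) = K * ((M - g γ) / p ς₀) + (M - g γ) := by ring
      push_cast
      linarith
  have hm2 : ∀ m : ℕ, m * M ≤ 2 := by
    intro m
    obtain ⟨K, hK, h⟩ := hm m
    refine le_of_forall_pos_le_add fun ε hε => ?_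
    have hε' : 0 < ε / (K + 1) := by positivity
    obtain ⟨γ, hγ⟩ := exists_lt_of_lt_ciSup (f := g) (b := M - ε / (K + 1)) (by linarith)
    have h1 := h γ
    have h2 := abs_le.1 (hb (γ * e ς₀ ^ m))
    have h3 := abs_le.1 (hb γ)
    have h4 : K * (M - g γ) ≤ K * (ε / (K + 1)) := mul_le_mul_of_nonneg_left (by linarith) hK
    have h5 : K * (ε / (K + 1)) ≤ ε := by
      rw [← mul_div_assoc, div_le_iff₀ (by positivity)]
      nlinarith
    linarith
  have hM0 : M ≤ 0 := by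
    by_contra h
    push Not at h
    obtain ⟨m, hm⟩ := exists_nat_gt (2 / M)
    rw [div_lt_iff₀ h] at hm
    linarith [hm2 m]
  have := (hle γ₀).trans hM0
  simp only [hg] at this
  linarith

/-- The Choquet-Deny theorem for finitely supported measures. -/
theorem base_cd {Γ 𝒮 : Type} [Group Γ] [Fintype 𝒮] (e : 𝒮 → Γ)
    (hc : ∀ g h : Γ, g * h = h * g) (hgen : Subgroup.closure (Set.range e) = ⊤)
    (p : 𝒮 → ℝ) (hp : ∀ ς, 0 < p ς) (hp1 : ∑ ς, p ς = 1)
    (f : Γ → ℝ) (hb : ∀ γ, |f γ| ≤ 1) (hh : ∀ γ, f γ = ∑ ς, p ς * f (γ * e ς)) (γ₀ : Γ) :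
    f γ₀ = f 1 := by
  have h1 : ∀ ς γ, f (γ * e ς) = f γ := by
    intro ς γ
    refine le_antisymm (base_cd_le e hc p hp hp1 f hb hh ς γ) ?_
    have := base_cd_le e hc p hp hp1 (fun γ => -f γ) (fun γ => by simpa using hb γ)
      (fun γ => by simp only [mul_neg, Finset.sum_neg_distrib]; rw [← hh γ]) ς γ
    linarith
  have h2 : ∀ g ∈ Subgroup.closure (Set.range e), ∀ γ, f (γ * g) = f γ := by
    intro g hg
    induction hg using Subgroup.closure_induction with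
    | mem x hx =>
      obtain ⟨ς, rfl⟩ := hx
      exact h1 ς
    | one => simp
    | mul x y _ _ hx hy => intro γ; rw [← mul_assoc, hy, hx]
    | inv x _ hx => intro γ; rw [← hx (γ * x⁻¹)]; simp
  simpa using h2 γ₀ (hgen ▸ Subgroup.mem_top _) 1

/-- The zero-one law. -/
theorem base_01 {Γ 𝒮 : Type} [Group Γ] [Fintype 𝒮] [MeasurableSpace 𝒮]
    [DiscreteMeasurableSpace 𝒮] (P : Measure 𝒮) [IsProbabilityMeasure P] (hP : ∀ ς, P {ς} ≠ 0)
    (e : 𝒮 → Γ) (hc : ∀ g h : Γ, g * h = h * g) (hgen : Subgroup.closure (Set.range e) = ⊤)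
    (A : Γ → Set (ℕ → 𝒮)) (hA : ∀ γ, MeasurableSet (A γ))
    (hinv : ∀ γ ω, ω ∈ A γ ↔ (fun j => ω (j + 1)) ∈ A (γ * e (ω 0))) (γ₀ : Γ) :
    iid P (A γ₀) = iid P (A 1) ∧ (iid P (A γ₀) = 0 ∨ iid P (A γ₀)ᶜ = 0) := by
  have hharm : ∀ γ, iid P (A γ) = ∑ ς, iid P (A (γ * e ς)) * P {ς} := by
    intro γ
    rw [← (mp_consN P).measure_preimage (hA γ).nullMeasurableSet,
      Measure.prod_apply (measurable_consN (hA γ)), lintegral_fintype]
    refine Finset.sum_congr rfl fun ς _ => ?_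
    congr 2
    ext ω
    exact hinv γ (consN ς ω)
  have hconst : ∀ γ, iid P (A γ) = iid P (A 1) := by
    intro γ
    have := base_cd e hc hgen (fun ς => (P {ς}).toReal)
      (fun ς => ENNReal.toReal_pos (hP ς) (measure_ne_top _ _)) ?_
      (fun γ => (iid P (A γ)).toReal) (fun γ => ?_) (fun γ => ?_) γ
    · exact (ENNReal.toReal_eq_toReal_iff' (measure_ne_top _ _) (measure_ne_top _ _)).1 this
    · rw [← ENNReal.toReal_sum fun _ _ => measure_ne_top _ _]
      have h1 := lintegral_fintype (μ := P) fun _ => 1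
      simp only [one_mul, lintegral_const, measure_univ] at h1
      rw [← h1]; simp
    · rw [abs_of_nonneg ENNReal.toReal_nonneg]
      exact ENNReal.toReal_le_of_le_ofReal zero_le_one (by simpa using prob_le_one)
    · rw [hharm γ, ENNReal.toReal_sum fun _ _ =>
        ENNReal.mul_ne_top (measure_ne_top _ _) (measure_ne_top _ _)]
      refine Finset.sum_congr rfl fun ς _ => ?_
      rw [ENNReal.toReal_mul, mul_comm]
  refine ⟨hconst γ₀, ?_⟩
  have hn : ∀ (n : ℕ) (γ : Γ) (ω : ℕ → 𝒮), ∃ γ', ∀ ω', splice n ω ω' ∈ A γ ↔ ω' ∈ A γ' := by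
    intro n
    induction n with
    | zero =>
      intro γ ω
      refine ⟨γ, fun ω' => ?_⟩
      have : splice 0 ω ω' = ω' := by funext j; simp [splice]
      rw [this]
    | succ n ih =>
      intro γ ω
      obtain ⟨γ', h⟩ := ih (γ * e (ω 0)) fun j => ω (j + 1)
      refine ⟨γ', fun ω' => ?_⟩
      rw [hinv, ← h]
      have h1 : (fun j => splice (n + 1) ω ω' (j + 1)) = splice n (fun j => ω (j + 1)) ω' := by
        funext j; simp [splice]
      have h2 : splice (n + 1) ω ω' 0 = ω 0 := by simp [splice]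
      rw [h1, h2]
  by_cases h0 : iid P (A γ₀) = 0
  · exact Or.inl h0
  right
  have htop : iid P (A γ₀) ≠ ⊤ := measure_ne_top _ _
  have key : (iid P (A γ₀))⁻¹ • (iid P).restrict (A γ₀) = iid P := by
    refine Measure.eq_infinitePi (fun _ : ℕ => P) fun s t ht => ?_
    have hm : MeasurableSet (Set.pi (s : Set ℕ) t) :=
      MeasurableSet.pi s.countable_toSet fun i _ => ht i
    obtain ⟨n, hn'⟩ := s.bddAbove
    rw [Measure.smul_apply, Measure.restrict_apply hm,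
      ← (mp_splice P (n + 1)).measure_preimage (hm.inter (hA γ₀)).nullMeasurableSet,
      Measure.prod_apply (measurable_splice (n + 1) (hm.inter (hA γ₀)))]
    have h1 : ∀ ω : ℕ → 𝒮, iid P (Prod.mk ω ⁻¹' ((fun p : (ℕ → 𝒮) × (ℕ → 𝒮) =>
        splice (n + 1) p.1 p.2) ⁻¹' (Set.pi (s : Set ℕ) t ∩ A γ₀))) =
        (Set.pi (s : Set ℕ) t).indicator (fun _ => iid P (A γ₀)) ω := by
      intro ω
      obtain ⟨γ', h⟩ := hn (n + 1) γ₀ ω
      have h2 : ∀ ω', splice (n + 1) ω ω' ∈ Set.pi (s : Set ℕ) t ↔ ω ∈ Set.pi (s : Set ℕ) t := by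
        intro ω'
        refine forall₂_congr fun i hi => ?_
        have : i < n + 1 := Nat.lt_succ_of_le (hn' hi)
        simp [splice, this]
      by_cases hω : ω ∈ Set.pi (s : Set ℕ) t
      · rw [Set.indicator_of_mem hω, hconst γ₀, ← hconst γ']
        congr 1
        ext ω'
        simp only [Set.mem_preimage, Set.mem_inter_iff, h2, h, hω, true_and]
      · rw [Set.indicator_of_notMem hω, ← measure_empty (μ := iid P)]
        congr 1
        ext ω'
        simp only [Set.mem_preimage, Set.mem_inter_iff, h2, hω, false_and, Set.mem_empty_iff_false]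
    simp only [h1]
    rw [lintegral_indicator_const hm, smul_eq_mul, ← mul_assoc,
      ENNReal.inv_mul_cancel h0 htop, one_mul]
    exact Measure.infinitePi_pi _ fun i _ => ht i
  rw [← key, Measure.smul_apply, Measure.restrict_apply (hA γ₀).compl]
  simp

/-- The base chain. -/
noncomputable abbrev baseChain {Γ : Type} (𝒮 : Type) [Fintype 𝒮] [Nonempty 𝒮]
    [MeasurableSpace 𝒮] [DiscreteMeasurableSpace 𝒮] (e : 𝒮 → Γ) (r : Γ) : Chain Γ where
  σ := Unit
  N := 𝒮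
  B := Unit
  μσ := Measure.dirac ()
  μN := ProbabilityTheory.uniformOn Set.univ
  m := Measure.dirac ()
  step := fun _ s => (e s, ())
  Θ := fun _ => ()
  r := r

theorem base_unif {𝒮 : Type} [Fintype 𝒮] [MeasurableSpace 𝒮] [DiscreteMeasurableSpace 𝒮]
    (ς : 𝒮) : (ProbabilityTheory.uniformOn Set.univ : Measure 𝒮) {ς} =
      ((Fintype.card 𝒮 : ℝ≥0∞))⁻¹ := by
  rw [ProbabilityTheory.uniformOn_univ]
  simp

theorem base_tt {Γ : Type} [Group Γ] [MeasurableSpace Γ] (𝒮 : Type) [Fintype 𝒮] [Nonempty 𝒮]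
    [MeasurableSpace 𝒮] [DiscreteMeasurableSpace 𝒮] (e : 𝒮 → Γ) (r : Γ)
    (hc : ∀ g h : Γ, g * h = h * g) (hgen : Subgroup.closure (Set.range e) = ⊤) :
    TTp (baseChain 𝒮 e r) := by
  intro X _ μ _ E hE hinv
  set P : Measure 𝒮 := ProbabilityTheory.uniformOn Set.univ with hPdef
  have hP : ∀ ς, P {ς} ≠ 0 := fun ς => by rw [hPdef, base_unif]; simp
  have hm : ∀ γ : Γ, Measurable fun q : (ℕ → 𝒮) × X => ((((γ, ()), q.1), q.2) :
      ((Γ × Unit) × (ℕ → 𝒮)) × X) := fun γ => by fun_prop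
  have hm1 : Measurable fun s : X => iid P {ω | ((((1 : Γ), ()), ω), s) ∈ E} :=
    measurable_measure_prodMk_right (μ := iid P) (hm 1 hE)
  have hE' : MeasurableSet {s : X | iid P {ω | ((((1 : Γ), ()), ω), s) ∈ E} ≠ 0} :=
    (hm1 (measurableSet_singleton 0)).compl
  refine ⟨Prod.snd ⁻¹' {s : X | iid P {ω | ((((1 : Γ), ()), ω), s) ∈ E} ≠ 0},
    measurable_snd hE', fun γ => ?_⟩
  have h1 : ∀ᵐ q ∂((iid P).prod μ), ((((γ, ()), q.1), q.2) ∈ E ↔
      iid P {ω | ((((1 : Γ), ()), ω), q.2) ∈ E} ≠ 0) := by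
    have hs : MeasurableSet {q : (ℕ → 𝒮) × X | ¬ ((((γ, ()), q.1), q.2) ∈ E ↔
        iid P {ω | ((((1 : Γ), ()), ω), q.2) ∈ E} ≠ 0)} :=
      (MeasurableSet.iff (hm γ hE) (measurable_snd hE')).compl
    rw [ae_iff, Measure.prod_apply_symm hs]
    refine (lintegral_congr fun s => ?_).trans lintegral_zero
    obtain ⟨h2, h3⟩ := base_01 P hP e hc hgen (fun γ => {ω | (((γ, ()), ω), s) ∈ E})
      (fun γ => (show Measurable fun ω : ℕ → 𝒮 => ((((γ, ()), ω), s) :
        ((Γ × Unit) × (ℕ → 𝒮)) × X) by fun_prop) hE) (fun γ ω => hinv (γ, ()) ω s) γ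
    by_cases h0 : iid P {ω | ((((1 : Γ), ()), ω), s) ∈ E} = 0
    · refine measure_mono_null (fun ω hω => ?_) (h2.trans h0)
      simpa [h0] using hω
    · refine measure_mono_null (fun ω hω => ?_) (h3.resolve_left fun h => h0 (h2.symm.trans h))
      simpa [h0] using hω
  have h4 : MeasurePreserving (Prod.map (Prod.snd : Unit × (ℕ → 𝒮) → ℕ → 𝒮) (id : X → X))
      (((Measure.dirac ()).prod (iid P)).prod μ) ((iid P).prod μ) :=
    measurePreserving_snd.prod (MeasurePreserving.id μ)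
  exact h4.quasiMeasurePreserving.ae h1

theorem base_cp (h : SzBasic_stmt) {k : ℕ} {Γ : Type} [Group Γ] [Countable Γ]
    [MeasurableSpace Γ] [DiscreteMeasurableSpace Γ] (π : Γ →* Zk k) (hπ : Bijective π)
    (S : Finset Γ) (hS : Subgroup.closure (S : Set Γ) = ⊤) (C : ℝ) (hC0 : 0 ≤ C)
    (hC : ∀ g, (sz S π g : ℝ) ≤ C * (‖ht π g‖ + 1)) (a : Rk k) (Cs κ₂ C₀ : ℝ)
    (𝒮 : Type) [Fintype 𝒮] [Nonempty 𝒮] [MeasurableSpace 𝒮] [DiscreteMeasurableSpace 𝒮]
    (e : 𝒮 → Γ) (he : ∀ ς, ‖ht π (e ς) - a‖ ≤ Cs)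
    (hgen : Subgroup.closure (Set.range e) = ⊤) (r : Γ) :
    ∃ ref : Unit → ℕ → Γ, CP S π [] a Cs κ₂ C₀ (4 * C + 1) (baseChain 𝒮 e r) ref := by
  classical
  obtain ⟨g₀, hg₀⟩ := hπ.2 (flo a)
  have hc : ∀ g h : Γ, g * h = h * g := fun g h => hπ.1 (by rw [map_mul, map_mul, mul_comm])
  have hstep : ∀ j : ℕ, (g₀ ^ j)⁻¹ * g₀ ^ (j + 1) = g₀ := fun j => by group
  have hpow : ∀ j : ℕ, ht π (g₀ ^ j) = (j : ℝ) • ht π g₀ := by
    intro j
    induction j with
    | zero => simp [ht_one]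
    | succ j ih => rw [pow_succ, ht_mul, ih]; push_cast; rw [add_smul, one_smul]
  have hfl : ‖ht π g₀ - a‖ ≤ 1 := by
    refine (pi_norm_le_iff_of_nonneg zero_le_one).2 fun i => ?_
    simp only [ht, hg₀, toR, flo, toAdd_ofAdd, Pi.sub_apply, Real.norm_eq_abs]
    have h1 := Int.floor_le (a i)
    have h2 := Int.lt_floor_add_one (a i)
    rw [abs_le]
    constructor <;> linarith
  have hk : ∀ b, kap ([] : List (Wt k)) a b = 0 := fun b => by simp [kap]
  refine ⟨fun _ j => g₀ ^ j, ⟨⟨measurable_const, measurable_const, ⟨sz S π g₀, fun _ j => ?_⟩,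
    ⟨sz S π g₀, fun _ j => by rw [hstep]⟩, fun _ => rfl, fun _ _ _ => rfl, ?_⟩,
    ⟨?_, ⟨Finset.univ.image e, fun _ g => Finset.mem_image_of_mem e (Finset.mem_univ g)⟩,
      fun _ g => he g, fun _ => MeasurePreserving.id _⟩, ⟨1, fun x D hD => ?_⟩,
    ⟨1, one_pos, fun x D hD _ => ?_⟩, base_tt 𝒮 e r hc hgen⟩⟩
  · have hj : (0 : ℝ) ≤ j := Nat.cast_nonneg j
    have hz : (0 : ℝ) ≤ sz S π g₀ := Nat.cast_nonneg _
    refine ⟨by rw [hstep]; linarith, ?_⟩
    simp only [pow_zero, ht_one, sub_zero]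
    rw [hpow, ← smul_sub, norm_smul, Real.norm_eq_abs, abs_of_nonneg hj]
    nlinarith
  · intro κ Λ y y' hκ _ hΛ hy hy' h0 _ j
    have h1 := (hy j).2
    have h2 := (hy' j).2
    have h3 := ((h k Γ π S hS).2.2.2.2.1 ((y 0)⁻¹ * y' 0)).trans h0
    have h4 : ht π ((y j)⁻¹ * y' j) = (ht π (y' j) - ht π (y' 0) - (j : ℝ) • a) -
        (ht π (y j) - ht π (y 0) - (j : ℝ) • a) + ht π ((y 0)⁻¹ * y' 0) := by
      simp only [ht_mul, ht_inv]; abel
    have h5 : ‖ht π ((y j)⁻¹ * y' j)‖ ≤ (κ * j + Λ) + (κ * j + Λ) + Λ := by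
      rw [h4]
      refine (norm_add_le _ _).trans (add_le_add ((norm_sub_le _ _).trans ?_) h3)
      exact add_le_add h2 h1
    have hj : (0 : ℝ) ≤ κ * j := by positivity
    have ha := norm_nonneg a
    have h6 : ‖ht π ((y j)⁻¹ * y' j)‖ + 1 ≤ 4 * (κ * j + Λ) := by linarith
    have h7 := mul_le_mul_of_nonneg_left h6 hC0
    have h8 := hC ((y j)⁻¹ * y' j)
    nlinarith
  · exact ((Measurable.of_discrete (f := e)).comp measurable_snd).prodMk measurable_const
  · rw [hk]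
    by_cases hD' : () ∈ D
    · simp [hD']
    · simp [hD']
  · rw [hk]
    by_cases hD' : () ∈ D
    · simp [hD']
    · simp [hD']

theorem base_pf (h : SzBasic_stmt) : Base_stmt := by
  classical
  intro k Γ _ _ _ _ π hπ S hS
  obtain ⟨C, hC⟩ := (h k Γ π S hS).2.2.2.2.2.2 hπ
  have hC' : ∀ g, (sz S π g : ℝ) ≤ |C| * (‖ht π g‖ + 1) := fun g =>
    (hC g).trans (mul_le_mul_of_nonneg_right (le_abs_self C) (by positivity))
  refine ⟨4 * |C| + 1, by linarith [abs_nonneg C], ?_⟩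
  intro a Cs κ₂ 𝒮 _ _ _ _ e he hgen C₀ r r'
  have hgen1 : Subgroup.closure (Set.range e) = ⊤ := by
    refine Subgroup.map_injective hπ.1 ?_
    rw [MonoidHom.map_closure, ← Set.range_comp, Subgroup.map_top_of_surjective π hπ.2]
    exact hgen
  have hgen2 : Subgroup.closure (Set.range fun ς => (e ς)⁻¹) = ⊤ := by
    rw [← hgen1, ← Subgroup.closure_inv (Set.range e)]
    congr 1
    ext g
    simp only [Set.mem_range, Set.mem_inv]
    exact exists_congr fun ς => inv_eq_iff_eq_inv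
  have he2 : ∀ ς, ‖ht π (e ς)⁻¹ - -a‖ ≤ Cs := fun ς => by
    rw [ht_inv, ← norm_neg]
    have : -(-ht π (e ς) - -a) = ht π (e ς) - a := by abel
    rw [this]; exact he ς
  obtain ⟨ref₁, h1⟩ := base_cp h π hπ S hS |C| (abs_nonneg C) hC' a Cs κ₂ C₀ 𝒮 e he hgen1 r
  obtain ⟨ref₂, h2⟩ := base_cp h π hπ S hS |C| (abs_nonneg C) hC' (-a) Cs κ₂ C₀ 𝒮
    (fun ς => (e ς)⁻¹) he2 hgen2 r'
  refine ⟨{ toChain := baseChain 𝒮 e r, B' := Unit, m' := Measure.dirac ()
            step' := fun _ s => ((e s)⁻¹, ()), Θ' := fun _ => (), r' := r'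
            act := fun _ u => u }, ref₁, ref₂, id, fun ς _ => ς, rfl, rfl, h1, h2,
    ⟨fun _ _ => rfl, fun _ _ => by simp, fun _ => rfl, fun _ _ _ => rfl,
      fun _ => MeasurePreserving.id _, ⟨1, Finset.univ.image e, fun u f _ => ?_⟩, measurable_id,
      fun _ => measurable_const, ⟨Fintype.card 𝒮, fun ς => ?_⟩, fun _ _ => rfl, fun _ _ => rfl,
      fun _ _ _ _ _ => by simp, fun _ _ _ _ => rfl⟩⟩
  · simp only [lintegral_dirac, ENNReal.coe_one, one_mul]
    calc ∫⁻ g, f (e g, ()) ∂(ProbabilityTheory.uniformOn Set.univ)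
        ≤ ∫⁻ _g : 𝒮, ∑ γ ∈ Finset.univ.image e, f (γ, ())
          ∂(ProbabilityTheory.uniformOn Set.univ) :=
          lintegral_mono fun g => Finset.single_le_sum (f := fun γ => f (γ, ()))
            (fun _ _ => zero_le) (Finset.mem_image_of_mem e (Finset.mem_univ g))
      _ = _ := by simp
  · change Measure.map (fun _ => ς) (ProbabilityTheory.uniformOn (Set.univ : Set 𝒮)) ≤
      (Fintype.card 𝒮 : ℝ≥0) • ProbabilityTheory.uniformOn (Set.univ : Set 𝒮)
    rw [Measure.map_const, measure_univ, one_smul]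
    refine Measure.le_iff.2 fun D hD => ?_
    by_cases hς : ς ∈ D
    · rw [Measure.dirac_apply_of_mem hς, Measure.coe_nnreal_smul_apply]
      have h3 : (ProbabilityTheory.uniformOn (Set.univ : Set 𝒮)) {ς} ≤
          (ProbabilityTheory.uniformOn (Set.univ : Set 𝒮)) D :=
        measure_mono (Set.singleton_subset_iff.2 hς)
      rw [base_unif] at h3
      have h4 : (Fintype.card 𝒮 : ℝ≥0∞) ≠ 0 := by simp
      calc (1 : ℝ≥0∞) = (Fintype.card 𝒮 : ℝ≥0∞) * (Fintype.card 𝒮 : ℝ≥0∞)⁻¹ :=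
            (ENNReal.mul_inv_cancel h4 (by simp)).symm
        _ ≤ _ := by
            rw [ENNReal.coe_natCast]
            gcongr
    · rw [Measure.dirac_apply' _ hD, Set.indicator_of_notMem hς]
      exact zero_le

end Vale.Agent.P188
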