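import Vale.Agent.P188.BdC

/-! P188: the boundary along one extension. -/

namespace Vale.Agent.P188

open Function Filter Matrix MeasureTheory
open scoped Topology

variable {k : ℕ} {L : Layer k} {Γ Γ' : Type} [Group Γ] [Group Γ'] {π' : Γ' →* Zk k}

theorem Ext.place_spec (E : Ext L Γ Γ' π') : ∃ q : ℝ, 0 ≤ q ∧ ∀ g X, ∃ v : Fin L.m → ℤ,
    (E.place g X).1 = E.ι (Multiplicative.ofAdd v) * g ∧
    ‖(L.B (π' (E.p g))⁻¹).mulVec (X - L.co v)‖ ≤ q := by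
  obtain ⟨q, hq, hQ⟩ := Layer.mulVec_le L.Qi
  refine ⟨q, hq, fun g X => ?_⟩
  set Y := (L.R (π' (E.p g))⁻¹).mulVec (L.Q.mulVec X) with hY
  refine ⟨(L.ρ (π' (E.p g))).mulVec (Multiplicative.toAdd (flo Y)), E.mul_ι g (flo Y), ?_⟩
  have h1 : (L.B (π' (E.p g))⁻¹).mulVec (X - L.co ((L.ρ (π' (E.p g))).mulVec
      (Multiplicative.toAdd (flo Y)))) = L.Qi.mulVec (lift (prj Y)) := by
    have h2 : L.Qi.mulVec Y = (L.B (π' (E.p g))⁻¹).mulVec X := by
      rw [hY, ← L.Q_B, mulVec_mulVec, L.Qi_mul, one_mulVec]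
    rw [mulVec_sub, L.co_rho, mulVec_mulVec, ← L.B_mul, inv_mul_cancel, L.B_one, one_mulVec,
      eq_sub_of_add_eq (lift_prj_add_flo Y), mulVec_sub, h2]
    rfl
  rw [h1]
  exact (hQ _).trans (mul_le_of_le_one_right hq (norm_lift_le _))

theorem Layer.B_bdd (L : Layer k) (T : ℝ) : ∃ c : ℝ, 0 ≤ c ∧ ∀ b x, ‖toR b‖ ≤ T →
    ‖(L.B b).mulVec x‖ ≤ c * ‖x‖ := by
  obtain ⟨c, W, d, hc, hW, hWi, h⟩ := L.coord_le
  refine ⟨c * (1 + |T|) ^ d * Real.exp (W * T), by positivity, fun b x hb => ?_⟩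
  refine (pi_norm_le_iff_of_nonneg (by positivity)).2 fun i => (h b x i).trans ?_
  have h1 : L.wt i (toR b) ≤ W * T := (le_abs_self _).trans (((L.wt i).le_opNorm _).trans
    (mul_le_mul (hWi i) hb (norm_nonneg _) hW))
  have h2 := hb.trans (le_abs_self T)
  gcongr

namespace Ctx2
variable [MeasurableSpace Γ'] {E : Ext L Γ Γ' π'} {S : Finset Γ} {S' : Finset Γ'} {s : Γ' → Γ}
  {c₃ c₄ C' C₁ A' : ℝ} {a : Rk k} {κ₂ : ℝ} {B : Type} [MeasurableSpace B]
  {Θ' : (ℕ → Γ') → B} {ref' : B → ℕ → Γ'} (H : Ctx2 E S S' s c₃ c₄ C' C₁ A' a κ₂ Θ' ref')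
include H

theorem ref_step : ∃ Λ : ℕ, ∀ ξ j,
    sz S (π'.comp E.p) ((E.ref s a ref' ξ j)⁻¹ * E.ref s a ref' ξ (j + 1)) ≤ Λ := by
  obtain ⟨q, hq, hp⟩ := E.place_spec
  obtain ⟨Λ, hΛ⟩ := H.bd.ref_step
  obtain ⟨c, hc, hB⟩ := L.B_bdd Λ
  refine ⟨⌈c₄ * (q + c * q + 1) + Λ + 1⌉₊, fun ξ j => ?_⟩
  refine Nat.cast_le (α := ℝ).1 (le_trans ?_ (Nat.le_ceil _))
  set r := E.ref0 s (ref' ξ.1) with hr
  obtain ⟨v, hv, hv'⟩ := hp (r j) (L.emb a ξ.2)
  obtain ⟨u, hu, hu'⟩ := hp (r (j + 1)) (L.emb a ξ.2)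
  have h0 : (sz S' π' ((ref' ξ.1 j)⁻¹ * ref' ξ.1 (j + 1)) : ℝ) ≤ Λ := by exact_mod_cast hΛ ξ.1 j
  have h1 : (E.ref s a ref' ξ j)⁻¹ * E.ref s a ref' ξ (j + 1) =
      (r j)⁻¹ * E.ι (Multiplicative.ofAdd (u - v)) * r j *
        s ((ref' ξ.1 j)⁻¹ * ref' ξ.1 (j + 1)) := by
    rw [Ext.ref, Ext.ref, hv, hu, sub_eq_neg_add, ofAdd_add, ofAdd_neg, map_mul, map_inv, hr,
      Ext.ref0]
    group
  have h2 : E.loc (r j) (u - v) = (L.B (π' (E.p (r j)))⁻¹).mulVec (L.emb a ξ.2 - L.co v) -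
      (L.B (π' ((ref' ξ.1 j)⁻¹ * ref' ξ.1 (j + 1)))).mulVec
        ((L.B (π' (E.p (r (j + 1))))⁻¹).mulVec (L.emb a ξ.2 - L.co u)) := by
    rw [mulVec_mulVec, ← L.B_mul, hr, E.p_ref0 H.hs, E.p_ref0 H.hs, map_mul, map_inv,
      mul_inv_cancel_right, ← mulVec_sub, Ext.loc, E.p_ref0 H.hs, L.co_sub]
    congr 1; abel
  have h3 : ‖E.loc (r j) (u - v)‖ ≤ Real.exp (q + c * q) := by
    rw [h2]
    refine (norm_sub_le _ _).trans (le_trans ?_ ((le_add_of_nonneg_right zero_le_one).trans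
      (Real.add_one_le_exp _)))
    exact add_le_add hv' ((hB _ _ ((H.ht' _).trans h0)).trans (mul_le_mul_of_nonneg_left hu' hc))
  have h4 := H.e4 _ _ _ (by positivity) h3
  rw [h1]
  refine (H.mul _ _).trans ?_
  linarith [(H.sec _).trans h0]

theorem p_ref (ξ : B × (L.Neg a → ℝ)) : E.p ∘ E.ref s a ref' ξ = ref' ξ.1 := by
  funext j
  simp [Ext.ref, Ext.place, E.p_ι, E.p_ref0 H.hs]

theorem ref_tr : ∃ Λ : ℝ, ∀ ξ, Tr S (π'.comp E.p) a 1 Λ (E.ref s a ref' ξ) := by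
  obtain ⟨Λ, hΛ⟩ := H.ref_step
  obtain ⟨Λ', hΛ'⟩ := H.bd.ref_tr
  refine ⟨max Λ Λ', fun ξ j => ⟨?_, ?_⟩⟩
  · have h1 : (sz S (π'.comp E.p) ((E.ref s a ref' ξ j)⁻¹ * E.ref s a ref' ξ (j + 1)) : ℝ) ≤ Λ := by
      exact_mod_cast hΛ ξ j
    have := le_max_left (Λ : ℝ) Λ'
    have : (0 : ℝ) ≤ j := Nat.cast_nonneg j
    linarith
  · have h1 := (hΛ' ξ.1 j).2
    rw [← H.p_ref ξ] at h1
    exact h1.trans (by linarith [le_max_right (Λ : ℝ) Λ'])

theorem ref_Θ (ξ : B × (L.Neg a → ℝ)) : E.theta s a Θ' ref' (E.ref s a ref' ξ) = ξ := by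
  refine Prod.ext (by rw [Ext.theta, H.p_ref, H.bd.ref_Θ]) ?_
  obtain ⟨q, hq, hp⟩ := E.place_spec
  obtain ⟨Λ, hr⟩ := H.tr_r ξ.1
  choose v hv hv' using fun j => hp (E.ref0 s (ref' ξ.1) j) (L.emb a ξ.2)
  obtain ⟨Λ', h1, h2, h3⟩ := ((hr.ev le_rfl).and ((eventually_ge_atTop (1 + ‖a‖)).and
    (eventually_ge_atTop q))).exists
  have c1 := H.lad1 h2 h1 (fun j => L.emb a ξ.2 - L.co (v j)) fun l => (hv' l).trans (by
    have hκ := H.hκ
    have hC := H.hC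
    have hc := H.c3
    have h4 : 0 ≤ κ₂ * (l + 1) := by positivity
    have h5 : 0 ≤ c₃ * (4 * C' + 7) * (κ₂ * (l + 1) + Λ') := by
      have : 0 ≤ Λ' := hq.trans h3
      positivity
    linarith [Real.add_one_le_exp ((c₃ * (4 * C' + 7) + 1) * (κ₂ * (l + 1) + Λ'))])
  have c2 : Tendsto (fun j => L.pr a (L.co (v j))) atTop (𝓝 ξ.2) := by
    simpa [L.pr_sub, L.pr_emb] using c1.const_sub ξ.2
  have h4 : E.ref s a ref' ξ = fun j => E.ι (Multiplicative.ofAdd (v j)) *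
    E.ref0 s (ref' ξ.1) j := funext hv
  have h5 : E.tau s a Θ' ref' (E.ref0 s (ref' ξ.1)) = 0 := by
    rw [Ext.tau, H.p_r, H.bd.ref_Θ]
    refine Tendsto.limUnder_eq ?_
    simp only [E.disc_self H.s1, L.co_zero]
    exact tendsto_const_nhds
  change E.tau s a Θ' ref' _ = _
  rw [h4, H.transl v _ hr c2, h5, zero_add]

variable [Countable Γ] [MeasurableSpace Γ] [DiscreteMeasurableSpace Γ] [Countable Γ']
  [DiscreteMeasurableSpace Γ']

omit H [MeasurableSpace B] in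
theorem meas_ref0 (j : ℕ) : Measurable fun y : ℕ → Γ' => E.ref0 s y j := by
  induction j with
  | zero => exact (Measurable.of_discrete (f := s)).comp (measurable_pi_apply 0)
  | succ j ih =>
    exact (Measurable.of_discrete (f := fun p : Γ × Γ' × Γ' => p.1 * s (p.2.1⁻¹ * p.2.2))).comp
      (ih.prodMk ((measurable_pi_apply j).prodMk (measurable_pi_apply (j + 1))))

theorem meas_Θ : Measurable (E.theta s a Θ' ref') := by
  have h1 : Measurable fun y : ℕ → Γ => Θ' (E.p ∘ y) := H.bd.meas_Θ.comp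
    (measurable_pi_lambda _ fun j => (Measurable.of_discrete (f := E.p)).comp
      (measurable_pi_apply j))
  have h2 : ∀ j, Measurable fun y : ℕ → Γ =>
      L.pr a (L.co (E.disc s (E.ref0 s (ref' (Θ' (E.p ∘ y))) j) (y j))) := fun j => by
    have h4 : Measurable fun y : ℕ → Γ => (E.ref0 s (ref' (Θ' (E.p ∘ y))) j, y j) :=
      ((meas_ref0 (E := E) (s := s) j).comp (H.bd.meas_ref.comp h1)).prodMk
        (measurable_pi_apply j)
    have h5 : Measurable fun p : Γ × Γ => L.pr a (L.co (E.disc s p.1 p.2)) :=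
      Measurable.of_discrete
    have h6 := h5.comp h4
    simpa only [Function.comp_def] using h6
  have h3 : Measurable (E.tau s a Θ' ref') := by
    unfold Ext.tau
    exact (StronglyMeasurable.limUnder (l := atTop) fun j => (h2 j).stronglyMeasurable).measurable
  exact h1.prodMk h3

theorem meas_ref : Measurable (E.ref s a ref') := by
  refine measurable_pi_lambda _ fun j => ?_
  have h1 : Measurable fun p : Γ × (L.Neg a → ℝ) => (E.place p.1 (L.emb a p.2)).1 := by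
    refine measurable_from_prod_countable_right fun g => ?_
    have h2 : Continuous fun y : L.Neg a → ℝ => L.emb a y := continuous_pi fun i => by
      unfold Layer.emb; split_ifs
      · exact continuous_apply _
      · exact continuous_const
    have h3 : Continuous fun y : L.Neg a → ℝ =>
        (L.R (π' (E.p g))⁻¹).mulVec (L.Q.mulVec (L.emb a y)) :=
      (Matrix.mulVecLin (L.R (π' (E.p g))⁻¹)).continuous_of_finiteDimensional.comp
        ((Matrix.mulVecLin L.Q).continuous_of_finiteDimensional.comp h2)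
    exact (Measurable.of_discrete (f := fun v : Fin L.m → ℤ =>
      g * E.ι (Multiplicative.ofAdd v))).comp (measurable_pi_lambda _ fun i =>
        Int.measurable_floor.comp ((continuous_apply i).comp h3).measurable)
  exact h1.comp (((meas_ref0 j).comp (H.bd.meas_ref.comp measurable_fst)).prodMk measurable_snd)

end Ctx2

theorem bdExt_pf (h1 : SzBasic_stmt) (h2 : SzExt_stmt) : BdExt_stmt := by
  intro k Γ Γ' _ _ _ _ _ _ _ _ π' w T L E S hS s hs C' hC'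
  obtain ⟨c₃, c₄, H⟩ := exists_ctx h1 h2 T E S hS s hs
  obtain ⟨C₁, A', hC₁, hA, hL⟩ := L.ladder (c₃ * (4 * C' + 7) + 1) (by have := H.c3; positivity)
  have hc : 0 ≤ c₄ * (A' + 2) := by have := H.c4; positivity
  refine ⟨c₄ * (A' + 2) + C' + 1 + C₁, by linarith, fun a κ₂ B _ Θ' ref' hκ hw hb => ?_⟩
  have H2 : Ctx2 E S _ s c₃ c₄ C' C₁ A' a κ₂ Θ' ref' := ⟨H, hC', hC₁, hA, hL, hκ, fun i hi => by
    rcases hw i with h | h
    · simp [h] at hi
    · rw [abs_of_neg hi] at h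
      exact (mul_le_mul_of_nonneg_right (by linarith) (by linarith)).trans h, hb⟩
  refine ⟨⟨H2.meas_Θ, H2.meas_ref, H2.ref_tr, H2.ref_step, H2.ref_Θ, fun Λ y h => H2.shift h,
    fun κ Λ y y' a1 a2 a3 a4 a5 a6 a7 j => (H2.close a1 a2 a3 a4 a5 a6 a7 j).trans ?_⟩, H2.tauProp⟩
  have : 0 ≤ κ * j + Λ := by have := a4.nonneg; positivity
  exact mul_le_mul_of_nonneg_right (by linarith) this

end Vale.Agent.P188
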