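import Vale.Agent.P188.LayerB

/-! P188: existence of the chains by induction on towers. -/

namespace Vale.Agent.P188

open Function MeasureTheory Filter
open scoped ENNReal NNReal Topology

open Classical in
/-- The invariant of one chain passes to an extension. -/
theorem chainEx_cp (h3 : Path_stmt) (h4 : UL_stmt) (h5 : TTExt_stmt) {k : ℕ} {Γ Γ' : Type}
    [Group Γ] [Group Γ'] [Countable Γ] [MeasurableSpace Γ] [DiscreteMeasurableSpace Γ]
    [Countable Γ'] [MeasurableSpace Γ'] [DiscreteMeasurableSpace Γ'] {π' : Γ' →* Zk k}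
    {w : List (Wt k)} {L : Layer k} (E : Ext L Γ Γ' π') {S : Finset Γ} {s : Γ' → Γ} {a : Rk k}
    {Cs κ₂ C₀ C C' : ℝ} {c : Chain Γ'} {ref' : c.B → ℕ → Γ'} (post : Bool)
    {lft : c.σ → c.N → Γ} (r : Γ) (h0 : 0 ≤ Cs) (hκ : Cs ≤ κ₂) (hb : L.Big a Cs)
    (hs : ∀ g, E.p (s g) = g) (hsz : ∀ g, sz (S.image E.p) π' (E.p g) ≤ sz S (π'.comp E.p) g)
    (hc : CP (S.image E.p) π' w a Cs κ₂ C₀ C' c ref') (hl : LftProp E c lft)
    (hbd : BdProp S (π'.comp E.p) a C κ₂ (E.theta s a c.Θ ref') (E.ref s a ref'))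
    (ht : TauProp E S s a κ₂ c.Θ ref') :
    ∃ R₀ : ℝ, 0 < R₀ ∧ ∀ R, R₀ ≤ |R| → CP S (π'.comp E.p) (List.ofFn L.wt ++ w) a Cs κ₂ C₀ C
      (E.chain s a c ref' post R lft r) (E.ref s a ref') := by
  have hp := fun R => h3 k Γ Γ' π' L E S s a Cs κ₂ c ref' post R lft r h0 hκ hb hc.st hl ht
  obtain ⟨R₀, hR, hUL⟩ := h4 k Γ Γ' π' w L E S s a Cs κ₂ C₀ C C' c ref' post lft r h0 hκ hb hsz hc
    hl hbd ht fun R => (hp R).2
  refine ⟨R₀, hR, fun R hRR => ⟨hbd, (hp R).1, (hUL R hRR).1, (hUL R hRR).2, ?_⟩⟩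
  exact h5 k Γ Γ' π' L E S s a Cs κ₂ C c ref' post R lft r (abs_pos.1 (hR.trans_le hRR)) h0 hκ hb
    hs hc.st hc.tt hc.bd.meas_Θ hl (hp R).1 hbd ht (hp R).2

/-- The induction on towers. -/
theorem chainEx_ind (hE : SzExt_stmt) (h1 : Big_stmt) (h2 : BdExt_stmt) (h3 : Path_stmt)
    (h4 : UL_stmt) (h5 : TTExt_stmt) (h6 : PairExt_stmt) (h7 : Base_stmt) {k : ℕ} {Γ : Type}
    [Group Γ] {π : Γ →* Zk k} {w : List (Wt k)} (T : Tower Γ π w) :
    ∀ [Countable Γ] [MeasurableSpace Γ] [DiscreteMeasurableSpace Γ] (S : Finset Γ),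
      Subgroup.closure (S : Set Γ) = ⊤ → ∃ C : ℝ, 1 ≤ C ∧ ∀ a : Rk k, Generic w a →
      ∀ Cs κ₂ : ℝ, 1 ≤ Cs → Cs ≤ κ₂ → ∀ᶠ M : ℝ in atTop, IndC S π w (M • a) Cs κ₂ C := by
  induction T with
  | base π h =>
    intro _ _ _ S hS
    obtain ⟨C, hC, H⟩ := h7 k _ π h S hS
    exact ⟨C, hC, fun a _ Cs κ₂ _ _ => Eventually.of_forall fun M => H _ _ _⟩
  | @ext Γ Γ' _ _ π' w T L E ih =>
    intro _ _ _ S hS
    classical
    have : Countable Γ' := E.p_surj.countable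
    let _ : MeasurableSpace Γ' := ⊤
    have : DiscreteMeasurableSpace Γ' := ⟨fun _ => trivial⟩
    have hS' : Subgroup.closure ((S.image E.p : Finset Γ') : Set Γ') = ⊤ := by
      rw [Finset.coe_image, ← MonoidHom.map_closure, hS]
      exact Subgroup.map_top_of_surjective _ E.p_surj
    obtain ⟨C', hC', ih⟩ := ih _ hS'
    obtain ⟨hsz, ⟨s, s1, s2, s3⟩, -⟩ := hE k Γ Γ' π' w T L E S hS
    obtain ⟨C, hC, hbd⟩ := h2 k Γ Γ' π' w T L E S hS s ⟨s1, s2, s3⟩ C' hC'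
    refine ⟨C, hC'.trans hC, fun a ha Cs κ₂ hCs hκ => ?_⟩
    have ha1 : ∀ i, L.wt i ≠ 0 → L.wt i a ≠ 0 := fun i =>
      ha _ (List.mem_append_left _ ((List.mem_ofFn' _ _).2 ⟨i, rfl⟩))
    have ha2 : Generic w a := fun χ hχ => ha χ (List.mem_append_right _ hχ)
    have hw : ∀ᶠ M : ℝ in atTop, ∀ i, L.wt i = 0 ∨ C * κ₂ ≤ |L.wt i (M • a)| := by
      refine eventually_all.2 fun i => ?_
      by_cases hi : L.wt i = 0
      · exact Eventually.of_forall fun _ => Or.inl hi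
      · have hp := abs_pos.2 (ha1 i hi)
        filter_upwards [eventually_ge_atTop (C * κ₂ / |L.wt i a|)] with M hM
        right
        rw [map_smul, smul_eq_mul, abs_mul]
        exact ((div_le_iff₀ hp).1 hM).trans (mul_le_mul_of_nonneg_right (le_abs_self M) hp.le)
    filter_upwards [ih a ha2 Cs κ₂ hCs hκ, h1 k L a Cs ha1,
      h1 k L (-a) Cs (fun i hi => by simpa using ha1 i hi), hw] with M hM b1 b2 b3
    rw [smul_neg] at b2
    intro 𝒮 _ _ _ _ e he hcl C₀ r r'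
    obtain ⟨P, ref₁, ref₂, lab, rel, -, -, c1, c2, hP⟩ :=
      hM 𝒮 (E.p ∘ e) he hcl C₀ (E.p r) (E.p r')
    obtain ⟨l1, l2, hP'⟩ := h6 k Γ Γ' π' L E s s2 (M • a) (-(M • a)) Cs 𝒮 e P lab rel hP c1.st c2.st
    have d1 := hbd (M • a) κ₂ _ _ ref₁ (hCs.trans hκ) b3 c1.bd
    have d2 := hbd (-(M • a)) κ₂ _ _ ref₂ (hCs.trans hκ) (by simpa only [map_neg, abs_neg] using b3)
      c2.bd
    have h0 : 0 ≤ Cs := zero_le_one.trans hCs
    obtain ⟨R₁, hR₁, e1⟩ := chainEx_cp h3 h4 h5 E true r h0 hκ b1 s2 hsz c1 l1 d1.1 d1.2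
    obtain ⟨R₂, hR₂, e2⟩ := chainEx_cp h3 h4 h5 E false r' h0 hκ b2 s2 hsz c2 l2 d2.1 d2.2
    have hR : 0 < max R₁ R₂ := lt_max_of_lt_left hR₁
    exact ⟨E.pair s (M • a) e P lab ref₁ ref₂ (max R₁ R₂) r r', _, _, _, _, rfl, rfl,
      e1 _ ((le_max_left _ _).trans (le_abs_self _)),
      e2 _ (by rw [abs_neg]; exact (le_max_right _ _).trans (le_abs_self _)),
      hP' ref₁ ref₂ _ r r' hR.ne'⟩

/-- From the inductive invariant to the interface. -/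
theorem chainEx_prop {k : ℕ} {Γ : Type} [Group Γ] [MeasurableSpace Γ] {S : Finset Γ}
    {π : Γ →* Zk k} {w : List (Wt k)} {a : Rk k} {Cs κ₁ κ₂ C₀ C : ℝ} {c : Chain Γ}
    {ref : c.B → ℕ → Γ} (hm : ∀ g h, sz S π (g * h) ≤ sz S π g + sz S π h + 1)
    (h : CP S π w a Cs κ₂ C₀ C c ref) (hC : 1 ≤ C) (hCs : 1 ≤ Cs) (h1 : Cs + 1 ≤ κ₁)
    (h2 : (C + 1) * κ₁ + 1 ≤ κ₂) (hr : ‖ht π c.r - a‖ ≤ Cs) (hr' : (sz S π c.r : ℝ) ≤ C₀) :
    ChainProp S π w a Cs κ₁ κ₂ C₀ c := by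
  have h3 : κ₁ + 1 ≤ κ₂ := by nlinarith
  refine ⟨hCs, h1, h3, h.st.meas_step, h.bd.meas_Θ, h.st.fin, h.st.dir, hr, hr', h.st.mp,
    h.bd.shift, fun Λ y y' hy hy' he => ?_, h.ub, h.lb, fun E hE hs => ?_⟩
  · set Λ₂ : ℝ := max Λ (max (1 + ‖a‖) (sz S π ((y 0)⁻¹ * y' 0))) with hΛ
    have := h.bd.close κ₁ Λ₂ y y' (by linarith) (by linarith)
      ((le_max_left _ _).trans (le_max_right _ _)) (hy.mono le_rfl (le_max_left _ _))
      (hy'.mono le_rfl (le_max_left _ _)) ((le_max_right _ _).trans (le_max_right _ _)) he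
    refine ⟨C * Λ₂ + Λ + 1, fun j => ?_⟩
    have a1 : (sz S π ((y j)⁻¹ * y' (j + 1)) : ℝ) ≤
        sz S π ((y j)⁻¹ * y' j) + sz S π ((y' j)⁻¹ * y' (j + 1)) + 1 := by
      have := hm ((y j)⁻¹ * y' j) ((y' j)⁻¹ * y' (j + 1))
      rw [mul_assoc, mul_inv_cancel_left] at this
      exact_mod_cast this
    have a2 := mul_le_mul_of_nonneg_right (le_sub_iff_add_le.2 h2) (Nat.cast_nonneg (α := ℝ) j)
    linarith [this j, (hy' j).1]
  · obtain ⟨E', hE', H⟩ := h.tt Unit (Measure.dirac ()) (Prod.fst ⁻¹' E) (measurable_fst hE)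
      fun x ω _ => hs x ω
    refine ⟨(fun ξ => (ξ, ())) ⁻¹' E', measurable_prodMk_right hE', fun γ => ?_⟩
    filter_upwards [Measure.ae_ae_of_ae_prod (H γ)] with p hp
    obtain ⟨x, hx⟩ := hp.exists
    exact hx

theorem chainEx_pf (hS : SzBasic_stmt) (hE : SzExt_stmt) (hB : TowerBasic_stmt) (h1 : Big_stmt)
    (h2 : BdExt_stmt) (h3 : Path_stmt) (h4 : UL_stmt) (h5 : TTExt_stmt) (h6 : PairExt_stmt)
    (h7 : Base_stmt) : ChainEx_stmt := by
  intro k Γ _ _ _ _ π w T S hcl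
  classical
  obtain ⟨C, hC, H⟩ := chainEx_ind hE h1 h2 h3 h4 h5 h6 h7 T S hcl
  have hπ := (hB k Γ π w T).2.1
  have hm := (hS k Γ π S hcl).2.2.1
  have hsum : 0 ≤ ∑ s ∈ S, ‖ht π s‖ := Finset.sum_nonneg fun _ _ => norm_nonneg _
  refine ⟨1 + ∑ s ∈ S, ‖ht π s‖, by linarith, fun κ₁ κ₂' hκ a ha =>
    ⟨max κ₂' ((C + 1) * κ₁ + 1), le_max_left _ _, ?_⟩⟩
  have hκ₂ : (C + 1) * κ₁ + 1 ≤ max κ₂' ((C + 1) * κ₁ + 1) := le_max_right _ _
  filter_upwards [H a ha (1 + ∑ s ∈ S, ‖ht π s‖) (max κ₂' ((C + 1) * κ₁ + 1)) (by linarith)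
    (le_trans (by nlinarith) hκ₂)] with M hM
  obtain ⟨g0, hg0⟩ := hπ (flo (M • a))
  have hd : ‖ht π g0 - M • a‖ ≤ 1 := by
    refine (pi_norm_le_iff_of_nonneg zero_le_one).2 fun i => ?_
    have a1 := Int.floor_le ((M • a) i)
    have a2 := Int.lt_floor_add_one ((M • a) i)
    rw [ht, hg0, Real.norm_eq_abs, abs_le]
    simp only [toR, flo, toAdd_ofAdd, Pi.sub_apply]
    constructor <;> linarith
  let _ : MeasurableSpace (Option S) := ⊤
  have : DiscreteMeasurableSpace (Option S) := ⟨fun _ => trivial⟩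
  obtain ⟨P, ref₁, ref₂, lab, rel, r1, r2, c1, c2, hP⟩ := hM (Option S)
    (fun o => o.elim g0 fun s => s.1 * g0) (fun o => by
      cases o with
      | none => exact hd.trans (by linarith)
      | some s =>
        have := Finset.single_le_sum (f := fun s => ‖ht π s‖) (fun _ _ => norm_nonneg _) s.2
        simp only [Option.elim_some]
        rw [ht_mul, add_sub_assoc]
        linarith [norm_add_le (ht π s.1) (ht π g0 - M • a)]) (by
      rw [eq_top_iff, ← Subgroup.map_top_of_surjective π hπ, ← hcl, MonoidHom.map_closure,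
        Subgroup.closure_le]
      rintro _ ⟨s, hs, rfl⟩
      have := Subgroup.mul_mem _
        (Subgroup.subset_closure (k := Set.range fun o : Option S =>
          π (o.elim g0 fun s => s.1 * g0)) ⟨some ⟨s, hs⟩, rfl⟩)
        (Subgroup.inv_mem _ (Subgroup.subset_closure ⟨none, rfl⟩))
      simpa using this) (max (sz S π g0) (sz S π g0⁻¹)) g0 g0⁻¹
  refine ⟨_, P, ⟨hP.inv₁, hP.inv₂, hP.act_one, hP.act_mul, hP.act_mp, hP.dom, fun s hs => ?_⟩,
    chainEx_prop hm c1 hC (by linarith) hκ hκ₂ (by rw [r1]; linarith)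
      (by rw [r1]; exact le_max_left _ _),
    chainEx_prop hm c2 hC (by linarith) hκ hκ₂ ?_ ?_⟩
  · obtain ⟨Cr, hCr⟩ := hP.rel_le
    obtain ⟨F, hF⟩ := c1.st.fin
    have e2 : ∀ u g, (P.step u (rel (some ⟨s, hs⟩) g)).2 =
        (P.step (P.act (π s) u) (rel none g)).2 := fun u g => by
      simpa using hP.e₂ none (some ⟨s, hs⟩) u g
    by_cases hs1 : π s = 1
    · refine ⟨_, _, Cr, {1}, hP.rel_meas _, hP.rel_meas _, hCr _, hCr _, by simp, fun _ => rfl,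
        fun u g => ⟨e2 u g, 1, by simp, ?_⟩⟩
      have := hP.e₁ (some ⟨s, hs⟩) none (by simp [hs1]) u g
      simp only [Option.elim_some, Option.elim_none, mul_inv_rev, mul_assoc, mul_right_inj] at this
      rw [hs1, hP.act_one, ← this]
      group
    · refine ⟨_, _, Cr, ((F ×ˢ F).image fun p => s⁻¹ * p.1 * p.2⁻¹).filter fun n => π n = 1,
        hP.rel_meas _, hP.rel_meas _, hCr _, hCr _, fun n hn => (Finset.mem_filter.1 hn).2,
        fun h => absurd h hs1, fun u g => ⟨e2 u g, _, Finset.mem_filter.2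
          ⟨Finset.mem_image.2 ⟨(_, _), Finset.mem_product.2 ⟨hF u (rel (some ⟨s, hs⟩) g),
            hF (P.act (π s) u) (rel none g)⟩, rfl⟩, ?_⟩, by group⟩⟩
      simp only [map_mul, map_inv, hP.ht_eq, hP.lab_rel, Option.elim_some, Option.elim_none]
      group
  · change ‖ht π P.r' - _‖ ≤ _
    rw [r2, ht_inv, ← neg_sub', norm_neg]
    linarith
  · change (sz S π P.r' : ℝ) ≤ _
    rw [r2]
    exact le_max_right _ _

end Vale.Agent.P188
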