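import Vale.Agent.P188.Iid

/-! P188: construction of the coboundary. -/

namespace Vale.Agent.P188

open MeasureTheory Filter Topology ProbabilityTheory
open scoped RealInnerProductSpace

namespace CobX

theorem int_comp {α β E : Type} [MeasurableSpace α] [MeasurableSpace β] [NormedAddCommGroup E]
    [NormedSpace ℝ E] {μ : Measure α} {ν : Measure β} {f : α → β} (h : MeasurePreserving f μ ν)
    {g : β → E} (hg : StronglyMeasurable g) : ∫ x, g (f x) ∂μ = ∫ y, g y ∂ν := by
  rw [← h.map_eq, integral_map h.aemeasurable hg.aestronglyMeasurable]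

theorem int_bdd {α E : Type} [MeasurableSpace α] [NormedAddCommGroup E] {μ : Measure α}
    [IsFiniteMeasure μ] {g : α → E} (hg : StronglyMeasurable g) {C : ℝ}
    (h : ∀ᵐ x ∂μ, ‖g x‖ ≤ C) : Integrable g μ :=
  (integrable_const C).mono' hg.aestronglyMeasurable h

/-- The truncated absolute value. -/
noncomputable def tr (t : ℝ) : ℝ := min |t| 1

theorem tr_norm (t : ℝ) : ‖tr t‖ ≤ 1 := by
  rw [tr, Real.norm_eq_abs, abs_of_nonneg (le_min (abs_nonneg t) zero_le_one)]
  exact min_le_right _ _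

theorem tr_cont : Continuous tr := continuous_abs.min continuous_const

theorem le_tr {x a b c : ℝ} (h1 : x ≤ 1) (h2 : x ≤ a - b - c) : x ≤ tr a + tr b + tr c := by
  have := le_abs_self a
  have := neg_abs_le b
  have := neg_abs_le c
  have := abs_nonneg a
  have := abs_nonneg b
  have := abs_nonneg c
  unfold tr
  rcases min_choice |a| 1 with e1 | e1 <;> rcases min_choice |b| 1 with e2 | e2 <;>
    rcases min_choice |c| 1 with e3 | e3 <;> rw [e1, e2, e3] <;> linarith

theorem tend_tr {Ω : Type} [MeasurableSpace Ω] {m : Measure Ω} [IsFiniteMeasure m]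
    {f : ℕ → Ω → ℝ} (hf : ∀ n, Measurable (f n))
    (h : ∀ᵐ p ∂m, Tendsto (fun n => f n p) atTop (𝓝 0)) :
    Tendsto (fun n => ∫ p, tr (f n p) ∂m) atTop (𝓝 0) := by
  have := tendsto_integral_filter_of_norm_le_const (μ := m) (l := atTop)
    (F := fun n p => tr (f n p)) (f := fun _ => tr 0)
    (Eventually.of_forall fun n => (tr_cont.measurable.comp (hf n)).aestronglyMeasurable)
    ⟨1, Eventually.of_forall fun n => Eventually.of_forall fun p => tr_norm _⟩
    (h.mono fun p hp => (tr_cont.tendsto 0).comp hp)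
  simpa [tr] using this

/-- A supersolution of the cohomological equation is a solution. -/
theorem tel {Ω : Type} [MeasurableSpace Ω] {m : Measure Ω} [IsFiniteMeasure m] {θ : Ω → Ω}
    (hθ : MeasurePreserving θ m m) {B u : Ω → ℝ} (hB : Measurable B) (hu : Measurable u)
    (h1 : ∀ᵐ p ∂m, u p + B (θ p) ≤ B p)
    (h2 : ∀ᵐ p ∂m, Tendsto (fun n : ℕ => (∑ i ∈ Finset.range n, u (θ^[i] p)) / n) atTop (𝓝 0)) :
    ∀ᵐ p ∂m, u p + B (θ p) = B p := by
  set F : Ω → ℝ := fun p => min (B p - u p - B (θ p)) 1 with hF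
  have mF : Measurable F := ((hB.sub hu).sub (hB.comp hθ.measurable)).min measurable_const
  have F0 : ∀ᵐ p ∂m, 0 ≤ F p := h1.mono fun p hp => le_min (by linarith) zero_le_one
  have iF : Integrable F m := int_bdd mF.stronglyMeasurable (C := 1) (F0.mono fun p hp => by
    rw [Real.norm_eq_abs, abs_of_nonneg hp]; exact min_le_right _ _)
  have mS : ∀ n : ℕ, Measurable fun p => (∑ i ∈ Finset.range n, u (θ^[i] p)) / n := fun n =>
    (Finset.measurable_sum _ fun i _ => hu.comp (hθ.iterate i).measurable).div_const _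
  have mB : ∀ n : ℕ, Measurable fun p => B p / n := fun n => hB.div_const _
  have t1 := tend_tr (m := m) mB (Eventually.of_forall fun p =>
    tendsto_const_div_atTop_nhds_zero_nat (B p))
  have t2 := tend_tr mS h2
  have key : ∀ n : ℕ, 1 ≤ n → ∫ p, F p ∂m ≤ ∫ p, tr (B p / n) ∂m + ∫ p, tr (B p / n) ∂m +
      ∫ p, tr ((∑ i ∈ Finset.range n, u (θ^[i] p)) / n) ∂m := by
    intro n hn
    have hn' : (0 : ℝ) < n := by exact_mod_cast hn
    have i1 : ∀ i, Integrable (fun p => F (θ^[i] p)) m := fun i =>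
      (hθ.iterate i).integrable_comp_of_integrable iF
    have e1 : ∫ p, (∑ i ∈ Finset.range n, F (θ^[i] p)) / n ∂m = ∫ p, F p ∂m := by
      rw [integral_div, integral_finsetSum _ fun i _ => i1 i,
        Finset.sum_congr rfl fun i _ => int_comp (hθ.iterate i) mF.stronglyMeasurable,
        Finset.sum_const, Finset.card_range, nsmul_eq_mul, mul_div_cancel_left₀ _ hn'.ne']
    have m1 := (tr_cont.measurable.comp (mB n)).stronglyMeasurable
    have m3 := (tr_cont.measurable.comp (mS n)).stronglyMeasurable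
    have j1 : Integrable (fun p => tr (B p / n)) m :=
      int_bdd m1 (Eventually.of_forall fun p => tr_norm _)
    have j2 : Integrable (fun p => tr (B (θ^[n] p) / n)) m :=
      (hθ.iterate n).integrable_comp_of_integrable j1
    have j3 : Integrable (fun p => tr ((∑ i ∈ Finset.range n, u (θ^[i] p)) / n)) m :=
      int_bdd m3 (Eventually.of_forall fun p => tr_norm _)
    have e2 : ∫ p, tr (B (θ^[n] p) / n) ∂m = ∫ p, tr (B p / n) ∂m := int_comp (hθ.iterate n) m1
    have e3 := integral_add (j1.add j2) j3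
    have e4 := integral_add j1 j2
    simp only [Pi.add_apply] at e3
    rw [e4, e2] at e3
    rw [← e1, ← e3]
    refine integral_mono ((integrable_finsetSum _ fun i _ => i1 i).div_const _)
      ((j1.add j2).add j3) fun p => le_tr ?_ ?_
    · rw [div_le_one hn']
      calc _ ≤ ∑ _i ∈ Finset.range n, (1 : ℝ) := Finset.sum_le_sum fun i _ => min_le_right _ _
        _ = n := by simp
    · rw [← sub_div, ← sub_div]
      refine div_le_div_of_nonneg_right ?_ hn'.le
      have e5 := Finset.sum_range_sub' (fun i => B (θ^[i] p)) n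
      rw [Function.iterate_zero_apply] at e5
      rw [← e5, ← Finset.sum_sub_distrib]
      refine Finset.sum_le_sum fun i _ => (min_le_left _ _).trans (le_of_eq ?_)
      rw [Function.iterate_succ_apply']
      ring
  have h3 : ∫ p, F p ∂m ≤ 0 := by
    have := ge_of_tendsto ((t1.add t1).add t2) ((eventually_ge_atTop 1).mono key)
    simpa using this
  have h4 := (integral_eq_zero_iff_of_nonneg_ae F0 iF).1 (le_antisymm h3 (integral_nonneg_of_ae F0))
  filter_upwards [h4] with p hp
  rcases min_choice (B p - u p - B (θ p)) 1 with e | e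
  · have : B p - u p - B (θ p) = 0 := e.symm.trans hp
    linarith
  · exact absurd (e.symm.trans hp) one_ne_zero

/-- Equality in the contraction inequality. -/
theorem l2 {X Z : Type} [MeasurableSpace X] [MeasurableSpace Z] {m : Measure X} {P : Measure Z}
    [IsFiniteMeasure m] [IsProbabilityMeasure P] {φ : X → ℂ} {ψ : X × Z → ℂ}
    (hφ : StronglyMeasurable φ) (hψ : StronglyMeasurable ψ) (bφ : ∀ x, ‖φ x‖ ≤ 1)
    (bψ : ∀ p, ‖ψ p‖ ≤ 1) (hn : ∫ p, ‖ψ p‖ ^ 2 ∂(m.prod P) = ∫ x, ‖φ x‖ ^ 2 ∂m)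
    (hh : ∀ᵐ x ∂m, φ x = ∫ g, ψ (x, g) ∂P) : ∀ᵐ p ∂(m.prod P), ψ p = φ p.1 := by
  have hφ' : StronglyMeasurable fun p : X × Z => φ p.1 := hφ.comp_measurable measurable_fst
  have sq1 : ∀ z : ℂ, ‖z‖ ≤ 1 → ‖‖z‖ ^ 2‖ ≤ 1 := fun z hz => by
    rw [Real.norm_eq_abs, abs_of_nonneg (by positivity)]
    exact pow_le_one₀ (norm_nonneg _) hz
  have i1 : Integrable (fun p : X × Z => ‖φ p.1‖ ^ 2) (m.prod P) :=
    int_bdd (hφ'.norm.pow 2) (Eventually.of_forall fun p => sq1 _ (bφ _))
  have i2 : Integrable (fun p : X × Z => ‖ψ p‖ ^ 2) (m.prod P) :=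
    int_bdd (hψ.norm.pow 2) (Eventually.of_forall fun p => sq1 _ (bψ _))
  have i3 : Integrable (fun p : X × Z => ⟪φ p.1, ψ p⟫) (m.prod P) :=
    int_bdd (hφ'.inner hψ) (C := 1) (Eventually.of_forall fun p =>
      (norm_inner_le_norm _ _).trans (mul_le_one₀ (bφ _) (norm_nonneg _) (bψ _)))
  have e1 : ∫ p, ‖φ p.1‖ ^ 2 ∂(m.prod P) = ∫ x, ‖φ x‖ ^ 2 ∂m :=
    int_comp (measurePreserving_fst (μ := m) (ν := P)) (hφ.norm.pow 2)
  have e3 : ∫ p, ⟪φ p.1, ψ p⟫ ∂(m.prod P) = ∫ x, ‖φ x‖ ^ 2 ∂m := by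
    rw [integral_prod _ i3]
    refine integral_congr_ae (hh.mono fun x hx => ?_)
    have i4 : Integrable (fun g => ψ (x, g)) P :=
      int_bdd (hψ.comp_measurable measurable_prodMk_left) (Eventually.of_forall fun g => bψ _)
    dsimp only
    rw [integral_inner i4, ← hx, real_inner_self_eq_norm_sq]
  have e4 : (fun p : X × Z => ‖φ p.1 - ψ p‖ ^ 2) =
      fun p => ‖φ p.1‖ ^ 2 - 2 * ⟪φ p.1, ψ p⟫ + ‖ψ p‖ ^ 2 := funext fun p => norm_sub_sq_real _ _
  have i5 := i1.sub (i3.const_mul 2)
  have e5 : ∫ p, ‖φ p.1 - ψ p‖ ^ 2 ∂(m.prod P) = 0 := by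
    have e6 := integral_add i5 i2
    simp only [Pi.sub_apply] at e6
    rw [e4, e6, integral_sub i1 (i3.const_mul 2), integral_const_mul, e1, e3, hn]
    ring
  have h4 := (integral_eq_zero_iff_of_nonneg (fun p => by positivity)
    (by rw [e4]; exact i5.add i2)).1 e5
  filter_upwards [h4] with p hp
  exact (sub_eq_zero.1 (norm_eq_zero.1 (pow_eq_zero_iff two_ne_zero |>.1 hp))).symm

/-- The lower median. -/
noncomputable def med (ν : Measure ℝ) : ℝ := sInf {x | 1 / 2 ≤ ν.real (Set.Iic x)}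

theorem med_aux (ν : Measure ℝ) [IsProbabilityMeasure ν] :
    {x | 1 / 2 ≤ ν.real (Set.Iic x)}.Nonempty ∧ BddBelow {x | 1 / 2 ≤ ν.real (Set.Iic x)} := by
  simp only [← cdf_eq_real]
  constructor
  · exact ((tendsto_cdf_atTop ν).eventually (lt_mem_nhds (show (1 : ℝ) / 2 < 1 by norm_num))).exists.imp
      fun _ h => h.le
  · obtain ⟨a, ha⟩ := eventually_atBot.1
      ((tendsto_cdf_atBot ν).eventually (gt_mem_nhds (show (0 : ℝ) < 1 / 2 by norm_num)))
    exact ⟨a, fun x hx => le_of_not_ge fun h => absurd (ha x h) (not_lt.2 hx)⟩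

theorem med_add (ν : Measure ℝ) [IsProbabilityMeasure ν] (u : ℝ) :
    med (ν.map (· + u)) = med ν + u := by
  have h1 : {x | 1 / 2 ≤ (ν.map (· + u)).real (Set.Iic x)} =
      OrderIso.addRight u '' {x | 1 / 2 ≤ ν.real (Set.Iic x)} := by
    ext x
    rw [Set.mem_ofPred_eq, map_measureReal_apply (measurable_add_const u) measurableSet_Iic,
      Set.preimage_add_const_Iic]
    constructor
    · intro h
      exact ⟨x - u, h, sub_add_cancel x u⟩
    · rintro ⟨y, h, rfl⟩
      simpa using h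
  rw [med, h1, ← OrderIso.map_csInf' _ (med_aux ν).1 (med_aux ν).2]
  rfl

theorem med_lt (ν : Measure ℝ) [IsProbabilityMeasure ν] (c : ℝ) :
    med ν < c ↔ ∃ q : ℚ, (q : ℝ) < c ∧ 1 / 2 ≤ ν.real (Set.Iic (q : ℝ)) := by
  rw [med, csInf_lt_iff (med_aux ν).2 (med_aux ν).1]
  constructor
  · rintro ⟨x, hx, hc⟩
    obtain ⟨q, h1, h2⟩ := exists_rat_btwn hc
    exact ⟨q, h2, le_trans hx (measureReal_mono (Set.Iic_subset_Iic.2 h1.le))⟩
  · rintro ⟨q, h1, h2⟩
    exact ⟨q, h2, h1⟩

theorem measurable_med {Y Ω : Type} [MeasurableSpace Y] [MeasurableSpace Ω] (Q : Measure Ω)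
    [IsProbabilityMeasure Q] {A : Y × Ω → ℝ} (hA : Measurable A) :
    Measurable fun y => med (Q.map fun ω => A (y, ω)) := by
  refine measurable_of_Iio fun c => ?_
  have h1 : (fun y => med (Q.map fun ω => A (y, ω))) ⁻¹' Set.Iio c =
      ⋃ q : ℚ, ⋃ _ : (q : ℝ) < c,
        {y | 1 / 2 ≤ (Q (Prod.mk y ⁻¹' (A ⁻¹' Set.Iic (q : ℝ)))).toReal} := by
    ext y
    have hm : Measurable fun ω => A (y, ω) := hA.comp measurable_prodMk_left
    have := Measure.isProbabilityMeasure_map (μ := Q) hm.aemeasurable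
    simp only [Set.mem_preimage, Set.mem_Iio, med_lt, Set.mem_iUnion, Set.mem_ofPred_eq,
      map_measureReal_apply hm measurableSet_Iic, exists_prop]
    rfl
  rw [h1]
  exact MeasurableSet.iUnion fun q => MeasurableSet.iUnion fun _ => measurableSet_le
    measurable_const (measurable_measure_prodMk_left (hA measurableSet_Iic)).ennreal_toReal

/-- From a path functional to a function of the state. -/
theorem state {Y N : Type} [MeasurableSpace Y] [MeasurableSpace N] {ν : Measure Y}
    [IsFiniteMeasure ν] {P : Measure N} [IsProbabilityMeasure P] {τ : Y × N → Y}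
    (hτ : MeasurePreserving τ (ν.prod P) ν) {U : Y × N → ℝ} (hU : Measurable U)
    {A : Y × (ℕ → N) → ℝ} (hA : Measurable A)
    (h : ∀ᵐ y ∂ν, ∀ᵐ q ∂(P.prod (iid P)), A (y, consN q.1 q.2) = A (τ (y, q.1), q.2) - U (y, q.1)) :
    ∃ b : Y → ℝ, Measurable b ∧ ∀ᵐ p ∂(ν.prod P), b (τ p) - b p.1 = U p := by
  refine ⟨_, measurable_med (iid P) hA, ?_⟩
  have hm : ∀ y, Measurable fun ω => A (y, ω) := fun y => hA.comp measurable_prodMk_left
  have hp : ∀ y, IsProbabilityMeasure ((iid P).map fun ω => A (y, ω)) := fun y =>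
    Measure.isProbabilityMeasure_map (hm y).aemeasurable
  have hc : ∀ (t : ℝ) y, charFun ((iid P).map fun ω => A (y, ω)) t =
      ∫ ω, Complex.exp (t * A (y, ω) * Complex.I) ∂(iid P) := fun t y => by
    rw [charFun_apply_real, integral_map (hm y).aemeasurable (by fun_prop)]
  have h1 : ∀ t : ℝ, ∀ᵐ p ∂(ν.prod P), Complex.exp (-(t * U p * Complex.I)) *
      charFun ((iid P).map fun ω => A (τ p, ω)) t =
      charFun ((iid P).map fun ω => A (p.1, ω)) t := by
    intro t
    have m1 : StronglyMeasurable fun y => charFun ((iid P).map fun ω => A (y, ω)) t := by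
      simp only [hc]
      exact StronglyMeasurable.integral_prod_right' (ν := iid P)
        (f := fun p => Complex.exp (t * A p * Complex.I))
        (Measurable.stronglyMeasurable (by fun_prop))
    have n1 : ∀ p, ‖Complex.exp (-(t * U p * Complex.I))‖ = 1 := fun p => by
      rw [Complex.norm_exp]; simp
    refine l2 (φ := fun y => charFun ((iid P).map fun ω => A (y, ω)) t) m1
      ((Measurable.stronglyMeasurable (by fun_prop)).mul (m1.comp_measurable hτ.measurable))
      (fun y => norm_charFun_le_one t)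
      (fun p => by rw [norm_mul, n1, one_mul]; exact norm_charFun_le_one t) ?_ ?_
    · simp only [norm_mul, n1, one_mul]
      exact int_comp hτ (m1.norm.pow 2)
    · filter_upwards [h] with y hy
      have m2 : StronglyMeasurable fun ω => Complex.exp (t * A (y, ω) * Complex.I) :=
        Measurable.stronglyMeasurable (by have := hm y; fun_prop)
      have i2 : Integrable (fun q : N × (ℕ → N) =>
          Complex.exp (t * A (y, consN q.1 q.2) * Complex.I)) (P.prod (iid P)) :=
        int_bdd (m2.comp_measurable measurable_consN) (C := 1)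
          (Eventually.of_forall fun q => by rw [Complex.norm_exp]; simp)
      rw [hc, ← int_comp (mp_consN P) m2, integral_prod _ i2]
      refine integral_congr_ae ((Measure.ae_ae_of_ae_prod hy).mono fun g hg => ?_)
      dsimp only
      rw [hc, ← integral_const_mul]
      refine integral_congr_ae (hg.mono fun ω hω => ?_)
      dsimp only at hω ⊢
      rw [hω, ← Complex.exp_add]
      congr 1
      push_cast
      ring
  filter_upwards [ae_all_iff.2 fun q : ℚ => h1 q] with p hq
  have := hp p.1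
  have := hp (τ p)
  have h2 : ((iid P).map fun ω => A (τ p, ω)) =
      ((iid P).map fun ω => A (p.1, ω)).map (· + U p) := by
    refine Measure.ext_of_charFun (Continuous.ext_on Rat.denseRange_cast continuous_charFun
      continuous_charFun ?_)
    rintro _ ⟨q, rfl⟩
    rw [charFun_map_add_const, ← hq q, mul_right_comm, ← Complex.exp_add]
    simp [mul_comm]
  rw [h2, med_add]
  ring

theorem iter {Y N : Type} (T : N → Y → Y) (p : Y × (ℕ → N)) (i : ℕ) :
    (fun p : Y × (ℕ → N) => (T (p.2 0) p.1, fun j => p.2 (j + 1)))^[i] p =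
      (orb T p.1 p.2 i, fun j => p.2 (j + i)) := by
  induction i with
  | zero => rfl
  | succ i ih =>
    rw [Function.iterate_succ_apply', ih]
    simp only [zero_add, add_assoc, add_comm 1 i]
    rfl

theorem sumU_succ' {Y N : Type} (T : N → Y → Y) (U : Y → N → ℝ) (y : Y) (ω : ℕ → N) (n : ℕ) :
    sumU T U y ω (n + 1) = U y (ω 0) + sumU T U (T (ω 0) y) (fun j => ω (j + 1)) n := by
  unfold sumU
  rw [Finset.sum_range_succ', add_comm]
  simp only [orb_succ']
  rfl

theorem core {Y N : Type} [MeasurableSpace Y] [MeasurableSpace N] {ν : Measure Y}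
    [IsFiniteMeasure ν] {P : Measure N} [IsProbabilityMeasure P] {T : N → Y → Y}
    (hτ : MeasurePreserving (fun p : Y × N => T p.2 p.1) (ν.prod P) ν)
    (ho : ∀ n, Measurable fun p : Y × (ℕ → N) => orb T p.1 p.2 n) {U : Y → N → ℝ}
    (hU : Measurable fun p : Y × N => U p.1 p.2) {G : Set Y} (hG : MeasurableSet G)
    (h1 : ∀ᵐ p ∂(ν.prod (iid P)), ∃ n, orb T p.1 p.2 n ∈ G)
    (h2 : ∀ᵐ p ∂(ν.prod (iid P)), ∃ h : ℝ, ∀ n, orb T p.1 p.2 n ∈ G → sumU T U p.1 p.2 n ≤ h)
    (h3 : ∀ᵐ p ∂(ν.prod (iid P)), Tendsto (fun n : ℕ => sumU T U p.1 p.2 n / n) atTop (𝓝 0)) :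
    ∃ b : Y → ℝ, Measurable b ∧ ∀ᵐ p ∂(ν.prod P), b (T p.2 p.1) - b p.1 = U p.1 p.2 := by
  classical
  have hθ : MeasurePreserving (fun p : Y × (ℕ → N) => (T (p.2 0) p.1, fun j => p.2 (j + 1)))
      (ν.prod (iid P)) (ν.prod (iid P)) :=
    ((hτ.prod (MeasurePreserving.id (iid P))).comp
      ((measurePreserving_prodAssoc ν P (iid P)).symm _)).comp
      ((MeasurePreserving.id ν).prod (mp_headTail P))
  set W : ℕ → Y × (ℕ → N) → ℝ := fun n p =>
    if orb T p.1 p.2 n ∈ G then Real.exp (sumU T U p.1 p.2 n) else 0 with hW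
  have mS : ∀ n, Measurable fun p : Y × (ℕ → N) => sumU T U p.1 p.2 n := fun n =>
    Finset.measurable_sum _ fun i _ =>
      hU.comp ((ho i).prodMk ((measurable_pi_apply i).comp measurable_snd))
  have mW : ∀ n, Measurable (W n) := fun n =>
    Measurable.ite (ho n hG) (mS n).exp measurable_const
  have mB : Measurable fun p => Real.log (⨆ n, W n p) := (Measurable.iSup mW).log
  have mu : Measurable fun p : Y × (ℕ → N) => U p.1 (p.2 0) :=
    hU.comp (measurable_fst.prodMk ((measurable_pi_apply 0).comp measurable_snd))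
  have g1 : ∀ᵐ p ∂(ν.prod (iid P)), BddAbove (Set.range fun n => W n p) ∧ 0 < ⨆ n, W n p := by
    filter_upwards [h1, h2] with p ⟨n, hn⟩ ⟨h, hh⟩
    have hb : BddAbove (Set.range fun n => W n p) := by
      refine ⟨Real.exp h, ?_⟩
      rintro _ ⟨k, rfl⟩
      simp only [hW]
      split_ifs with hk
      · exact Real.exp_le_exp.2 (hh k hk)
      · exact (Real.exp_pos _).le
    refine ⟨hb, lt_of_lt_of_le ?_ (le_ciSup hb n)⟩
    simp only [hW, if_pos hn]
    exact Real.exp_pos _
  have h4 := tel hθ mB mu (by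
      filter_upwards [g1, hθ.quasiMeasurePreserving.ae g1] with p hp hp'
      rw [← le_sub_iff_add_le', Real.log_le_iff_le_exp hp'.2, Real.exp_sub, Real.exp_log hp.2]
      refine ciSup_le fun n => ?_
      rw [le_div_iff₀ (Real.exp_pos _)]
      refine le_trans (le_of_eq ?_) (le_ciSup hp.1 (n + 1))
      simp only [hW, orb_succ', sumU_succ', Real.exp_add]
      split_ifs
      · ring
      · ring)
    (by
      filter_upwards [h3] with p hp
      simp only [iter, zero_add]
      exact hp)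
  have h5 := Measure.ae_ae_of_ae_prod
    (((MeasurePreserving.id ν).prod (mp_consN P)).quasiMeasurePreserving.ae h4)
  refine state hτ hU mB.neg (h5.mono fun y hy => hy.mono fun q hq => ?_)
  have h6 : U y q.1 + Real.log (⨆ n, W n (T q.1 y, q.2)) =
    Real.log (⨆ n, W n (y, consN q.1 q.2)) := hq
  simp only [Pi.neg_apply]
  linarith

theorem sublin {s : ℕ → ℝ}
    (h : ∀ k : ℕ, ∃ Λ : ℕ, ∀ n : ℕ, |s n| ≤ 1 / ((k : ℝ) + 1) * n + Λ) :
    Tendsto (fun n : ℕ => s n / n) atTop (𝓝 0) := by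
  refine Metric.tendsto_nhds.2 fun ε hε => ?_
  obtain ⟨k, hk⟩ := exists_nat_one_div_lt (half_pos hε)
  obtain ⟨Λ, hΛ⟩ := h k
  filter_upwards [(tendsto_const_div_atTop_nhds_zero_nat (Λ : ℝ)).eventually
    (gt_mem_nhds (half_pos hε)), eventually_ge_atTop 1] with n h1 h2
  have hn : (0 : ℝ) < n := by exact_mod_cast h2
  rw [Real.dist_eq, sub_zero, abs_div, abs_of_pos hn]
  calc |s n| / n ≤ (1 / ((k : ℝ) + 1) * n + Λ) / n := div_le_div_of_nonneg_right (hΛ n) hn.le
    _ = 1 / ((k : ℝ) + 1) + Λ / n := by rw [add_div, mul_div_cancel_right₀ _ hn.ne']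
    _ < ε := by linarith

end CobX

theorem cob_pf (h : Hit_stmt) : Cob_stmt := by
  intro Y N _ _ μ _ P _ T hT U _ hU _ G hG h2 h3
  obtain ⟨I, mI, hGI, hI, h1⟩ := h Y N μ P T hT G hG
  have hτ : MeasurePreserving (fun p : Y × N => T p.2 p.1) (μ.prod P) μ :=
    (measurePreserving_fst (μ := μ) (ν := P)).comp (hT.mp_pair P)
  have e1 : (fun p : Y × N => T p.2 p.1) ⁻¹' I =ᵐ[μ.prod P] (I ×ˢ Set.univ : Set (Y × N)) :=
    eventuallyEq_set.2 (hI.mono fun p hp => by simpa using hp)
  have hτ' := hτ.restrict_preimage mI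
  rw [Measure.restrict_congr_set e1, ← Measure.restrict_prod_eq_prod_univ] at hτ'
  have mH : MeasurableSet {p : Y × (ℕ → N) | ∃ n, orb T p.1 p.2 n ∈ G} := by
    rw [Set.ofPred_exists]
    exact MeasurableSet.iUnion fun n => hT.measurable_orb n hG
  obtain ⟨b, mb, hb⟩ := CobX.core hτ' hT.measurable_orb hU hG
    ((Measure.ae_prod_iff_ae_ae mH).2 ((ae_restrict_iff' mI).2 (Eventually.of_forall h1)))
    (by rw [Measure.restrict_prod_eq_prod_univ]; exact ae_restrict_of_ae h2)
    (by
      rw [Measure.restrict_prod_eq_prod_univ]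
      refine ae_restrict_of_ae ?_
      filter_upwards [ae_all_iff.2 fun k : ℕ => h3 (1 / ((k : ℝ) + 1)) (by positivity)] with p hp
      exact CobX.sublin hp)
  refine ⟨I, b, mI, hGI, mb, hI, ?_⟩
  rw [Measure.restrict_prod_eq_prod_univ, ae_restrict_iff' (mI.prod MeasurableSet.univ)] at hb
  exact hb.mono fun p hp hp' => hp ⟨hp', Set.mem_univ _⟩

end Vale.Agent.P188
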