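import Vale.Agent.P188.Cpl3

/-! Coupling, part 5: words and counting. -/

namespace Vale.Agent.P188.Cpl

open Function MeasureTheory
open scoped ENNReal Pointwise

variable {G Γ : Type} [Group G] [Group Γ] {k : ℕ}

theorem word_of {S : Finset Γ} (hS : Subgroup.closure (S : Set Γ) = ⊤) (g : Γ) :
    g ∈ wBall S (wordLength S g) := by
  have h : g ∈ (Subgroup.closure (S : Set Γ)).toSubmonoid := hS ▸ trivial
  rw [Subgroup.closure_toSubmonoid] at h
  obtain ⟨l, h1, h2⟩ := Submonoid.exists_list_of_mem_closure h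
  obtain ⟨l, h1, h2, h3⟩ := Nat.sInf_mem (s := {n | ∃ l : List Γ, l.length = n ∧
    (∀ x ∈ l, x ∈ S ∨ x⁻¹ ∈ S) ∧ l.prod = g}) ⟨_, l, rfl, h1, h2⟩
  exact ⟨l, h2, h1.le, h3⟩

theorem wBall_mono (S : Finset Γ) {r r' : ℕ} (h : r ≤ r') : wBall S r ⊆ wBall S r' :=
  fun _ ⟨l, h1, h2, h3⟩ => ⟨l, h1, h2.trans h, h3⟩

theorem wBall_fin (S : Finset Γ) (r : ℕ) : (wBall S r).Finite := by
  induction r with
  | zero =>
    refine (Set.finite_singleton 1).subset ?_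
    rintro _ ⟨l, -, h, rfl⟩
    simp [List.length_eq_zero_iff.1 (Nat.le_zero.1 h)]
  | succ r ih =>
    refine (((S.finite_toSet.union S.finite_toSet.inv).mul ih).insert 1).subset ?_
    rintro _ ⟨_ | ⟨a, l⟩, h1, h2, rfl⟩
    · exact .inl rfl
    · exact .inr ⟨a, h1 a List.mem_cons_self, _, ⟨l, fun x hx => h1 x (List.mem_cons_of_mem _ hx),
        Nat.le_of_succ_le_succ h2, rfl⟩, List.prod_cons.symm⟩

theorem ball_fin {S : Finset Γ} (hS : Subgroup.closure (S : Set Γ) = ⊤) (r : ℕ) :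
    {g | wordLength S g ≤ r}.Finite :=
  (wBall_fin S r).subset fun g hg => wBall_mono S hg (word_of hS g)

theorem countable_of {S : Finset Γ} (hS : Subgroup.closure (S : Set Γ) = ⊤) : Countable Γ :=
  Set.countable_univ_iff.1 ((Set.countable_iUnion fun r => (ball_fin hS r).countable).mono
    fun g _ => Set.mem_iUnion.2 ⟨wordLength S g, Nat.le_refl _⟩)

theorem hBall_fin {E : Type} [Norm E] (S : Finset Γ) (φ : Γ → E) (r : ℕ) (ρ : ℝ) :
    (hBall S φ r ρ).Finite :=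
  (wBall_fin S r).subset fun _ ⟨l, h1, h2, h3, _⟩ => ⟨l, h1, h2, h3⟩

theorem path (π : Γ →* Zk k) {S : Finset Γ} {S₀ : Finset G} {f : G → Γ} (f1 : f 1 = 1) {K : ℕ}
    (hK : ∀ h s, s ∈ S₀ ∨ s⁻¹ ∈ S₀ → (f h)⁻¹ * f (h * s) ∈ wBall S K) {C ρ : ℝ}
    (hC : ∀ g ∈ wBall S K, ‖ht π g‖ ≤ C) (l : List G) (hl : IsWord S₀ l)
    (h : ∀ p, p <+: l → ‖ht π (f p.prod)‖ ≤ ρ) : ∃ l' : List Γ, IsWord S l' ∧
      l'.length ≤ K * l.length ∧ l'.prod = f l.prod ∧ ∀ p, p <+: l' → ‖ht π p.prod‖ ≤ ρ + C := by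
  induction l using List.reverseRecOn with
  | nil =>
    refine ⟨[], fun _ h => by simp at h, le_rfl, f1.symm, fun p hp => ?_⟩
    have h1 := hC 1 ⟨[], fun _ h => by simp at h, Nat.zero_le _, rfl⟩
    have h2 := h [] List.prefix_rfl
    rw [List.prefix_nil.1 hp]
    exact le_add_of_nonneg_of_le ((norm_nonneg _).trans h2) h1
  | append_singleton l s ih =>
    obtain ⟨l', h1, h2, h3, h4⟩ := ih (fun x hx => hl x (List.mem_append_left _ hx))
      fun p hp => h p (hp.trans (List.prefix_append _ _))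
    obtain ⟨u, u1, u2, u3⟩ := hK l.prod s (hl s (by simp))
    refine ⟨l' ++ u, fun x hx => (List.mem_append.1 hx).elim (h1 x) (u1 x), ?_, by simp [h3, u3],
      fun p hp => ?_⟩
    · simp only [List.length_append, List.length_singleton, mul_add, mul_one]
      exact add_le_add h2 u2
    · obtain hp' | ⟨q, rfl⟩ := List.prefix_or_prefix_of_prefix hp (List.prefix_append _ _)
      · exact h4 p hp'
      · have hq := (List.prefix_append_right_inj _).1 hp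
        rw [List.prod_append, ht_mul, h3]
        exact norm_add_le_of_le (h l (List.prefix_append _ _))
          (hC _ ⟨q, fun x hx => u1 x (hq.subset hx), hq.length_le.trans u2, rfl⟩)

theorem arith (N D K C C₀ : ℕ) : ∃ D' : ℕ, ∀ r ρ n : ℕ, 2 ^ n ≤ 2 * (r + 1) →
    N * (D * (K * r + 1) * 2 ^ (ρ + C * (n + 1) + C₀)) ^ D ≤ (D' * (r + 1) * 2 ^ ρ) ^ D' := by
  refine ⟨N * (D * (K + 1) * 4 ^ C * 2 ^ C₀) ^ D + (C + 1) * D + 1, fun r ρ n hn => ?_⟩
  have h0 : 1 ≤ 2 ^ ρ := Nat.one_le_two_pow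
  have h1 : 2 ^ (C * (n + 1)) ≤ 4 ^ C * ((r + 1) * 2 ^ ρ) ^ C := by
    rw [mul_comm C, pow_mul, ← mul_pow]
    exact Nat.pow_le_pow_left (by rw [pow_succ]; nlinarith) _
  have h2 : D * (K * r + 1) * 2 ^ (ρ + C * (n + 1) + C₀) ≤
      D * (K + 1) * 4 ^ C * 2 ^ C₀ * ((r + 1) * 2 ^ ρ) ^ (C + 1) :=
    calc _ = D * (K * r + 1) * 2 ^ ρ * 2 ^ C₀ * 2 ^ (C * (n + 1)) := by ring
      _ ≤ D * ((K + 1) * (r + 1)) * 2 ^ ρ * 2 ^ C₀ * (4 ^ C * ((r + 1) * 2 ^ ρ) ^ C) := by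
        gcongr
        nlinarith
      _ = _ := by ring
  refine (Nat.mul_le_mul_left _ (Nat.pow_le_pow_left h2 D)).trans ?_
  rw [mul_pow, ← mul_assoc, ← pow_mul, mul_assoc _ (r + 1), mul_pow _ ((r + 1) * 2 ^ ρ)]
  exact Nat.mul_le_mul (le_trans (by omega) (Nat.le_self_pow (by omega) _))
    (Nat.pow_le_pow_right (by positivity) (by omega))

theorem count {X : Type} [MeasurableSpace X] {μ : Measure X} [IsProbabilityMeasure μ]
    (π : Γ →* Zk k) {S : Finset Γ} (hS : Subgroup.closure (S : Set Γ) = ⊤) (S₀ : Finset G)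
    {ev : X → G → Γ} (e1 : ∀ x, ev x 1 = 1) (inj : ∀ x, Injective (ev x))
    (em : ∀ h γ, MeasurableSet {x | ev x h = γ}) {u : G → Set Γ} (uf : ∀ s, (u s).Finite)
    (lip : ∀ x h s, (ev x h)⁻¹ * ev x (h * s) ∈ u s) {φ : G → Rk k} {C : ℕ} {m : ℝ≥0∞}
    (m0 : m ≠ 0) (h : ∀ (n : ℕ) (T : Finset G), T.card ≤ 2 ^ n →
      m ≤ μ {x | ∀ h ∈ T, ‖ht π (ev x h) - φ h‖ ≤ C * (n + 1)}) {D : ℕ}
    (hD : ∀ r ρ : ℕ, (hBall S (ht π) r ρ).ncard ≤ (D * (r + 1) * 2 ^ ρ) ^ D) :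
    ∃ D' : ℕ, ∀ r ρ : ℕ, (hBall S₀ φ r ρ).ncard ≤ (D' * (r + 1) * 2 ^ ρ) ^ D' := by
  classical
  obtain ⟨K, hK⟩ := (((S₀.finite_toSet.union S₀.finite_toSet.inv).biUnion
    fun s _ => uf s).image (wordLength S)).bddAbove
  obtain ⟨C₁, hC₁⟩ := ((wBall_fin S K).image fun g => ‖ht π g‖).bddAbove
  obtain ⟨C₀, hC₀⟩ := exists_nat_ge C₁
  obtain ⟨N, hN⟩ := ENNReal.exists_nat_mul_gt m0 ENNReal.one_ne_top
  obtain ⟨D', hD'⟩ := arith N D K C C₀
  refine ⟨D', fun r ρ => le_trans ?_ ((Nat.mul_le_mul_left N (hD _ _)).trans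
    (hD' r ρ (Nat.log 2 (r + 1) + 1) (by
      rw [pow_succ']
      exact Nat.mul_le_mul_left 2 (Nat.pow_log_le_self 2 r.succ_ne_zero))))⟩
  generalize hn : Nat.log 2 (r + 1) + 1 = n
  have h1 : ∀ g ∈ (hBall_fin S₀ φ r ρ).toFinset, m ≤ ∑ γ ∈ (hBall_fin S (ht π) (K * r)
      (ρ + C * (n + 1) + C₀ : ℕ)).toFinset, μ {x | ev x g = γ} := fun g hg => by
    obtain ⟨l, l1, l2, rfl, l3⟩ := (Set.Finite.mem_toFinset _).1 hg
    refine (h n ((Finset.range (r + 1)).image fun i => (l.take i).prod) (Finset.card_image_le.trans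
      ((Finset.card_range _).trans_le (hn ▸ (Nat.lt_pow_succ_log_self one_lt_two _).le)))).trans
      ((measure_mono fun x hx => ?_).trans (measure_biUnion_finset_le _ _))
    obtain ⟨l', k1, k2, k3, k4⟩ := path π (e1 x) (fun h s hs => wBall_mono S
      (hK ⟨_, Set.mem_biUnion hs (lip x h s), rfl⟩) (word_of hS _))
      (fun g hg => (hC₁ ⟨g, hg, rfl⟩).trans hC₀) l l1 (ρ := ρ + C * (n + 1)) fun p hp => by
        rw [List.prefix_iff_eq_take.1 hp]
        exact (norm_le_norm_add_norm_sub' _ _).trans (add_le_add (l3 _) (hx _ (Finset.mem_image_of_mem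
          _ (Finset.mem_range.2 (Nat.lt_succ_of_le (hp.length_le.trans l2))))))
    exact Set.mem_biUnion ((Set.Finite.mem_toFinset _).2 ⟨l', k1, k2.trans
      (Nat.mul_le_mul_left K l2), k3, fun i => (k4 _ (List.take_prefix i l')).trans_eq
        (by push_cast; rfl)⟩) rfl
  have h2 := (Finset.card_nsmul_le_sum _ _ _ h1).trans (Finset.sum_comm.trans_le
    (Finset.sum_le_card_nsmul _ _ 1 fun γ _ => (sum_measure_le_measure_univ
      (fun g _ => (em g γ).nullMeasurableSet) fun g _ g' _ hg => Disjoint.aedisjoint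
        (Set.disjoint_left.2 fun x h1 h2 => hg (inj x (h1.trans h2.symm)))).trans_eq measure_univ))
  rw [← Set.ncard_eq_toFinset_card _ (hBall_fin ..), ← Set.ncard_eq_toFinset_card _ (hBall_fin ..),
    nsmul_eq_mul, nsmul_eq_mul, mul_one] at h2
  have h3 := (le_mul_of_one_le_right zero_le hN.le).trans ((mul_left_comm _ _ _).trans_le
    (mul_le_mul_right h2 N))
  exact_mod_cast h3

end Vale.Agent.P188.Cpl
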