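import Vale.Agent.P188.Cpl4
import Vale.Agent.P188.Cpl5

/-! Coupling, final assembly. -/

namespace Vale.Agent.P188

open Function MeasureTheory Matrix Filter
open scoped ENNReal NNReal

namespace Cpl

variable {H Γ : Type} [Group H] [Group Γ]

theorem exists_ctl {SH : Finset H} {S : Finset Γ} (hSH : Subgroup.closure (SH : Set H) = ⊤)
    (hS : Subgroup.closure (S : Set Γ) = ⊤) {K C : ℝ} {F : H → Γ}
    (hF : IsQuasiIsometry SH S K C F) (hi : Injective F) : ∃ c : Ctl H Γ, Nonempty (X c) := by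
  classical
  have := countable_of hS
  obtain ⟨e, he⟩ := exists_injective_nat Γ
  obtain ⟨K1, -, h1, h2⟩ := hF
  refine ⟨⟨fun k => {g | wordLength S g ≤ ⌈K * wordLength SH k + C⌉₊},
    fun γ => {k | wordLength SH k ≤ ⌈K * (wordLength S γ + C)⌉₊}, {g | wordLength S g ≤ ⌈C⌉₊},
    fun g => if g = 1 then 0 else e g + 1, fun _ => ball_fin hS _, fun _ => ball_fin hSH _,
    ball_fin hS _, fun a b h => ?_, if_pos rfl⟩, ⟨sh (F 1) 1 F, Om.sh ⟨hi, fun h k => ?_,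
    fun h k => ?_, fun γ => (h2 γ).imp fun h hh => ?_⟩ _ _, by simp [sh]⟩⟩
  · by_cases ha : a = 1 <;> by_cases hb : b = 1 <;> simp_all [he.eq_iff]
  · refine Nat.cast_le.1 (le_trans ?_ (Nat.le_ceil _))
    simpa [wordDist] using (h1 h (h * k)).2
  · refine Nat.cast_le.1 (le_trans ?_ (Nat.le_ceil _))
    simpa [wordDist, inv_mul_le_iff₀ (one_pos.trans_le K1)] using (h1 h (h * k)).1
  · exact Nat.cast_le.1 (hh.trans (Nat.le_ceil _))

variable {c : Ctl H Γ} [Countable H] [Countable Γ] [TopologicalSpace H] [DiscreteTopology H]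
  [TopologicalSpace Γ] [DiscreteTopology Γ] {k : ℕ} {π : Γ →* Zk k}

/-- The composition rule for the drift matrices. -/
theorem cocyc (hπ : Surjective π) {μ : Measure (X c)} (hμ : IP H μ)
    {D : X c × X c → Matrix (Fin k) (Fin k) ℝ} (hD : MF H D)
    (h : ACob (μ.prod μ) fun h y => ht π (y.2.1 h) - D y *ᵥ ht π (y.1.1 h)) :
    ∀ᵐ y ∂μ.prod (μ.prod μ), D y.2 * D (y.1, y.2.1) = D (y.1, y.2.2) := by
  have := hμ.prob
  have p1 := (MeasurePreserving.id μ).prod (measurePreserving_fst (μ := μ) (ν := μ))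
  have p2 := (MeasurePreserving.id μ).prod (measurePreserving_snd (μ := μ) (ν := μ))
  have p3 := measurePreserving_snd (μ := μ) (ν := μ.prod μ)
  have m := fun h => (meas_c₂ π h).sub (hD.mv (meas_c₁ π h))
  exact uq3 π hπ (hμ.prod (hμ.prod hμ)) (hD.comp p1.measurable fun g _ => ⟨g, rfl⟩)
    (hD.comp p3.measurable fun g _ => ⟨g, rfl⟩) (hD.comp p2.measurable fun g _ => ⟨g, rfl⟩)
    (fun h => (meas_c₁ π h).comp p3.measurable) (fun h => (meas_c₂ π h).comp p3.measurable)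
    (ac_pull h m (.of_mp p1) (κ := fun h _ => h) (fun _ => Set.finite_range_const) fun _ _ => rfl)
    (ac_pull h m (.of_mp p3) (κ := fun h _ => h) (fun _ => Set.finite_range_const) fun _ _ => rfl)
    (ac_pull h m (.of_mp p2) (κ := fun h _ => h) (fun _ => Set.finite_range_const) fun _ _ => rfl)

end Cpl

open Cpl

theorem cpl_pf (hST : ST_stmt) (hI : Iso_stmt) (hT : Tail_stmt) (hA : Amen_stmt) (hP : Phi_stmt)
    (hC : Count_stmt) (hB : TowerBasic_stmt) : Cpl_stmt := by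
  intro k Γ _ π w hw hd H _ SH S hSH hS hSk K₀ C₀ F hF hi
  have := countable_of hS
  have := countable_of hSH
  let : TopologicalSpace Γ := ⊥
  let : TopologicalSpace H := ⊥
  have : DiscreteTopology Γ := ⟨rfl⟩
  have : DiscreteTopology H := ⟨rfl⟩
  obtain ⟨c, ⟨x₀⟩⟩ := exists_ctl hSH hS hF hi
  obtain ⟨⟨n, hn⟩, hπ, hw0, -⟩ := hB k Γ π w hw
  obtain ⟨hΦ, hu, -⟩ := hP k w hw0 hd
  obtain ⟨K, Q, hq, ht', hcl⟩ := exists_qp (c := c) S
  obtain ⟨K', hK'⟩ := hST k Γ π w hw hd S hS K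
  have hD : ∀ ν, IP Γ ν → ∃ D, Drift π Q.q K' ν D := fun ν hν =>
    haveI := hν.prob
    (hK' _ Q.toQS ν hν.mp).imp fun D h => ⟨hν.prob, hν.mp, h.1, h.2.1, h.2.2.1, h.2.2.2⟩
  have hI := hI k Γ π w hw hd S hS K _ Q K' (dual π hπ Q hq ht' hD)
  have : Nonempty (ZW c (X c)) := ⟨ii (x₀, x₀)⟩
  obtain ⟨ν₀, h0⟩ := hA n Γ hn (ZW c (X c))
  obtain ⟨l₀, hl₀, -⟩ := relA ⟨h0.1, h0.2⟩
  obtain ⟨μ, hμ⟩ : ∃ μ : Measure (X c), IP H μ :=
    haveI := hl₀.prob
    ⟨l₀.map Prod.fst, Measure.isProbabilityMeasure_map measurable_fst.aemeasurable, fun g =>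
      .of_semiconj ⟨measurable_fst, rfl⟩ (hl₀.mp g) (fun _ => rfl) (measurable_const_smul g)⟩
  have := hμ.prob
  obtain ⟨ν, hν, r⟩ := relB (hμ.prod hμ)
  obtain ⟨D, hD'⟩ := hD ν hν
  have hDY := mf_ii (drift_mf hD')
  have hac := toH π hq r hD'
  obtain ⟨X₁, H₀, m1, n1, fi, i1, s1, s2⟩ := struct hμ hDY hΦ hu (r.i.qmp.ae (hI ν D hD'))
    (cocyc hπ hμ hDY hac)
  obtain ⟨R, hR⟩ : ∃ R, R = {y | D (ii y) = 1} := ⟨_, rfl⟩
  have mR : MeasurableSet R := hR ▸ hDY.set 1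
  have iR : ∀ (h : H) y, h • y ∈ R ↔ y ∈ R := fun h y => by
    simp only [hR, Set.mem_ofPred_eq, hDY.inv]
  have s3 : X₁ ×ˢ X₁ ≤ᵐ[μ.prod μ] R := s1.mono fun y h1 h2 => hR ▸ (h1 h2.1).2 h2.2
  have nR : μ.prod μ R ≠ 0 := fun h => mul_ne_zero n1 n1
    (Measure.prod_prod (μ := μ) (ν := μ) X₁ X₁ ▸ measure_mono_null_ae s3 h)
  obtain ⟨ν₁, hν₁, r₁⟩ := relB (l := ProbabilityTheory.cond (μ.prod μ) R)
    ⟨ProbabilityTheory.cond_isProbabilityMeasure nR, fun g =>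
      mp_cond ((hμ.prod hμ).mp g) mR (.of_forall (iR g))⟩
  have := hν₁.prob
  have d0 : ACob (ProbabilityTheory.cond (μ.prod μ) R) fun (h : H) y =>
      ht π (y.2.1 h) - (1 : Matrix (Fin k) (Fin k) ℝ) *ᵥ ht π (y.1.1 h) :=
    ac_congr (ac_pull hac (fun h => (meas_c₂ π h).sub (hDY.mv (meas_c₁ π h))) (Dom.cond nR)
      (κ := fun h _ => h) (fun _ => Set.finite_range_const) fun _ _ => rfl)
      fun h => (ProbabilityTheory.ae_cond_mem mR).mono fun y hy => by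
        simp only [id, show D (ii y) = 1 from (hR ▸ hy :)]
  have d1 : Drift π Q.q 1 ν₁ fun _ => 1 :=
    ⟨hν₁.prob, hν₁.mp, fun _ _ => measurable_const, fun _ _ => rfl, fun _ _ => by simp,
      ac_congr (toG π r₁ (meas_c₂ π) MF.one d0) fun p => .of_forall fun z =>
        congrArg (ht π · - _) (hq z p)⟩
  have d2 : Dom ii ((μ.prod μ).restrict R) ν₁ := by
    have := r₁.i.smul_left (measure_ne_top (μ.prod μ) R)
    rwa [ProbabilityTheory.cond, smul_smul, ENNReal.mul_inv_cancel nR (measure_ne_top _ _),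
      one_smul] at this
  obtain ⟨C₁, c1, c2⟩ := d2.2
  obtain ⟨δ, δ0, δ1⟩ := ENNReal.exists_nnreal_pos_mul_lt (ENNReal.mul_ne_top ENNReal.ofNat_ne_top c1 :
    3 * C₁ ≠ ∞) (mul_ne_zero n1 n1)
  obtain ⟨E, β, η, mE, iE, e1, mβ, η0, e2, e3⟩ := hT k Γ π w hw hd S hS hSk K _ Q hcl K'
    (fun ν h1 h2 => (hD ν ⟨h1, h2⟩).imp fun D h => ⟨h, hI ν D h⟩) ν₁ ν₁ d1 d1
    (funext ht' ▸ r₁.i.qmp.comp ((mp_cond Measure.measurePreserving_swap mR
      (s2.mono fun y hy => hR ▸ hy.symm)).quasiMeasurePreserving.comp r₁.j.qmp)) δ δ0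
  refine (avg (G := H₀) ⟨hμ.prob, fun g => hμ.mp g⟩
    (c := fun h x => ht π (x.1 h)) (fun h => meas_c π (cont_x _))
    (fun h => ((c.u_fin h).image fun g => ‖ht π g‖).bddAbove.imp fun C hC x =>
      hC ⟨_, ev_mem c x h, rfl⟩) (fun h h' x => (congrArg _ (ev_mul c x h h')).trans (ht_mul π _ _))
    m1 (fun h => i1 h h.2) ((d2.1 mE).inter mR) (fun h y => and_congr (by
      simpa only [inv_inv, ← ii_smul] using! iE (y.1.1 h⁻¹)⁻¹ (ii y)) (iR h y))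
    (s1.mono fun y h1 h2 h3 => (h1 h3).1 (hR ▸ h2.2 :)) ?_ (mβ.comp d2.1) η0 ?_ ?_).elim
    fun φ ⟨C, m, m0, hm⟩ => ?_
  · have k1 : ν₁ Eᶜ ≤ δ := by
      rw [← ofReal_measureReal, ← ENNReal.ofReal_coe_nnreal, probReal_compl_eq_one_sub mE]
      exact ENNReal.ofReal_le_ofReal (by linarith)
    have k2 : μ.prod μ (ii ⁻¹' Eᶜ ∩ R) ≤ C₁ * δ := by
      rw [← Measure.restrict_apply (d2.1 mE.compl), ← Measure.map_apply d2.1 mE.compl]
      exact (c2 _).trans (mul_le_mul_right k1 _)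
    have k3 : μ X₁ * μ X₁ ≤ μ.prod μ (ii ⁻¹' E ∩ R ∩ X₁ ×ˢ Set.univ) + C₁ * δ := by
      rw [← Measure.prod_prod]
      exact (measure_mono_ae (t := ii ⁻¹' E ∩ R ∩ X₁ ×ˢ Set.univ ∪ ii ⁻¹' Eᶜ ∩ R) (s3.mono
        fun y h1 h2 => (em (ii y ∈ E)).imp
        (fun h => ⟨⟨h, h1 h2⟩, h2.1, trivial⟩) fun h => ⟨h, h1 h2⟩)).trans
        ((measure_union_le _ _).trans (add_le_add le_rfl k2))
    refine (ENNReal.add_lt_add_iff_right (a := μ X₁ * μ X₁) (by finiteness)).1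
      (lt_of_le_of_lt (le_trans (le_of_eq (by ring)) ((mul_le_mul_right k3 3).trans_eq ?_))
        (ENNReal.add_lt_add_left (by finiteness) δ1))
    ring
  · rw [← Measure.restrict_restrict (d2.1 mE)]
    refine ne_top_of_le_ne_top ?_ (((setLIntegral_map mE (mβ.const_mul η).exp.ennreal_ofReal
      d2.1).symm).trans_le (lintegral_mono' (Measure.restrict_mono subset_rfl c2) le_rfl))
    rw [Measure.restrict_smul, lintegral_smul_measure]
    exact ENNReal.mul_ne_top c1 e2.lintegral_lt_top.ne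
  · filter_upwards [(ae_restrict_iff' mR).1 (d2.qmp.ae (ae_all_iff.2 e3))] with y h1 h2 h
    have h3 := h1 h2.2 (y.1.1 h) h2.1
    rwa [hq, lc_ii, ← ii_smul] at h3
  · obtain ⟨D₀, hD₀⟩ := hC k Γ π w hw S
    have : Group.FG H := ⟨⟨SH, hSH⟩⟩
    obtain ⟨S₀, hS₀⟩ := (inferInstance : Group.FG H₀).1
    obtain ⟨D', h⟩ := count π hS S₀ (ev := fun (x : X c) (h : H₀) => x.1 h) (fun x => x.2.2)
      (fun x => x.2.1.inj.comp Subtype.val_injective)
      (fun h γ => ((isOpen_discrete {γ}).preimage (cont_x _)).measurableSet)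
      (fun s : H₀ => c.u_fin s) (fun x h s => x.2.1.lip h s) m0 hm hD₀
    exact ⟨H₀, fi, S₀, φ, D', hS₀, h⟩

end Vale.Agent.P188
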