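import Vale.Agent.P188.Flag

/-! Every weight of a tower is the modulus of an eigen-functional. -/

namespace Vale.Agent.P188

open Function Matrix Filter

private theorem le_one_of_pow_le {r K t : ℝ} {d : ℕ} (ht : 0 ≤ t)
    (h : ∀ n : ℕ, r ^ n ≤ K * (1 + n * t) ^ d) : r ≤ 1 := by
  by_contra hr
  push Not at hr
  have hK : 0 ≤ K := by
    have := h 0
    simp only [pow_zero, Nat.cast_zero, zero_mul, add_zero, one_pow, mul_one] at this
    linarith
  have h1 := (tendsto_pow_const_div_const_pow_of_one_lt d hr).const_mul (K * (1 + t) ^ d)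
  rw [mul_zero] at h1
  have h2 : (1 : ℝ) ≤ 0 := by
    refine ge_of_tendsto h1 ?_
    filter_upwards [eventually_ge_atTop 1] with n hn
    have hn' : (1 : ℝ) ≤ n := by exact_mod_cast hn
    have hp : 0 < r ^ n := by positivity
    rw [← mul_div_assoc, le_div_iff₀ hp, one_mul, mul_assoc, ← mul_pow]
    refine (h n).trans (mul_le_mul_of_nonneg_left (pow_le_pow_left₀ (by positivity) ?_ d) hK)
    nlinarith
  linarith

private theorem toR_pow {k : ℕ} (b : Zk k) (n : ℕ) : toR (b ^ n) = (n : ℝ) • toR b := by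
  funext i
  simp [toR]

private theorem toR_inv {k : ℕ} (b : Zk k) : toR b⁻¹ = -toR b := by
  funext i
  simp [toR]

private theorem norm_eq_exp {k : ℕ} (l : Zk k →* ℂˣ) (χ : Wt k) {K : ℝ} {d : ℕ}
    (h : ∀ b, ‖(l b : ℂ)‖ ≤ K * (1 + ‖toR b‖) ^ d * Real.exp (χ (toR b))) (b : Zk k) :
    ‖(l b : ℂ)‖ = Real.exp (χ (toR b)) := by
  have key : ∀ b, ‖(l b : ℂ)‖ ≤ Real.exp (χ (toR b)) := by
    intro b
    rw [← div_le_one (Real.exp_pos _)]
    refine le_one_of_pow_le (K := K) (d := d) (norm_nonneg (toR b)) fun n => ?_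
    have := h (b ^ n)
    rw [toR_pow, map_pow, Units.val_pow_eq_pow_val, norm_pow, norm_smul, Real.norm_natCast,
      map_smul, smul_eq_mul, Real.exp_nat_mul] at this
    rwa [div_pow, div_le_iff₀ (by positivity)]
  refine le_antisymm (key b) ?_
  have h1 := key b⁻¹
  have hp : 0 < ‖(l b : ℂ)‖ := norm_pos_iff.2 (l b).ne_zero
  rw [toR_inv, map_inv, Units.val_inv_eq_inv_val, norm_inv, map_neg, Real.exp_neg] at h1
  exact (inv_le_inv₀ hp (Real.exp_pos _)).1 h1

private theorem layer_eig {k : ℕ} (L : Layer k) (i0 : Fin L.m) :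
    ∃ (a : Fin L.m → ℂ) (l : Zk k →* ℂˣ), a ≠ 0 ∧
      (∀ b, a ᵥ* (L.ρ b).map (Int.cast : ℤ → ℂ) = (l b : ℂ) • a) ∧
      ∀ b, ‖(l b : ℂ)‖ = Real.exp (L.wt i0 (toR b)) := by
  classical
  have hQ : L.Qi * L.Q = 1 := mul_eq_one_comm.1 L.Q_mul
  have hρ : ∀ b b', (L.ρ (b * b')).map (Int.cast : ℤ → ℝ) =
      (L.ρ b).map (Int.cast : ℤ → ℝ) * (L.ρ b').map (Int.cast : ℤ → ℝ) := by
    intro b b'
    rw [map_mul]
    exact Matrix.map_mul (f := Int.castRingHom ℝ)
  have hB1 : L.B 1 = 1 := by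
    unfold Layer.B
    rw [map_one, Matrix.map_one _ Int.cast_zero Int.cast_one, Matrix.mul_one, hQ]
  have hBQ : ∀ b, L.B b * L.Qi = L.Qi * (L.ρ b).map (Int.cast : ℤ → ℝ) := by
    intro b
    unfold Layer.B
    rw [Matrix.mul_assoc, L.Q_mul, Matrix.mul_one]
  have hBm : ∀ b b', L.B (b * b') = L.B b * L.B b' := by
    intro b b'
    have : L.B b * L.B b' = L.B b * L.Qi * (L.ρ b').map (Int.cast : ℤ → ℝ) * L.Q := by
      simp only [Layer.B, Matrix.mul_assoc]
    rw [this, hBQ]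
    simp only [Layer.B, hρ, Matrix.mul_assoc]
  let c : Matrix (Fin L.m) (Fin L.m) ℝ →+* Matrix (Fin L.m) (Fin L.m) ℂ :=
    Complex.ofRealHom.mapMatrix
  have hc : ∀ M i j, c M i j = (M i j : ℂ) := fun _ _ _ => rfl
  let T : Zk k → (Fin L.m → ℂ) →ₗ[ℂ] (Fin L.m → ℂ) := fun b => vecMulLinear (c (L.B b))
  have hT : ∀ b a, T b a = a ᵥ* c (L.B b) := fun _ _ => rfl
  have hmul : ∀ b b' a, T (b * b') a = T b' (T b a) := by
    intro b b' a
    rw [hT, hT, hT, vecMul_vecMul, hBm, map_mul]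
  let V0 : Submodule ℂ (Fin L.m → ℂ) :=
    { carrier := {a | ∀ i, L.wt i ≠ L.wt i0 → a i = 0}
      add_mem' := fun ha hb i hi => by simp [ha i hi, hb i hi]
      zero_mem' := fun _ _ => rfl
      smul_mem' := fun z a ha i hi => by simp [ha i hi] }
  have hV0 : ∀ a, a ∈ V0 ↔ ∀ i, L.wt i ≠ L.wt i0 → a i = 0 := fun _ => Iff.rfl
  obtain ⟨a, ha, ha0, he⟩ := exists_common_eigvec T
    (fun b b' => LinearMap.ext fun a => by
      rw [Module.End.mul_apply, Module.End.mul_apply, ← hmul, ← hmul, mul_comm]) V0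
    (by
      intro h
      have h1 : (Pi.single i0 1 : Fin L.m → ℂ) ∈ V0 := by
        refine (hV0 _).2 fun i hi => Pi.single_eq_of_ne (fun h => hi (by rw [h])) _
      rw [h, Submodule.mem_bot] at h1
      have := congrFun h1 i0
      simp at this)
    (fun b a ha => (hV0 _).2 fun j hj => by
      rw [hT]
      show ∑ i, a i * c (L.B b) i j = 0
      refine Finset.sum_eq_zero fun i _ => ?_
      by_cases hi : L.wt i = L.wt i0
      · have : L.B b i j = 0 := L.block b i j (by rw [hi]; exact hj.symm)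
        rw [hc, this]; simp
      · rw [(hV0 a).1 ha i hi, zero_mul])
  obtain ⟨l, hl⟩ := exists_eig_character T ha0 (by rw [hT, hB1, map_one, vecMul_one])
    (fun b b' => hmul b b' a) he
  refine ⟨a ᵥ* c L.Qi, l, fun h => ha0 ?_, fun b => ?_, ?_⟩
  · have : a ᵥ* c L.Qi ᵥ* c L.Q = a := by
      rw [vecMul_vecMul, ← map_mul, hQ, map_one, vecMul_one]
    rw [← this, h, zero_vecMul]
  · have h1 : (L.ρ b).map (Int.cast : ℤ → ℂ) = c ((L.ρ b).map (Int.cast : ℤ → ℝ)) := by
      ext i j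
      rw [hc]; simp
    rw [h1, vecMul_vecMul, ← map_mul, ← hBQ, map_mul, ← vecMul_vecMul, ← hT, hl, smul_vecMul]
  · obtain ⟨j, hj⟩ := Function.ne_iff.1 ha0
    obtain ⟨C, d, hC⟩ := L.bound
    have hj' : 0 < ‖a j‖ := norm_pos_iff.2 hj
    refine norm_eq_exp l (L.wt i0) (K := (∑ i, ‖a i‖) * C / ‖a j‖) (d := d) fun b => ?_
    have h1 : (l b : ℂ) * a j = ∑ i, a i * (L.B b i j : ℂ) := by
      have := congrFun (hl b) j
      rw [hT] at this
      exact this.symm
    have h2 : ‖(l b : ℂ)‖ * ‖a j‖ ≤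
        ∑ i, ‖a i‖ * (C * (1 + ‖toR b‖) ^ d * Real.exp (L.wt i0 (toR b))) := by
      rw [← norm_mul, h1]
      refine (norm_sum_le _ _).trans (Finset.sum_le_sum fun i _ => ?_)
      by_cases hi : L.wt i = L.wt i0
      · rw [norm_mul, Complex.norm_real, Real.norm_eq_abs, ← hi]
        exact mul_le_mul_of_nonneg_left (hC b i j) (norm_nonneg _)
      · rw [(hV0 a).1 ha i hi]; simp
    rw [← Finset.sum_mul, ← le_div_iff₀ hj'] at h2
    refine h2.trans (le_of_eq ?_)
    ring

theorem eig_pf (_h : Flag_stmt) : Eig_stmt := by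
  intro k Γ _ π w T
  induction T with
  | base π h => intro χ hχ; simp at hχ
  | @ext Γ Γ' _ _ π' w T L E ih =>
    intro χ hχ
    rcases List.mem_append.1 hχ with hχ | hχ
    · obtain ⟨i0, rfl⟩ := List.mem_ofFn.1 hχ
      obtain ⟨a, l, ha, hl, hn⟩ := layer_eig L i0
      let ψ : Zk L.m → ℂ := fun v => a ⬝ᵥ fun i => ((Multiplicative.toAdd v i : ℤ) : ℂ)
      have hinv : ∀ v, invFun E.ι (E.ι v) = v := leftInverse_invFun E.ι_inj
      refine ⟨E.ι.range, fun g => ψ (invFun E.ι g), l, ?_, ?_, ?_, ?_, ?_, hn⟩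
      · rw [E.range_eq]; infer_instance
      · rw [E.range_eq]
        intro g hg
        rw [MonoidHom.mem_ker] at hg ⊢
        rw [MonoidHom.comp_apply, hg, map_one]
      · rintro _ ⟨v, rfl⟩ _ ⟨v', rfl⟩
        simp only [← map_mul, hinv, ψ, ← dotProduct_add]
        congr 1
        funext i
        simp
      · obtain ⟨j, hj⟩ := Function.ne_iff.1 ha
        refine ⟨E.ι (Multiplicative.ofAdd (Pi.single j 1)), ⟨_, rfl⟩, ?_⟩
        simp only [hinv, ψ, toAdd_ofAdd]
        have : (fun i => ((Pi.single j 1 : Fin L.m → ℤ) i : ℂ)) = Pi.single j 1 := by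
          funext i
          by_cases h : i = j
          · subst h; simp
          · simp [h]
        rw [this, dotProduct_single, mul_one]
        exact hj
      · rintro g _ ⟨v, rfl⟩
        simp only [E.conj, hinv, ψ, Layer.act, toAdd_ofAdd, MonoidHom.comp_apply]
        have : (fun i => (((L.ρ (π' (E.p g))) *ᵥ (Multiplicative.toAdd v)) i : ℂ)) =
            (L.ρ (π' (E.p g))).map (Int.cast : ℤ → ℂ) *ᵥ
              fun i => ((Multiplicative.toAdd v i : ℤ) : ℂ) := by
          funext i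
          simp [mulVec, dotProduct]
        rw [this, dotProduct_mulVec, hl, smul_dotProduct, smul_eq_mul]
    · obtain ⟨U, φ, l, hN, hU, hadd, ⟨u, hu, hu0⟩, hconj, hn⟩ := ih χ hχ
      refine ⟨U.comap E.p, fun g => φ (E.p g), l, hN.comap E.p, fun g hg => hU hg, ?_, ?_, ?_, hn⟩
      · intro u hu u' hu'
        simp only [map_mul]
        exact hadd _ hu _ hu'
      · obtain ⟨g, rfl⟩ := E.p_surj u
        exact ⟨g, hu, hu0⟩
      · intro g u hu
        simp only [map_mul, map_inv]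
        exact hconj _ _ hu

end Vale.Agent.P188
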