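import Vale.Agent.P188.FK1

/-! P188: the Feynman-Kac bound. -/

namespace Vale.Agent.P188

open Function MeasureTheory
open scoped ENNReal NNReal

section
variable {Y N : Type} [MeasurableSpace Y] [MeasurableSpace N] {μ : Measure Y} {T : N → Y → Y}

theorem fk_mp_orb [IsProbabilityMeasure μ] (h : RMP μ T) (P : Measure N)
    [IsProbabilityMeasure P] (n : ℕ) :
    MeasurePreserving (fun p : Y × (ℕ → N) => orb T p.1 p.2 n) (μ.prod (iid P)) μ := by
  induction n with
  | zero => exact measurePreserving_fst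
  | succ n ih =>
    have h1 := ih.comp (h.mp_skewShift P)
    have e : (fun p : Y × (ℕ → N) => orb T p.1 p.2 (n + 1)) =
        (fun p : Y × (ℕ → N) => orb T p.1 p.2 n) ∘
          fun p : Y × (ℕ → N) => (T (p.2 0) p.1, fun j => p.2 (j + 1)) := by
      funext p
      exact orb_succ' T p.1 p.2 n
    rw [e]
    exact h1

/-- The iteration of the operator bound. -/
theorem fk_iter [IsProbabilityMeasure μ] (h : RMP μ T) (P : Measure N) [IsProbabilityMeasure P]
    (R : ℕ) (w : Y × (ℕ → N) → ℝ≥0∞) (hw : Measurable w) (B : ℝ≥0∞) (hB : B ≠ ⊤)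
    (hw1 : ∀ p, 1 ≤ w p) (hwB : ∀ p, w p ≤ B)
    (hws : ∀ y ω ω', w (y, splice R ω ω') = w (y, ω)) (L : ℝ≥0∞)
    (H : ∀ f g : Y → ℝ≥0∞, Measurable f → Measurable g → ∫⁻ y, f y ^ 2 ∂μ ≤ 1 →
      ∫⁻ y, g y ^ 2 ∂μ ≤ 1 → ∫⁻ p, g p.1 * (w p * f (orb T p.1 p.2 R)) ∂(μ.prod (iid P)) ≤ L)
    (W : ℕ → Y × (ℕ → N) → ℝ≥0∞) (hW0 : ∀ p, W 0 p = 1)
    (hWs : ∀ m p, W (m + 1) p = w p * W m (orb T p.1 p.2 R, fun j => p.2 (j + R))) (m : ℕ) :
    ∫⁻ p, W m p ∂(μ.prod (iid P)) ≤ L ^ (2 * m) := by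
  have hθ : Measurable fun p : Y × (ℕ → N) => (orb T p.1 p.2 R, fun j => p.2 (j + R)) :=
    (h.measurable_orb R).prodMk
      (measurable_pi_lambda _ fun j => (measurable_pi_apply _).comp measurable_snd)
  have hWm : ∀ m, Measurable (W m) := by
    intro m
    induction m with
    | zero =>
      have : W 0 = fun _ => 1 := funext hW0
      rw [this]; exact measurable_const
    | succ m ih =>
      have : W (m + 1) = fun p => w p * W m (orb T p.1 p.2 R, fun j => p.2 (j + R)) :=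
        funext (hWs m)
      rw [this]; exact hw.mul (ih.comp hθ)
  have hW1 : ∀ m p, 1 ≤ W m p := by
    intro m
    induction m with
    | zero => intro p; rw [hW0]
    | succ m ih => intro p; rw [hWs]; exact one_le_mul (hw1 p) (ih _)
  have hWB : ∀ m p, W m p ≤ B ^ m := by
    intro m
    induction m with
    | zero => intro p; rw [hW0, pow_zero]
    | succ m ih => intro p; rw [hWs, pow_succ']; exact mul_le_mul' (hwB p) (ih _)
  set hf : ℕ → Y → ℝ≥0∞ := fun m y => ∫⁻ ω, W m (y, ω) ∂(iid P) with hhf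
  have hfm : ∀ m, Measurable (hf m) := fun m => (hWm m).lintegral_prod_right'
  have hf1 : ∀ m y, 1 ≤ hf m y := by
    intro m y
    calc (1 : ℝ≥0∞) = ∫⁻ _ω, 1 ∂(iid P) := by simp
      _ ≤ _ := lintegral_mono fun ω => hW1 m (y, ω)
  have hfB : ∀ m y, hf m y ≤ B ^ m := by
    intro m y
    calc hf m y ≤ ∫⁻ _ω, B ^ m ∂(iid P) := lintegral_mono fun ω => hWB m (y, ω)
      _ = _ := by simp
  have hn0 : ∀ m, ∫⁻ y, hf m y ^ 2 ∂μ ≠ 0 := by
    intro m
    have : (1 : ℝ≥0∞) ≤ ∫⁻ y, hf m y ^ 2 ∂μ := by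
      calc (1 : ℝ≥0∞) = ∫⁻ _y, 1 ∂μ := by simp
        _ ≤ _ := lintegral_mono fun y => one_le_pow₀ (hf1 m y)
    exact (zero_lt_one.trans_le this).ne'
  have hn1 : ∀ m, ∫⁻ y, hf m y ^ 2 ∂μ ≠ ⊤ := by
    intro m
    have : ∫⁻ y, hf m y ^ 2 ∂μ ≤ (B ^ m) ^ 2 := by
      calc ∫⁻ y, hf m y ^ 2 ∂μ ≤ ∫⁻ _y, (B ^ m) ^ 2 ∂μ :=
            lintegral_mono fun y => pow_le_pow_left' (hfB m y) 2
        _ = _ := by simp
    exact ne_top_of_le_ne_top (ENNReal.pow_ne_top (ENNReal.pow_ne_top hB)) this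
  have hrec : ∀ m y, hf (m + 1) y =
      ∫⁻ ω, w (y, ω) * hf m (orb T (y, ω).1 (y, ω).2 R) ∂(iid P) := by
    intro m y
    have hm1 : Measurable fun ω => W (m + 1) (y, ω) := (hWm _).comp measurable_prodMk_left
    have h1 := (mp_splice P R).lintegral_comp hm1
    have hm2 : Measurable fun p : (ℕ → N) × (ℕ → N) => W (m + 1) (y, splice R p.1 p.2) :=
      hm1.comp (measurable_splice R)
    change ∫⁻ ω, W (m + 1) (y, ω) ∂(iid P) = _
    rw [← h1, lintegral_prod _ hm2.aemeasurable]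
    refine lintegral_congr fun ω => ?_
    have e : ∀ ω', W (m + 1) (y, splice R ω ω') = w (y, ω) * W m (orb T y ω R, ω') := by
      intro ω'
      rw [hWs, hws]
      have e1 : orb T y (splice R ω ω') R = orb T y ω R :=
        orb_congr T y R fun j hj => by simp [splice, hj]
      have e2 : (fun j => splice R ω ω' (j + R)) = ω' := by
        funext j; simp [splice]
      simp only [e1, e2]
    simp only [e]
    have hm3 : Measurable fun ω' => W m (orb T y ω R, ω') := (hWm m).comp measurable_prodMk_left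
    exact lintegral_const_mul _ hm3
  have hsq : ∀ m, ∫⁻ y, hf m y ^ 2 ∂μ ≤ L ^ (2 * m) := by
    intro m
    induction m with
    | zero => simp [hhf, hW0]
    | succ m ih =>
      have := fk_norm μ (iid P) w hw (fun p => orb T p.1 p.2 R) (h.measurable_orb R) L H
        (hf m) (hf (m + 1)) (hfm m) (hfm _) (hrec m) (hn0 m) (hn1 m) (hn0 _) (hn1 _)
      calc _ ≤ _ := this
        _ ≤ L ^ 2 * L ^ (2 * m) := by gcongr
        _ = _ := by ring
  rw [lintegral_prod _ (hWm m).aemeasurable]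
  refine le_trans (lintegral_mono fun y => ?_) (hsq m)
  calc ∫⁻ ω, W m (y, ω) ∂(iid P) = hf m y * 1 := (mul_one _).symm
    _ ≤ hf m y * hf m y := by gcongr; exact hf1 m y
    _ = _ := (sq _).symm

theorem fk_measurable_sumU {k : ℕ} (h : RMP μ T) (U : Y → N → Rk k)
    (hU : Measurable fun p : Y × N => U p.1 p.2) (n : ℕ) :
    Measurable fun p : Y × (ℕ → N) => sumU T U p.1 p.2 n := by
  unfold sumU
  refine Finset.measurable_fun_sum _ fun i _ => ?_
  exact hU.comp ((h.measurable_orb i).prodMk ((measurable_pi_apply i).comp measurable_snd))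

theorem fk_measurable_defic {k : ℕ} (h : RMP μ T) (U : Y → N → Rk k)
    (hU : Measurable fun p : Y × N => U p.1 p.2) (κ : Wt k) (c ε₀ : ℝ) (i j : ℕ) :
    Measurable fun p : Y × (ℕ → N) => defic T U κ c ε₀ p.1 p.2 i j := by
  unfold defic
  have h1 : Measurable fun p : Y × (ℕ → N) => sumU T U p.1 p.2 j - sumU T U p.1 p.2 i :=
    (fk_measurable_sumU h U hU j).sub (fk_measurable_sumU h U hU i)
  exact ((h1.norm.const_mul c).sub (κ.continuous.measurable.comp h1)).sub measurable_const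

end

section
variable {Y N : Type} (T : N → Y → Y) {k : ℕ} (U : Y → N → Rk k) (κ : Wt k) (c ε₀ : ℝ)

theorem fk_sumU_add (y : Y) (ω : ℕ → N) (R n : ℕ) :
    sumU T U y ω (n + R) = sumU T U y ω R + sumU T U (orb T y ω R) (fun j => ω (j + R)) n := by
  induction n with
  | zero => simp [sumU]
  | succ n ih =>
    have e : ∀ (y : Y) (ω : ℕ → N) (n : ℕ),
        sumU T U y ω (n + 1) = sumU T U y ω n + U (orb T y ω n) (ω n) := fun y ω n =>
      Finset.sum_range_succ _ _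
    rw [Nat.add_right_comm, e, e, ih, orb_add, add_assoc]

theorem fk_sumU_congr (y : Y) {ω ω' : ℕ → N} (n : ℕ) (h : ∀ j < n, ω j = ω' j) :
    sumU T U y ω n = sumU T U y ω' n := by
  unfold sumU
  refine Finset.sum_congr rfl fun i hi => ?_
  have hi' := Finset.mem_range.1 hi
  rw [h i hi', orb_congr T y i fun j hj => h j (by omega)]

theorem fk_defic_shift (y : Y) (ω : ℕ → N) (R i j : ℕ) :
    defic T U κ c ε₀ y ω (i + R) (j + R) =
      defic T U κ c ε₀ (orb T y ω R) (fun j => ω (j + R)) i j := by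
  unfold defic
  rw [fk_sumU_add, fk_sumU_add, add_sub_add_left_eq_sub]
  push_cast
  ring

theorem fk_defic_sub (hc : 0 ≤ c) (y : Y) (ω : ℕ → N) (i j l : ℕ) :
    defic T U κ c ε₀ y ω i l ≤ defic T U κ c ε₀ y ω i j + defic T U κ c ε₀ y ω j l := by
  unfold defic
  have e : sumU T U y ω l - sumU T U y ω i =
      (sumU T U y ω j - sumU T U y ω i) + (sumU T U y ω l - sumU T U y ω j) := by abel
  rw [e, map_add]
  have h1 := mul_le_mul_of_nonneg_left
    (norm_add_le (sumU T U y ω j - sumU T U y ω i) (sumU T U y ω l - sumU T U y ω j)) hc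
  linarith

theorem fk_sumU_le {CU : ℝ} (hU : ∀ y g, ‖U y g‖ ≤ CU) (y : Y) (ω : ℕ → N) (i d : ℕ) :
    ‖sumU T U y ω (i + d) - sumU T U y ω i‖ ≤ CU * d := by
  induction d with
  | zero => simp
  | succ d ih =>
    have e : sumU T U y ω (i + (d + 1)) - sumU T U y ω i =
        (sumU T U y ω (i + d) - sumU T U y ω i) + U (orb T y ω (i + d)) (ω (i + d)) := by
      unfold sumU
      rw [← add_assoc, Finset.sum_range_succ]
      abel
    rw [e]
    refine (norm_add_le _ _).trans ?_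
    have := hU (orb T y ω (i + d)) (ω (i + d))
    push_cast
    linarith

theorem fk_defic_le {CU : ℝ} (hU : ∀ y g, ‖U y g‖ ≤ CU) (hc : 0 ≤ c) (hε : 0 ≤ ε₀) (y : Y)
    (ω : ℕ → N) (R i j : ℕ) (h1 : i ≤ j + R) (h2 : j ≤ i + R) :
    defic T U κ c ε₀ y ω i j ≤ ((c + ‖κ‖) * |CU| + ε₀ + 1) * R := by
  have hR : (0 : ℝ) ≤ R := Nat.cast_nonneg R
  have hn : ‖sumU T U y ω j - sumU T U y ω i‖ ≤ |CU| * R := by
    rcases le_total i j with hij | hij
    · obtain ⟨d, rfl⟩ := Nat.exists_eq_add_of_le hij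
      have hd : (d : ℝ) ≤ R := by exact_mod_cast (by omega : d ≤ R)
      exact (fk_sumU_le T U hU y ω i d).trans
        (mul_le_mul (le_abs_self _) hd (Nat.cast_nonneg d) (abs_nonneg _))
    · obtain ⟨d, rfl⟩ := Nat.exists_eq_add_of_le hij
      have hd : (d : ℝ) ≤ R := by exact_mod_cast (by omega : d ≤ R)
      rw [norm_sub_rev]
      exact (fk_sumU_le T U hU y ω j d).trans
        (mul_le_mul (le_abs_self _) hd (Nat.cast_nonneg d) (abs_nonneg _))
  unfold defic
  generalize sumU T U y ω j - sumU T U y ω i = v at hn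
  have h3 : -κ v ≤ ‖κ‖ * ‖v‖ := (neg_le_abs _).trans (κ.le_opNorm v)
  have h4 : c * ‖v‖ ≤ c * (|CU| * R) := mul_le_mul_of_nonneg_left hn hc
  have h5 : ‖κ‖ * ‖v‖ ≤ ‖κ‖ * (|CU| * R) := mul_le_mul_of_nonneg_left hn (norm_nonneg _)
  have h6 : (i : ℝ) ≤ j + R := by exact_mod_cast h1
  have h7 : ε₀ * ((i : ℝ) - j) ≤ ε₀ * R := mul_le_mul_of_nonneg_left (by linarith) hε
  nlinarith

/-- The sum of the positive parts of the block deficiencies. -/
noncomputable def fkA (R m : ℕ) (p : Y × (ℕ → N)) : ℝ :=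
  ∑ t ∈ Finset.range m, max 0 (defic T U κ c ε₀ p.1 p.2 (t * R) ((t + 1) * R))

theorem fkA_succ (R m : ℕ) (p : Y × (ℕ → N)) :
    fkA T U κ c ε₀ R (m + 1) p = max 0 (defic T U κ c ε₀ p.1 p.2 0 R) +
      fkA T U κ c ε₀ R m (orb T p.1 p.2 R, fun j => p.2 (j + R)) := by
  unfold fkA
  rw [Finset.sum_range_succ', add_comm]
  congr 1
  · simp
  · refine Finset.sum_congr rfl fun t _ => ?_
    rw [← fk_defic_shift]
    congr 2 <;> ring

theorem fk_blocks (hc : 0 ≤ c) (R a d : ℕ) (p : Y × (ℕ → N)) :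
    defic T U κ c ε₀ p.1 p.2 (a * R) ((a + d) * R) ≤
      fkA T U κ c ε₀ R (a + d) p - fkA T U κ c ε₀ R a p := by
  induction d with
  | zero => simp [defic]
  | succ d ih =>
    have h1 := fk_defic_sub T U κ c ε₀ hc p.1 p.2 (a * R) ((a + d) * R) ((a + (d + 1)) * R)
    have h2 : fkA T U κ c ε₀ R (a + (d + 1)) p = fkA T U κ c ε₀ R (a + d) p +
        max 0 (defic T U κ c ε₀ p.1 p.2 ((a + d) * R) ((a + (d + 1)) * R)) :=
      Finset.sum_range_succ _ _
    have h3 := le_max_right 0 (defic T U κ c ε₀ p.1 p.2 ((a + d) * R) ((a + (d + 1)) * R))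
    linarith

theorem fkA_nonneg (R m : ℕ) (p : Y × (ℕ → N)) : 0 ≤ fkA T U κ c ε₀ R m p :=
  Finset.sum_nonneg fun _ _ => le_max_left _ _

theorem fkA_mono (R : ℕ) {m m' : ℕ} (h : m ≤ m') (p : Y × (ℕ → N)) :
    fkA T U κ c ε₀ R m p ≤ fkA T U κ c ε₀ R m' p :=
  Finset.sum_le_sum_of_subset_of_nonneg (Finset.range_mono h) fun _ _ _ => le_max_left _ _

theorem fk_det {CU : ℝ} (hU : ∀ y g, ‖U y g‖ ≤ CU) (hc : 0 ≤ c) (hε : 0 ≤ ε₀) (R : ℕ)
    (hR : 0 < R) (p : Y × (ℕ → N)) (i j l : ℕ) (hij : i ≤ j) (hjl : j ≤ l) :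
    defic T U κ c ε₀ p.1 p.2 i j ≤
      2 * (((c + ‖κ‖) * |CU| + ε₀ + 1) * R) + fkA T U κ c ε₀ R (l / R) p := by
  obtain ⟨d, hd⟩ := Nat.exists_eq_add_of_le (Nat.div_le_div_right (c := R) hij)
  have h1 := fk_defic_sub T U κ c ε₀ hc p.1 p.2 i (i / R * R) j
  have h2 := fk_defic_sub T U κ c ε₀ hc p.1 p.2 (i / R * R) (j / R * R) j
  have h3 := fk_blocks T U κ c ε₀ hc R (i / R) d p
  rw [← hd] at h3
  have hi1 := Nat.div_mul_le_self i R
  have hj1 := Nat.div_mul_le_self j R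
  have hi2 : i < i / R * R + R := Nat.lt_div_mul_add hR
  have hj2 : j < j / R * R + R := Nat.lt_div_mul_add hR
  have h4 := fk_defic_le T U κ c ε₀ hU hc hε p.1 p.2 R i (i / R * R) (by omega) (by omega)
  have h5 := fk_defic_le T U κ c ε₀ hU hc hε p.1 p.2 R (j / R * R) j (by omega) (by omega)
  have h6 := fkA_nonneg T U κ c ε₀ R (i / R) p
  have h7 := fkA_mono T U κ c ε₀ R (Nat.div_le_div_right (c := R) hjl) p
  linarith

end

theorem fk_pf : FK_stmt := by
  intro Y N _ _ μ _ P _ T h k U CU hUm hU κ c ε₀ hc hε hO ε hε0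
  set C' : ℝ := (c + ‖κ‖) * |CU| + ε₀ + 1 with hC'
  have hC0 : 0 < C' := by positivity
  set t : ℝ := 8 * C' / ε with ht
  have ht0 : 0 < t := by positivity
  obtain ⟨R, δ, hR, hδ, H⟩ := hO (ε / (8 * t)) (by positivity)
  have hR0 : (0 : ℝ) < R := by exact_mod_cast hR
  set M : ℝ := C' * R with hM
  have hM0 : 0 < M := by positivity
  set β : ℝ := min δ 1 / M with hβ
  have hβ0 : 0 < β := div_pos (lt_min hδ one_pos) hM0
  have hβM : β * M = min δ 1 := div_mul_cancel₀ _ hM0.ne'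
  set ψ : Y × (ℕ → N) → ℝ := fun p => max 0 (defic T U κ c ε₀ p.1 p.2 0 R) with hψ
  have hψm : Measurable ψ := measurable_const.max (fk_measurable_defic h U hUm κ c ε₀ 0 R)
  have hψ0 : ∀ p, 0 ≤ ψ p := fun p => le_max_left _ _
  have hψM : ∀ p, ψ p ≤ M := fun p =>
    max_le hM0.le (fk_defic_le T U κ c ε₀ hU hc hε p.1 p.2 R 0 R (by omega) (by omega))
  have hofψ : ∀ p, ENNReal.ofReal (ψ p) = ENNReal.ofReal (defic T U κ c ε₀ p.1 p.2 0 R) := by
    intro p
    rcases le_total 0 (defic T U κ c ε₀ p.1 p.2 0 R) with h1 | h1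
    · simp only [hψ, max_eq_right h1]
    · simp only [hψ, max_eq_left h1, ENNReal.ofReal_zero, ENNReal.ofReal_of_nonpos h1]
  have hL : 1 + β * (t * (ε / (8 * t) * R) + t⁻¹ * M) = 1 + β * (ε / 4 * R) := by
    rw [hM, ht]
    field_simp
    ring
  have hmain : ∀ m : ℕ, ∫⁻ p, ENNReal.ofReal (Real.exp (β * fkA T U κ c ε₀ R m p))
      ∂(μ.prod (iid P)) ≤ ENNReal.ofReal (1 + β * (ε / 4 * R)) ^ (2 * m) := by
    refine fk_iter h P R (fun p => ENNReal.ofReal (Real.exp (β * ψ p)))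
      (Real.measurable_exp.comp (hψm.const_mul β)).ennreal_ofReal
      (ENNReal.ofReal (Real.exp (β * M))) ENNReal.ofReal_ne_top (fun p => ?_) (fun p => ?_)
      (fun y ω ω' => ?_) _ (fun f g hf hg hf1 hg1 => ?_) _ (fun p => ?_) (fun m p => ?_)
    · exact ENNReal.one_le_ofReal.2 (Real.one_le_exp (mul_nonneg hβ0.le (hψ0 p)))
    · exact ENNReal.ofReal_le_ofReal
        (Real.exp_le_exp.2 (mul_le_mul_of_nonneg_left (hψM p) hβ0.le))
    · have e : sumU T U y (splice R ω ω') R = sumU T U y ω R :=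
        fk_sumU_congr T U y R fun j hj => by simp [splice, hj]
      have e0 : ∀ ω : ℕ → N, sumU T U y ω 0 = 0 := fun ω => by simp [sumU]
      simp only [hψ, defic, e, e0]
    · rw [← hL]
      have hF : Measurable fun p : Y × (ℕ → N) => f (orb T p.1 p.2 R) :=
        hf.comp (h.measurable_orb R)
      have hG : Measurable fun p : Y × (ℕ → N) => g p.1 := hg.comp measurable_fst
      refine fk_bilin (μ.prod (iid P)) (fun p => g p.1) (fun p => f (orb T p.1 p.2 R)) hG hF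
        ?_ ?_ ψ hψm M β δ (ε / (8 * t) * R) t hψ0 hψM hM0.le hβ0.le
        (hβM ▸ min_le_left _ _) (hβM ▸ min_le_right _ _) (by positivity) ht0 fun hh => ?_
      · exact ((measurePreserving_fst (μ := μ) (ν := iid P)).lintegral_comp
          (hg.pow_const 2)).trans_le hg1
      · exact ((fk_mp_orb h P R).lintegral_comp (hf.pow_const 2)).trans_le hf1
      · simp only [hofψ]
        exact H f g hf hg hf1 hg1 hh
    · simp [fkA]
    · rw [fkA_succ, mul_add, Real.exp_add, ENNReal.ofReal_mul (Real.exp_pos _).le]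
  refine ⟨Real.exp (2 * β * M), β * ε / 2, by positivity, fun l => ?_⟩
  have hAm : Measurable fun p => ENNReal.ofReal (Real.exp (β * fkA T U κ c ε₀ R (l / R) p)) := by
    refine (Real.measurable_exp.comp (Measurable.const_mul ?_ β)).ennreal_ofReal
    unfold fkA
    exact Finset.measurable_fun_sum _ fun s _ =>
      measurable_const.max (fk_measurable_defic h U hUm κ c ε₀ _ _)
  have hsub : {p : Y × (ℕ → N) | ∃ i j, i ≤ j ∧ j ≤ l ∧ ε * l < defic T U κ c ε₀ p.1 p.2 i j} ⊆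
      {p | ENNReal.ofReal (Real.exp (β * (ε * l - 2 * M))) ≤
        ENNReal.ofReal (Real.exp (β * fkA T U κ c ε₀ R (l / R) p))} := by
    rintro p ⟨i, j, hij, hjl, hp⟩
    have h1 := fk_det T U κ c ε₀ hU hc hε R hR p i j l hij hjl
    refine ENNReal.ofReal_le_ofReal (Real.exp_le_exp.2 (mul_le_mul_of_nonneg_left ?_ hβ0.le))
    linarith
  have hmk := mul_meas_ge_le_lintegral₀ (μ := μ.prod (iid P)) hAm.aemeasurable
    (ENNReal.ofReal (Real.exp (β * (ε * l - 2 * M))))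
  have h2 : ENNReal.ofReal (1 + β * (ε / 4 * R)) ^ (2 * (l / R)) ≤
      ENNReal.ofReal (Real.exp (β * ε / 2 * l)) := by
    rw [← ENNReal.ofReal_pow (by positivity)]
    refine ENNReal.ofReal_le_ofReal ?_
    have h3 : 1 + β * (ε / 4 * R) ≤ Real.exp (β * (ε / 4 * R)) := by
      linarith [Real.add_one_le_exp (β * (ε / 4 * R))]
    refine (pow_le_pow_left₀ (by positivity) h3 _).trans ?_
    rw [← Real.exp_nat_mul]
    refine Real.exp_le_exp.2 ?_
    have h4 : ((l / R : ℕ) : ℝ) * R ≤ l := by exact_mod_cast Nat.div_mul_le_self l R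
    have h5 := mul_le_mul_of_nonneg_left h4 (by positivity : 0 ≤ β * ε / 2)
    push_cast
    linarith
  have h6 : ENNReal.ofReal (Real.exp (β * (ε * l - 2 * M))) * (μ.prod (iid P))
      {p : Y × (ℕ → N) | ∃ i j, i ≤ j ∧ j ≤ l ∧ ε * l < defic T U κ c ε₀ p.1 p.2 i j} ≤
      ENNReal.ofReal (Real.exp (β * ε / 2 * l)) :=
    ((mul_le_mul_right (measure_mono hsub) _).trans hmk).trans ((hmain _).trans h2)
  have h7 := ENNReal.toReal_mono ENNReal.ofReal_ne_top h6
  rw [ENNReal.toReal_mul, ENNReal.toReal_ofReal (Real.exp_pos _).le,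
    ENNReal.toReal_ofReal (Real.exp_pos _).le, ← le_div_iff₀' (Real.exp_pos _),
    ← Real.exp_sub] at h7
  rw [← Real.exp_add]
  refine h7.trans (le_of_eq ?_)
  congr 1
  ring

end Vale.Agent.P188
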