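import Vale.Agent.P188.Iid

/-! P188: a bounded space-time harmonic family for a random walk with summable steps is read off
from the limit point. -/

namespace Vale.Agent.P188.FibMA

open Function MeasureTheory Filter
open scoped ENNReal NNReal Topology symmDiff

set_option linter.unusedSectionVars false

variable {V : Type} [NormedAddCommGroup V] [NormedSpace ℝ V] [FiniteDimensional ℝ V]
  [MeasurableSpace V] [BorelSpace V] {μ : Measure V} [μ.IsAddHaarMeasure]

theorem int_bdd {X : Type} [MeasurableSpace X] {κ : Measure X} [IsFiniteMeasure κ] {f : X → ℝ}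
    (hf : Measurable f) {M : ℝ} (h : ∀ x, |f x| ≤ M) : Integrable f κ :=
  Integrable.of_bound hf.aestronglyMeasurable M (ae_of_all _ h)

theorem abs_int_le {X : Type} [MeasurableSpace X] {κ : Measure X} [IsProbabilityMeasure κ]
    {f : X → ℝ} {M : ℝ} (h : ∀ᵐ x ∂κ, |f x| ≤ M) : |∫ x, f x ∂κ| ≤ M := by
  simpa using norm_integral_le_of_norm_le_const (μ := κ) (f := f) (C := M) h

theorem int_mp {X Y Z : Type} [MeasurableSpace X] [MeasurableSpace Y] [MeasurableSpace Z]
    {κ : Measure X} {κ' : Measure Y} {P : Measure Z} [IsFiniteMeasure κ] [IsFiniteMeasure κ']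
    {φ : X × Y → Z} (hφ : MeasurePreserving φ (κ.prod κ') P) {f : Z → ℝ} (hf : Measurable f)
    {M : ℝ} (h : ∀ x, |f x| ≤ M) : ∫ z, f z ∂P = ∫ x, ∫ y, f (φ (x, y)) ∂κ' ∂κ := by
  rw [← hφ.map_eq, integral_map hφ.measurable.aemeasurable hf.aestronglyMeasurable]
  exact integral_prod _ (int_bdd (hf.comp hφ.measurable) fun _ => h _)

/-- continuity of translation in total variation -/
theorem tc {κ : Measure V} [IsFiniteMeasure κ] (hκ : κ ≪ μ) {ε : ℝ} (hε : 0 < ε) :
    ∃ δ > 0, ∀ v : V, ‖v‖ ≤ δ → ∀ g : V → ℝ, Measurable g → (∀ x, |g x| ≤ 1) →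
      |∫ x, g (x + v) ∂κ - ∫ x, g x ∂κ| ≤ ε := by
  have hf : Integrable (fun x => (κ.rnDeriv μ x).toReal) μ := Measure.integrable_toReal_rnDeriv
  set f := fun x => (κ.rnDeriv μ x).toReal with hfd
  let T : V → C(V, V) := fun v => ⟨fun x => x - v, by fun_prop⟩
  have hT : Continuous T := ContinuousMap.continuous_of_continuous_uncurry T
    (continuous_snd.sub continuous_fst)
  have hm : ∀ v, MeasurePreserving (T v) μ μ := fun v => measurePreserving_sub_right μ v
  have hc := (continuous_const (y := hf.toL1 f)).compMeasurePreservingLp hT hm ENNReal.one_ne_top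
  obtain ⟨δ, hδ, h⟩ := Metric.continuousAt_iff.1 (hc.continuousAt (x := 0)) ε hε
  refine ⟨δ / 2, half_pos hδ, fun v hv g hg hg1 => ?_⟩
  have h1 := h (x := v) (by rw [dist_zero_right]; linarith)
  have h2 : ∀ v, ∀ᵐ x ∂μ, Lp.compMeasurePreserving (T v) (hm v) (hf.toL1 f) x = f (x - v) :=
    fun v => (Lp.coeFn_compMeasurePreserving _ _).trans
      ((hm v).quasiMeasurePreserving.ae_eq_comp hf.coeFn_toL1)
  rw [L1.dist_eq_integral_dist] at h1
  have h3 : ∫ x, |f (x - v) - f x| ∂μ < ε := by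
    refine lt_of_eq_of_lt (integral_congr_ae ?_) h1
    filter_upwards [h2 v, h2 0] with x a1 a2
    rw [a1, a2, sub_zero, Real.dist_eq]
  have h4 : Integrable (fun x => f (x - v)) μ := hf.comp_sub_right v
  have h5 : ∀ {f : V → ℝ}, Integrable f μ → Integrable (fun x => f x * g x) μ := fun hf =>
    hf.mul_bdd hg.aestronglyMeasurable (ae_of_all _ hg1)
  rw [← integral_toReal_rnDeriv_mul hκ, ← integral_toReal_rnDeriv_mul hκ (f := g),
    ← integral_sub_right_eq_self (fun x => (κ.rnDeriv μ x).toReal * g (x + v)) v]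
  simp only [sub_add_cancel]
  rw [← integral_sub (h5 h4) (h5 hf)]
  rw [← Real.norm_eq_abs]
  refine le_trans (norm_integral_le_of_norm_le (h4.sub hf).abs (ae_of_all _ fun x => ?_)) h3.le
  rw [← sub_mul, norm_mul]
  exact mul_le_of_le_one_right (norm_nonneg _) (hg1 x)

theorem tc' {κ : Measure V} [IsFiniteMeasure κ] (hκ : κ ≪ μ) {ε : ℝ} (hε : 0 < ε) :
    ∃ δ > 0, ∀ y y' : V, ‖y - y'‖ ≤ δ → ∀ g : V → ℝ, Measurable g → (∀ x, |g x| ≤ 1) →
      |∫ x, g (y + x) ∂κ - ∫ x, g (y' + x) ∂κ| ≤ ε := by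
  obtain ⟨δ, hδ, h⟩ := tc hκ hε
  refine ⟨δ, hδ, fun y y' hy g hg hg1 => ?_⟩
  have := h _ hy (fun x => g (y' + x)) (hg.comp (measurable_const_add y')) fun x => hg1 _
  simpa only [add_comm _ (y - y'), sub_add_cancel, ← add_assoc] using this

/-- the ball average as an integral against a probability measure -/
theorem exists_avg (μ : Measure V) [μ.IsAddHaarMeasure] {r : ℝ} (hr : 0 < r) :
    ∃ κ : Measure V, IsProbabilityMeasure κ ∧ κ ≪ μ ∧ (∀ᵐ v ∂κ, ‖v‖ ≤ r) ∧
      ∀ (g : V → ℝ) (z : V), ⨍ y in Metric.ball z r, g y ∂μ = ∫ v, g (z + v) ∂κ := by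
  refine ⟨ProbabilityTheory.cond μ (Metric.ball 0 r),
    ProbabilityTheory.cond_isProbabilityMeasure_of_finite (Metric.measure_ball_pos μ 0 hr).ne' measure_ball_lt_top.ne,
    ProbabilityTheory.cond_absolutelyContinuous, ?_, fun g z => ?_⟩
  · exact (ProbabilityTheory.ae_cond_mem measurableSet_ball).mono fun v hv =>
      (mem_ball_zero_iff.1 hv).le
  · have h1 := (measurePreserving_add_left μ z).setIntegral_preimage_emb
      (measurableEmbedding_addLeft z) g (Metric.ball z r)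
    rw [preimage_add_ball, sub_self] at h1
    rw [setAverage_eq, ← h1, ProbabilityTheory.cond, integral_smul_measure, measureReal_def,
      Measure.addHaar_ball_center, ENNReal.toReal_inv]

variable {N : Type} [MeasurableSpace N] {ν : Measure N} [IsProbabilityMeasure ν]
  {ζ : ℕ → N → V}

/-- bounded space-time harmonic families -/
structure Harm (ν : Measure N) (ζ : ℕ → N → V) (g : ℕ → V → ℝ) : Prop where
  meas : ∀ j, Measurable (g j)
  nonneg : ∀ j y, 0 ≤ g j y
  le : ∀ j y, g j y ≤ 1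
  eq : ∀ j y, g j y = ∫ t, g (j + 1) (y + ζ j t) ∂ν

variable {g : ℕ → V → ℝ}

theorem Harm.mc (h : Harm ν ζ g) (j : ℕ) {X : Type} [MeasurableSpace X] {φ : X → V}
    (hφ : Measurable φ) : Measurable fun x => g j (φ x) := (h.meas j).comp hφ

theorem Harm.abs_le (h : Harm ν ζ g) (j : ℕ) (y : V) : |g j y| ≤ 1 :=
  (abs_of_nonneg (h.nonneg j y)).trans_le (h.le j y)

theorem Harm.avg (h : Harm ν ζ g) (hζ : ∀ j, Measurable (ζ j)) (κ : Measure V)
    [IsProbabilityMeasure κ] : Harm ν ζ fun j y => ∫ v, g j (y + v) ∂κ where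
  meas j := (StronglyMeasurable.integral_prod_right (f := fun y v => g j (y + v))
    ((h.meas j).comp measurable_add).stronglyMeasurable).measurable
  nonneg j y := integral_nonneg fun v => h.nonneg j _
  le j y := (le_abs_self _).trans (abs_int_le (ae_of_all _ fun v => h.abs_le j _))
  eq j y := by
    simp only [h.eq j]
    rw [integral_integral_swap (int_bdd (f := uncurry fun v t => g (j + 1) (y + v + ζ j t))
      (h.mc _ ((measurable_fst.const_add y).add ((hζ j).comp measurable_snd)))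
      fun p => h.abs_le _ _)]
    simp only [add_right_comm]

theorem meas_sum (hζ : ∀ j, Measurable (ζ j)) (j n : ℕ) (y : V) :
    Measurable fun ω : ℕ → N => y + ∑ i ∈ Finset.range n, ζ (j + i) (ω i) :=
  (Finset.measurable_sum _ fun i _ => (hζ _).comp (measurable_pi_apply i)).const_add y

theorem Harm.multi (h : Harm ν ζ g) (hζ : ∀ j, Measurable (ζ j)) (n : ℕ) : ∀ j y,
    ∫ ω, g (j + n) (y + ∑ i ∈ Finset.range n, ζ (j + i) (ω i)) ∂iid ν = g j y := by
  induction n with
  | zero => intro j y; simp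
  | succ n ih =>
    intro j y
    rw [int_mp (mp_consN ν) (h.mc _ (meas_sum hζ j _ y)) fun _ => h.abs_le _ _, h.eq j]
    refine integral_congr_ae (ae_of_all _ fun t => ?_)
    simp only
    rw [← ih (j + 1)]
    simp only [Finset.sum_range_succ', consN, add_zero, add_assoc, add_comm 1,
      add_comm (ζ j t)]

theorem Harm.cauchy (h : Harm ν ζ g) (hm : ∀ j y, Measurable fun t => g (j + 1) (y + ζ j t))
    {c δ ε : ℝ} (hc0 : 0 ≤ c) (hc : ∀ l t, ‖ζ l t‖ ≤ c * (1 / 2) ^ l)
    (he : ∀ j y y', ‖y - y'‖ ≤ δ → |g j y - g j y'| ≤ ε) (n : ℕ) : ∀ j y y',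
    ‖y - y'‖ + 2 * c * (1 / 2) ^ j ≤ δ → |g j y - g (j + n) y'| ≤ ε := by
  induction n with
  | zero =>
    intro j y y' hy
    exact he j y y' (le_trans (le_add_of_nonneg_right (by positivity)) hy)
  | succ n ih =>
    intro j y y' hy
    have e : g j y - g (j + (n + 1)) y' = ∫ t, (g (j + 1) (y + ζ j t) - g (j + 1 + n) y') ∂ν := by
      rw [integral_sub (int_bdd (hm j y) fun _ => h.abs_le _ _) (integrable_const _), ← h.eq,
        integral_const, probReal_univ, one_smul, add_assoc, add_comm 1]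
    rw [e]
    refine abs_int_le (ae_of_all _ fun t => ih _ _ _ ?_)
    have h1 := norm_add_le (y - y') (ζ j t)
    rw [← add_sub_right_comm] at h1
    have h2 := hc j t
    rw [pow_succ]
    linarith

theorem exists_cyl {A : Set (ℕ → N)} (hA : MeasurableSet A) {ε : ℝ} (hε : 0 < ε) :
    ∃ (k : ℕ) (B : Set (ℕ → N)), MeasurableSet B ∧ (∀ ω ω', splice k ω ω' ∈ B ↔ ω ∈ B) ∧
      (iid ν).real (A ∆ B) ≤ ε := by
  have hd := Measure.MeasureDense.of_generateFrom_isSetAlgebra_finite (μ := iid ν)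
    isSetAlgebra_measurableCylinders generateFrom_measurableCylinders.symm
  obtain ⟨B, hB, h⟩ := hd.approx A hA (measure_ne_top _ _) ε hε
  obtain ⟨s, S, -, rfl⟩ := (mem_measurableCylinders B).1 hB
  refine ⟨s.sup id + 1, _, hd.measurable _ hB, fun ω ω' => ?_,
    ENNReal.toReal_le_of_le_ofReal hε.le h.le⟩
  have : s.restrict (splice (s.sup id + 1) ω ω') = s.restrict ω := funext fun i =>
    if_pos (Nat.lt_succ_of_le (Finset.le_sup (f := id) i.2))
  rw [mem_cylinder, mem_cylinder, this]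

theorem sum_splice (k n : ℕ) (x : V) (ω ω' : ℕ → N) :
    x + ∑ i ∈ Finset.range (k + n), ζ (0 + i) (splice k ω ω' i) =
      x + ∑ i ∈ Finset.range k, ζ (0 + i) (ω i) + ∑ i ∈ Finset.range n, ζ (k + i) (ω' i) := by
  rw [Finset.sum_range_add, add_assoc]
  congr 2
  · exact Finset.sum_congr rfl fun i hi => by rw [splice, if_pos (Finset.mem_range.1 hi)]
  · exact Finset.sum_congr rfl fun i _ => by simp [splice]

/-- the main estimate in mean -/
theorem l1_bound (hζ : ∀ j, Measurable (ζ j)) {A : Set (ℕ → N)}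
    (hA : MeasurableSet A) {x : V} (hx : ∀ k ω, (iid ν).real {ω' | splice k ω ω' ∈ A} =
      g k (x + ∑ i ∈ Finset.range k, ζ (0 + i) (ω i))) {k : ℕ} {B : Set (ℕ → N)}
    (hB : MeasurableSet B) (hk : ∀ ω ω', splice k ω ω' ∈ B ↔ ω ∈ B) {h : ℕ → V → ℝ}
    (hh : Harm ν ζ h) {ε : ℝ} (he : ∀ y, |g k y - h k y| ≤ ε) (n : ℕ) :
    ∫ ω, |A.indicator 1 ω - h (k + n) (x + ∑ i ∈ Finset.range (k + n), ζ (0 + i) (ω i))| ∂iid ν ≤
      ε + 2 * (iid ν).real (A ∆ B) := by
  classical
  set Y : (ℕ → N) → ℝ := fun ω =>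
    A.indicator 1 ω - h (k + n) (x + ∑ i ∈ Finset.range (k + n), ζ (0 + i) (ω i)) with hY
  have mY : Measurable Y := (measurable_one.indicator hA).sub
    ((hh.meas _).comp (meas_sum hζ 0 _ x))
  have bY : ∀ ω, |Y ω| ≤ 1 := fun ω => by
    have h1 := hh.nonneg (k + n) (x + ∑ i ∈ Finset.range (k + n), ζ (0 + i) (ω i))
    have h2 := hh.le (k + n) (x + ∑ i ∈ Finset.range (k + n), ζ (0 + i) (ω i))
    rw [abs_le]
    by_cases hω : ω ∈ A <;> simp only [hY, hω, Set.indicator_of_mem, Set.indicator_of_notMem,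
      not_false_eq_true, Pi.one_apply] <;> constructor <;> linarith
  set ψ : (ℕ → N) → ℝ := fun ω => if ω ∈ B then 1 else -1 with hψ
  have mψ : Measurable ψ := Measurable.ite hB measurable_const measurable_const
  have bψ : ∀ ω, |ψ ω| = 1 := fun ω => by
    simp only [hψ]
    split_ifs <;> simp
  have bψY : ∀ ω, |ψ ω * Y ω| ≤ 1 := fun ω => by rw [abs_mul, bψ, one_mul]; exact bY ω
  have h1 : ∀ ω, |Y ω| ≤ ψ ω * Y ω + 2 * (A ∆ B).indicator 1 ω := fun ω => by
    have h1 := hh.nonneg (k + n) (x + ∑ i ∈ Finset.range (k + n), ζ (0 + i) (ω i))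
    have h2 := hh.le (k + n) (x + ∑ i ∈ Finset.range (k + n), ζ (0 + i) (ω i))
    rw [abs_le]
    by_cases a : ω ∈ A <;> by_cases b : ω ∈ B <;>
      simp only [hY, hψ, Set.indicator_apply, Set.mem_symmDiff, a, b, if_true, if_false,
        not_true, not_false_eq_true, and_true, and_false, or_false, or_true,
        Pi.one_apply] <;> constructor <;> linarith
  have iψ : Integrable (fun ω => ψ ω * Y ω) (iid ν) := int_bdd (mψ.fun_mul mY) bψY
  have iD : Integrable ((A ∆ B).indicator (1 : (ℕ → N) → ℝ)) (iid ν) :=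
    (integrable_const (1 : ℝ)).indicator (hA.symmDiff hB)
  refine (integral_mono (int_bdd mY.abs fun ω => (abs_abs _).trans_le (bY ω))
    (iψ.add (iD.const_mul 2)) h1).trans ?_
  rw [integral_add' iψ (iD.const_mul 2), integral_const_mul,
    integral_indicator_one (hA.symmDiff hB)]
  refine add_le_add ?_ le_rfl
  rw [int_mp (mp_splice ν k) (mψ.fun_mul mY) bψY]
  refine (le_abs_self _).trans (abs_int_le (ae_of_all _ fun ω => ?_))
  have ms : Measurable fun ω' => splice k ω ω' :=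
    (measurable_splice k).comp measurable_prodMk_left
  have e1 : ∀ ω', ψ (splice k ω ω') = ψ ω := fun ω' => by simp only [hψ, hk]
  have e2 : ∫ ω', A.indicator (1 : (ℕ → N) → ℝ) (splice k ω ω') ∂iid ν =
      (iid ν).real {ω' | splice k ω ω' ∈ A} := integral_indicator_one (ms hA)
  have i1 : Integrable (fun ω' => A.indicator (1 : (ℕ → N) → ℝ) (splice k ω ω')) (iid ν) :=
    (integrable_const (1 : ℝ)).indicator (ms hA)
  simp only [e1, hY, sum_splice]
  rw [integral_const_mul, integral_sub i1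
    (int_bdd (hh.mc _ (meas_sum hζ k n _)) fun _ => hh.abs_le _ _), hh.multi hζ, abs_mul,
    bψ, one_mul, e2, hx]
  exact he _

theorem norm_tail {c : ℝ} {z : ℕ → V} (hc : ∀ l, ‖z l‖ ≤ c * (1 / 2) ^ l) (l : ℕ) :
    ‖∑ i ∈ Finset.range l, z i - ∑' i, z i‖ ≤ 2 * c * (1 / 2) ^ l := by
  have := FiniteDimensional.complete ℝ V
  have hs : Summable z := Summable.of_norm_bounded (summable_geometric_two.mul_left c) hc
  have h := norm_sub_le_of_geometric_bound_of_hasSum (by norm_num) hc hs.hasSum l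
  refine h.trans (le_of_eq ?_)
  ring

theorem main (μ : Measure V) [μ.IsAddHaarMeasure] (hg : Harm ν ζ g) (hζ : ∀ j, Measurable (ζ j))
    (hac : ∀ j, ν.map (ζ j) ≪ μ) {c : ℝ} (hc0 : 0 ≤ c) (hc : ∀ l t, ‖ζ l t‖ ≤ c * (1 / 2) ^ l)
    {A : Set (ℕ → N)} (hA : MeasurableSet A) {x : V}
    (hx : ∀ k ω, (iid ν).real {ω' | splice k ω ω' ∈ A} =
      g k (x + ∑ i ∈ Finset.range k, ζ (0 + i) (ω i))) :
    Tendsto (fun n : ℕ => (iid ν).real {ω | ¬ (ω ∈ A ↔ 1 / 2 < limsup (fun j =>
      ⨍ y in Metric.ball (x + ∑' l, ζ l (ω l)) (1 / ((n : ℝ) + 1)), g j y ∂μ) atTop)})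
      atTop (𝓝 0) := by
  refine Metric.tendsto_atTop'.2 fun ε hε => ?_
  obtain ⟨k, B, hB, hk, hAB⟩ := exists_cyl (ν := ν) hA (show 0 < ε / 16 by positivity)
  have := Measure.isProbabilityMeasure_map (μ := ν) (hζ k).aemeasurable
  obtain ⟨δ, hδ, h1⟩ := tc' (hac k) (show 0 < ε / 16 by positivity)
  have h2 : ∀ y y', ‖y - y'‖ ≤ δ → |g k y - g k y'| ≤ ε / 16 := fun y y' hy => by
    have := h1 y y' hy _ (hg.meas (k + 1)) (hg.abs_le _)
    rwa [integral_map (hζ k).aemeasurable (hg.mc _ (measurable_const_add y)).aestronglyMeasurable,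
      integral_map (hζ k).aemeasurable (hg.mc _ (measurable_const_add y')).aestronglyMeasurable,
      ← hg.eq, ← hg.eq] at this
  obtain ⟨n₀, hn₀⟩ := exists_nat_one_div_lt hδ
  refine ⟨n₀, fun n hn => ?_⟩
  obtain ⟨κ, _, hκ, hr, hav⟩ := exists_avg μ (Nat.one_div_pos_of_nat (α := ℝ) (n := n))
  simp only [hav]
  have hh := hg.avg hζ κ
  set h : ℕ → V → ℝ := fun j y => ∫ v, g j (y + v) ∂κ with hhd
  have h3 : ∀ y, |g k y - h k y| ≤ ε / 16 := fun y => by
    have e : g k y - h k y = ∫ v, (g k y - g k (y + v)) ∂κ := by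
      rw [integral_sub (integrable_const _) (int_bdd (hg.mc k (measurable_const_add y))
        fun _ => hg.abs_le _ _), integral_const, probReal_univ, one_smul]
    rw [e]
    refine abs_int_le (hr.mono fun v hv => h2 _ _ ?_)
    rw [sub_add_cancel_left, norm_neg]
    exact hv.trans ((Nat.one_div_le_one_div hn.le).trans hn₀.le)
  obtain ⟨δ', hδ', h4⟩ := tc' hκ (show (0 : ℝ) < 1 / 4 by norm_num)
  have h5 := hh.cauchy (fun j y => (hh.meas _).comp ((hζ j).const_add y)) hc0 hc
    fun j y y' hy => h4 y y' hy _ (hg.meas j) (hg.abs_le j)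
  have t1 : Tendsto (fun l : ℕ => 4 * c * (1 / 2 : ℝ) ^ l) atTop (𝓝 0) := by
    simpa using (tendsto_pow_atTop_nhds_zero_of_lt_one (r := (1 / 2 : ℝ)) (by norm_num)
      (by norm_num)).const_mul (4 * c)
  obtain ⟨l, l1, l2⟩ := ((t1.eventually (ge_mem_nhds hδ')).and (eventually_ge_atTop k)).exists
  obtain ⟨p, rfl⟩ := Nat.exists_eq_add_of_le l2
  have h6 := l1_bound hζ hA hx hB hk hh h3 p
  have mY : Measurable fun ω => A.indicator (1 : (ℕ → N) → ℝ) ω -
      h (k + p) (x + ∑ i ∈ Finset.range (k + p), ζ (0 + i) (ω i)) :=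
    (measurable_one.indicator hA).sub (hh.mc _ (meas_sum hζ 0 (k + p) x))
  have h7 := mul_meas_ge_le_integral_of_nonneg (μ := iid ν) (ae_of_all _ fun ω => abs_nonneg _)
    (int_bdd (M := 2) mY.abs fun ω => by
      rw [abs_abs]
      refine (abs_sub _ _).trans ?_
      have := hh.abs_le (k + p) (x + ∑ i ∈ Finset.range (k + p), ζ (0 + i) (ω i))
      have : |A.indicator (1 : (ℕ → N) → ℝ) ω| ≤ 1 := by
        by_cases a : ω ∈ A <;> simp [a]
      linarith) (1 / 4)
  have h8 := h7.trans h6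
  rw [Real.dist_eq, sub_zero, abs_of_nonneg measureReal_nonneg]
  refine lt_of_le_of_lt (measureReal_mono (fun ω hω => ?_) (measure_ne_top _ _))
    (lt_of_mul_lt_mul_left (h8.trans_lt (by linarith)) (show (0 : ℝ) ≤ 1 / 4 by norm_num))
  have a1 := norm_tail (fun l => hc l (ω l)) (k + p)
  simp only [Set.mem_ofPred_eq, zero_add] at hω ⊢
  set X := x + ∑ i ∈ Finset.range (k + p), ζ i (ω i) with hX
  set Z := x + ∑' l, ζ l (ω l) with hZ
  have a2 : ∀ᶠ j in atTop, |h (k + p) X - h j Z| ≤ 1 / 4 :=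
    (eventually_ge_atTop (k + p)).mono fun j hj => by
      obtain ⟨q, rfl⟩ := Nat.exists_eq_add_of_le hj
      refine h5 q _ _ _ ?_
      rw [hX, hZ, add_sub_add_left_eq_sub]
      linarith
  have b1 : IsBoundedUnder (· ≤ ·) atTop fun j => h j Z :=
    isBoundedUnder_of ⟨1, fun j => hh.le j Z⟩
  have b2 : IsCoboundedUnder (· ≤ ·) atTop fun j => h j Z :=
    isCoboundedUnder_le_of_le atTop fun j => hh.nonneg j Z
  have a3 : limsup (fun j => h j Z) atTop ≤ h (k + p) X + 1 / 4 :=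
    limsup_le_of_le b2 (a2.mono fun j hj => by linarith [(abs_le.1 hj).1])
  have a4 : h (k + p) X - 1 / 4 ≤ limsup (fun j => h j Z) atTop :=
    le_limsup_of_frequently_le (a2.mono fun j hj => by linarith [(abs_le.1 hj).2]).frequently b1
  by_cases a : ω ∈ A
  · simp only [a, true_iff, not_lt] at hω
    rw [Set.indicator_of_mem a, Pi.one_apply]
    exact le_trans (by linarith) (le_abs_self _)
  · simp only [a, false_iff, not_not] at hω
    rw [Set.indicator_of_notMem a]
    exact le_trans (by linarith) (neg_le_abs _)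

end Vale.Agent.P188.FibMA
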