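import Vale.Agent.P188.LayerB
import Vale.Agent.P188.FibMA

/-! P188: identification of the fibre event through the limit in the contracted directions. -/

namespace Vale.Agent.P188

open Function MeasureTheory Filter Matrix
open scoped ENNReal NNReal Topology

namespace FibMA

theorem noise_ac (m : ℕ) : noiseM m ≪ volume := by
  induction m with
  | zero =>
    rw [noiseM, volume_pi, Measure.pi_of_empty, Measure.pi_of_empty]
  | succ m ih =>
    have h1 := (measurePreserving_piFinSuccAbove (fun _ : Fin (m + 1) => rho1) 0).symm _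
    have h2 := (volume_preserving_piFinSuccAbove (fun _ : Fin (m + 1) => ℝ) 0).symm _
    rw [noiseM, ← h1.map_eq, ← h2.map_eq]
    exact ((withDensity_absolutelyContinuous _ _).prod ih).map h1.measurable

variable {k : ℕ} (L : Layer k) (a : Rk k)

theorem map_ac (b : Zk k) {R : ℝ} (hR : R ≠ 0) :
    (noiseM L.m).map (fun t => (L.Bm a b).mulVec (L.pr a (R • clamp t))) ≪ volume := by
  let T : (Fin L.m → ℝ) →ₗ[ℝ] (L.Neg a → ℝ) :=
    (L.Bm a b).mulVecLin ∘ₗ LinearMap.funLeft ℝ ℝ Subtype.val ∘ₗ (R • LinearMap.id)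
  have hT : ∀ t, T t = (L.Bm a b).mulVec (L.pr a (R • t)) := fun _ => rfl
  have hs : Surjective T := fun y => ⟨R⁻¹ • L.emb a ((L.Bm a b⁻¹).mulVec y), by
    rw [hT, smul_smul, mul_inv_cancel₀ hR, one_smul, L.pr_emb, ← L.Bm_mulVec_mul, mul_inv_cancel,
      L.Bm_one, one_mulVec]⟩
  have hm : Measurable fun t => T (clamp t) :=
    (T.continuous_of_finiteDimensional.comp continuous_clamp).measurable
  refine Measure.AbsolutelyContinuous.mk fun S hS h0 => ?_
  have h1 := (ae_comp_linearMap_mem_iff T volume volume hs hS.compl).2 (compl_mem_ae_iff.2 h0)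
  have h2 : ∀ᵐ t ∂noiseM L.m, T (clamp t) ∈ Sᶜ := by
    filter_upwards [(noise_ac L.m).ae_le h1, ae_clamp] with t a1 a2
    rwa [a2]
  exact compl_mem_ae_iff.1 ((ae_map_iff hm.aemeasurable hS.compl).2 h2)

theorem continuous_emb : Continuous (L.emb a) := by
  refine continuous_pi fun i => ?_
  unfold Layer.emb
  split_ifs
  · exact continuous_apply _
  · exact continuous_const

theorem measurable_fibG {m : ℕ} {A : Set ((Fin m → ℝ) × (ℕ → Fin m → ℝ))} (hA : MeasurableSet A) :
    Measurable (fibG A) := (measurable_measure_prodMk_left hA).ennreal_toReal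

variable {L} {β : ℕ → Zk k} {R : ℝ} {F : ℕ → Set ((Fin L.m → ℝ) × (ℕ → Fin L.m → ℝ))}

theorem fib_iter (h : FibSys L β R F) (X : Fin L.m → ℝ) (ω : ℕ → Fin L.m → ℝ) (n : ℕ) :
    (X, ω) ∈ F 0 ↔ (X + ∑ i ∈ Finset.range n, (L.B (β i)).mulVec (R • clamp (ω i)),
      fun l => ω (l + n)) ∈ F n := by
  induction n with
  | zero => simp
  | succ n ih =>
    rw [ih, h.2, Finset.sum_range_succ, add_assoc, zero_add]
    simp only [add_assoc, add_comm 1]

theorem fib_step (h : FibSys L β R F) (j : ℕ) (X : Fin L.m → ℝ) : fibG (F j) X =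
    ∫ t, fibG (F (j + 1)) (X + (L.B (β j)).mulVec (R • clamp t)) ∂noiseM L.m := by
  have hm : MeasurableSet {ω | (X, ω) ∈ F j} := measurable_prodMk_left (h.1 j)
  rw [fibG, ← integral_indicator_one hm, int_mp (mp_consN (noiseM L.m))
    (measurable_one.indicator hm) (M := 1) fun ω => by
      by_cases a : ω ∈ {ω | (X, ω) ∈ F j} <;> simp [a]]
  refine integral_congr_ae (ae_of_all _ fun t => ?_)
  have hm' : MeasurableSet {ω | (X + (L.B (β j)).mulVec (R • clamp t), ω) ∈ F (j + 1)} :=
    measurable_prodMk_left (h.1 (j + 1))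
  simp only
  rw [fibG, ← integral_indicator_one hm']
  refine integral_congr_ae (ae_of_all _ fun ω => ?_)
  exact Set.indicator_eq_indicator (h.2 j X (consN t ω)) rfl

end FibMA

open FibMA in
theorem fibM_pf : FibM_stmt := by
  intro k L a β R hR ⟨C, hC⟩ F hF hP X
  have h1 : ∀ j Y, fibG (F j) Y = fibG (F j) (L.emb a (L.pr a Y)) := fun j Y => by
    rw [← hP j (L.emb a (L.pr a Y)) (Y - L.emb a (L.pr a Y))
      (by rw [L.pr_sub, L.pr_emb, sub_self]), add_sub_cancel]
  have hc : Continuous fun t : Fin L.m → ℝ => L.pr a (R • clamp t) :=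
    continuous_pi fun i => (continuous_apply i.1).comp (continuous_clamp.const_smul R)
  refine main (ν := noiseM L.m) (g := fun j y => fibG (F j) (L.emb a y))
    (ζ := fun l t => (L.Bm a (β l)).mulVec (L.pr a (R • clamp t))) (c := |C| * |R|)
    (A := {t | (X, t) ∈ F 0}) volume
    ⟨fun j => (measurable_fibG (hF.1 j)).comp (continuous_emb L a).measurable,
      fun _ _ => measureReal_nonneg, fun _ _ => measureReal_le_one, fun j y => ?_⟩
    (fun j => (continuous_const.matrix_mulVec hc).measurable) (fun j => map_ac L a _ hR)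
    (by positivity) (fun l t => (hC l _).trans ?_) (measurable_prodMk_left (hF.1 0)) fun n ω => ?_
  · rw [fib_step hF]
    refine integral_congr_ae (ae_of_all _ fun t => ?_)
    simp only
    rw [h1, L.pr_add, L.pr_emb, L.pr_B]
  · have h2 : ‖L.pr a (R • clamp t)‖ ≤ |R| := (L.norm_pr_le a _).trans (by
      rw [norm_smul, Real.norm_eq_abs]
      exact mul_le_of_le_one_right (abs_nonneg R) (norm_clamp_le t))
    rw [mul_right_comm]
    exact mul_le_mul_of_nonneg_right (mul_le_mul (le_abs_self C) h2 (norm_nonneg _) (abs_nonneg C))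
      (by positivity)
  · have h3 : L.pr a (X + ∑ i ∈ Finset.range n, (L.B (β i)).mulVec (R • clamp (ω i))) = L.pr a X +
        ∑ i ∈ Finset.range n, (L.Bm a (β (0 + i))).mulVec (L.pr a (R • clamp (ω i))) := by
      simp only [zero_add, ← L.pr_B]
      funext i
      simp [Layer.pr]
    rw [← h3, ← h1, fibG]
    congr 1
    ext ω'
    simp only [Set.mem_ofPred_eq]
    rw [fib_iter hF X _ n, Finset.sum_congr rfl fun i hi => by
      rw [splice, if_pos (Finset.mem_range.1 hi)]]
    simp [splice]

end Vale.Agent.P188
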