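import Vale.Agent.P188.FibPA

/-! P188: merging in the non-contracted directions. -/

namespace Vale.Agent.P188

open Function MeasureTheory Filter Matrix
open scoped Topology

theorem fp_meas {m : ℕ} {A : Set ((Fin m → ℝ) × (ℕ → Fin m → ℝ))} (hA : MeasurableSet A) :
    Measurable (fibG A) := (measurable_measure_prodMk_left hA).ennreal_toReal

theorem fp_mem {m : ℕ} (A : Set ((Fin m → ℝ) × (ℕ → Fin m → ℝ))) (X : Fin m → ℝ) :
    0 ≤ fibG A X ∧ fibG A X ≤ 1 := ⟨measureReal_nonneg, measureReal_le_one⟩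

variable {k : ℕ} {L : Layer k} {β : ℕ → Zk k} {R : ℝ}
  {F : ℕ → Set ((Fin L.m → ℝ) × (ℕ → Fin L.m → ℝ))}

theorem fp_one (h : FibSys L β R F) (j : ℕ) (X : Fin L.m → ℝ) :
    fibG (F j) X = ∫ t, fibG (F (j + 1)) (X + (L.B (β j)).mulVec (R • t)) ∂noiseM L.m := by
  have h1 : MeasurableSet {p : (Fin L.m → ℝ) × (ℕ → Fin L.m → ℝ) |
      (X + (L.B (β j)).mulVec (R • clamp p.1), p.2) ∈ F (j + 1)} := by
    have := continuous_clamp (m := L.m)
    exact (Measurable.prodMk (Continuous.measurable (by fun_prop)) measurable_snd) (h.1 _)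
  have h2 := (mp_headTail (noiseM L.m)).measure_preimage h1.nullMeasurableSet
  rw [Measure.prod_apply h1] at h2
  have h3 := integral_toReal (μ := noiseM L.m)
    (measurable_measure_prodMk_left (ν := iid (noiseM L.m)) h1).aemeasurable
    (ae_of_all _ fun _ => measure_lt_top _ _)
  rw [← h2] at h3
  refine Eq.trans (congrArg (iid (noiseM L.m)).real (Set.ext fun t => h.2 j X t))
    (h3.symm.trans ?_)
  refine integral_congr_ae (ae_clamp.mono fun t ht => ?_)
  simp only [Set.preimage_ofPred_eq, ht]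
  rfl

theorem fp_merge (h : FibSys L β R F) (U : Submodule ℝ (Fin L.m → ℝ))
    (hU : ∀ u ∈ U, ∀ j X, fibG (F j) (X + u) = fibG (F j) X) {δ : ℕ → Fin L.m → ℝ} {ε : ℝ}
    (hε : ε ≤ 1 / 2) (hδ : ∀ l, ‖δ l‖ ≤ ε) (n : ℕ) : ∀ (j : ℕ) (X Y : Fin L.m → ℝ),
    Y - X - ∑ l ∈ Finset.range n, (L.B (β (j + l))).mulVec (R • δ (j + l)) ∈ U →
    Aff (((1 - 3 * ε ^ 2) ^ L.m) ^ n) (fibG (F j) X) (fibG (F j) Y) := by
  have h0 : 0 ≤ ε := (norm_nonneg _).trans (hδ 0)
  induction n with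
  | zero =>
    intro j X Y h1
    have h2 := hU _ h1 j X
    simp only [Finset.range_zero, Finset.sum_empty, sub_zero, add_sub_cancel] at h2
    rw [h2, pow_zero]
    exact aff_self (fp_mem _ _).1 (fp_mem _ _).2
  | succ n ih =>
    intro j X Y h1
    rw [fp_one h, fp_one h j Y, pow_succ]
    refine fp_step ((fp_meas (h.1 _)).comp (Continuous.measurable (by fun_prop)))
      ((fp_meas (h.1 _)).comp (Continuous.measurable (by fun_prop))) (fun _ => fp_mem _ _)
      (fun _ => fp_mem _ _) hε (hδ j) (pow_nonneg (pow_nonneg (by nlinarith) _) _)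
      fun t => ih _ _ _ ?_
    convert h1 using 1
    simp only [Finset.sum_range_succ', smul_sub, mulVec_sub, add_zero, add_assoc, add_comm 1]
    abel

theorem fp_le_one {r K t : ℝ} {d : ℕ} (ht : 0 ≤ t) (h : ∀ n : ℕ, r ^ n ≤ K * (1 + n * t) ^ d) :
    r ≤ 1 := by
  by_contra! hr
  have hK : 0 ≤ K := by linarith [show (1 : ℝ) ≤ K by simpa using h 0]
  have h1 := (tendsto_pow_const_div_const_pow_of_one_lt d hr).const_mul (K * (1 + t) ^ d)
  refine absurd (ge_of_tendsto h1 (b := 1) ?_) (by simp)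
  filter_upwards [eventually_ge_atTop 1] with n hn
  have hn' : (1 : ℝ) ≤ n := by exact_mod_cast hn
  rw [← mul_div_assoc, le_div_iff₀ (by positivity), one_mul, mul_assoc, ← mul_pow]
  refine (h n).trans (mul_le_mul_of_nonneg_left (pow_le_pow_left₀ (by positivity) ?_ d) hK)
  nlinarith

theorem fp_pr (a : Rk k) (b : Zk k) {v : Fin L.m → ℝ} (hv : L.pr a v = 0) :
    L.pr a ((L.B b).mulVec v) = 0 := by rw [L.pr_B, hv, mulVec_zero]

theorem fp_growth (L : Layer k) (a : Rk k) : ∃ (K : ℝ) (d : ℕ), ∀ (b : Zk k) (C : ℝ),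
    (∀ i, ¬ L.wt i a < 0 → L.wt i (toR b) ≤ C) → ∀ v, L.pr a v = 0 →
    ‖(L.B b).mulVec v‖ ≤ K * (1 + ‖toR b‖) ^ d * Real.exp C * ‖v‖ := by
  obtain ⟨K, d, h⟩ := L.bound
  refine ⟨L.m * |K|, d, fun b C hC v hv => (pi_norm_le_iff_of_nonneg (by positivity)).2
    fun i => ?_⟩
  by_cases hi : L.wt i a < 0
  · rw [show (L.B b).mulVec v i = 0 from congrFun (fp_pr a b hv) ⟨i, hi⟩, norm_zero]
    positivity
  refine (norm_sum_le_of_le (f := fun j => L.B b i j * v j)
    (n := fun _ => |K| * (1 + ‖toR b‖) ^ d * Real.exp C * ‖v‖) Finset.univ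
    fun j _ => ?_).trans_eq ?_
  · rw [norm_mul]
    refine mul_le_mul ((h b i j).trans ?_) (norm_le_pi_norm v j) (norm_nonneg _) (by positivity)
    have := hC i hi
    gcongr
    exact le_abs_self K
  · simp only [Finset.sum_const, Finset.card_univ, Fintype.card_fin, nsmul_eq_mul]
    ring

theorem fp_eig {W : Type} [NormedAddCommGroup W] [NormedSpace ℝ W] [FiniteDimensional ℝ W]
    {U : Submodule ℝ W} {x : ℂ →ₗ[ℝ] W} {z : ℂ} (hz : x z ∉ U) {T : ℕ → W → W} {l : ℂ}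
    (hl : l ≠ 0) (h : ∀ n z, T n (x z) - x (l ^ n * z) ∈ U) {K t e : ℝ} {d : ℕ} (ht : 0 ≤ t)
    (he : 0 < e) (hT : ∀ (n : ℕ) v, ‖T n v‖ ≤ K * (1 + n * t) ^ d * e ^ n * ‖v‖) : ‖l‖ ≤ e := by
  obtain ⟨f, h1, h2⟩ := Submodule.exists_dual_map_eq_bot_of_notMem hz inferInstance
  have h3 : ∀ u ∈ U, f u = 0 := fun u hu => (Submodule.mem_bot ℝ).1 (h2 ▸ ⟨u, hu, rfl⟩)
  rw [← div_le_one he]
  refine fp_le_one (K := ‖LinearMap.toContinuousLinearMap f‖ * (|K| *
    (‖LinearMap.toContinuousLinearMap x‖ * ‖z‖)) / ‖f (x z)‖) (d := d) ht fun n => ?_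
  have h4 := h3 _ (h n ((‖l‖ ^ n : ℝ) • (z / l ^ n)))
  rw [map_sub, sub_eq_zero, mul_smul_comm, mul_div_cancel₀ _ (pow_ne_zero _ hl), map_smul x _ z,
    map_smul f] at h4
  have h5 := (LinearMap.toContinuousLinearMap x).le_opNorm ((‖l‖ ^ n : ℝ) • (z / l ^ n))
  rw [norm_smul, norm_div, norm_pow, norm_pow, norm_norm,
    mul_div_cancel₀ _ (pow_ne_zero _ (norm_ne_zero_iff.2 hl))] at h5
  have h6 := (LinearMap.toContinuousLinearMap f).le_opNorm (T n (x ((‖l‖ ^ n : ℝ) • (z / l ^ n))))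
  rw [LinearMap.coe_toContinuousLinearMap', h4, norm_smul, norm_pow, norm_norm] at h6
  rw [div_pow, div_mul_eq_mul_div, div_le_div_iff₀ (by positivity) (norm_pos_iff.2 h1)]
  refine h6.trans ((mul_le_mul_of_nonneg_left ((hT n _).trans (mul_le_mul
    (show _ ≤ |K| * (1 + n * t) ^ d * e ^ n from ?_) h5 (norm_nonneg _) (by positivity)))
    (norm_nonneg _)).trans_eq (by ring))
  gcongr
  exact le_abs_self K

theorem fibP_pf (h : Flag_stmt) : FibP_stmt := by
  rintro k L a β R hR ⟨C, hC⟩ F hF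
  let W : Submodule ℝ (Fin L.m → ℝ) := LinearMap.ker (LinearMap.funLeft ℝ ℝ
    (Subtype.val : L.Neg a → Fin L.m))
  let ρ : Zk k →* (W →ₗ[ℝ] W) :=
    { toFun := fun b => (Matrix.toLin' (L.B b)).restrict fun v hv => fp_pr a b hv
      map_one' := LinearMap.ext fun v => Subtype.ext (by simp [L.B_one])
      map_mul' := fun b b' => LinearMap.ext fun v => Subtype.ext
        ((congrArg (· *ᵥ v.1) (L.B_mul b b')).trans (mulVec_mulVec _ _ _).symm) }
  have hρ : ∀ b v, (ρ b v : Fin L.m → ℝ) = (L.B b).mulVec v := fun _ _ => rfl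
  let U : Submodule ℝ (Fin L.m → ℝ) :=
    { carrier := {v | ∀ b (c : ℝ) j X, fibG (F j) (X + c • (L.B b).mulVec v) = fibG (F j) X}
      add_mem' := fun h1 h2 b c j X => by rw [mulVec_add, smul_add, ← add_assoc, h2, h1]
      zero_mem' := fun b c j X => by simp
      smul_mem' := fun c' v h1 b c j X => by rw [mulVec_smul, smul_smul, h1] }
  have hU : ∀ u ∈ U, ∀ j X, fibG (F j) (X + u) = fibG (F j) X := fun u hu j X => by
    simpa [L.B_one] using hu 1 1 j X
  suffices H : U.comap W.subtype = ⊤ from fun j X v hv =>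
    hU v (show (⟨v, hv⟩ : W) ∈ U.comap W.subtype from H ▸ Submodule.mem_top) j X
  by_contra H
  obtain ⟨x, l, ⟨z, hz⟩, hx⟩ := h (Zk k) W ρ (fun g g' => by rw [← map_mul, ← map_mul, mul_comm])
    _ H fun g u hu b c j X => by
      rw [Submodule.subtype_apply, hρ, mulVec_mulVec, ← L.B_mul]
      exact hu _ c j X
  obtain ⟨K, d, hK⟩ := fp_growth L a
  have h1 : ∀ j, ‖(l (β j)⁻¹ : ℂ)‖ ≤ Real.exp C := fun j => by
    have h2 : ∀ n : ℕ, toR ((β j)⁻¹ ^ n) = (n : ℝ) • -toR (β j) := fun n => by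
      funext i
      simp [toR]
    refine fp_eig hz (T := fun n => ρ ((β j)⁻¹ ^ n)) (Units.ne_zero _)
      (fun n z => by simpa using hx ((β j)⁻¹ ^ n) z) (K := K) (d := d)
      (norm_nonneg (toR (β j))) (Real.exp_pos C) fun n v => ?_
    have h3 := hK ((β j)⁻¹ ^ n) (n * C) (fun i hi => by
      rw [h2, map_smul, map_neg]
      exact mul_le_mul_of_nonneg_left (by linarith [hC j i hi]) (Nat.cast_nonneg n)) v v.2
    rwa [h2, norm_smul, norm_neg, Real.norm_natCast, Real.exp_nat_mul] at h3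
  have h2 : ∀ z j X, fibG (F j) (X + x z) = fibG (F j) X := fun z j X => by
    refine (aff_eq (fp_mem _ _).1 (fp_mem _ _).2 (fp_mem _ _).1 (fp_mem _ _).2 fun ε hε => ?_).symm
    obtain ⟨M, hM0, hM⟩ : ∃ M : ℝ, 0 ≤ M ∧ ∀ i, ‖R⁻¹ • (x (l (β i)⁻¹ * z) : Fin L.m → ℝ)‖ ≤ M := by
      refine ⟨‖R⁻¹‖ * (‖LinearMap.toContinuousLinearMap x‖ * (Real.exp C * ‖z‖)), by positivity,
        fun i => ?_⟩
      rw [norm_smul]
      refine mul_le_mul_of_nonneg_left (((LinearMap.toContinuousLinearMap x).le_opNorm _).trans ?_)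
        (norm_nonneg _)
      rw [norm_mul]
      gcongr
      exact h1 i
    obtain ⟨n, hn⟩ := exists_nat_gt (2 * M + 3 * M ^ 2 * L.m / ε)
    have h3 : 0 ≤ 3 * M ^ 2 * L.m / ε := by positivity
    have h4 : (0 : ℝ) < n := by linarith
    have h5 : (n : ℝ)⁻¹ * M ≤ 1 / 2 := by
      rw [inv_mul_le_iff₀ h4]
      linarith
    refine (fp_merge hF U hU (δ := fun i => (n : ℝ)⁻¹ • R⁻¹ • (x (l (β i)⁻¹ * z) : Fin L.m → ℝ))
      h5 (fun i => ?_) n j X _ ?_).mono ?_
    · rw [norm_smul, norm_inv, Real.norm_natCast]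
      exact mul_le_mul_of_nonneg_left (hM i) (by positivity)
    · have h6 : (x z : Fin L.m → ℝ) = ∑ i ∈ Finset.range n, (n : ℝ)⁻¹ • (x z : Fin L.m → ℝ) := by
        rw [Finset.sum_const, Finset.card_range, ← Nat.cast_smul_eq_nsmul ℝ, smul_inv_smul₀ h4.ne']
      rw [add_sub_cancel_left, h6, ← Finset.sum_sub_distrib]
      refine U.sum_mem fun i _ => ?_
      rw [smul_comm R, smul_inv_smul₀ hR, mulVec_smul, ← smul_sub, ← U.neg_mem_iff, ← smul_neg,
        neg_sub]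
      refine U.smul_mem _ ?_
      have h7 := hx (β (j + i)) (l (β (j + i))⁻¹ * z)
      rwa [← mul_assoc, ← Units.val_mul, ← map_mul, mul_inv_cancel, map_one, Units.val_one,
        one_mul] at h7
    · rw [← pow_mul]
      have h6 : 0 ≤ (n : ℝ)⁻¹ * M := by positivity
      refine le_trans ?_ (one_add_mul_le_pow (a := -(3 * ((n : ℝ)⁻¹ * M) ^ 2)) (by nlinarith) _)
      have h7 : 3 * M ^ 2 * L.m / ε ≤ n := by linarith
      rw [div_le_iff₀ hε, mul_comm (n : ℝ), ← div_le_iff₀ h4] at h7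
      refine le_trans (sub_le_sub_left h7 1) (le_of_eq ?_)
      push_cast
      field_simp
      ring
  refine hz fun b c j X => ?_
  have h3 := hU _ (U.smul_mem c (hx b z)) j (X + x (c • (l b * z)))
  rw [h2] at h3
  rw [← h3, map_smul]
  simp [hρ, smul_sub]

end Vale.Agent.P188
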