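import Vale.Agent.P188.FinPZ

/-! Chains of infinite cyclic extensions. -/

namespace Vale.Agent.P188.Fn

open Function

namespace FinChainX

theorem coords {H : Type} [Group H] (S : Finset H) (hS : Subgroup.closure (S : Set H) = ⊤) {k : ℕ}
    (φ : H →* Multiplicative (Rk k)) : ∃ (j : ℕ) (θ : H →* Multiplicative (Fin j → ℤ)),
      Surjective θ ∧ ∀ x, θ x = 1 ↔ φ x = 1 := by
  set V := Submodule.span ℤ ((fun x => (φ x).toAdd) '' (S : Set H)) with hV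
  have : Module.Finite ℤ V := Module.Finite.span_of_finite ℤ (S.finite_toSet.image _)
  have h1 : ∀ x, (φ x).toAdd ∈ V := fun x => by
    have hx : x ∈ Subgroup.closure (S : Set H) := hS ▸ Subgroup.mem_top x
    induction hx using Subgroup.closure_induction with
    | mem y hy => exact Submodule.subset_span ⟨y, hy, rfl⟩
    | one => simp
    | mul y z _ _ hy hz => simpa using V.add_mem hy hz
    | inv y _ hy => simpa using V.neg_mem hy
  have h2 : ∀ v ∈ V, ∃ x, (φ x).toAdd = v := fun v hv => by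
    induction hv using Submodule.span_induction with
    | mem v hv => exact ⟨hv.choose, hv.choose_spec.2⟩
    | zero => exact ⟨1, by simp⟩
    | add v w _ _ hv hw =>
      obtain ⟨x, rfl⟩ := hv
      obtain ⟨y, rfl⟩ := hw
      exact ⟨x * y, by simp⟩
    | smul a v _ hv =>
      obtain ⟨x, rfl⟩ := hv
      exact ⟨x ^ a, by simp⟩
  let b := (Module.finBasis ℤ V).equivFun
  refine ⟨_, MonoidHom.mk' (fun x => Multiplicative.ofAdd (b ⟨_, h1 x⟩)) fun x y => ?_,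
    fun w => ?_, fun x => ?_⟩
  · rw [← ofAdd_add, ← map_add]
    congr 2
    exact Subtype.ext (by simp)
  · obtain ⟨x, hx⟩ := h2 _ (b.symm w.toAdd).2
    refine ⟨x, ?_⟩
    simp [hx]
  · simp [Subtype.ext_iff]

variable {G : Type} [Group G] {N N' L R : Subgroup G} {t : G}

theorem conj_zpow (h : ∀ x ∈ R, t⁻¹ * x * t ∈ R) (h' : ∀ x ∈ R, t * x * t⁻¹ ∈ R) (k : ℤ) :
    ∀ x ∈ R, t ^ k * x * t ^ (-k) ∈ R := by
  induction k using Int.induction_on with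
  | zero => simp
  | succ k ih =>
    intro x hx
    have := ih _ (h' x hx)
    rwa [show t ^ (k : ℤ) * (t * x * t⁻¹) * t ^ (-(k : ℤ)) =
      t ^ ((k : ℤ) + 1) * x * t ^ (-((k : ℤ) + 1)) by group] at this
  | pred k ih =>
    intro x hx
    have := ih _ (h x hx)
    rwa [show t ^ (-(k : ℤ)) * (t⁻¹ * x * t) * t ^ (-(-(k : ℤ))) =
      t ^ (-(k : ℤ) - 1) * x * t ^ (-(-(k : ℤ) - 1)) by group] at this

theorem ext (h : ∀ x ∈ R, t⁻¹ * x * t ∈ R) (h' : ∀ x ∈ R, t * x * t⁻¹ ∈ R) :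
    ∃ U : Subgroup G, ∀ x, x ∈ U ↔ ∃ k : ℤ, x * t ^ k ∈ R := by
  refine ⟨⟨⟨⟨{x | ∃ k : ℤ, x * t ^ k ∈ R}, ?_⟩, 0, by simp⟩, ?_⟩, fun x => Iff.rfl⟩
  · rintro x y ⟨a, ha⟩ ⟨b, hb⟩
    have h1 := mul_mem ha (conj_zpow h h' (-a) _ hb)
    exact ⟨a + b, by rwa [show x * t ^ a * (t ^ (-a) * (y * t ^ b) * t ^ (- -a)) =
      x * y * t ^ (a + b) by group] at h1⟩
  · rintro x ⟨a, ha⟩
    have h1 := conj_zpow h h' a _ (inv_mem ha)
    exact ⟨-a, by rwa [show t ^ a * (x * t ^ a)⁻¹ * t ^ (-a) = x⁻¹ * t ^ (-a) by group] at h1⟩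

theorem core (hN : N.FG) (h : L.relIndex N ≠ 0) : ∃ R ≤ L, R ≤ N ∧ R.relIndex N ≠ 0 ∧
    ∀ u : G, (∀ x ∈ N, u * x * u⁻¹ ∈ N) → ∀ x ∈ R, u * x * u⁻¹ ∈ R := by
  have : Finite (N ⧸ L.subgroupOf N) := Subgroup.index_ne_zero_iff_finite.1 h
  obtain ⟨s, hs, hs'⟩ := Group.fg_iff.1 ((Group.fg_iff_subgroup_fg N).2 hN)
  have := hs'.to_subtype
  have : Finite (N →* Equiv.Perm (N ⧸ L.subgroupOf N)) :=
    Finite.of_injective (fun f (x : s) => f x.1) fun f g e =>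
      MonoidHom.eq_of_eqOn_dense hs fun x hx => congrFun e ⟨x, hx⟩
  refine ⟨(⨅ f : N →* Equiv.Perm (N ⧸ L.subgroupOf N), f.ker).map N.subtype, ?_,
    Subgroup.map_subtype_le _, ?_, ?_⟩
  · rintro _ ⟨x, hx, rfl⟩
    have h1 := congrArg (fun e : Equiv.Perm (N ⧸ L.subgroupOf N) => e ((1 : N) : N ⧸ _))
      (Subgroup.mem_iInf.1 hx (MulAction.toPermHom N _))
    have h2 : ((x * 1 : N) : N ⧸ L.subgroupOf N) = ((1 : N) : N ⧸ _) := h1
    simpa [Subgroup.mem_subgroupOf] using QuotientGroup.eq.1 h2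
  · rw [Subgroup.relIndex, Subgroup.subgroupOf,
      Subgroup.comap_map_eq_self_of_injective N.subtype_injective]
    exact (Subgroup.finiteIndex_iInf fun f => inferInstance).index_ne_zero
  · rintro u hu _ ⟨x, hx, rfl⟩
    let c : N →* N := MonoidHom.mk' (fun y => ⟨u * y * u⁻¹, hu y y.2⟩) fun y z =>
      Subtype.ext (by simp [mul_assoc])
    exact ⟨c x, Subgroup.mem_iInf.2 fun f => Subgroup.mem_iInf.1 hx (f.comp c), rfl⟩

theorem step (hp : S_pz) (h : Step N N' t)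
    (hN : N.FG ∧ ∃ L ≤ N, ∃ m, PZ m L ∧ L.relIndex N ≠ 0) :
    N'.FG ∧ ∃ L ≤ N', ∃ m, PZ m L ∧ L.relIndex N' ≠ 0 := by
  obtain ⟨h1, L, -, m, h2, h3⟩ := hN
  obtain ⟨R, r1, r2, r3, r4⟩ := core h1 h3
  obtain ⟨m', -, r5, -⟩ := hp.sub h2 r1
  have c1 : ∀ x ∈ R, t⁻¹ * x * t ∈ R := by simpa using r4 t⁻¹ (by simpa using h.conj)
  have c2 := r4 t h.conj'
  obtain ⟨U, hU⟩ := ext c1 c2
  have u1 : R ≤ U := fun x hx => (hU x).2 ⟨0, by simpa using hx⟩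
  have u2 : t ∈ U := (hU t).2 ⟨-1, by simp⟩
  refine ⟨?_, U, fun x hx => ?_, m' + 1,
    PZ.succ ⟨u1, u2, c1, c2, fun x hx => (hU x).1 hx, fun k hk => h.free k (r2 hk)⟩ r5,
    FinPZX.rel_of_cover (Set.finite_singleton 1) (by simp) h.le
      (mt (Subgroup.relIndex_eq_zero_of_le_left u1) r3 ∘ id) fun x hx => ?_⟩
  · rw [FinPZX.eq_sup h]
    exact h1.sup ⟨{_}, by rw [Finset.coe_singleton]⟩
  · obtain ⟨k, hk⟩ := (hU x).1 hx
    simpa using mul_mem (h.le (r2 hk)) (zpow_mem h.mem (-k))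
  · obtain ⟨k, hk⟩ := h.gen x hx
    exact ⟨1, rfl, _, hk, _, zpow_mem u2 (-k), by simp⟩

end FinChainX

theorem chain_pf : S_chain := by
  intro H _ S hS k φ
  obtain ⟨j, θ, h1, h2⟩ := FinChainX.coords S hS φ
  choose t ht using fun a : ℕ =>
    h1 (Multiplicative.ofAdd fun i : Fin j => if i.val = a then 1 else 0)
  refine ⟨j, fun a => ⟨⟨⟨{x | ∀ i : Fin j, a ≤ i.val → (θ x).toAdd i = 0}, fun hx hy i hi => ?_⟩,
    fun i _ => by simp⟩, fun hx i hi => ?_⟩, t, ?_, ?_, fun a ha => ⟨fun x hx i hi => ?_,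
      fun i hi => ?_, fun x hx i hi => ?_, fun x hx i hi => ?_, fun x hx => ?_, fun k hk => ?_⟩⟩
  · simp [hx i hi, hy i hi]
  · simp [hx i hi]
  · ext x
    rw [MonoidHom.mem_ker, ← h2]
    exact ⟨fun h => Multiplicative.toAdd.injective (funext fun i => h i i.1.zero_le),
      fun h i _ => by simp [h]⟩
  · exact eq_top_iff.2 fun x _ i hi => absurd i.2 (not_lt.2 hi)
  · exact hx i (by omega)
  · simp [ht, show i.val ≠ a by omega]
  · simp [hx i hi]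
  · simp [hx i hi]
  · refine ⟨-(θ x).toAdd ⟨a, ha⟩, fun i hi => ?_⟩
    by_cases e : i.val = a
    · simp [ht, e, show i = ⟨a, ha⟩ from Fin.ext e]
    · simp [ht, e, hx i (by omega)]
  · simpa [ht] using hk ⟨a, ha⟩ le_rfl

theorem fg_pf (hp : S_pz) : S_fg := by
  rintro H _ K h j ⟨s, hs⟩ ⟨⟨L, h1, h2⟩, h3⟩ ⟨N, t, h4, h5, h6⟩
  have key : ∀ a ≤ j, (N a).FG ∧ ∃ L ≤ N a, ∃ m, PZ m L ∧ L.relIndex (N a) ≠ 0 := by
    intro a ha
    induction a with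
    | zero =>
      have h7 := h3 L h1 h2 s (hs ▸ Subgroup.subset_closure)
      rw [hs, sup_eq_right.2 h1] at h7
      rw [h4]
      exact ⟨⟨s, hs⟩, L, h1, h, h2, h7⟩
    | succ a ih => exact FinChainX.step hp (h6 a ha) (ih (by omega))
  obtain ⟨-, L', -, m, h7, h8⟩ := key j le_rfl
  rw [h5, Subgroup.relIndex_top_right] at h8
  exact ⟨L', ⟨h8⟩, hp.poly h7⟩

end Vale.Agent.P188.Fn
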