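import Vale.Agent.P188.MainS

/-! The final reductions. -/

namespace Vale.Agent.P188

open Function
open scoped Pointwise

universe u v

namespace MainPf

variable {H G M H' G' : Type*} [Group H] [Group G] [Group M] [Group H'] [Group G']

lemma exists_word {S : Finset G} (hS : Subgroup.closure (S : Set G) = ⊤) (g : G) :
    ∃ l : List G, l.length = wordLength S g ∧ IsWord S l ∧ l.prod = g := by
  refine Nat.sInf_mem (s := {n | ∃ l : List G, l.length = n ∧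
    (∀ x ∈ l, x ∈ S ∨ x⁻¹ ∈ S) ∧ l.prod = g}) ?_
  have hg : g ∈ (Subgroup.closure (S : Set G)).toSubmonoid := hS ▸ Subgroup.mem_top g
  rw [Subgroup.closure_toSubmonoid] at hg
  obtain ⟨l, h1, h2⟩ := Submonoid.exists_list_of_mem_closure hg
  exact ⟨_, l, rfl, h1, h2⟩

lemma wl_mul {S : Finset G} (hS : Subgroup.closure (S : Set G) = ⊤) (g g' : G) :
    wordLength S (g * g') ≤ wordLength S g + wordLength S g' := by
  obtain ⟨l, h1, h2, h3⟩ := exists_word hS g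
  obtain ⟨l', h1', h2', h3'⟩ := exists_word hS g'
  exact Nat.sInf_le ⟨l ++ l', by rw [List.length_append, h1, h1'],
    fun x hx => (List.mem_append.1 hx).elim (h2 x) (h2' x), by rw [List.prod_append, h3, h3']⟩

lemma fin_wBall (S : Finset G) (r : ℕ) : (wBall S r).Finite := by
  induction r with
  | zero =>
    refine (Set.finite_singleton 1).subset ?_
    rintro _ ⟨l, -, h, rfl⟩
    simp [List.length_eq_zero_iff.1 (Nat.le_zero.1 h)]
  | succ r ih =>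
    refine (((S.finite_toSet.union S.finite_toSet.inv).mul ih).insert 1).subset ?_
    rintro _ ⟨_ | ⟨x, l⟩, h1, h2, rfl⟩
    · exact Or.inl rfl
    · rw [List.prod_cons]
      exact Or.inr (Set.mul_mem_mul (h1 x List.mem_cons_self)
        ⟨l, fun y hy => h1 y (List.mem_cons_of_mem _ hy), by simpa using h2, rfl⟩)

lemma fin_ball {S : Finset G} (hS : Subgroup.closure (S : Set G) = ⊤) (r : ℝ) :
    {g | (wordLength S g : ℝ) ≤ r}.Finite := by
  refine (fin_wBall S ⌊r⌋₊).subset fun g hg => ?_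
  obtain ⟨l, h1, h2, h3⟩ := exists_word hS g
  exact ⟨l, h2, h1 ▸ Nat.le_floor hg, h3⟩

lemma bdd (S : Finset G) {A : Set G} (hA : A.Finite) :
    ∃ r : ℝ, 1 ≤ r ∧ ∀ g ∈ A, (wordLength S g : ℝ) ≤ r := by
  obtain ⟨r, hr⟩ := (hA.image fun g => (wordLength S g : ℝ)).bddAbove
  exact ⟨max r 1, le_max_right _ _, fun g hg => (hr ⟨g, hg, rfl⟩).trans (le_max_left _ _)⟩

/-- Coarse equivalences. -/
structure CE (F : H → G) : Prop where
  born : ∀ A : Set H, A.Finite → ∃ B : Set G, B.Finite ∧ ∀ x y, x⁻¹ * y ∈ A → (F x)⁻¹ * F y ∈ B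
  prp : ∀ B : Set G, B.Finite → ∃ A : Set H, A.Finite ∧ ∀ x y, (F x)⁻¹ * F y ∈ B → x⁻¹ * y ∈ A
  cob : ∃ R : Set G, R.Finite ∧ ∀ g, ∃ x, g⁻¹ * F x ∈ R

lemma CE.comp {F : H → G} {F' : G → M} (h' : CE F') (h : CE F) : CE (F' ∘ F) := by
  refine ⟨fun A hA => ?_, fun B hB => ?_, ?_⟩
  · obtain ⟨B, hB, h1⟩ := h.born A hA
    obtain ⟨C, hC, h2⟩ := h'.born B hB
    exact ⟨C, hC, fun x y e => h2 _ _ (h1 x y e)⟩
  · obtain ⟨C, hC, h2⟩ := h'.prp B hB
    obtain ⟨A, hA, h1⟩ := h.prp C hC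
    exact ⟨A, hA, fun x y e => h1 x y (h2 _ _ e)⟩
  · obtain ⟨R, hR, h1⟩ := h.cob
    obtain ⟨R', hR', h2⟩ := h'.cob
    obtain ⟨B, hB, h3⟩ := h'.born R hR
    refine ⟨R' * B, hR'.mul hB, fun g => ?_⟩
    obtain ⟨y, hy⟩ := h2 g
    obtain ⟨x, hx⟩ := h1 y
    exact ⟨x, by simpa [mul_assoc] using Set.mul_mem_mul hy (h3 _ _ hx)⟩

lemma CE.inv {F : H → G} (h : CE F) :
    ∃ F' : G → H, CE F' ∧ ∃ R : Set H, R.Finite ∧ ∀ x, x⁻¹ * F' (F x) ∈ R := by
  obtain ⟨R, hR, h1⟩ := h.cob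
  choose F' hF using h1
  obtain ⟨R', hR', h2⟩ := h.prp R hR
  refine ⟨F', ⟨fun A hA => ?_, fun B hB => ?_, R', hR', fun x => ⟨_, h2 _ _ (hF (F x))⟩⟩, R', hR',
    fun x => h2 _ _ (hF (F x))⟩
  · obtain ⟨B, hB, h3⟩ := h.prp (R⁻¹ * A * R) ((hR.inv.mul hA).mul hR)
    refine ⟨B, hB, fun x y e => h3 _ _ ?_⟩
    simpa [mul_assoc] using Set.mul_mem_mul (Set.mul_mem_mul (Set.inv_mem_inv.2 (hF x)) e) (hF y)
  · obtain ⟨A, hA, h3⟩ := h.born B hB
    refine ⟨R * A * R⁻¹, (hR.mul hA).mul hR.inv, fun x y e => ?_⟩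
    simpa [mul_assoc] using
      Set.mul_mem_mul (Set.mul_mem_mul (hF x) (h3 _ _ e)) (Set.inv_mem_inv.2 (hF y))

lemma CE.near {F F' : H → G} (h : CE F) {R : Set G} (hR : R.Finite)
    (hF : ∀ x, (F x)⁻¹ * F' x ∈ R) : CE F' := by
  refine ⟨fun A hA => ?_, fun B hB => ?_, ?_⟩
  · obtain ⟨B, hB, h1⟩ := h.born A hA
    refine ⟨R⁻¹ * B * R, (hR.inv.mul hB).mul hR, fun x y e => ?_⟩
    simpa [mul_assoc] using
      Set.mul_mem_mul (Set.mul_mem_mul (Set.inv_mem_inv.2 (hF x)) (h1 _ _ e)) (hF y)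
  · obtain ⟨A, hA, h1⟩ := h.prp (R * B * R⁻¹) ((hR.mul hB).mul hR.inv)
    refine ⟨A, hA, fun x y e => h1 _ _ ?_⟩
    simpa [mul_assoc] using Set.mul_mem_mul (Set.mul_mem_mul (hF x) e) (Set.inv_mem_inv.2 (hF y))
  · obtain ⟨R', hR', h1⟩ := h.cob
    refine ⟨R' * R, hR'.mul hR, fun g => (h1 g).imp fun x hx => ?_⟩
    simpa [mul_assoc] using Set.mul_mem_mul hx (hF x)

lemma CE.prodMap {F : H → G} {F' : H' → G'} (h : CE F) (h' : CE F') : CE (Prod.map F F') := by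
  refine ⟨fun A hA => ?_, fun B hB => ?_, ?_⟩
  · obtain ⟨B, hB, h1⟩ := h.born _ (hA.image Prod.fst)
    obtain ⟨B', hB', h2⟩ := h'.born _ (hA.image Prod.snd)
    exact ⟨B ×ˢ B', hB.prod hB', fun x y e => ⟨h1 _ _ ⟨_, e, rfl⟩, h2 _ _ ⟨_, e, rfl⟩⟩⟩
  · obtain ⟨A, hA, h1⟩ := h.prp _ (hB.image Prod.fst)
    obtain ⟨A', hA', h2⟩ := h'.prp _ (hB.image Prod.snd)
    exact ⟨A ×ˢ A', hA.prod hA', fun x y e => ⟨h1 _ _ ⟨_, e, rfl⟩, h2 _ _ ⟨_, e, rfl⟩⟩⟩
  · obtain ⟨R, hR, h1⟩ := h.cob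
    obtain ⟨R', hR', h2⟩ := h'.cob
    refine ⟨R ×ˢ R', hR.prod hR', fun g => ?_⟩
    obtain ⟨x, hx⟩ := h1 g.1
    obtain ⟨x', hx'⟩ := h2 g.2
    exact ⟨(x, x'), hx, hx'⟩

lemma ce_hom (f : H →* G) (hf : Injective f) (hi : f.range.FiniteIndex) : CE f := by
  refine ⟨fun A hA => ⟨f '' A, hA.image f, fun x y e => ⟨_, e, by simp⟩⟩,
    fun B hB => ⟨f ⁻¹' B, hB.preimage hf.injOn, fun x y e => by simpa using e⟩,
    Set.range fun q : G ⧸ f.range => q.out, Set.finite_range _, fun g => ?_⟩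
  obtain ⟨⟨_, x, rfl⟩, hx⟩ := QuotientGroup.mk_out_eq_mul f.range g⁻¹
  exact ⟨x, _, hx⟩

lemma ce_equiv (f : H ≃* G) : CE f :=
  ce_hom f.toMonoidHom f.injective (by
    rw [MonoidHom.range_eq_top.2 f.surjective]
    infer_instance)

lemma ce_of_qi {S : Finset H} {T : Finset G} (hS : Subgroup.closure (S : Set H) = ⊤)
    (hT : Subgroup.closure (T : Set G) = ⊤) {K C : ℝ} {F : H → G}
    (h : IsQuasiIsometry S T K C F) : CE F := by
  obtain ⟨hK, -, h1, h2⟩ := h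
  have hK0 : 0 < K := by linarith
  refine ⟨fun A hA => ?_, fun B hB => ?_, _, fin_ball hT C, h2⟩
  · obtain ⟨r, -, hr⟩ := bdd S hA
    exact ⟨_, fin_ball hT (K * r + C), fun x y e => (h1 x y).2.trans
      (add_le_add (mul_le_mul_of_nonneg_left (hr _ e) hK0.le) le_rfl)⟩
  · obtain ⟨r, -, hr⟩ := bdd T hB
    exact ⟨_, fin_ball hS (K * (r + C)), fun x y e =>
      (inv_mul_le_iff₀ hK0).1 (sub_le_iff_le_add.1 ((h1 x y).1.trans (hr _ e)))⟩

lemma CE.lip {S : Finset H} {T : Finset G} (hS : Subgroup.closure (S : Set H) = ⊤)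
    (hT : Subgroup.closure (T : Set G) = ⊤) {F : H → G} (h : CE F) :
    ∃ A : ℝ, 1 ≤ A ∧ ∀ x y, wordDist T (F x) (F y) ≤ A * wordDist S x y := by
  obtain ⟨B, hB, h1⟩ := h.born _ (S.finite_toSet.union S.finite_toSet.inv)
  obtain ⟨A, hA, h2⟩ := bdd T hB
  have key : ∀ l : List H, IsWord S l → ∀ x,
      wordDist T (F x) (F (x * l.prod)) ≤ A * l.length := by
    intro l
    induction l with
    | nil =>
      intro _ x
      have : wordLength T (1 : G) ≤ 0 := Nat.sInf_le ⟨[], rfl, by simp, rfl⟩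
      simpa [wordDist] using this
    | cons s l ih =>
      intro hl x
      have h3 := ih (fun y hy => hl y (List.mem_cons_of_mem _ hy)) (x * s)
      have h4 := h2 _ (h1 x (x * s) (by simpa using hl s List.mem_cons_self))
      have h5 : (wordLength T _ : ℝ) ≤ _ := Nat.cast_le.2
        (wl_mul hT ((F x)⁻¹ * F (x * s)) ((F (x * s))⁻¹ * F (x * s * l.prod)))
      rw [mul_assoc, mul_inv_cancel_left, Nat.cast_add] at h5
      rw [List.prod_cons, ← mul_assoc, List.length_cons, Nat.cast_succ, mul_add, mul_one]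
      unfold wordDist at h3 ⊢
      linarith
  refine ⟨A, hA, fun x y => ?_⟩
  obtain ⟨l, h3, h4, h5⟩ := exists_word hS (x⁻¹ * y)
  have := key l h4 x
  rwa [h5, mul_inv_cancel_left, h3] at this

lemma CE.qi {S : Finset H} {T : Finset G} (hS : Subgroup.closure (S : Set H) = ⊤)
    (hT : Subgroup.closure (T : Set G) = ⊤) {F : H → G} (h : CE F) :
    ∃ K C, IsQuasiIsometry S T K C F := by
  obtain ⟨F', h', R, hR, h1⟩ := h.inv
  obtain ⟨A, hA, h2⟩ := h.lip hS hT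
  obtain ⟨A', hA', h3⟩ := h'.lip hT hS
  obtain ⟨r, r1, hr⟩ := bdd S (hR.union hR.inv)
  obtain ⟨R', hR', h4⟩ := h.cob
  obtain ⟨r', r1', hr'⟩ := bdd T hR'
  have d0 : ∀ x y, 0 ≤ wordDist S x y := fun _ _ => Nat.cast_nonneg _
  have d1 : ∀ x y, 0 ≤ wordDist T x y := fun _ _ => Nat.cast_nonneg _
  refine ⟨A + A', 2 * r + r', by linarith, by linarith, fun x y => ⟨?_, ?_⟩,
    fun g => (h4 g).imp fun x hx => (hr' _ hx).trans (by linarith)⟩
  · rw [sub_le_iff_le_add, inv_mul_le_iff₀ (by linarith)]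
    have h5 := (wl_mul hS (x⁻¹ * F' (F x) * ((F' (F x))⁻¹ * F' (F y))) (y⁻¹ * F' (F y))⁻¹).trans
      (add_le_add (wl_mul hS _ _) le_rfl)
    have h6 : wordDist S x y ≤ wordLength S (x⁻¹ * F' (F x)) + wordDist S (F' (F x)) (F' (F y)) +
        wordLength S (y⁻¹ * F' (F y))⁻¹ := by
      unfold wordDist
      simpa [mul_assoc, ← Nat.cast_add] using h5
    have h7 := hr _ (Or.inl (h1 x))
    have h8 := hr _ (Or.inr (Set.inv_mem_inv.2 (h1 y)))
    have h9 := h3 (F x) (F y)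
    nlinarith [d1 (F x) (F y)]
  · nlinarith [h2 x y, d0 x y]

lemma CE.inj {F : H → G} (h : CE F) :
    ∃ F' : H × Zk 1 → G × Zk 1, CE F' ∧ Injective F' := by
  obtain ⟨A, hA, h1⟩ := h.prp _ (Set.finite_singleton 1)
  have := hA.to_subtype
  obtain ⟨e, he⟩ := exists_injective_nat A
  have hx : ∀ x, (invFun F (F x))⁻¹ * x ∈ A := fun x =>
    h1 _ _ (inv_mul_eq_one.2 (invFun_eq ⟨x, rfl⟩))
  obtain ⟨m, hm⟩ := (Set.finite_range e).bddAbove
  have hp : CE (powMonoidHom (α := Zk 1) (m + 1)) :=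
    ce_hom _ (pow_left_injective m.succ_ne_zero)
      (Subgroup.finiteIndex_range_powMonoidHom_of_fg _ m.succ_ne_zero)
  refine ⟨fun p => (F p.1, p.2 ^ (m + 1) * Multiplicative.ofAdd fun _ => (e ⟨_, hx p.1⟩ : ℤ)),
    (h.prodMap hp).near (Set.finite_range fun a : A =>
      ((1, Multiplicative.ofAdd fun _ => (e a : ℤ)) : G × Zk 1)) fun p => ⟨⟨_, hx p.1⟩,
        Prod.ext (inv_mul_cancel _).symm (inv_mul_cancel_left _ _).symm⟩,
    fun p q e' => ?_⟩
  obtain ⟨e1, e2⟩ := Prod.mk.inj e'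
  have e3 := congrArg (fun z : Zk 1 => Multiplicative.toAdd z 0) e2
  simp only [toAdd_mul, toAdd_pow, toAdd_ofAdd, Pi.add_apply, Pi.smul_apply] at e3
  simp only [nsmul_eq_mul] at e3
  have b1 := hm ⟨⟨_, hx p.1⟩, rfl⟩
  have b2 := hm ⟨⟨_, hx q.1⟩, rfl⟩
  have e4 : Multiplicative.toAdd p.2 0 = Multiplicative.toAdd q.2 0 := by
    zify at b1 b2
    push_cast at e3
    have c1 := Int.natCast_nonneg (e ⟨_, hx p.1⟩)
    have c2 := Int.natCast_nonneg (e ⟨_, hx q.1⟩)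
    refine le_antisymm ?_ ?_ <;> by_contra! c <;> nlinarith [Int.add_one_le_of_lt c]
  rw [e4, add_right_inj, Nat.cast_inj] at e3
  have e5 := congrArg Subtype.val (he e3)
  simp only [e1, mul_right_inj] at e5
  exact Prod.ext e5 (Multiplicative.toAdd.injective (funext fun i => Subsingleton.elim 0 i ▸ e4))

lemma cyc {X Y : Type*} [Group X] [Group Y] [IsCyclic Y] (φ : X →* Y) {N : Subgroup X}
    (h : N = φ.ker) : ∃ _ : N.Normal, IsCyclic (X ⧸ N) := by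
  subst h
  exact ⟨inferInstance, isCyclic_of_injective _ (QuotientGroup.kerLift_injective φ)⟩

lemma poly_of_inj (f : H →* G) (hf : Injective f) (h : IsPolycyclicGroup G) :
    IsPolycyclicGroup H := by
  obtain ⟨m, s, h0, hm, h⟩ := h
  refine ⟨m, fun i => (s i).comap f, by simpa [h0] using (MonoidHom.ker_eq_bot_iff f).2 hf,
    by simp [hm], fun i hi => ?_⟩
  obtain ⟨h1, h2, h3⟩ := h i hi
  refine ⟨Subgroup.comap_mono h1,
    cyc ((QuotientGroup.mk' ((s i).subgroupOf (s (i + 1)))).comp (f.subgroupComap _)) ?_⟩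
  ext x
  exact (QuotientGroup.eq_one_iff (N := (s i).subgroupOf (s (i + 1))) (f.subgroupComap _ x)).symm

lemma vp_of_inj (f : H →* G) (hf : Injective f) (h : IsVirtuallyPolycyclic G) :
    IsVirtuallyPolycyclic H := by
  obtain ⟨L, hL, h⟩ := h
  refine ⟨L.comap f, ⟨?_⟩, poly_of_inj (f.subgroupComap L)
    (fun x y e => Subtype.ext (hf (congrArg Subtype.val e))) h⟩
  rw [Subgroup.index_comap]
  exact (Subgroup.instFiniteIndex_subgroupOf L f.range).1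

lemma vp_of_sub (K : Subgroup G) (hK : K.FiniteIndex) (h : IsVirtuallyPolycyclic K) :
    IsVirtuallyPolycyclic G := by
  obtain ⟨L, hL, h⟩ := h
  refine ⟨L.map K.subtype, ⟨?_⟩, poly_of_inj
    (L.equivMapOfInjective _ K.subtype_injective).symm.toMonoidHom (MulEquiv.injective _) h⟩
  rw [Subgroup.index_map_subtype]
  exact mul_ne_zero hL.1 hK.1

lemma countable {S : Finset G} (hS : Subgroup.closure (S : Set G) = ⊤) : Countable G :=
  Set.countable_univ_iff.1 ((Set.countable_iUnion fun n : ℕ => (fin_ball hS n).countable).mono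
    fun g _ => Set.mem_iUnion.2 ⟨wordLength S g, le_rfl (a := (wordLength S g : ℝ))⟩)

/-- The trivial layer of rank one. -/
def triv (k : ℕ) : Layer k where
  m := 1
  ρ := 1
  Q := 1
  Qi := 1
  Q_mul := mul_one _
  wt := 0
  block := fun _ _ _ h => absurd rfl h
  bound := ⟨1, 0, fun _ i j => by simp [Subsingleton.elim i j]⟩
  det := fun _ p _ _ => by
    simp [Matrix.toSquareBlockProp, Matrix.toBlock_one_self]
  sum_wt := by simp

/-- The product with `ℤ` as an extension. -/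
def trivExt {k : ℕ} {Γ : Type} [Group Γ] (π : Γ →* Zk k) : Ext (triv k) (Γ × Zk 1) Γ π where
  p := MonoidHom.fst _ _
  p_surj := Prod.fst_surjective
  ι := MonoidHom.inr _ _
  ι_inj := Prod.mk_right_injective 1
  range_eq := by
    ext ⟨x, y⟩
    exact ⟨fun ⟨_, h⟩ => (congrArg Prod.fst h).symm, fun h => ⟨y, Prod.ext (Eq.symm h) rfl⟩⟩
  conj := fun g (v : Zk 1) => by
    change g * (1, v) * g⁻¹ = (1, Multiplicative.ofAdd (Matrix.mulVec 1 (Multiplicative.toAdd v)))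
    simp [Prod.ext_iff]

end MainPf

open MainPf

theorem main_pf (hT : Tower_stmt) (hB : TowerBasic_stmt) (hC : Cpl_stmt) (hF : Fin_stmt) :
    Main_stmt.{u, v} := by
  intro H G _ _ S T hS hT' K C F hQ hG
  have := countable hS
  have := countable hT'
  obtain ⟨L, hL, k, π, w, ht, hw⟩ := hT (Shrink.{0} G)
    (vp_of_inj Shrink.mulEquiv.toMonoidHom (MulEquiv.injective _) hG)
  obtain ⟨r, hr, -⟩ := (ce_hom L.subtype L.subtype_injective (by rwa [L.range_subtype])).inv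
  obtain ⟨F', h1, h2⟩ := (hr.comp ((ce_equiv (Shrink.mulEquiv.{0} (α := G)).symm).comp
    ((ce_of_qi hS hT' hQ).comp (ce_equiv (Shrink.mulEquiv.{0} (α := H)))))).inj
  have ht' := ht.ext (triv k) (trivExt π)
  obtain ⟨⟨n, hn⟩, -, -, S', hS', hk⟩ := hB _ _ _ _ ht'
  have : Group.FG H := Group.fg_def.2 ⟨S, hS⟩
  have : Group.FG (Shrink.{0} H) :=
    Group.fg_of_surjective (f := (Shrink.mulEquiv.{0} (α := H)).symm.toMonoidHom)
      (MulEquiv.surjective _)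
  obtain ⟨SH, hSH⟩ := Group.fg_def.1 (inferInstance : Group.FG (Shrink.{0} H × Zk 1))
  obtain ⟨K₁, C₁, q₁⟩ := h1.qi hSH hS'
  obtain ⟨H₀, hH₀, S₀, φ, D, hS₀, hD⟩ := hC _ _ _ _ ht'
    (fun b hb => (hw b hb).imp fun χ h => ⟨List.mem_append_right _ h.1, h.2⟩) _ SH S' hSH hS' hk
    K₁ C₁ F' q₁ h2
  obtain ⟨K₂, C₂, q₂⟩ := (h1.comp
    (ce_hom H₀.subtype H₀.subtype_injective (by rwa [H₀.range_subtype]))).qi hS₀ hS'
  exact vp_of_inj ((MonoidHom.inl _ (Zk 1)).comp (Shrink.mulEquiv.{0} (α := H)).symm.toMonoidHom)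
    ((Prod.mk_left_injective 1).comp (MulEquiv.injective _))
    (vp_of_sub H₀ hH₀ (hF _ _ S₀ S' hS₀ hS' n hn K₂ C₂ _ q₂ k φ D hD))

end Vale.Agent.P188
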