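import Vale.Agent.P188.FinLes
import Vale.Agent.P188.MainPf

/-! Coarse invariance of the homology of controlled chains. -/

namespace Vale.Agent.P188.Fn

open Function Finsupp Pointwise

namespace FinCoarseX

section Lists

variable {α β M : Type} [AddCommGroup M] [Module ℚ M]

theorem app_ne' {D : α → β →₀ ℚ} {c : α → M} {τ : β} (h : app D c τ ≠ 0) :
    ∃ σ, D σ τ ≠ 0 ∧ c σ ≠ 0 := by
  by_contra hc
  push Not at hc
  refine h (finsum_eq_zero_of_forall_eq_zero fun σ => ?_)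
  by_cases h1 : D σ τ = 0
  · simp [h1]
  · simp [hc σ h1]

/-- the kernel of the push-forward along `F` -/
noncomputable def ps (F : α → β) (l : List α) : List β →₀ ℚ := single (l.map F) 1

theorem lc_ps (F : α → β) (v : List α →₀ ℚ) :
    linearCombination ℚ (ps F) v = mapDomain (List.map F) v := by
  induction v using Finsupp.induction_linear with
  | zero => simp
  | add u v hu hv => simp only [mapDomain_add, map_add, hu, hv]
  | single l a => simp [ps]

theorem ps_supp {F : α → β} {σ : List α} {τ : List β} (h : ps F σ τ ≠ 0) : τ = σ.map F := by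
  classical
  by_contra e
  exact h (by simp [ps, Ne.symm e])

theorem bd_map (F : α → β) (l : List α) : bd (l.map F) = mapDomain (List.map F) (bd l) := by
  induction l with
  | nil => simp [bd]
  | cons x l ih =>
    rw [List.map_cons, bd, bd, ih, mapDomain_sub, mapDomain_single, ← mapDomain_comp,
      ← mapDomain_comp]
    rfl

theorem bd1_map (F : α → β) (l : List α) : bd1 (l.map F) = mapDomain (List.map F) (bd1 l) := by
  unfold bd1
  rw [List.length_map]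
  split_ifs
  · simp
  · exact bd_map F l

/-- the prism operator between the identity and `g` -/
noncomputable def pr (g : α → α) : List α → (List α →₀ ℚ)
  | [] => 0
  | x :: l => mapDomain (x :: ·) (single ((x :: l).map g) 1 - pr g l)

theorem pr_supp {g : α → α} {σ τ : List α} (h : pr g σ τ ≠ 0) :
    τ.length = σ.length + 1 ∧ ∀ y ∈ τ, ∃ x ∈ σ, y = x ∨ y = g x := by
  classical
  induction σ generalizing τ with
  | nil => simp [pr] at h
  | cons x l ih =>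
    obtain ⟨τ', h3, rfl⟩ := Finset.mem_image.1 (mapDomain_support (mem_support_iff.2 h))
    have key : τ'.length = l.length + 1 ∧ ∀ y ∈ τ', ∃ z ∈ x :: l, y = z ∨ y = g z := by
      by_cases e : (x :: l).map g = τ'
      · subst e
        refine ⟨by simp, fun y hy => ?_⟩
        obtain ⟨z, hz, rfl⟩ := List.mem_map.1 hy
        exact ⟨z, hz, Or.inr rfl⟩
      · have h2 : pr g l τ' ≠ 0 := by
          have := mem_support_iff.1 h3
          rw [Finsupp.sub_apply, single_apply, if_neg e] at this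
          simpa using this
        obtain ⟨h4, h5⟩ := ih h2
        refine ⟨h4, fun y hy => ?_⟩
        obtain ⟨z, hz, h6⟩ := h5 y hy
        exact ⟨z, List.mem_cons_of_mem _ hz, h6⟩
    refine ⟨by simp [key.1], fun y hy => ?_⟩
    rcases List.mem_cons.1 hy with rfl | hy
    exacts [⟨y, List.mem_cons_self, Or.inl rfl⟩, key.2 y hy]

theorem lc_pr_cons (g : α → α) (x : α) (v : List α →₀ ℚ) :
    linearCombination ℚ (pr g) (mapDomain (x :: ·) v) =
      mapDomain (x :: ·) (mapDomain (g x :: ·) (mapDomain (List.map g) v)) -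
        mapDomain (x :: ·) (linearCombination ℚ (pr g) v) := by
  induction v using Finsupp.induction_linear with
  | zero => simp
  | add u v hu hv => simp only [mapDomain_add, map_add, hu, hv]; abel
  | single l a => simp [pr, smul_sub, mapDomain_smul, mapDomain_sub]

theorem pr_bd (g : α → α) (l : List α) :
    linearCombination ℚ bd (pr g l) + linearCombination ℚ (pr g) (bd l) =
      ps g l - single l 1 := by
  induction l with
  | nil => simp [pr, bd, ps]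
  | cons x l ih =>
    have e : mapDomain (x :: ·) (linearCombination ℚ bd (pr g l)) +
        mapDomain (x :: ·) (linearCombination ℚ (pr g) (bd l)) =
        single (x :: l.map g) 1 - single (x :: l) 1 := by
      rw [← mapDomain_add, ih, mapDomain_sub, ps, mapDomain_single, mapDomain_single]
    rw [pr, bd, lc_bd_cons, map_sub, map_sub, lc_pr_cons, linearCombination_single,
      linearCombination_single, one_smul, one_smul, List.map_cons, bd, bd_map, mapDomain_sub,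
      mapDomain_sub, mapDomain_single, ps, List.map_cons, eq_sub_of_add_eq e]
    abel

theorem pr_bd1 (g : α → α) {l : List α} (hl : l ≠ []) :
    linearCombination ℚ bd1 (pr g l) + linearCombination ℚ (pr g) (bd1 l) =
      ps g l - single l 1 := by
  have h0 := List.length_pos_iff.2 hl
  rw [← pr_bd, lc_congr (D := bd1) (D' := bd) (v := pr g l) fun τ hτ =>
    if_neg (by have := (pr_supp hτ).1; omega)]
  congr 1
  unfold bd1
  split_ifs with h
  · obtain ⟨x, rfl⟩ := List.length_eq_one_iff.1 (le_antisymm h h0)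
    simp [bd, pr]
  · rfl

end Lists

variable {G G' G'' M N X : Type} [Group G] [Group G'] [Group G''] [AddCommGroup M] [Module ℚ M]
  [AddCommGroup N] [Module ℚ N] {m m' : ℕ}

/-- control of the lists in the support -/
def Cf (m : ℕ) (c : List G → M) : Prop :=
  ∃ A : Set G, A.Finite ∧ ∀ l, c l ≠ 0 → l.length = m + 1 ∧ ∀ x ∈ l, ∀ y ∈ l, x⁻¹ * y ∈ A

theorem ctl_iff [MulAction G X] [Finite X] {c : List G → X →₀ ℚ} : Ctl m c ↔ Cf m c := by
  constructor
  · rintro ⟨A, E, hA, -, h⟩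
    refine ⟨A, hA, fun l hl => ?_⟩
    obtain ⟨p, hp⟩ := DFunLike.ne_iff.1 hl
    exact ⟨(h l p hp).1, (h l p hp).2.1⟩
  · rintro ⟨A, hA, h⟩
    refine ⟨A, Set.univ, hA, Set.toFinite _, fun l p hp => ?_⟩
    have := h l fun e => hp (by simp [e])
    exact ⟨this.1, this.2, fun _ _ => trivial⟩

variable {c : List G → M}

omit [Module ℚ M] in
theorem Cf.ne_nil (h : Cf m c) {l : List G} (hl : c l ≠ 0) : l ≠ [] := by
  obtain ⟨A, -, h⟩ := h
  rintro rfl
  simpa using (h _ hl).1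

omit [Module ℚ M] in
theorem Cf.fin (h : Cf m c) {P : Set G} (hP : P.Finite) :
    {σ | c σ ≠ 0 ∧ ∃ x ∈ σ, x ∈ P}.Finite := by
  obtain ⟨A, hA, h⟩ := h
  refine (finite_lists (hP.mul hA) (m + 1)).subset ?_
  rintro σ ⟨h1, x, hx, hxP⟩
  obtain ⟨a, b⟩ := h σ h1
  exact ⟨a, fun y hy => ⟨x, hxP, _, b x hx y hy, by simp⟩⟩

theorem Cf.map (h : Cf m c) (φ : M →ₗ[ℚ] N) : Cf m fun l => φ (c l) := by
  obtain ⟨A, hA, h⟩ := h
  exact ⟨A, hA, fun l hl => h l fun e => hl (by simp [e])⟩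

/-- a kernel supported near a relation with finite fibres -/
structure Sp {α β : Type} (r : α → β → Prop) (D : List α → List β →₀ ℚ) : Prop where
  fin : ∀ y, {x | r x y}.Finite
  ne : ∀ σ τ, D σ τ ≠ 0 → σ ≠ [] → τ ≠ []
  rel : ∀ σ τ, D σ τ ≠ 0 → ∀ y ∈ τ, ∃ x ∈ σ, r x y

/-- a bornologous relation -/
def Bo (r : G → G' → Prop) : Prop :=
  ∀ A : Set G, A.Finite → ∃ B : Set G', B.Finite ∧
    ∀ x x' y y', r x y → r x' y' → x⁻¹ * x' ∈ A → y⁻¹ * y' ∈ B

theorem sp_bd1 {α : Type} : Sp (α := α) Eq bd1 :=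
  ⟨fun y => by simp, fun _ _ h _ => (bd1_supp h).1, fun _ _ h y hy =>
    ⟨y, (bd1_supp h).2.2 y hy, rfl⟩⟩

theorem Sp.comp {α β γ : Type} {r : α → β → Prop} {D : List α → List β →₀ ℚ} {r' : β → γ → Prop}
    {D' : List β → List γ →₀ ℚ} (hD : Sp r D) (hD' : Sp r' D') :
    Sp (Relation.Comp r r') fun σ => linearCombination ℚ D' (D σ) := by
  have key : ∀ σ υ, linearCombination ℚ D' (D σ) υ ≠ 0 → ∃ τ, D σ τ ≠ 0 ∧ D' τ υ ≠ 0 :=
    fun σ υ h => by simpa using map_ne h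
  refine ⟨fun z => ((hD'.fin z).biUnion fun y _ => hD.fin y).subset ?_, fun σ υ h h1 => ?_,
    fun σ υ h z hz => ?_⟩
  · rintro x ⟨y, h1, h2⟩
    exact Set.mem_biUnion h2 h1
  · obtain ⟨τ, h2, h3⟩ := key σ υ h
    exact hD'.ne _ _ h3 (hD.ne _ _ h2 h1)
  · obtain ⟨τ, h2, h3⟩ := key σ υ h
    obtain ⟨y, hy, hr'⟩ := hD'.rel _ _ h3 z hz
    obtain ⟨x, hx, hr⟩ := hD.rel _ _ h2 y hy
    exact ⟨x, hx, y, hr, hr'⟩

omit [Module ℚ M] in
theorem Cf.loc {β : Type} {r : G → β → Prop} {D : List G → List β →₀ ℚ} (h : Cf m c)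
    (hD : Sp r D) : Loc D c := fun τ => by
  refine (h.fin (τ.finite_toSet.biUnion fun y _ => hD.fin y)).subset ?_
  rintro σ ⟨h1, h2⟩
  obtain ⟨y, hy⟩ := List.exists_mem_of_ne_nil _ (hD.ne _ _ h2 (h.ne_nil h1))
  obtain ⟨x, hx, hr⟩ := hD.rel _ _ h2 y hy
  exact ⟨h1, x, hx, Set.mem_biUnion hy hr⟩

theorem Cf.comp {β γ : Type} {r : G → β → Prop} {D : List G → List β →₀ ℚ} {r' : β → γ → Prop}
    {D' : List β → List γ →₀ ℚ} (h : Cf m c) (hD : Sp r D) (hD' : Sp r' D') :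
    app D' (app D c) = app (fun σ => linearCombination ℚ D' (D σ)) c := by
  refine app_comp fun υ => (h.fin (υ.finite_toSet.biUnion fun z _ =>
    (hD'.fin z).biUnion fun y _ => hD.fin y)).subset ?_
  rintro σ ⟨h1, τ, h2, h3⟩
  obtain ⟨z, hz⟩ := List.exists_mem_of_ne_nil _ (hD'.ne _ _ h3 (hD.ne _ _ h2 (h.ne_nil h1)))
  obtain ⟨y, hy, hr'⟩ := hD'.rel _ _ h3 z hz
  obtain ⟨x, hx, hr⟩ := hD.rel _ _ h2 y hy
  exact ⟨h1, x, hx, Set.mem_biUnion hz (Set.mem_biUnion hr' hr)⟩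

theorem Cf.app {r : G → G' → Prop} {D : List G → List G' →₀ ℚ} (h : Cf m c) (hD : Sp r D)
    (hr : Bo r) (hl : ∀ σ τ, D σ τ ≠ 0 → σ.length = m + 1 → τ.length = m' + 1) :
    Cf m' (app D c) := by
  obtain ⟨A, hA, h⟩ := h
  obtain ⟨B, hB, h'⟩ := hr A hA
  refine ⟨B, hB, fun τ hτ => ?_⟩
  obtain ⟨σ, h1, h2⟩ := app_ne' hτ
  refine ⟨hl _ _ h1 (h σ h2).1, fun y hy y' hy' => ?_⟩
  obtain ⟨x, hx, e⟩ := hD.rel _ _ h1 y hy
  obtain ⟨x', hx', e'⟩ := hD.rel _ _ h1 y' hy'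
  exact h' x x' y y' e e' ((h σ h2).2 x hx x' hx')

theorem Cf.dd (h : Cf (m + 1) c) : Cf m (dd c) :=
  h.app sp_bd1 (fun A hA => ⟨A, hA, by rintro x x' _ _ rfl rfl e; exact e⟩) fun σ τ h1 h2 => by
    have := (bd1_supp h1).2.1; omega

open MainPf

theorem sp_ps {F : G → G'} (hF : CE F) : Sp (fun x y => F x = y) (ps F) := by
  refine ⟨fun y => ?_, fun σ τ h h1 => ?_, fun σ τ h y hy => ?_⟩
  · obtain ⟨A, hA, h⟩ := hF.prp _ (Set.finite_singleton 1)
    refine ((Set.finite_singleton (invFun F y)).mul hA).subset fun x hx => ?_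
    exact ⟨_, rfl, _, h (invFun F y) x (by rw [invFun_eq ⟨x, hx⟩, show F x = y from hx]; simp),
      by simp⟩
  · rw [ps_supp h]; simpa using h1
  · rw [ps_supp h] at hy; exact List.mem_map.1 hy

theorem Cf.ps {F : G → G'} (hF : CE F) (h : Cf m c) : Cf m (Fn.app (ps F) c) := by
  refine h.app (sp_ps hF) (fun A hA => ?_) fun σ τ h1 h2 => by rw [ps_supp h1]; simpa using h2
  obtain ⟨B, hB, h'⟩ := hF.born A hA
  exact ⟨B, hB, by rintro x x' _ _ rfl rfl e; exact h' x x' e⟩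

theorem Cf.dd_ps {F : G → G'} (hF : CE F) (h : Cf m c) :
    Fn.dd (Fn.app (FinCoarseX.ps F) c) = Fn.app (FinCoarseX.ps F) (Fn.dd c) := by
  unfold Fn.dd
  rw [h.comp (sp_ps hF) sp_bd1, h.comp sp_bd1 (sp_ps hF)]
  congr 1
  funext σ
  rw [lc_ps, ← bd1_map, FinCoarseX.ps, linearCombination_single, one_smul]

theorem Cf.ps_ps {F : G → G'} {F' : G' → G''} (hF : CE F) (hF' : CE F') (h : Cf m c) :
    Fn.app (FinCoarseX.ps F') (Fn.app (FinCoarseX.ps F) c) =
      Fn.app (FinCoarseX.ps (F' ∘ F)) c := by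
  rw [h.comp (sp_ps hF) (sp_ps hF')]
  congr 1
  funext σ
  simp [FinCoarseX.ps]

theorem sp_pr {g : G → G} {R : Set G} (hR : R.Finite) (h : ∀ x, x⁻¹ * g x ∈ R) :
    Sp (fun x y => x⁻¹ * y ∈ insert 1 R) (pr g) := by
  refine ⟨fun y => ?_, fun σ τ h1 _ => ?_, fun σ τ h1 y hy => ?_⟩
  · refine ((hR.insert 1).image fun a => y * a⁻¹).subset fun x hx => ⟨_, hx, by simp⟩
  · rintro rfl
    simpa using (pr_supp h1).1
  · obtain ⟨x, hx, rfl | rfl⟩ := (pr_supp h1).2 y hy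
    exacts [⟨y, hx, Or.inl (by simp)⟩, ⟨x, hx, Or.inr (h x)⟩]

theorem Cf.pr {g : G → G} {R : Set G} (hR : R.Finite) (hg : ∀ x, x⁻¹ * g x ∈ R) (h : Cf m c) :
    Cf (m + 1) (Fn.app (pr g) c) := by
  refine h.app (sp_pr hR hg) (fun A hA => ?_) fun σ τ h1 h2 => by rw [(pr_supp h1).1, h2]
  refine ⟨(insert 1 R)⁻¹ * A * insert 1 R, ((hR.insert 1).inv.mul hA).mul (hR.insert 1),
    fun x x' y y' e e' e'' => ?_⟩
  simpa [mul_assoc] using Set.mul_mem_mul (Set.mul_mem_mul (Set.inv_mem_inv.2 e) e'') e'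

theorem Cf.dd_pr {g : G → G} (hc : CE g) {R : Set G} (hR : R.Finite) (hg : ∀ x, x⁻¹ * g x ∈ R)
    (h : Cf m c) (h0 : Fn.dd c = 0) :
    Fn.dd (Fn.app (FinCoarseX.pr g) c) = Fn.app (FinCoarseX.ps g) c - c := by
  have e1 := h.comp sp_bd1 (sp_pr hR hg)
  have e2 := h.comp (sp_pr hR hg) sp_bd1
  have l1 := h.loc (sp_bd1.comp (sp_pr hR hg))
  have l2 := h.loc ((sp_pr hR hg).comp sp_bd1)
  have l3 : Loc (fun σ : List G => single σ (1 : ℚ)) c := fun τ =>
    (Set.finite_singleton τ).subset fun σ hσ => by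
      by_contra e
      exact hσ.2 (single_eq_of_ne' e)
  have e3 : Fn.app (FinCoarseX.pr g) (Fn.app bd1 c) = 0 := by
    rw [show Fn.app bd1 c = 0 from h0, app_zero]
  rw [Fn.dd, ← add_zero (Fn.app bd1 _), ← e3, e1, e2, ← app_add_left l2 l1,
    app_congr fun σ hσ => pr_bd1 g (h.ne_nil hσ), app_sub_left (h.loc (sp_ps hc)) l3, app_one]

section Main

variable {X' : Type} [MulAction G X] [MulAction G' X'] [Finite X] [Finite X'] {F : G → G'}

theorem ctl_push (hF : CE F) (e : (X →₀ ℚ) →ₗ[ℚ] (X' →₀ ℚ)) {c : List G → X →₀ ℚ}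
    (h : Ctl m c) : Ctl m fun τ => e (app (ps F) c τ) :=
  ctl_iff.2 (((ctl_iff.1 h).ps hF).map e)

omit [MulAction G' X'] [Finite X'] in
theorem dd_push (hF : CE F) (e : (X →₀ ℚ) →ₗ[ℚ] (X' →₀ ℚ)) {c : List G → X →₀ ℚ}
    (h : Ctl m c) : dd (fun τ => e (app (ps F) c τ)) = fun τ => e (app (ps F) (dd c) τ) := by
  rw [← (ctl_iff.1 h).dd_ps hF]
  exact app_map (((ctl_iff.1 h).ps hF).loc sp_bd1) e

/-- the map on cycles -/
noncomputable def zp (hF : CE F) (e : (X →₀ ℚ) →ₗ[ℚ] (X' →₀ ℚ)) : Zc G X m →ₗ[ℚ] Zc G' X' m where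
  toFun c := ⟨fun τ => e (app (ps F) c.1 τ), ctl_push hF e c.2.1, by
    rw [dd_push hF e c.2.1, c.2.2, app_zero]; funext τ; simp⟩
  map_add' c c' := by
    ext1; funext τ
    simp [app_add ((ctl_iff.1 c.2.1).loc (sp_ps hF)) ((ctl_iff.1 c'.2.1).loc (sp_ps hF))]
  map_smul' a c := by
    ext1; funext τ
    simp [app_smul ((ctl_iff.1 c.2.1).loc (sp_ps hF))]

/-- the map on homology -/
noncomputable def hp (hF : CE F) (e : (X →₀ ℚ) →ₗ[ℚ] (X' →₀ ℚ)) : Hm G X m →ₗ[ℚ] Hm G' X' m :=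
  Submodule.mapQ _ _ (zp hF e) (by
    rintro c ⟨b, hb, h⟩
    exact ⟨_, ctl_push hF e hb, by rw [dd_push hF e hb, h]; rfl⟩)

theorem hp_inj (hF : CE F) (e : (X →₀ ℚ) →ₗ[ℚ] (X' →₀ ℚ)) (e' : (X' →₀ ℚ) →ₗ[ℚ] (X →₀ ℚ))
    (he : ∀ v, e' (e v) = v) : Injective (hp (m := m) hF e) := by
  refine (injective_iff_map_eq_zero _).2 fun z hz => ?_
  obtain ⟨c, rfl⟩ := cls_surj z
  obtain ⟨b, hb, h⟩ := cls_eq_zero.1 (show cls (zp hF e c) = 0 from hz)
  obtain ⟨F', hF', R, hR, hg⟩ := hF.inv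
  have hc := ctl_iff.1 c.2.1
  have h1 := (ctl_iff.1 hb).map e'
  have h2 : dd (fun l => e' (b l)) = app (ps F) c.1 := by
    rw [hb.dd_map, h]
    funext τ
    exact he _
  have h3 := ctl_iff.2 (h1.ps hF')
  have h4 := ctl_iff.2 (hc.pr (g := F' ∘ F) hR hg)
  refine cls_eq_zero.2 ⟨_, h3.sub h4, ?_⟩
  rw [h3.dd_sub h4, h1.dd_ps hF', h2, hc.ps_ps hF hF', hc.dd_pr (hF'.comp hF) hR hg c.2.2]
  simp

end Main

end FinCoarseX

theorem coarse_pf : S_coarse := by
  intro H Γ _ _ S T hS hT K C F hF m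
  have := QuotientGroup.subsingleton_quotient_top (G := H)
  have := QuotientGroup.subsingleton_quotient_top (G := Γ)
  refine ⟨_, FinCoarseX.hp_inj (MainPf.ce_of_qi hS hT hF) (pf fun _ => ((1 : Γ) : Γ ⧸ (⊤ : Subgroup Γ)))
    (pf fun _ => ((1 : H) : H ⧸ (⊤ : Subgroup H))) fun v => ?_⟩
  rw [← LinearMap.comp_apply, pf_pf, Subsingleton.elim (_ ∘ _) id, pf, lmapDomain_id]
  rfl

end Vale.Agent.P188.Fn
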