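import Vale.Agent.P188.FinLes

/-! Directed unions and transfer for the homology of controlled chains. -/

namespace Vale.Agent.P188.Fn

open Function Finsupp

namespace FinColimX

variable {G : Type} [Group G] {m : ℕ} {L K U : Subgroup G}

theorem fact {Y Z Z' : Type} [Nonempty Z'] {v : Y →₀ ℚ} (f : Y → Z) (g : Y → Z')
    (h : ∀ p q, v p ≠ 0 → v q ≠ 0 → f p = f q → g p = g q) (hv : pf f v = 0) : pf g v = 0 := by
  classical
  let r : Z → Z' := fun z =>
    if h : ∃ p, v p ≠ 0 ∧ f p = z then g h.choose else Classical.arbitrary _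
  have e : mapDomain g v = mapDomain (r ∘ f) v := mapDomain_congr fun p hp => by
    have h1 : ∃ q, v q ≠ 0 ∧ f q = f p := ⟨p, mem_support_iff.1 hp, rfl⟩
    simp only [r, comp_apply, dif_pos h1]
    exact h _ _ (mem_support_iff.1 hp) h1.choose_spec.1 h1.choose_spec.2.symm
  rw [lmapDomain_apply] at hv ⊢
  rw [e, mapDomain_comp, hv, mapDomain_zero]

theorem one_conj (h : L ≤ K) : ∀ x ∈ L, (1 : G)⁻¹ * x * 1 ∈ K := fun x hx => by simpa using h hx

theorem rt_one (h : L ≤ K) (x : G) : rt L K 1 (x : G ⧸ L) = (x : G ⧸ K) := by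
  rw [rt_mk (one_conj h), mul_one]

theorem eqv (h : L ≤ K) : Eqv G (pf (rt L K 1)) := eqv_pf (rt_smul (one_conj h))

theorem surj (h : L ≤ K) : Surjective (pf (rt L K 1)) := by
  refine mapDomain_surjective fun q => ?_
  obtain ⟨x, rfl⟩ := QuotientGroup.mk_surjective q
  exact ⟨x, rt_one h x⟩

theorem key (h : L ≤ K) {c : List G → G ⧸ L →₀ ℚ} (hc : Ctl m c)
    (h0 : ∀ l, pf (rt L K 1) (c l) = 0) : ∃ s : Finset G, (s : Set G) ⊆ K ∧
      ∀ l, pf (rt L (L ⊔ Subgroup.closure s) 1) (c l) = 0 := by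
  obtain ⟨A, E, -, hE, hc⟩ := hc
  have hf : (Set.image2 (fun p q : G ⧸ L => p.out⁻¹ * q.out) E E ∩ K).Finite :=
    (hE.image2 _ hE).inter_of_left _
  refine ⟨hf.toFinset, by simp, fun l => fact _ _ (fun p q hp hq e => ?_) (h0 l)⟩
  obtain ⟨h1, -, h2⟩ := hc l p hp
  obtain ⟨x, hx⟩ := List.exists_mem_of_length_pos (l := l) (by omega)
  have h3 : rt L K 1 (x⁻¹ • p) = rt L K 1 (x⁻¹ • q) := by
    rw [rt_smul (one_conj h), rt_smul (one_conj h), e]
  have h4 : rt L (L ⊔ Subgroup.closure hf.toFinset) 1 (x⁻¹ • p) =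
      rt L (L ⊔ Subgroup.closure hf.toFinset) 1 (x⁻¹ • q) := by
    rw [rt, rt, mul_one, mul_one, QuotientGroup.eq] at h3 ⊢
    refine Subgroup.mem_sup_right (Subgroup.subset_closure ?_)
    rw [Set.Finite.coe_toFinset]
    exact ⟨Set.mem_image2_of_mem (h2 x hx) ((hc l q hq).2.2 x hx), h3⟩
  rw [rt_smul (one_conj le_sup_left), rt_smul (one_conj le_sup_left)] at h4
  exact MulAction.injective _ h4

theorem transversal (h : L.relIndex U ≠ 0) : ∃ s : Finset G, (s : Set G) ⊆ U ∧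
    ∀ u ∈ U, ∃! κ, κ ∈ s ∧ u⁻¹ * κ ∈ L := by
  classical
  let _ := Subgroup.fintypeOfIndexNeZero h
  refine ⟨Finset.univ.image fun q : U ⧸ L.subgroupOf U => (q.out : G), fun x hx => ?_,
    fun u hu => ⟨((⟨u, hu⟩ : U) : U ⧸ L.subgroupOf U).out, ⟨?_, ?_⟩, ?_⟩⟩
  · obtain ⟨q, -, rfl⟩ := Finset.mem_image.1 hx
    exact q.out.2
  · exact Finset.mem_image_of_mem _ (Finset.mem_univ _)
  · exact (QuotientGroup.eq (s := L.subgroupOf U)).1
      (QuotientGroup.out_eq' ((⟨u, hu⟩ : U) : U ⧸ L.subgroupOf U)).symm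
  · rintro κ ⟨h1, h2⟩
    obtain ⟨q, -, rfl⟩ := Finset.mem_image.1 h1
    have h3 : ((⟨u, hu⟩ : U) : U ⧸ L.subgroupOf U) = q.out := QuotientGroup.eq.2 h2
    rw [h3, QuotientGroup.out_eq']

open Classical in
theorem fibre (h : L ≤ U) {s : Finset G} (hs : (s : Set G) ⊆ U)
    (ht : ∀ u ∈ U, ∃! κ, κ ∈ s ∧ u⁻¹ * κ ∈ L) (y : G) (q : G ⧸ L) :
    (∑ κ ∈ s, single ((y * κ : G) : G ⧸ L) (1 : ℚ)) q =
      if (y : G ⧸ U) = rt L U 1 q then 1 else 0 := by
  obtain ⟨z, rfl⟩ := QuotientGroup.mk_surjective q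
  have e : ∀ κ : G, ((y * κ : G) : G ⧸ L) = z ↔ (y⁻¹ * z)⁻¹ * κ ∈ L := fun κ => by
    rw [eq_comm, QuotientGroup.eq, mul_inv_rev, inv_inv, mul_assoc]
  rw [rt_one h, Finsupp.finsetSum_apply]
  simp only [single_apply, e, QuotientGroup.eq]
  split_ifs with h1
  · obtain ⟨κ, ⟨h2, h3⟩, h4⟩ := ht _ h1
    rw [Finset.sum_eq_single κ (fun b hb hne => if_neg fun h5 => hne (h4 b ⟨hb, h5⟩))
      (fun h5 => absurd h2 h5), if_pos h3]
  · refine Finset.sum_eq_zero fun κ hκ => if_neg fun h2 => h1 ?_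
    have h3 := inv_mem (mul_mem (h h2) (inv_mem (hs hκ)))
    rwa [mul_inv_cancel_right, inv_inv] at h3

theorem tau_apply (h : L ≤ U) {s : Finset G} (hs : (s : Set G) ⊆ U)
    (ht : ∀ u ∈ U, ∃! κ, κ ∈ s ∧ u⁻¹ * κ ∈ L) (v : G ⧸ U →₀ ℚ) (q : G ⧸ L) :
    (∑ κ ∈ s, pf (rt U L κ)) v q = v (rt L U 1 q) := by
  classical
  induction v using Finsupp.induction_linear with
  | zero => simp
  | add u v hu hv => rw [map_add, Finsupp.add_apply, Finsupp.add_apply, hu, hv]
  | single p a =>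
    rw [← smul_single_one, map_smul, Finsupp.smul_apply, Finsupp.smul_apply, LinearMap.sum_apply]
    simp only [lmapDomain_apply, mapDomain_single]
    congr 1
    have := fibre h hs ht p.out q
    rw [QuotientGroup.out_eq'] at this
    rw [single_apply]
    exact this

end FinColimX

open FinColimX

theorem colim_pf : S_colim := by
  intro G _ m L K h
  refine ⟨fun z hz => ?_, fun z => ?_⟩
  · obtain ⟨c, rfl⟩ := cls_surj z
    rw [tr, hm_cls (eqv h).adm] at hz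
    obtain ⟨b, hb, e⟩ := cls_eq_zero.1 hz
    obtain ⟨b', hb', e'⟩ := hb.lift (eqv h) fun l => surj h _
    obtain ⟨s, hs, k⟩ := key h (c.2.1.sub hb'.dd) fun l => by
      rw [Pi.sub_apply, map_sub, ← congrFun (hb'.dd_map _) l, funext e', e, zm_val, sub_self]
    refine ⟨s, hs, ?_⟩
    rw [tr, hm_cls (eqv le_sup_left).adm]
    refine cls_eq_zero.2 ⟨_, hb'.map (eqv le_sup_left).adm, ?_⟩
    rw [hb'.dd_map, zm_val]
    funext l
    have := k l
    rw [Pi.sub_apply, map_sub, sub_eq_zero] at this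
    exact this.symm
  · obtain ⟨c, rfl⟩ := cls_surj z
    obtain ⟨c', hc', e⟩ := c.2.1.lift (eqv h) fun l => surj h _
    obtain ⟨m', hm'⟩ : ∃ m', Ctl m' (dd c') := by
      cases m with
      | zero => exact ⟨0, by rw [hc'.dd_zero]; exact Ctl.zero⟩
      | succ m => exact ⟨m, hc'.dd⟩
    obtain ⟨s, hs, k⟩ := key h hm' fun l => by
      rw [← congrFun (hc'.dd_map _) l, funext e, c.2.2]; rfl
    have hU : L ⊔ Subgroup.closure (s : Set G) ≤ K := sup_le h ((Subgroup.closure_le K).2 hs)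
    refine ⟨s, hs, cls ⟨_, hc'.map (eqv le_sup_left).adm, by rw [hc'.dd_map]; exact funext k⟩, ?_⟩
    rw [tr, hm_cls (eqv hU).adm]
    congr 1
    ext1
    funext l
    change (pf (rt _ K 1) ∘ₗ pf (rt L _ 1)) (c' l) = _
    rw [← e l, pf_pf]
    congr 2
    funext p
    obtain ⟨x, rfl⟩ := QuotientGroup.mk_surjective p
    rw [comp_apply, rt_one le_sup_left, rt_one hU, rt_one h]

theorem trans_pf : S_trans := by
  intro G _ m L U h hi
  obtain ⟨s, hs, ht⟩ := transversal hi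
  have hc : (s.card : ℚ) ≠ 0 := by
    obtain ⟨κ, ⟨hκ, -⟩, -⟩ := ht 1 (one_mem _)
    exact Nat.cast_ne_zero.2 (Finset.card_ne_zero_of_mem hκ)
  have hτ : Eqv G (∑ κ ∈ s, pf (rt U L κ)) := fun g => by
    refine LinearMap.ext fun v => Finsupp.ext fun q => ?_
    rw [LinearMap.comp_apply, LinearMap.comp_apply, tau_apply h hs ht, pf_smul_apply,
      pf_smul_apply, tau_apply h hs ht, rt_smul (one_conj h)]
  refine ⟨fun z => ⟨(s.card : ℚ)⁻¹ • hm G m (∑ κ ∈ s, pf (rt U L κ)) z, ?_⟩,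
    fun hn => ⟨s, hs, ht, fun z => ⟨fun hz => ?_, fun hz => ?_⟩⟩⟩
  · have e : pf (rt L U 1) ∘ₗ ∑ κ ∈ s, pf (rt U L κ) = (s.card : ℚ) • LinearMap.id := by
      refine LinearMap.ext fun v => ?_
      rw [LinearMap.comp_apply, LinearMap.sum_apply, map_sum, LinearMap.smul_apply,
        Nat.cast_smul_eq_nsmul, ← Finset.sum_const]
      refine Finset.sum_congr rfl fun κ hκ => ?_
      rw [← LinearMap.comp_apply, pf_pf, ← lmapDomain_id]
      congr 2
      funext p
      rw [comp_apply, rt.eq_1 U L, rt_one h, id, QuotientGroup.mk_mul_of_mem _ (hs hκ),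
        QuotientGroup.out_eq']
    rw [map_smul, tr, hm_comp (eqv h).adm hτ.adm, e, hm_smul Adm.id, hm_id, smul_smul,
      inv_mul_cancel₀ hc, one_smul]
  · have e : (∑ κ ∈ s, pf (rt U L κ)) ∘ₗ pf (rt L U 1) = ∑ κ ∈ s, pf (rt L L κ) := by
      classical
      refine Finsupp.lhom_ext' fun p => LinearMap.ext_ring (Finsupp.ext fun q => ?_)
      obtain ⟨x, rfl⟩ := QuotientGroup.mk_surjective p
      simp only [LinearMap.comp_apply, lsingle_apply]
      rw [tau_apply h hs ht, LinearMap.sum_apply]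
      simp only [lmapDomain_apply, mapDomain_single]
      rw [Finset.sum_congr rfl fun κ hκ => by rw [rt_mk (hn κ (hs hκ))], fibre h hs ht,
        rt_one h, single_apply]
    have e2 := hm_sum (G := G) (s := s) (φ := fun κ => pf (rt L L κ))
      (fun κ hκ => adm_pf (rt_smul (hn κ (hs hκ)))) z
    rw [← e, ← hm_comp hτ.adm (eqv h).adm] at e2
    rw [tr] at hz
    rw [hz, map_zero] at e2
    exact e2.symm
  · have e := congrArg (tr m L U 1) hz
    have e1 : ∀ κ ∈ s, tr m L U 1 (tr m L L κ z) = tr m L U 1 z := fun κ hκ => by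
      rw [tr_tr (hn κ (hs hκ)) (one_conj h), mul_one, ← tr_congr (g := 1) (hs hκ), one_mul]
    rw [map_sum, map_zero, Finset.sum_congr rfl e1, Finset.sum_const,
      ← Nat.cast_smul_eq_nsmul ℚ] at e
    exact (smul_eq_zero.1 e).resolve_left hc

end Vale.Agent.P188.Fn
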