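import Vale.Agent.P188.FinLes

/-! The maximal length of a poly-`ℤ` subgroup of the kernel of the height. -/

namespace Vale.Agent.P188.Fn

open Function

namespace FinMaxX

variable {H : Type} [Group H] {S : Finset H} {k : ℕ} {φ : H →* Multiplicative (Rk k)} {D : ℕ}

theorem exists_word (hS : Subgroup.closure (S : Set H) = ⊤) (g : H) :
    ∃ l : List H, IsWord S l ∧ l.prod = g := by
  have h : g ∈ (Subgroup.closure (S : Set H)).toSubmonoid := by rw [hS]; trivial
  rw [Subgroup.closure_toSubmonoid] at h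
  exact Submonoid.exists_list_of_mem_closure h

theorem height_le (φ : H →* Multiplicative (Rk k)) {l : List H} (hl : IsWord S l) :
    ‖Multiplicative.toAdd (φ l.prod)‖ ≤ (∑ x ∈ S, ‖Multiplicative.toAdd (φ x)‖) * l.length := by
  induction l with
  | nil => simp
  | cons x l ih =>
    have h1 : ‖Multiplicative.toAdd (φ x)‖ ≤ ∑ x ∈ S, ‖Multiplicative.toAdd (φ x)‖ := by
      rcases hl x List.mem_cons_self with h | h
      · exact Finset.single_le_sum (f := fun x => ‖Multiplicative.toAdd (φ x)‖)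
          (fun _ _ => norm_nonneg _) h
      · have := Finset.single_le_sum (f := fun x => ‖Multiplicative.toAdd (φ x)‖)
          (fun _ _ => norm_nonneg _) h
        rwa [map_inv, toAdd_inv, norm_neg] at this
    have h2 := ih fun y hy => hl y (List.mem_cons_of_mem _ hy)
    rw [List.prod_cons, map_mul, toAdd_mul, List.length_cons]
    push_cast
    linarith [norm_add_le (Multiplicative.toAdd (φ x)) (Multiplicative.toAdd (φ l.prod))]

theorem finite_hBall (f : H → Rk k) (r : ℕ) (ρ : ℝ) : (hBall S f r ρ).Finite := by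
  have h1 : ((S : Set H) ∪ (S : Set H)⁻¹).Finite := S.finite_toSet.union S.finite_toSet.inv
  refine (((Set.finite_Iic r).biUnion fun n _ => finite_lists h1 n).image List.prod).subset ?_
  rintro g ⟨l, h2, h3, h4, -⟩
  exact ⟨l, Set.mem_biUnion h3 ⟨rfl, h2⟩, h4⟩

theorem subst_word {P : H → Prop} {w : H → List H} {n : ℕ} {ρ : ℝ} (hρ : 0 ≤ ρ)
    (hw : ∀ g, P g → φ g = 1 ∧ IsWord S (w g) ∧ (w g).prod = g ∧ (w g).length ≤ n ∧
      ∀ i, ‖Multiplicative.toAdd (φ ((w g).take i).prod)‖ ≤ ρ) (m : List H) (hm : ∀ g ∈ m, P g) :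
    ∃ l : List H, IsWord S l ∧ l.length ≤ n * m.length ∧ l.prod = m.prod ∧
      ∀ i, ‖Multiplicative.toAdd (φ (l.take i).prod)‖ ≤ ρ := by
  induction m with
  | nil => exact ⟨[], fun _ h => by simp at h, by simp, rfl, fun i => by simpa using hρ⟩
  | cons g m ih =>
    obtain ⟨l, h1, h2, h3, h4⟩ := ih fun y hy => hm y (List.mem_cons_of_mem _ hy)
    obtain ⟨a, b, c, d, e⟩ := hw g (hm g List.mem_cons_self)
    refine ⟨w g ++ l, fun x hx => (List.mem_append.1 hx).elim (b x) (h1 x), ?_, ?_, fun i => ?_⟩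
    · rw [List.length_append, List.length_cons, mul_add]; omega
    · rw [List.prod_append, List.prod_cons, c, h3]
    · rcases le_total i (w g).length with hi | hi
      · rw [List.take_append_of_le_length hi]; exact e i
      · rw [List.take_append, List.take_of_length_le hi, List.prod_append, c, map_mul, a, one_mul]
        exact h4 _

theorem virt (hG : Gromov_stmt) (hp : S_pz) (hS : Subgroup.closure (S : Set H) = ⊤)
    (hD : Cnt S φ D) (s : Finset H) (hs : (s : Set H) ⊆ φ.ker) :
    ∃ L ≤ Subgroup.closure (s : Set H), ∃ m ≤ D, PZ m L ∧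
      L.relIndex (Subgroup.closure (s : Set H)) ≠ 0 := by
  classical
  choose w hw hw' using exists_word hS
  set n := s.sup fun g => max (w g).length (w g⁻¹).length with hn
  set B := ∑ x ∈ S, ‖Multiplicative.toAdd (φ x)‖ with hB
  have hB0 : 0 ≤ B := Finset.sum_nonneg fun _ _ => norm_nonneg _
  set ρ := ⌈B * n⌉₊ with hρ
  have key := subst_word (S := S) (φ := φ) (P := fun g => g ∈ s ∨ g⁻¹ ∈ s) (w := w) (n := n)
    (ρ := ρ) (Nat.cast_nonneg _) fun g hg => by
      have h1 : (w g).length ≤ n := by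
        rcases hg with h | h
        · exact (le_max_left _ _).trans
            (Finset.le_sup (f := fun g => max (w g).length (w g⁻¹).length) h)
        · have := (le_max_right _ _).trans
            (Finset.le_sup (f := fun g => max (w g).length (w g⁻¹).length) h)
          rwa [inv_inv] at this
      refine ⟨hg.elim (fun h => hs h) fun h => (inv_mem_iff (H := φ.ker)).1 (hs h), hw g, hw' g,
        h1, fun i => (height_le φ fun x hx => hw g x (List.mem_of_mem_take hx)).trans
          (le_trans (mul_le_mul_of_nonneg_left ?_ hB0) (Nat.le_ceil _))⟩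
      exact_mod_cast (List.length_take_le' _ _).trans h1
  obtain ⟨L, hL, m, hm, hz⟩ := hG D (Subgroup.closure (s : Set H))
    (s.subtype (· ∈ Subgroup.closure (s : Set H)))
    (by
      rw [← Subgroup.closure_closure_coe_preimage]
      congr 1
      ext x
      simp)
    ⟨(D * (n + 1) * 2 ^ ρ) ^ D, fun r => by
      refine (Set.ncard_le_ncard_of_injOn Subtype.val ?_ Subtype.val_injective.injOn
        (finite_hBall _ _ _)).trans ((hD (n * r) ρ).trans ?_)
      · rintro _ ⟨l, h1, h2, rfl⟩
        obtain ⟨l', h3, h4, h5, h6⟩ := key (l.map Subtype.val) fun g hg => by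
          obtain ⟨x, hx, rfl⟩ := List.mem_map.1 hg
          exact (h1 x hx).imp Finset.mem_subtype.1 Finset.mem_subtype.1
        refine ⟨l', h3, h4.trans (Nat.mul_le_mul_left _ (by simpa using h2)), ?_, h6⟩
        rw [h5, Subgroup.val_list_prod]
      · rw [← mul_pow]
        refine Nat.pow_le_pow_left ?_ _
        calc D * (n * r + 1) * 2 ^ ρ ≤ D * ((n + 1) * (r + 1)) * 2 ^ ρ := by
              gcongr; nlinarith
          _ = _ := by ring⟩
  refine ⟨L.map (Subgroup.subtype _), Subgroup.map_subtype_le _, m, hm,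
    hp.map _ (Subgroup.subtype_injective _) ((hp.iff m L).2 hz), ?_⟩
  rw [Subgroup.relIndex, Subgroup.subgroupOf,
    Subgroup.comap_map_eq_self_of_injective (Subgroup.subtype_injective _)]
  exact hL.index_ne_zero

end FinMaxX

theorem max_pf (hG : Gromov_stmt) (hp : S_pz) : S_max := by
  intro H _ S hS k φ D hD
  classical
  have h1 : ∀ m, (∃ L ≤ φ.ker, PZ m L) → m ≤ D := by
    rintro m ⟨L, hL, hz⟩
    obtain ⟨s, rfl⟩ := hp.fg hz
    obtain ⟨L₀, a, m₀, b, c, d⟩ :=
      FinMaxX.virt hG hp hS hD s (Subgroup.subset_closure.trans hL)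
    obtain ⟨m', -, e, f⟩ := hp.sub hz a
    rw [← f.2 d, hp.uniq e c]
    exact b
  refine ⟨Nat.findGreatest (fun m => ∃ L ≤ φ.ker, PZ m L) D,
    Nat.findGreatest_spec (P := fun m => ∃ L ≤ φ.ker, PZ m L) D.zero_le ⟨⊥, bot_le, PZ.zero⟩,
    fun L hL hz s hs => ?_⟩
  obtain ⟨s₀, rfl⟩ := hp.fg hz
  have hs' : ((s₀ ∪ s : Finset H) : Set H) ⊆ φ.ker := by
    rw [Finset.coe_union]
    exact Set.union_subset (Subgroup.subset_closure.trans hL) hs
  obtain ⟨L₀, a, m₀, b, c, d⟩ := FinMaxX.virt hG hp hS hD _ hs'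
  have h2 := Nat.le_findGreatest (P := fun m => ∃ L ≤ φ.ker, PZ m L) b
    ⟨L₀, a.trans ((Subgroup.closure_le _).2 hs'), c⟩
  rw [Finset.coe_union, Subgroup.closure_union] at a d
  obtain ⟨m', -, e, f⟩ := hp.sub hz (inf_le_left (b := L₀))
  obtain ⟨m'', g, e', f'⟩ := hp.sub c (inf_le_right (a := Subgroup.closure (s₀ : Set H)))
  have h3 := f.2 (by
    rw [Subgroup.inf_relIndex_left]
    exact fun h => d (Subgroup.relIndex_eq_zero_of_le_right le_sup_left h))
  have h4 := hp.uniq e e'
  have h5 := mul_ne_zero (f'.1 (by omega)) d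
  rw [Subgroup.relIndex_mul_relIndex _ _ _ inf_le_right a] at h5
  exact fun h => h5 (Subgroup.relIndex_eq_zero_of_le_left inf_le_left h)

end Vale.Agent.P188.Fn
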