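import Vale.Agent.P188.FinLes

/-! Group theory of poly-`ℤ` subgroups. -/

namespace Vale.Agent.P188.Fn

open Function

namespace FinPZX

variable {G : Type} [Group G] {N N' L A : Subgroup G} {t : G}

theorem conj_zpow (h : Step N N' t) (k : ℤ) : ∀ x ∈ N, t ^ k * x * t ^ (-k) ∈ N := by
  induction k using Int.induction_on with
  | zero => simp
  | succ k ih =>
    intro x hx
    have := ih _ (h.conj' x hx)
    rwa [show t ^ (k : ℤ) * (t * x * t⁻¹) * t ^ (-(k : ℤ)) =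
      t ^ ((k : ℤ) + 1) * x * t ^ (-((k : ℤ) + 1)) by group] at this
  | pred k ih =>
    intro x hx
    have := ih _ (h.conj x hx)
    rwa [show t ^ (-(k : ℤ)) * (t⁻¹ * x * t) * t ^ (-(-(k : ℤ))) =
      t ^ (-(k : ℤ) - 1) * x * t ^ (-(-(k : ℤ) - 1)) by group] at this

theorem exp_uniq (h : Step N N' t) {x : G} {a b : ℤ} (ha : x * t ^ a ∈ N) (hb : x * t ^ b ∈ N) :
    a = b := by
  have h1 := mul_mem (inv_mem ha) hb
  rw [show (x * t ^ a)⁻¹ * (x * t ^ b) = t ^ (b - a) by group] at h1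
  have := h.free _ h1
  omega

/-- the homomorphism attached to a step -/
theorem psi (h : Step N N' t) : ∃ ψ : N' →* Multiplicative ℤ,
    ψ ⟨t, h.mem⟩ = Multiplicative.ofAdd 1 ∧ ∀ x, ψ x = 1 ↔ x.1 ∈ N := by
  choose d hd using fun x : N' => h.gen x.1 x.2
  refine ⟨MonoidHom.mk' (fun x => Multiplicative.ofAdd (-d x)) fun x y => ?_, ?_, fun x => ?_⟩
  · have h1 := mul_mem (hd x) (conj_zpow h (-d x) _ (hd y))
    rw [show x.1 * t ^ d x * (t ^ (-d x) * (y.1 * t ^ d y) * t ^ (- -d x)) =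
      x.1 * y.1 * t ^ (d x + d y) by group] at h1
    rw [exp_uniq h (hd (x * y)) h1, ← ofAdd_add, neg_add]
  · have h1 := exp_uniq h (hd ⟨t, h.mem⟩) (b := -1) (by simp)
    simp [h1]
  · simp only [MonoidHom.mk'_apply, ofAdd_eq_one, neg_eq_zero]
    refine ⟨fun h1 => by simpa [h1] using hd x, fun h1 => exp_uniq h (hd x) (by simpa using h1)⟩

theorem surj {K : Type} [Group K] {ψ : K →* Multiplicative ℤ} {a : K}
    (h : ψ a = Multiplicative.ofAdd 1) : Surjective ψ := fun k =>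
  ⟨a ^ k.toAdd, by rw [map_zpow, h, ← ofAdd_zsmul, smul_eq_mul, mul_one, ofAdd_toAdd]⟩

theorem step_of_hom {ψ : L →* Multiplicative ℤ} (hN : ∀ x : L, ψ x = 1 ↔ x.1 ∈ N) (hA : A ≤ L)
    {a : L} (ha : a.1 ∈ A) (h0 : ψ a ≠ 1) (hg : ∀ x : L, x.1 ∈ A → ψ x ∈ Subgroup.zpowers (ψ a)) :
    Step (A ⊓ N) A a where
  le := inf_le_left
  mem := ha
  conj := fun x hx => ⟨A.mul_mem (A.mul_mem (A.inv_mem ha) hx.1) ha,
    (hN (a⁻¹ * ⟨x, hA hx.1⟩ * a)).1 (by simp [(hN ⟨x, hA hx.1⟩).2 hx.2])⟩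
  conj' := fun x hx => ⟨A.mul_mem (A.mul_mem ha hx.1) (A.inv_mem ha),
    (hN (a * ⟨x, hA hx.1⟩ * a⁻¹)).1 (by simp [(hN ⟨x, hA hx.1⟩).2 hx.2])⟩
  gen := fun x hx => by
    obtain ⟨k, hk⟩ := hg ⟨x, hA hx⟩ hx
    refine ⟨-k, mul_mem hx (zpow_mem ha _), (hN (⟨x, hA hx⟩ * a ^ (-k))).1 ?_⟩
    rw [map_mul, map_zpow, ← hk, zpow_neg, mul_inv_cancel]
  free := fun k hk => by
    have h1 := congrArg Multiplicative.toAdd ((hN (a ^ k)).2 hk.2)
    rw [map_zpow, toAdd_zpow, toAdd_one, smul_eq_mul, mul_eq_zero] at h1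
    exact h1.resolve_right h0

theorem ker_eq {ψ : L →* Multiplicative ℤ} (hN : ∀ x : L, ψ x = 1 ↔ x.1 ∈ N) :
    N.subgroupOf L = ψ.ker := by
  ext x
  exact (hN x).symm

theorem rel_zero (h : Step N N' t) : N.relIndex N' = 0 := by
  obtain ⟨ψ, h1, h2⟩ := psi h
  rw [Subgroup.relIndex, ker_eq h2, Subgroup.index_ker, MonoidHom.range_eq_top.2 (surj h1),
    Subgroup.card_top]
  exact Nat.card_eq_zero_of_infinite

theorem polyZ_equiv (n : ℕ) : ∀ (K K' : Type) [Group K] [Group K'] (_ : K ≃* K'),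
    PolyZ n K → PolyZ n K' := by
  induction n with
  | zero => exact fun K K' _ _ e h => e.toEquiv.subsingleton_congr.1 h
  | succ n ih =>
    rintro K K' _ _ e ⟨ψ, h1, h2⟩
    refine ⟨ψ.comp e.symm.toMonoidHom, h1.comp e.symm.surjective, ih _ _
      ((e.subgroupMap ψ.ker).trans (MulEquiv.subgroupCongr ?_)) h2⟩
    ext x
    simp

theorem pz_iff (n : ℕ) : ∀ L : Subgroup G, PZ n L ↔ PolyZ n L := by
  induction n with
  | zero =>
    refine fun L => ⟨fun h => ?_, fun h => ?_⟩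
    · cases h
      exact (inferInstance : Subsingleton (⊥ : Subgroup G))
    · have : Subsingleton L := h
      rw [Subgroup.eq_bot_of_subsingleton L]
      exact PZ.zero
  | succ n ih =>
    refine fun L => ⟨fun h => ?_, ?_⟩
    · cases h with
      | succ h hN =>
        obtain ⟨ψ, h1, h2⟩ := psi h
        refine ⟨ψ, surj h1, ?_⟩
        rw [← ker_eq h2]
        exact polyZ_equiv n _ _ (Subgroup.subgroupOfEquivOfLe h.le).symm ((ih _).1 hN)
    · rintro ⟨ψ, h1, h2⟩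
      obtain ⟨a, ha⟩ := h1 (Multiplicative.ofAdd 1)
      have h3 := step_of_hom (N := ψ.ker.map L.subtype) (ψ := ψ) (fun x => by simp) le_rfl a.2
        (by rw [ha]; decide) fun x _ => by
          rw [ha]
          exact ⟨(ψ x).toAdd, by simp [← ofAdd_zsmul]⟩
      rw [inf_eq_right.2 (Subgroup.map_subtype_le _)] at h3
      exact PZ.succ h3 ((ih _).2 (polyZ_equiv n _ _
        (ψ.ker.equivMapOfInjective L.subtype L.subtype_injective) h2))

/-- finite index from a finite cover -/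
theorem rel_of_cover {F : Set G} (hF : F.Finite) (hFL : F ⊆ L) (hN : N ≤ L)
    (h : A.relIndex N ≠ 0) (hc : ∀ x ∈ L, ∃ f ∈ F, ∃ n ∈ N, ∃ a ∈ A, x = f * n * a) :
    A.relIndex L ≠ 0 := by
  have := hF.to_subtype
  have : Finite (N ⧸ A.subgroupOf N) := Subgroup.index_ne_zero_iff_finite.1 h
  refine Subgroup.index_ne_zero_iff_finite.2 (Finite.of_surjective
    (fun p : F × (N ⧸ A.subgroupOf N) =>
      ((⟨p.1.1 * p.2.out.1, mul_mem (hFL p.1.2) (hN p.2.out.2)⟩ : L) : L ⧸ A.subgroupOf L))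
    fun q => ?_)
  obtain ⟨x, rfl⟩ := QuotientGroup.mk_surjective q
  obtain ⟨f, hf, n, hn, a, ha, e⟩ := hc x.1 x.2
  obtain ⟨b, hb⟩ := QuotientGroup.mk_out_eq_mul (A.subgroupOf N) ⟨n, hn⟩
  refine ⟨(⟨f, hf⟩, ((⟨n, hn⟩ : N) : N ⧸ A.subgroupOf N)), QuotientGroup.eq.2 ?_⟩
  have h1 := mul_mem (inv_mem (Subgroup.mem_subgroupOf.1 b.2)) ha
  simpa [Subgroup.mem_subgroupOf, hb, e, mul_assoc] using h1

theorem pz_sub {n : ℕ} (h : PZ n L) : ∀ A ≤ L, ∃ m ≤ n, PZ m A ∧ (m = n ↔ A.relIndex L ≠ 0) := by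
  induction h with
  | zero =>
    intro A hA
    rw [le_bot_iff.1 hA]
    exact ⟨0, le_rfl, PZ.zero, by simp⟩
  | @succ n N L t h _ ih =>
    intro A hA
    obtain ⟨ψ, h1, h2⟩ := psi h
    obtain ⟨g, hg⟩ := (Subgroup.isCyclic_iff_exists_zpowers_eq_top
      ((A.subgroupOf L).map ψ)).1 inferInstance
    obtain ⟨a, ha, rfl⟩ : g ∈ (A.subgroupOf L).map ψ := hg ▸ Subgroup.mem_zpowers g
    have h3 : ∀ x : L, x.1 ∈ A → ψ x ∈ Subgroup.zpowers (ψ a) := fun x hx =>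
      hg ▸ Subgroup.mem_map_of_mem ψ hx
    by_cases h0 : ψ a = 1
    · have h4 : A ≤ N := fun x hx => (h2 ⟨x, hA hx⟩).1 (by simpa [h0] using h3 ⟨x, hA hx⟩ hx)
      obtain ⟨m, h5, h6, -⟩ := ih A h4
      exact ⟨m, by omega, h6, iff_of_false (by omega)
        (not_not.2 (Subgroup.relIndex_eq_zero_of_le_left h4 (rel_zero h)))⟩
    · obtain ⟨m, h5, h6, h7⟩ := ih (A ⊓ N) inf_le_right
      refine ⟨m + 1, by omega, PZ.succ (step_of_hom h2 hA ha h0 h3) h6, ?_⟩
      rw [Nat.add_right_cancel_iff, h7, Subgroup.inf_relIndex_right]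
      refine ⟨fun h8 => rel_of_cover
        ((Set.finite_Ico 0 |(ψ a).toAdd|).image fun k : ℤ => t ^ k) ?_ h.le h8 fun x hx => ?_,
        mt (Subgroup.relIndex_eq_zero_of_le_right h.le)⟩
      · rintro _ ⟨k, -, rfl⟩
        exact zpow_mem h.mem k
      · set k := (ψ ⟨x, hx⟩).toAdd with hk
        set d := (ψ a).toAdd with hd
        refine ⟨_, ⟨k % d, ⟨Int.emod_nonneg k h0, Int.emod_lt_abs k h0⟩, rfl⟩, _,
          (h2 (⟨t, h.mem⟩ ^ (-(k % d)) * ⟨x, hx⟩ * a ^ (-(k / d)))).1 ?_, _,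
          zpow_mem ha (k / d), by simp [mul_assoc]⟩
        refine Multiplicative.toAdd.injective ?_
        simp only [map_mul, map_zpow, h1, toAdd_mul, toAdd_zpow, toAdd_ofAdd, toAdd_one, ← hk, ← hd,
          smul_eq_mul]
        linarith [Int.emod_add_mul_ediv k d]

theorem pz_le (n : ℕ) : ∀ (m : ℕ) (L : Subgroup G), PZ n L → PZ m L → n ≤ m := by
  induction n with
  | zero => exact fun m _ _ _ => m.zero_le
  | succ n ih =>
    intro m L h h'
    cases h with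
    | succ h hN =>
      obtain ⟨m', h1, h2, h3⟩ := pz_sub h' _ h.le
      have h4 := ih _ _ hN h2
      have h5 : m' ≠ m := fun e => h3.1 e (rel_zero h)
      omega

theorem eq_sup (h : Step N N' t) : N' = N ⊔ Subgroup.closure {t} := by
  refine le_antisymm (fun x hx => ?_) (sup_le h.le (by simpa using h.mem))
  obtain ⟨k, hk⟩ := h.gen x hx
  have := mul_mem (Subgroup.mem_sup_left (T := Subgroup.closure {t}) hk)
    (Subgroup.mem_sup_right (zpow_mem (Subgroup.subset_closure (Set.mem_singleton t)) (-k)))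
  simpa using this

theorem pz_fg {n : ℕ} (h : PZ n L) : L.FG := by
  induction h with
  | zero => exact ⟨∅, by simp⟩
  | succ h _ ih =>
    rw [eq_sup h]
    exact ih.sup ⟨{_}, by rw [Finset.coe_singleton]⟩

theorem series {n : ℕ} (h : PZ n L) : ∃ s : ℕ → Subgroup G, s 0 = ⊥ ∧ s n = L ∧
    ∀ i < n, s (i + 1) ≤ L ∧ ∃ t, Step (s i) (s (i + 1)) t := by
  induction h with
  | zero => exact ⟨fun _ => ⊥, rfl, rfl, fun i hi => absurd hi i.not_lt_zero⟩
  | @succ n N L t h _ ih =>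
    obtain ⟨s, h1, h2, h3⟩ := ih
    refine ⟨fun i => if i ≤ n then s i else L, by simp [h1], by simp, fun i hi => ?_⟩
    beta_reduce
    rw [if_pos (by omega : i ≤ n)]
    by_cases e : i = n
    · rw [if_neg (by omega), e, h2]
      exact ⟨le_rfl, t, h⟩
    · rw [if_pos (by omega)]
      exact ⟨(h3 i (by omega)).1.trans h.le, (h3 i (by omega)).2⟩

theorem step_subgroupOf (h : Step N N' t) (hL : N' ≤ L) :
    Step (N.subgroupOf L) (N'.subgroupOf L) ⟨t, hL h.mem⟩ :=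
  ⟨fun _ hx => h.le hx, h.mem, fun x hx => h.conj x hx, fun x hx => h.conj' x hx,
    fun x hx => h.gen x hx, fun k hk => h.free k hk⟩

theorem cyc (h : Step N N' t) :
    ∃ _ : (N.subgroupOf N').Normal, IsCyclic (N' ⧸ N.subgroupOf N') := by
  obtain ⟨ψ, -, h2⟩ := psi h
  rw [ker_eq h2]
  exact ⟨inferInstance, isCyclic_of_injective _ (QuotientGroup.kerLift_injective ψ)⟩

theorem pz_poly {n : ℕ} (h : PZ n L) : IsPolycyclicGroup L := by
  obtain ⟨s, h1, h2, h3⟩ := series h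
  refine ⟨n, fun i => (s i).subgroupOf L, by simp [h1], by simp [h2], fun i hi => ?_⟩
  obtain ⟨h4, t, h5⟩ := h3 i hi
  exact ⟨(step_subgroupOf h5 h4).le, cyc (step_subgroupOf h5 h4)⟩

end FinPZX

open FinPZX in
theorem pz_pf : S_pz where
  iff := pz_iff
  top := fun n h => (pz_iff n ⊤).2 (polyZ_equiv n _ _ Subgroup.topEquiv.symm h)
  map := fun f n L hf h => (pz_iff n _).2
    (polyZ_equiv n _ _ (L.equivMapOfInjective f hf) ((pz_iff n L).1 h))
  sub := fun h hA => pz_sub h _ hA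
  uniq := fun h h' => le_antisymm (pz_le _ _ _ h h') (pz_le _ _ _ h' h)
  fg := pz_fg
  poly := pz_poly

end Vale.Agent.P188.Fn
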