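import Vale.Agent.P188.FinLes

/-! P188, module Fin: the discrete valuation on a kernel which is not finitely generated. -/

namespace Vale.Agent.P188.Fn

open Function Subgroup

namespace FinValX

variable {H : Type} [Group H]

/-- The subgroup generated by the conjugates of `B` by `u ^ i`, `i ∈ I`. -/
def Cl (u : H) (B : Set H) (I : Set ℤ) : Subgroup H :=
  closure {y | ∃ i ∈ I, ∃ b ∈ B, y = u ^ i * b * (u ^ i)⁻¹}

variable {u : H} {B : Set H} {I J : Set ℤ}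

theorem mem_Cl {i : ℤ} (hi : i ∈ I) {b : H} (hb : b ∈ B) : u ^ i * b * (u ^ i)⁻¹ ∈ Cl u B I :=
  subset_closure ⟨i, hi, b, hb, rfl⟩

theorem Cl_le {W : Subgroup H} (h : ∀ i ∈ I, ∀ b ∈ B, u ^ i * b * (u ^ i)⁻¹ ∈ W) :
    Cl u B I ≤ W := by
  rw [Cl, closure_le]
  rintro _ ⟨i, hi, b, hb, rfl⟩
  exact h i hi b hb

theorem Cl_mono (h : I ⊆ J) : Cl u B I ≤ Cl u B J := Cl_le fun _ hi _ hb => mem_Cl (h hi) hb

theorem Cl_conj (j : ℤ) (h : ∀ i ∈ I, j + i ∈ J) {y : H} (hy : y ∈ Cl u B I) :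
    u ^ j * y * (u ^ j)⁻¹ ∈ Cl u B J := by
  refine Cl_le (W := (Cl u B J).comap (MulAut.conj (u ^ j)).toMonoidHom) (fun i hi b hb => ?_) hy
  change u ^ j * (u ^ i * b * (u ^ i)⁻¹) * (u ^ j)⁻¹ ∈ Cl u B J
  have := mem_Cl (u := u) (h i hi) hb
  rw [zpow_add, mul_inv_rev] at this
  simpa only [mul_assoc] using this

theorem Cl_inv (h : ∀ i ∈ I, -i ∈ J) : Cl u⁻¹ B I ≤ Cl u B J := Cl_le fun i hi b hb => by
  rw [inv_zpow']
  exact mem_Cl (h i hi) hb

theorem Cl_cpt {y : H} (hy : y ∈ Cl u B I) : ∃ m : ℕ, y ∈ Cl u B (I ∩ Set.Icc (-m) m) := by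
  have hm : ∀ {m m' : ℕ}, m ≤ m' → Cl u B (I ∩ Set.Icc (-m) m) ≤ Cl u B (I ∩ Set.Icc (-m') m') :=
    fun h => Cl_mono fun i hi => ⟨hi.1, by have := hi.2.1; omega, by have := hi.2.2; omega⟩
  induction hy using closure_induction with
  | mem x hx =>
    obtain ⟨i, hi, b, hb, rfl⟩ := hx
    exact ⟨i.natAbs, mem_Cl (Set.mem_inter hi (Set.mem_Icc.2 ⟨by omega, by omega⟩)) hb⟩
  | one => exact ⟨0, one_mem _⟩
  | mul x y _ _ hx hy =>
    obtain ⟨m, hx⟩ := hx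
    obtain ⟨m', hy⟩ := hy
    exact ⟨max m m', mul_mem (hm (le_max_left _ _) hx) (hm (le_max_right _ _) hy)⟩
  | inv x _ hx => exact hx.imp fun _ h => inv_mem h

theorem exists_bound {α : Type} {A : Set α} (hA : A.Finite) {p : α → ℕ → Prop}
    (hp : ∀ a m m', m ≤ m' → p a m → p a m') (h : ∀ a ∈ A, ∃ m, p a m) : ∃ m, ∀ a ∈ A, p a m := by
  choose! f hf using h
  obtain ⟨m, hm⟩ := (hA.image f).bddAbove
  exact ⟨m, fun a ha => hp a _ _ (hm ⟨a, ha, rfl⟩) (hf a ha)⟩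

theorem stable (hB : B.Finite) (h : ∀ p ∈ Cl u B (Set.Ici 0), u⁻¹ * p * u ∈ Cl u B (Set.Ici 0)) :
    ∃ m₁ : ℕ, ∀ m : ℕ, m₁ ≤ m → ∀ y ∈ Cl u B (Set.Icc (-m) m),
      u⁻¹ * y * u ∈ Cl u B (Set.Icc (-m) m) := by
  obtain ⟨m₁, h1⟩ := exists_bound hB
    (p := fun b m => u⁻¹ * b * u ∈ Cl u B (Set.Ici 0 ∩ Set.Icc (-m) m))
    (fun b m m' hm hb => Cl_mono (fun i hi => Set.mem_inter hi.1 (Set.mem_Icc.2
      ⟨by have := hi.2.1; omega, by have := hi.2.2; omega⟩)) hb)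
    fun b hb => Cl_cpt (h b (by simpa using mem_Cl (u := u) (Set.self_mem_Ici (a := 0)) hb))
  refine ⟨m₁, fun m hm y hy => ?_⟩
  have := Cl_le (W := (Cl u B (Set.Icc (-m) m)).comap (MulAut.conj u⁻¹).toMonoidHom)
    (fun i hi b hb => ?_) hy
  · simpa using this
  · change u⁻¹ * (u ^ i * b * (u ^ i)⁻¹) * u⁻¹⁻¹ ∈ Cl u B (Set.Icc (-m) m)
    rcases hi.1.eq_or_lt with e | e
    · have h2 := Cl_conj (J := Set.Icc (-m) m) i (fun i' hi' => ⟨by
        have := Set.mem_Ici.1 hi'.1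
        omega, by have := hi'.2.2; omega⟩) (h1 b hb)
      have e2 : u⁻¹ * (u ^ i * b * (u ^ i)⁻¹) * u⁻¹⁻¹ = u ^ i * (u⁻¹ * b * u) * (u ^ i)⁻¹ := by
        group
      rwa [e2]
    · have h2 := mem_Cl (u := u) (I := Set.Icc (-m) m) (i := i - 1)
        ⟨by omega, by have := hi.2; omega⟩ hb
      have e2 : u⁻¹ * (u ^ i * b * (u ^ i)⁻¹) * u⁻¹⁻¹ = u ^ (i - 1) * b * (u ^ (i - 1))⁻¹ := by
        group
      rwa [e2]

theorem fg_of_stable (hB : B.Finite)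
    (h : ∀ p ∈ Cl u B (Set.Ici 0), u⁻¹ * p * u ∈ Cl u B (Set.Ici 0))
    (h' : ∀ p ∈ Cl u⁻¹ B (Set.Ici 0), u⁻¹⁻¹ * p * u⁻¹ ∈ Cl u⁻¹ B (Set.Ici 0)) :
    (Cl u B Set.univ).FG := by
  obtain ⟨m₁, h1⟩ := stable hB h
  obtain ⟨m₂, h2⟩ := stable hB h'
  have h3 := h1 _ (le_max_left m₁ m₂)
  have h4 := h2 _ (le_max_right m₁ m₂)
  generalize max m₁ m₂ = m at h3 h4
  have hn : ∀ i ∈ Set.Icc (-m : ℤ) m, -i ∈ Set.Icc (-m : ℤ) m := fun i hi =>
    ⟨by have := hi.2; omega, by have := hi.1; omega⟩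
  have e : Cl u⁻¹ B (Set.Icc (-m) m) = Cl u B (Set.Icc (-m) m) :=
    le_antisymm (Cl_inv hn) (by simpa using Cl_inv (u := u⁻¹) hn)
  rw [e, inv_inv] at h4
  have e' : Cl u B Set.univ = Cl u B (Set.Icc (-m) m) := by
    refine le_antisymm (Cl_le fun i _ b hb => ?_) (Cl_mono (Set.subset_univ _))
    induction i using Int.induction_on with
    | zero => exact mem_Cl (Set.mem_Icc.2 ⟨by omega, by omega⟩) hb
    | succ i ih =>
      have e2 : u ^ ((i : ℤ) + 1) * b * (u ^ ((i : ℤ) + 1))⁻¹ =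
          u * (u ^ (i : ℤ) * b * (u ^ (i : ℤ))⁻¹) * u⁻¹ := by group
      exact e2 ▸ h4 _ (ih trivial)
    | pred i ih =>
      have e2 : u ^ (-(i : ℤ) - 1) * b * (u ^ (-(i : ℤ) - 1))⁻¹ =
          u⁻¹ * (u ^ (-(i : ℤ)) * b * (u ^ (-(i : ℤ)))⁻¹) * u := by group
      exact e2 ▸ h3 _ (ih trivial)
  rw [e']
  refine (fg_iff _).2 ⟨_, rfl, (((Set.finite_Icc (-m : ℤ) m).prod hB).image
    fun x => u ^ x.1 * x.2 * (u ^ x.1)⁻¹).subset ?_⟩
  rintro _ ⟨i, hi, b, hb, rfl⟩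
  exact ⟨(i, b), ⟨hi, hb⟩, rfl⟩

theorem exists_B {N N' : Subgroup H} {t : H} (h : Step N N' t) (hf : N'.FG) :
    ∃ B : Set H, B.Finite ∧ N = Cl t B Set.univ := by
  obtain ⟨s, hs⟩ := hf
  choose! f hf using h.gen
  have hc : ∀ (i : ℤ), ∀ x ∈ N, t ^ i * x * (t ^ i)⁻¹ ∈ N := fun i x hx => by
    induction i using Int.induction_on with
    | zero => simpa using hx
    | succ i ih =>
      have e2 : t ^ ((i : ℤ) + 1) * x * (t ^ ((i : ℤ) + 1))⁻¹ =
          t * (t ^ (i : ℤ) * x * (t ^ (i : ℤ))⁻¹) * t⁻¹ := by group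
      exact e2 ▸ h.conj' _ ih
    | pred i ih =>
      have e2 : t ^ (-(i : ℤ) - 1) * x * (t ^ (-(i : ℤ) - 1))⁻¹ =
          t⁻¹ * (t ^ (-(i : ℤ)) * x * (t ^ (-(i : ℤ)))⁻¹) * t := by group
      exact e2 ▸ h.conj _ ih
  refine ⟨(fun x => x * t ^ f x) '' s, s.finite_toSet.image _, ?_⟩
  have h1 : Cl t ((fun x => x * t ^ f x) '' s) Set.univ ≤ N := Cl_le (by
    rintro i - _ ⟨x, hx, rfl⟩
    exact hc i _ (hf x (hs ▸ subset_closure hx)))
  refine le_antisymm (fun x hx => ?_) h1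
  have h2 : ∀ y ∈ closure (s : Set H), ∃ k : ℤ,
      y * t ^ k ∈ Cl t ((fun x => x * t ^ f x) '' s) Set.univ := fun y hy => by
    induction hy using closure_induction with
    | mem x hx =>
      exact ⟨f x, by simpa using mem_Cl (u := t) (Set.mem_univ (0 : ℤ)) (Set.mem_image_of_mem _ hx)⟩
    | one => exact ⟨0, by simp⟩
    | mul x y _ _ hx hy =>
      obtain ⟨k, hk⟩ := hx
      obtain ⟨l, hl⟩ := hy
      have e : x * y * t ^ (l + k) = x * t ^ k * (t ^ (-k) * (y * t ^ l) * (t ^ (-k))⁻¹) := by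
        group
      exact ⟨l + k, e ▸ mul_mem hk (Cl_conj (-k) (fun _ _ => Set.mem_univ _) hl)⟩
    | inv x _ hx =>
      obtain ⟨k, hk⟩ := hx
      have e : x⁻¹ * t ^ (-k) = t ^ k * (x * t ^ k)⁻¹ * (t ^ k)⁻¹ := by group
      exact ⟨-k, e ▸ Cl_conj k (fun _ _ => Set.mem_univ _) (inv_mem hk)⟩
  obtain ⟨k, hk⟩ := h2 x (hs.ge (h.le hx))
  obtain rfl := h.free k ((mul_mem_cancel_left hx).1 (h1 hk))
  simpa using hk

variable {S : Finset H} {k : ℕ} {φ : H →* Multiplicative (Rk k)}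

theorem hBall_finite (f : H → Rk k) (r : ℕ) (ρ : ℝ) : (hBall S f r ρ).Finite := by
  have h1 : ((S : Set H) ∪ (S : Set H)⁻¹).Finite := S.finite_toSet.union S.finite_toSet.inv
  refine (((Set.finite_Iic r).biUnion fun n _ => finite_lists h1 n).image List.prod).subset ?_
  rintro _ ⟨l, hl, hr, rfl, -⟩
  exact ⟨l, Set.mem_biUnion hr ⟨rfl, hl⟩, rfl⟩

theorem hBall_mul {g g' : H} {r r' : ℕ} {ρ ρ' c : ℝ}
    (h : g ∈ hBall S (fun h => Multiplicative.toAdd (φ h)) r ρ)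
    (h' : g' ∈ hBall S (fun h => Multiplicative.toAdd (φ h)) r' ρ')
    (hc : ‖Multiplicative.toAdd (φ g)‖ ≤ c) (hρ : ρ ≤ c + ρ') :
    g * g' ∈ hBall S (fun h => Multiplicative.toAdd (φ h)) (r + r') (c + ρ') := by
  obtain ⟨l, h1, h2, rfl, h3⟩ := h
  obtain ⟨l', h1', h2', rfl, h3'⟩ := h'
  refine ⟨l ++ l', fun x hx => (List.mem_append.1 hx).elim (h1 x) (h1' x),
    by rw [List.length_append]; omega, List.prod_append, fun i => ?_⟩
  rw [List.take_append]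
  rcases le_total i l.length with hi | hi
  · rw [Nat.sub_eq_zero_of_le hi, List.take_zero, List.append_nil]
    exact (h3 i).trans hρ
  · rw [List.take_of_length_le hi, List.prod_append]
    beta_reduce
    rw [map_mul, toAdd_mul]
    exact (norm_add_le _ _).trans (add_le_add hc (h3' _))

theorem exists_hBall (hS : closure (S : Set H) = ⊤) (f : H → Rk k) (g : H) :
    ∃ m : ℕ, g ∈ hBall S f m m := by
  have hg : g ∈ Submonoid.closure ((S : Set H) ∪ (S : Set H)⁻¹) := by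
    rw [← closure_toSubmonoid, hS]
    trivial
  obtain ⟨l, hl, rfl⟩ := Submonoid.exists_list_of_mem_closure hg
  obtain ⟨m, hm⟩ := exists_bound (Set.finite_Iic l.length)
    (p := fun i m => ‖f (l.take i).prod‖ ≤ m)
    (fun _ _ _ hm h => h.trans (Nat.cast_le.2 hm)) fun i _ => exists_nat_ge _
  refine ⟨max m l.length, l, hl, le_max_right _ _, rfl, fun i => ?_⟩
  refine le_trans ?_ (Nat.cast_le.2 (le_max_left _ _))
  rcases le_total i l.length with hi | hi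
  · exact hm i hi
  · have := hm l.length Set.self_mem_Iic
    rwa [List.take_length, ← List.take_of_length_le hi] at this

theorem not_exp (C D : ℕ) : ¬ ∀ r : ℕ, 2 ^ r ≤ C * (r + 1) ^ D := fun h => by
  have h1 := (tendsto_pow_const_div_const_pow_of_one_lt D (r := 2) one_lt_two).const_mul
    (2 * C : ℝ)
  rw [mul_zero] at h1
  obtain ⟨n, hn⟩ := Filter.eventually_atTop.1 (h1.eventually (gt_mem_nhds one_pos))
  have h2 := hn (n + 1) n.le_succ
  have h3 : (2 : ℝ) ^ n ≤ C * ((n + 1 : ℕ) : ℝ) ^ D := by exact_mod_cast h n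
  rw [← mul_div_assoc, div_lt_one (by positivity), pow_succ] at h2
  linarith

theorem fin_of_cnt (hS : closure (S : Set H) = ⊤) {D : ℕ} (hD : Cnt S φ D) {Q : Subgroup H}
    (hQ : Q ≤ φ.ker) (hu : ∀ x ∈ Q, u * x * u⁻¹ ∈ Q) :
    (Q.map (MulAut.conj u).toMonoidHom).relIndex Q ≠ 0 := fun h0 => by
  have := index_eq_zero_iff_infinite.1 h0
  obtain ⟨c, hc⟩ := exists_nat_ge ‖Multiplicative.toAdd (φ u)‖
  let e := Infinite.natEmbedding (Q ⧸ (Q.map (MulAut.conj u).toMonoidHom).subgroupOf Q)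
  let x : Fin (2 ^ (c * D + 1)) → H := fun i => ((e i).out : Q)
  have hx : ∀ i, x i ∈ Q := fun i => Subtype.prop _
  have hx' : ∀ i i', (x i)⁻¹ * x i' ∈ Q.map (MulAut.conj u).toMonoidHom → i = i' := fun i i' h =>
    Fin.ext (e.injective (by
      rw [← (e i).out_eq', ← (e i').out_eq', QuotientGroup.eq]
      exact h))
  obtain ⟨L, hL⟩ := exists_bound (Set.finite_univ (α := Fin (2 ^ (c * D + 1))))
    (p := fun i m => x i * u ∈ hBall S (fun h => Multiplicative.toAdd (φ h)) m m)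
    (fun _ _ _ hm ⟨l, h1, h2, h3, h4⟩ =>
      ⟨l, h1, h2.trans hm, h3, fun i => (h4 i).trans (Nat.cast_le.2 hm)⟩)
    fun i _ => exists_hBall hS _ _
  let w : List (Fin (2 ^ (c * D + 1))) → H := fun l => (l.map fun i => x i * u).prod
  have hw : ∀ i l, w (i :: l) = x i * u * w l := fun i l => List.prod_cons
  have h1 : ∀ l, w l * (u ^ l.length)⁻¹ ∈ Q := fun l => by
    induction l with
    | nil => simp [w]
    | cons i l ih =>
      have e2 : w (i :: l) * (u ^ (i :: l).length)⁻¹ =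
          x i * (u * (w l * (u ^ l.length)⁻¹) * u⁻¹) := by
        rw [hw, List.length_cons, pow_succ', mul_inv_rev]
        simp only [mul_assoc]
      exact e2 ▸ mul_mem (hx i) (hu _ ih)
  have h2 : ∀ l l', l.length = l'.length → w l = w l' → l = l' := fun l => by
    induction l with
    | nil => exact fun l' h _ => (List.length_eq_zero_iff.1 h.symm).symm
    | cons i l ih =>
      rintro (_ | ⟨i', l'⟩) h e2
      · simp at h
      · have h' : l.length = l'.length := by simpa using h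
        rw [hw, hw] at e2
        obtain rfl : i = i' := hx' i i' ⟨_, mul_mem (h1 l) (inv_mem (h1 l')), by
          change u * (w l * (u ^ l.length)⁻¹ * (w l' * (u ^ l'.length)⁻¹)⁻¹) * u⁻¹ = _
          rw [h', eq_inv_mul_iff_mul_eq]
          calc _ = x i * u * w l * (w l')⁻¹ * u⁻¹ := by group
            _ = x i' := by rw [e2]; group⟩
        rw [ih l' h' (mul_left_cancel e2)]
  have h3 : ∀ l, w l ∈ hBall S (fun h => Multiplicative.toAdd (φ h)) (L * l.length)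
      ((c * l.length + L : ℕ) : ℝ) := fun l => by
    induction l with
    | nil => exact ⟨[], by simp [IsWord], by simp, rfl, by simp⟩
    | cons i l ih =>
      have h4 := hBall_mul (c := c) (hL i trivial) ih
        (by rw [map_mul, show φ (x i) = 1 from hQ (hx i), one_mul]; exact hc)
        (by rw [← Nat.cast_add, Nat.cast_le]; omega)
      rw [← Nat.cast_add, ← hw] at h4
      rw [List.length_cons, mul_add_one, mul_add_one, add_comm _ L, add_comm _ c, add_assoc]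
      exact h4
  refine not_exp ((D * (L + 1) * 2 ^ L) ^ D) D fun r => ?_
  have h5 : (2 ^ (c * D + 1)) ^ r ≤ (hBall S (fun h => Multiplicative.toAdd (φ h)) (L * r)
      ((c * r + L : ℕ) : ℝ)).ncard := by
    have hi : Injective fun v : Fin r → Fin (2 ^ (c * D + 1)) => w (List.ofFn v) :=
      fun v v' h => List.ofFn_injective (h2 _ _ (by simp) h)
    have := Set.ncard_le_ncard (s := Set.range fun v : Fin r → Fin (2 ^ (c * D + 1)) =>
      w (List.ofFn v)) (by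
        rintro _ ⟨v, rfl⟩
        simpa only [List.length_ofFn] using h3 (List.ofFn v)) (hBall_finite _ _ _)
    rwa [Set.ncard_range_of_injective hi, Nat.card_fun, Nat.card_fin, Nat.card_fin] at this
  have h6 := h5.trans (hD _ _)
  have h7 : (D * (L * r + 1) * 2 ^ (c * r + L)) ^ D ≤
      (D * ((L + 1) * (r + 1)) * 2 ^ (c * r + L)) ^ D := by
    gcongr
    nlinarith
  refine Nat.le_of_mul_le_mul_left (c := 2 ^ (c * D * r)) ?_ (by positivity)
  calc 2 ^ (c * D * r) * 2 ^ r = (2 ^ (c * D + 1)) ^ r := by ring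
    _ ≤ _ := h6.trans h7
    _ = _ := by
      simp only [mul_pow, pow_add, ← pow_mul]
      ring

theorem val_of (hS : closure (S : Set H) = ⊤) {D : ℕ} (hD : Cnt S φ D) (hB : B.Finite)
    (hK : φ.ker ≤ Cl u B Set.univ)
    (hp : ¬ ∀ p ∈ Cl u B (Set.Ici 0), u⁻¹ * p * u ∈ Cl u B (Set.Ici 0)) :
    Val φ.ker (Cl u B (Set.Ici 0) ⊓ φ.ker) u := by
  have hc : ∀ x y : H, x * y * x⁻¹ * y⁻¹ ∈ φ.ker := fun x y => by
    simp [MonoidHom.mem_ker, mul_right_comm (φ x) (φ y)]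
  have h1 : ∀ (n : ℕ), ∀ x ∈ Cl u B (Set.Ici 0), u ^ n * x * (u ^ n)⁻¹ ∈ Cl u B (Set.Ici 0) :=
    fun n x hx => by
      rw [← zpow_natCast]
      exact Cl_conj n (fun i hi => add_nonneg (Int.natCast_nonneg n) hi) hx
  have h2 : ∀ x ∈ Cl u B Set.univ, ∃ n : ℕ, u ^ n * x * (u ^ n)⁻¹ ∈ Cl u B (Set.Ici 0) :=
    fun x hx => by
      obtain ⟨m, hm⟩ := Cl_cpt hx
      refine ⟨m, ?_⟩
      rw [← zpow_natCast]
      exact Cl_conj m (fun i hi => Set.mem_Ici.2 (by have := hi.2.1; omega)) hm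
  have h3 : ∀ x (m m' : ℕ), m ≤ m' → u ^ m * x * (u ^ m)⁻¹ ∈ Cl u B (Set.Ici 0) →
      u ^ m' * x * (u ^ m')⁻¹ ∈ Cl u B (Set.Ici 0) := fun x m m' hm h => by
    obtain ⟨d, rfl⟩ := Nat.exists_eq_add_of_le' hm
    have := h1 d _ h
    rw [pow_add, mul_inv_rev]
    simpa only [mul_assoc] using this
  have h4 : ∀ x ∈ Cl u B (Set.Ici 0) ⊓ φ.ker, u * x * u⁻¹ ∈ Cl u B (Set.Ici 0) ⊓ φ.ker :=
    fun x hx => ⟨by simpa using h1 1 x hx.1, Normal.conj_mem inferInstance x hx.2 u⟩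
  refine ⟨inf_le_right, h4, ?_, fun x hx => ?_, fin_of_cnt hS hD inf_le_right h4, fun g => ?_⟩
  · push Not at hp
    obtain ⟨p, h5, h6⟩ := hp
    refine ⟨p⁻¹ * (u⁻¹ * p * u), by simp, fun h => h6 ?_⟩
    exact (mul_mem_cancel_left (inv_mem h5)).1 h.1
  · obtain ⟨n, hn⟩ := h2 x (hK hx)
    exact ⟨n, hn, Normal.conj_mem inferInstance x hx _⟩
  · obtain ⟨n, hn⟩ := exists_bound ((hB.image fun b => g * b * g⁻¹).insert (g * u * g⁻¹ * u⁻¹)) h3
      (by
        rintro _ (rfl | ⟨b, hb, rfl⟩)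
        · exact h2 _ (hK (hc g u))
        · refine h2 _ ?_
          have := mul_mem (hK (hc g b)) (mem_Cl (u := u) (Set.mem_univ (0 : ℤ)) hb)
          simpa using this)
    refine ⟨n, fun x hx => ⟨?_, Normal.conj_mem inferInstance _
      (Normal.conj_mem inferInstance x hx.2 g) _⟩⟩
    refine Cl_le (W := ((Cl u B (Set.Ici 0)).comap (MulAut.conj (u ^ n)).toMonoidHom).comap
      (MulAut.conj g).toMonoidHom) (fun i hi b hb => ?_) hx.1
    obtain ⟨i, rfl⟩ := Int.eq_ofNat_of_zero_le hi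
    change u ^ n * (g * (u ^ (i : ℤ) * b * (u ^ (i : ℤ))⁻¹) * g⁻¹) * (u ^ n)⁻¹ ∈
      Cl u B (Set.Ici 0)
    rw [zpow_natCast]
    clear hi
    induction i with
    | zero => simpa using hn _ (Or.inr ⟨b, hb, rfl⟩)
    | succ i ih =>
      have h5 := hn _ (Or.inl rfl)
      have h6 := mul_mem (mul_mem h5 (h1 1 _ ih)) (inv_mem h5)
      have e : u ^ n * (g * (u ^ (i + 1) * b * (u ^ (i + 1))⁻¹) * g⁻¹) * (u ^ n)⁻¹ =
          u ^ n * (g * u * g⁻¹ * u⁻¹) * (u ^ n)⁻¹ *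
            (u ^ 1 * (u ^ n * (g * (u ^ i * b * (u ^ i)⁻¹) * g⁻¹) * (u ^ n)⁻¹) * (u ^ 1)⁻¹) *
            (u ^ n * (g * u * g⁻¹ * u⁻¹) * (u ^ n)⁻¹)⁻¹ := by group
      rwa [e]

end FinValX

open FinValX in
theorem val_pf : S_val := by
  rintro H _ S hS k φ D j hD ⟨N, t, h0, hj, hs⟩ hK
  have h1 : ∀ a ≤ j, φ.ker ≤ N a := fun a => by
    induction a with
    | zero => exact fun _ => h0.ge
    | succ a ih => exact fun ha => (ih (Nat.le_of_succ_le ha)).trans (hs a ha).le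
  obtain ⟨a, ha, h2, h3⟩ : ∃ a < j, ¬ (N a).FG ∧ (N (a + 1)).FG := by
    by_contra! hcon
    have : ∀ a ≤ j, ¬ (N a).FG := fun a => by
      induction a with
      | zero => exact fun _ => h0 ▸ hK
      | succ a ih => exact fun ha => hcon a ha (ih (Nat.le_of_succ_le ha))
    exact this j le_rfl (hj ▸ ⟨S, hS⟩)
  obtain ⟨B, hB, e⟩ := exists_B (hs a ha) h3
  have h4 := (h1 a ha.le).trans e.le
  by_cases c1 : ∀ p ∈ Cl (t a) B (Set.Ici 0), (t a)⁻¹ * p * t a ∈ Cl (t a) B (Set.Ici 0)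
  · refine ⟨_, _, val_of (u := (t a)⁻¹) hS hD hB (h4.trans ?_)
      fun c2 => h2 (e ▸ fg_of_stable hB c1 c2)⟩
    simpa using Cl_inv (u := (t a)⁻¹) (B := B) (I := Set.univ) (J := Set.univ) fun _ _ => trivial
  · exact ⟨_, _, val_of hS hD hB h4 c1⟩

end Vale.Agent.P188.Fn
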