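import Vale.Agent.P188.FinTwo
import Vale.Agent.P188.FinChain
import Vale.Agent.P188.FinColim
import Vale.Agent.P188.FinMax
import Vale.Agent.P188.FinPZ
import Vale.Agent.P188.FinVal
import Vale.Agent.P188.FinCoarse

/-! The final group-theoretic step of P188. -/

namespace Vale.Agent.P188

open Fn

theorem fin_pf (hG : Gromov_stmt) : Fin_stmt :=
  fin_of coarse_pf pd_pf pz_pf (max_pf hG pz_pf) chain_pf (fg_pf pz_pf) val_pf
    (two_pf pz_pf (theta_pf pz_pf colim_pf trans_pf)) (top_pf colim_pf trans_pf)

end Vale.Agent.P188
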