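import Vale.Agent.P188.Stmts

/-! One step of an invariant flag for commuting real operators. -/

namespace Vale.Agent.P188

open Function TensorProduct

/-- Commuting complex operators have a common eigenvector in every nonzero invariant subspace. -/
theorem exists_common_eigvec {ι V : Type*} [AddCommGroup V] [Module ℂ V] [FiniteDimensional ℂ V]
    (T : ι → V →ₗ[ℂ] V) (hT : ∀ g h, T g * T h = T h * T g) (V0 : Submodule ℂ V) (h0 : V0 ≠ ⊥)
    (hV : ∀ g, ∀ v ∈ V0, T g v ∈ V0) :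
    ∃ w ∈ V0, w ≠ 0 ∧ ∀ g, ∃ c : ℂ, T g w = c • w := by
  classical
  have hex : ∃ n, ∃ M : Submodule ℂ V, M ≤ V0 ∧ M ≠ ⊥ ∧ (∀ g, ∀ v ∈ M, T g v ∈ M) ∧
      Module.finrank ℂ M = n := ⟨_, V0, le_rfl, h0, hV, rfl⟩
  obtain ⟨M, hM0, hM, hMi, hMn⟩ := Nat.find_spec hex
  obtain ⟨w, hw, hw0⟩ := Submodule.exists_mem_ne_zero_of_ne_bot hM
  refine ⟨w, hM0 hw, hw0, fun g => ?_⟩
  have : Nontrivial M := Submodule.nontrivial_iff_ne_bot.2 hM
  obtain ⟨c, hc⟩ := Module.End.exists_eigenvalue ((T g).restrict (hMi g))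
  obtain ⟨u, hu⟩ := hc.exists_hasEigenvector
  have hu1 : T g u = c • (u : V) := by
    have := congrArg Subtype.val hu.apply_eq_smul
    simpa using this
  have hu0 : (u : V) ≠ 0 := fun h => hu.2 (Subtype.ext h)
  let M' : Submodule ℂ V := M ⊓ Module.End.eigenspace (T g) c
  have hM' : M' ≠ ⊥ := by
    intro h
    have : (u : V) ∈ M' := ⟨u.2, Module.End.mem_eigenspace_iff.2 hu1⟩
    rw [h] at this
    exact hu0 ((Submodule.mem_bot ℂ).1 this)
  have hi : ∀ h, ∀ v ∈ M', T h v ∈ M' := by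
    intro h v hv
    refine ⟨hMi h v hv.1, Module.End.mem_eigenspace_iff.2 ?_⟩
    have h1 : T g v = c • v := Module.End.mem_eigenspace_iff.1 hv.2
    have h2 : T g (T h v) = T h (T g v) := LinearMap.congr_fun (hT g h) v
    rw [h2, h1, map_smul]
  have hle : Nat.find hex ≤ Module.finrank ℂ M' :=
    Nat.find_min' hex ⟨M', inf_le_left.trans hM0, hM', hi, rfl⟩
  have heq : M' = M := Submodule.eq_of_le_of_finrank_le inf_le_left (hMn ▸ hle)
  have : w ∈ M' := heq ▸ hw
  exact ⟨c, Module.End.mem_eigenspace_iff.1 this.2⟩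

/-- The eigenvalues of a common eigenvector of a representation form a character. -/
theorem exists_eig_character {G V : Type*} [Group G] [AddCommGroup V] [Module ℂ V]
    (T : G → V →ₗ[ℂ] V) {w : V} (hw : w ≠ 0) (h1 : T 1 w = w)
    (hmul : ∀ g h, T (g * h) w = T h (T g w)) (he : ∀ g, ∃ c : ℂ, T g w = c • w) :
    ∃ l : G →* ℂˣ, ∀ g, T g w = (l g : ℂ) • w := by
  choose c hc using he
  have hinj : ∀ a b : ℂ, a • w = b • w → a = b := fun a b h => smul_left_injective ℂ hw h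
  let l0 : G →* ℂ :=
    { toFun := c
      map_one' := hinj _ _ (by rw [← hc, h1, one_smul])
      map_mul' := fun g h => hinj _ _ (by rw [← hc, hmul, hc g, map_smul, hc h, smul_smul]) }
  exact ⟨l0.toHomUnits, fun g => hc g⟩

private theorem flag_zero {G W : Type*} [Group G] [AddCommGroup W] [Module ℝ W]
    [FiniteDimensional ℝ W] [Nontrivial W] (T : G → W →ₗ[ℝ] W) (h1 : T 1 = 1)
    (hmul : ∀ g h, T (g * h) = T g * T h) (hT : ∀ g h, T g * T h = T h * T g) :
    ∃ (x : ℂ →ₗ[ℝ] W) (l : G →* ℂˣ), (∃ z, x z ≠ 0) ∧ ∀ g z, T g (x z) = x (l g * z) := by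
  have hc : ∀ g h, (T g).baseChange ℂ * (T h).baseChange ℂ =
      (T h).baseChange ℂ * (T g).baseChange ℂ := by
    intro g h
    rw [← LinearMap.baseChange_mul, ← LinearMap.baseChange_mul, hT]
  let re : ℂ ⊗[ℝ] W →ₗ[ℝ] W := (TensorProduct.lid ℝ W).toLinearMap ∘ₗ Complex.reLm.rTensor W
  have hre : ∀ (c : ℂ) (v : W), re (c ⊗ₜ v) = c.re • v := fun c v => by simp [re]
  have hdec : ∀ t : ℂ ⊗[ℝ] W,
      t = (1 : ℂ) ⊗ₜ re ((1 : ℂ) • t) + Complex.I ⊗ₜ re ((-Complex.I) • t) := by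
    intro t
    induction t using TensorProduct.induction_on with
    | zero => simp
    | tmul c v =>
      rw [smul_tmul', smul_tmul', hre, hre, tmul_smul, tmul_smul, smul_tmul', smul_tmul',
        ← add_tmul]
      congr 1
      apply Complex.ext <;> simp
    | add s t hs ht =>
      rw [smul_add, smul_add, map_add, map_add, tmul_add, tmul_add]
      conv_lhs => rw [hs, ht]
      abel
  have hcomm : ∀ g (t : ℂ ⊗[ℝ] W), T g (re t) = re ((T g).baseChange ℂ t) := by
    intro g t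
    induction t using TensorProduct.induction_on with
    | zero => simp
    | tmul c v => rw [LinearMap.baseChange_tmul, hre, hre, map_smul]
    | add s t hs ht => simp only [map_add, hs, ht]
  have hnt : (⊤ : Submodule ℂ (ℂ ⊗[ℝ] W)) ≠ ⊥ := by
    intro h
    obtain ⟨v, hv⟩ := exists_ne (0 : W)
    have h2 : (1 : ℂ) ⊗ₜ[ℝ] v ∈ (⊤ : Submodule ℂ (ℂ ⊗[ℝ] W)) := Submodule.mem_top
    rw [h, Submodule.mem_bot] at h2
    have h3 := hre 1 v
    rw [h2] at h3
    simp only [map_zero, Complex.one_re, one_smul] at h3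
    exact hv h3.symm
  obtain ⟨w, -, hw, he⟩ := exists_common_eigvec (fun g => (T g).baseChange ℂ) hc ⊤ hnt
    fun _ _ _ => Submodule.mem_top
  obtain ⟨l, hl⟩ := exists_eig_character (fun g => (T g).baseChange ℂ) hw
    (by simp [h1]) (fun g h => by
      rw [hmul, hT, LinearMap.baseChange_mul]; rfl) he
  let x : ℂ →ₗ[ℝ] W := re ∘ₗ ((LinearMap.toSpanSingleton ℂ _ w).restrictScalars ℝ)
  have hx : ∀ z, x z = re (z • w) := fun z => rfl
  refine ⟨x, l, ?_, fun g z => ?_⟩
  · by_contra h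
    push Not at h
    apply hw
    rw [hdec w, ← hx, ← hx, h, h]
    simp
  · rw [hx, hx, hcomm, map_smul, hl, smul_smul, mul_comm]

theorem flag_pf : Flag_stmt := by
  intro G E _ _ _ _ ρ hρ U hU hinv
  have : Nontrivial (E ⧸ U) := Submodule.Quotient.nontrivial_iff.2 hU
  have hmk : ∀ g v, U.mapQ U (ρ g) (hinv g) (U.mkQ v) = U.mkQ (ρ g v) := fun g v => rfl
  obtain ⟨x, l, ⟨z, hz⟩, hx⟩ := flag_zero (fun g => U.mapQ U (ρ g) (hinv g))
    (by
      refine LinearMap.ext fun v => ?_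
      obtain ⟨v, rfl⟩ := U.mkQ_surjective v
      rw [hmk, map_one]; rfl)
    (fun g h => by
      refine LinearMap.ext fun v => ?_
      obtain ⟨v, rfl⟩ := U.mkQ_surjective v
      rw [Module.End.mul_apply, hmk, hmk, hmk, map_mul]; rfl)
    (fun g h => by
      refine LinearMap.ext fun v => ?_
      obtain ⟨v, rfl⟩ := U.mkQ_surjective v
      rw [Module.End.mul_apply, Module.End.mul_apply, hmk, hmk, hmk, hmk]
      exact congrArg U.mkQ (LinearMap.congr_fun (hρ g h) v))
  obtain ⟨s, hs⟩ := U.mkQ.exists_rightInverse_of_surjective U.range_mkQ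
  have hs' : ∀ v, U.mkQ (s v) = v := fun v => LinearMap.congr_fun hs v
  refine ⟨s ∘ₗ x, l, ⟨z, fun h => hz ?_⟩, fun g z => ?_⟩
  · rw [← hs' (x z)]
    exact (Submodule.Quotient.mk_eq_zero U).2 h
  · refine (Submodule.Quotient.mk_eq_zero U).1 ?_
    change U.mkQ (ρ g (s (x z)) - s (x (l g * z))) = 0
    rw [map_sub, ← hmk, hs', hs', hx, sub_self]

end Vale.Agent.P188
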