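import Vale.Agent.P188.Reg

/-! P188: good states have measure tending to one. -/

namespace Vale.Agent.P188

open Function MeasureTheory Filter Topology RegX
open scoped ENNReal NNReal

namespace GoodMX

theorem tendsto_one {X : Type} [MeasurableSpace X] (μ : Measure X) [IsProbabilityMeasure μ]
    {s : ℕ → Set X} (hs : Monotone s) (h : ∀ᵐ x ∂μ, ∃ n, x ∈ s n) :
    Tendsto (fun n => μ.real (s n)) atTop (𝓝 1) := by
  have h1 := tendsto_measure_iUnion_atTop (μ := μ) hs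
  have h2 : ∀ᵐ x ∂μ, x ∈ ⋃ n, s n := h.mono fun x hx => Set.mem_iUnion.2 hx
  have h3 : μ (⋃ n, s n) = 1 :=
    (prob_compl_eq_zero_iff₀ (.of_compl (NullMeasurableSet.of_null h2))).1 h2
  rw [h3] at h1
  exact (ENNReal.tendsto_toReal ENNReal.one_ne_top).comp h1

variable {Γ : Type} [Group Γ] {k : ℕ} {S : Finset Γ} {π : Γ →* Zk k} {a : Rk k}

theorem tr_mono {κ κ' Λ Λ' : ℝ} {y : ℕ → Γ} (h : Tr S π a κ Λ y) (h1 : κ ≤ κ') (h2 : Λ ≤ Λ') :
    Tr S π a κ' Λ' y := fun j => by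
  have := add_le_add (mul_le_mul_of_nonneg_right h1 j.cast_nonneg) h2
  exact ⟨(h j).1.trans this, (h j).2.trans this⟩

theorem tr_mul {κ Λ : ℝ} (p : Γ) (y : ℕ → Γ) :
    Tr S π a κ Λ (fun j => p * y j) ↔ Tr S π a κ Λ y := by
  simp [Tr, ht_mul, mul_assoc]

theorem tr_pre {Cs κ C₀ B Λ : ℝ} {r : Γ} {L : ℕ} {W : ℕ → Γ}
    (hsz : ∀ g h, sz S π (g * h) ≤ sz S π g + sz S π h + 1) (h1 : 1 ≤ Cs) (h2 : Cs + 1 ≤ κ)
    (hr : ‖ht π r - a‖ ≤ Cs) (hr' : (sz S π r : ℝ) ≤ C₀) (hW : Tr S π a (κ - 1) Λ W)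
    (hB : (sz S π (W 0) : ℝ) ≤ B) (hB' : ‖ht π (W 0)‖ ≤ B) (hΛ : 0 ≤ Λ) (hL : Λ + B + 2 ≤ L) :
    Tr S π a κ C₀ (pre 1 r L fun j => r ^ L * W j) := fun j => by
  have c0 : 0 ≤ C₀ := (Nat.cast_nonneg _).trans hr'
  have b0 : 0 ≤ B := (norm_nonneg _).trans hB'
  have j0 : (0 : ℝ) ≤ j := j.cast_nonneg
  have l0 : 0 < L := by exact_mod_cast (show (0 : ℝ) < L by linarith)
  have e0 : ∀ n : ℕ, ‖(n : ℝ) • ht π r - (n : ℝ) • a‖ ≤ n * Cs := fun n => by
    rw [← smul_sub, norm_smul, Real.norm_natCast]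
    exact mul_le_mul_of_nonneg_left hr n.cast_nonneg
  simp only [pre, if_pos l0, pow_zero, one_mul, ht_one, sub_zero]
  rcases lt_or_ge j L with h | h
  · rw [if_pos h, ht_pow]
    refine ⟨?_, by nlinarith [e0 j]⟩
    split_ifs with h'
    · rw [pow_succ, inv_mul_cancel_left]
      nlinarith
    · obtain rfl : L = j + 1 := by omega
      have h3 : (sz S π (r * W 0) : ℝ) ≤ sz S π r + sz S π (W 0) + 1 := by exact_mod_cast hsz _ _
      rw [Nat.sub_self, pow_succ, mul_assoc, inv_mul_cancel_left]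
      push_cast at hL
      nlinarith
  · obtain ⟨i, rfl⟩ := Nat.exists_eq_add_of_le h
    have i0 : (0 : ℝ) ≤ i := i.cast_nonneg
    have l1 : (0 : ℝ) ≤ L := L.cast_nonneg
    rw [if_neg (by omega), if_neg (by omega), Nat.add_sub_cancel_left, add_assoc,
      Nat.add_sub_cancel_left, mul_inv_rev, mul_assoc, inv_mul_cancel_left, ht_mul, ht_pow,
      Nat.cast_add]
    refine ⟨by nlinarith [(hW i).1], ?_⟩
    have h3 := norm_add₃_le (a := (L : ℝ) • ht π r - (L : ℝ) • a)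
      (b := ht π (W i) - ht π (W 0) - (i : ℝ) • a) (c := ht π (W 0))
    rw [show (L : ℝ) • ht π r - (L : ℝ) • a + (ht π (W i) - ht π (W 0) - (i : ℝ) • a) +
      ht π (W 0) = (L : ℝ) • ht π r + ht π (W i) - ((L : ℝ) + i) • a by rw [add_smul]; abel] at h3
    nlinarith [(hW i).2, e0 L]

variable {K : ℕ} {Z : Type} [MulAction Γ Z] [MeasurableSpace Z]

theorem pre_eq (Q : QP S K Z) (c : Chain Γ) (r : Γ) (L : ℕ) (z : Z) (p : Γ) (u : c.σ)
    (ω : ℕ → c.N) : pre p r L (Q.q' z ∘ lp c.step (Q.q z (p * r ^ L), u) ω) = fun j =>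
      p * pre 1 r L (Q.q' (p⁻¹ • z) ∘ lp c.step (Q.q (p⁻¹ • z) (1 * r ^ L), u) ω) j := by
  funext j
  simp only [pre, one_mul, comp_apply, Q.q_mul, lp_mul, Q.q'_equiv]
  split_ifs
  · rfl
  · rw [mul_inv_cancel_left]

theorem sz_q (hS : SzBasic_stmt) (hc : Subgroup.closure (S : Set Γ) = ⊤) (Q : QS S K Z) (g : Γ) :
    ∃ B : ℕ, ∀ z, sz S π (Q.q z g) ≤ B := by
  obtain ⟨-, h1, h2, h3, -, ⟨C, h4⟩, -⟩ := hS k Γ π S hc
  have hg : g ∈ Subgroup.closure (S : Set Γ) := hc ▸ Subgroup.mem_top g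
  induction hg using Subgroup.closure_induction with
  | mem s hs => exact ⟨C * K, fun z => (h4 _).trans (Nat.mul_le_mul_left _ (Q.q_lip z s hs))⟩
  | one => exact ⟨0, fun z => by rw [Q.q_one, h1]⟩
  | mul g g' _ _ ih ih' =>
    obtain ⟨B, hB⟩ := ih
    obtain ⟨B', hB'⟩ := ih'
    exact ⟨B + B' + 1, fun z => by
      rw [Q.q_mul]
      exact (h2 _ _).trans (Nat.add_le_add_right (Nat.add_le_add (hB _) (hB' _)) 1)⟩
  | inv g _ ih =>
    obtain ⟨B, hB⟩ := ih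
    refine ⟨2 * B, fun z => ?_⟩
    have e := Q.q_mul z g⁻¹ g
    rw [inv_mul_cancel, Q.q_one] at e
    rw [eq_inv_of_mul_eq_one_left e.symm]
    exact (h3 _).trans (Nat.mul_le_mul_left _ (hB _))

variable [Countable Γ] [MeasurableSpace Γ] [DiscreteMeasurableSpace Γ]

theorem meas_tr (κ Λ : ℝ) : MeasurableSet {y : ℕ → Γ | Tr S π a κ Λ y} := by
  refine measurableSet_setOfPred.2 (Measurable.forall fun j => ?_)
  have h1 : Measurable fun y : ℕ → Γ => (y j, y (j + 1), y 0) :=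
    (measurable_pi_apply j).prodMk ((measurable_pi_apply (j + 1)).prodMk (measurable_pi_apply 0))
  have h2 : ∀ f : Γ × Γ × Γ → Prop, Measurable fun y : ℕ → Γ => f (y j, y (j + 1), y 0) :=
    fun f => (Measurable.of_discrete (f := f)).comp h1
  exact h2 fun p => (sz S π (p.1⁻¹ * p.2.1) : ℝ) ≤ κ * j + Λ ∧
      ‖ht π p.1 - ht π p.2.2 - (j : ℝ) • a‖ ≤ κ * j + Λ

theorem meas_good (Q : QP S K Z) (c : Chain Γ) (hm : Measurable fun p : c.σ × c.N => c.step p.1 p.2)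
    (κ Λ : ℝ) (r : Γ) (L : ℕ) : MeasurableSet {z | Good S π a κ Λ r c (Q.q z) (Q.q' z) L 1} := by
  have h1 : Measurable fun p : Z × Γ => Q.q' p.1 p.2 :=
    measurable_from_prod_countable_left fun g => by
      simp only [Q.q'_eq]
      exact (Measurable.of_discrete (f := fun p : Γ × Γ => p.1 * p.2)).comp
        ((measurable_to_countable' Q.sig_meas).prodMk ((meas_q Q.toQS g).comp Q.t_meas))
  have h2 : Measurable fun p : Z × c.σ × (ℕ → c.N) =>
      lp c.step (Q.q p.1 (1 * r ^ L), p.2.1) p.2.2 :=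
    (measurable_lp c.step hm).comp ((((meas_q Q.toQS _).comp measurable_fst).prodMk
      measurable_snd.fst).prodMk measurable_snd.snd)
  have h3 : Measurable fun p : Z × c.σ × (ℕ → c.N) =>
      pre 1 r L (Q.q' p.1 ∘ lp c.step (Q.q p.1 (1 * r ^ L), p.2.1) p.2.2) :=
    measurable_pi_lambda _ fun j => by
      unfold pre
      split_ifs
      · exact measurable_const
      · exact h1.comp (measurable_fst.prodMk ((measurable_pi_apply _).comp h2))
  exact measurableSet_le measurable_const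
    (measurable_measure_prodMk_left (h3 (meas_tr κ Λ))).ennreal_toReal

end GoodMX

open GoodMX in
theorem goodM_pf (h : Reg_stmt) (hS : SzBasic_stmt) : GoodM_stmt := by
  intro k Γ _ _ _ _ π w S hc K Z _ _ Q K' ν ν' D D' hD hD' ht' a a' Cs κ₁ κ₂ C₀ Cs' κ₁' κ₂' C₀' c c'
    p p' ha hκ
  have := hD.prob
  obtain ⟨-, -, hsz, -, hht, ⟨C, hC⟩, -⟩ := hS k Γ π S hc
  obtain ⟨F, hF⟩ := p'.fin
  choose B hB using sz_q (π := π) hS hc Q.toQS
  have k0 : 0 ≤ |K'| * Cs' := mul_nonneg (abs_nonneg _) (zero_le_one.trans p'.one_le)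
  have key : ∀ᵐ z ∂ν, ∀ y, ∀ᵐ x ∂(c'.μσ.prod (iid c'.μN)), ∃ Λ : ℕ,
      Tr S π a (κ₁ - 1) Λ (Q.q' z ∘ lp c'.step (y, x.1) x.2) := by
    filter_upwards [ht'.ae ha, ht'.ae (h k Γ π S K Z Q.toQS K' ν' D' hD' c' p'.meas_step p'.fin
      p'.mp 1 one_pos)] with z h1 h2 y
    refine (h2 y).mono fun x ⟨Λ, hx⟩ => ⟨Λ + F.sup B, fun j => ?_⟩
    have j0 : (0 : ℝ) ≤ j := j.cast_nonneg
    have l0 : (0 : ℝ) ≤ Λ := Λ.cast_nonneg
    have e : ∀ j, lp c'.step (y, x.1) x.2 (j + 1) = lp c'.step (y, x.1) x.2 j *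
      (c'.step (cpath c'.step (y, x.1) x.2 j).2 (x.2 j)).1 := fun _ => rfl
    simp only [comp_apply, Q.q'_eq, Nat.cast_add]
    constructor
    · rw [e, Q.q_mul, ← mul_assoc (Q.sig z), inv_mul_cancel_left]
      have h3 : (sz S π (Q.q ((lp c'.step (y, x.1) x.2 j)⁻¹ • Q.t z)
          (c'.step (cpath c'.step (y, x.1) x.2 j).2 (x.2 j)).1) : ℝ) ≤ (F.sup B : ℕ) := by
        exact_mod_cast (hB _ _).trans (Finset.le_sup (hF _ _))
      nlinarith
    · have h3 : ∀ j : ℕ, ‖ht π (lp c'.step (y, x.1) x.2 j) - ht π y - (j : ℝ) • a'‖ ≤ Cs' * j := by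
        intro j
        induction j with
        | zero => simp [lp, cpath]
        | succ j ih =>
          rw [e, ht_mul, Nat.cast_succ, add_smul, one_smul, mul_add, mul_one]
          refine le_trans (le_of_eq (congrArg _ ?_)) (norm_add_le_of_le ih
            (p'.dir (cpath c'.step (y, x.1) x.2 j).2 (x.2 j)))
          abel
      have h4 := (hD'.bdd (Q.t z) _).trans (mul_le_mul (le_abs_self K') (h3 j) (norm_nonneg _)
        (abs_nonneg _))
      have h5 : ‖(j : ℝ) • ((D' (Q.t z)).mulVec a' - a)‖ ≤ j := by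
        rw [norm_smul, Real.norm_natCast]
        exact mul_le_of_le_one_right j0 h1
      have h6 := norm_add_le_of_le (norm_add_le_of_le (hx j) h4) h5
      have b0 : (0 : ℝ) ≤ (F.sup B : ℕ) := Nat.cast_nonneg _
      refine le_trans (le_of_eq (congrArg _ ?_)) (h6.trans (by nlinarith))
      simp only [ht_mul, Matrix.mulVec_sub, Matrix.mulVec_smul, smul_sub]
      change _ - (_ + ht π (Q.q (Q.t z) y)) - _ = _
      abel
  refine ⟨key.mono fun z hz y => (hz y).mono fun x ⟨Λ, hx⟩ => ⟨Λ, tr_mono hx (by linarith) le_rfl⟩,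
    meas_good Q c' p'.meas_step _ _ _, fun L z g => by simp only [Good, pre_eq Q c' _ L z g, tr_mul],
    ?_⟩
  have e0 : ∀ z (x : c'.σ × (ℕ → c'.N)), pre 1 c.r 0 (Q.q' z ∘ lp c'.step
      (Q.q z (1 * c.r ^ 0), x.1) x.2) = Q.q' z ∘ lp c'.step (1, x.1) x.2 := fun z x => by
    funext j
    simp [pre, Q.q_one]
  have t1 := tendsto_one ν
    (s := fun Λ : ℕ => {z | Good S π a (κ₁ - 1) Λ c.r c' (Q.q z) (Q.q' z) 0 1})
    (fun m n hmn z hz => le_trans hz (measureReal_mono fun x hx =>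
      tr_mono hx le_rfl (Nat.cast_le.2 hmn)))
    (key.mono fun z hz => by
      simp only [Good, e0]
      exact ((tendsto_one _ (s := fun Λ : ℕ => {x : c'.σ × (ℕ → c'.N) |
        Tr S π a (κ₁ - 1) Λ (Q.q' z ∘ lp c'.step (1, x.1) x.2)})
        (fun m n hmn x hx => tr_mono hx le_rfl (Nat.cast_le.2 hmn))
        (hz 1)).eventually_const_le one_half_lt_one).exists)
  refine tendsto_of_tendsto_of_tendsto_of_le_of_le' (t1.comp (tendsto_sub_atTop_nat (C * K + 2)))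
    tendsto_const_nhds ((eventually_ge_atTop (C * K + 2)).mono fun L hL => ?_)
    (.of_forall fun _ => measureReal_le_one)
  refine ((hD.mp (c.r ^ L)⁻¹).measureReal_preimage
    (meas_good Q c' p'.meas_step _ _ _ _).nullMeasurableSet).symm.trans_le
    (measureReal_mono fun z hz => le_trans hz (measureReal_mono fun x hx => ?_))
  have hx' : Tr S π a (κ₁ - 1) (L - (C * K + 2) : ℕ)
      (Q.q' ((c.r ^ L)⁻¹ • z) ∘ lp c'.step (1, x.1) x.2) := by
    rw [← e0]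
    exact hx
  have e1 : Q.q' z ∘ lp c'.step (Q.q z (1 * c.r ^ L), x.1) x.2 =
      fun j => c.r ^ L * (Q.q' ((c.r ^ L)⁻¹ • z) ∘ lp c'.step (1, x.1) x.2) j := by
    funext j
    simp only [comp_apply, Q.q'_equiv, mul_inv_cancel_left, ← lp_mul, mul_one, one_mul]
  have e2 : (sz S π ((Q.q' ((c.r ^ L)⁻¹ • z) ∘ lp c'.step (1, x.1) x.2) 0) : ℝ) ≤ (C * K : ℕ) := by
    change (sz S π (Q.q' _ 1) : ℝ) ≤ _
    rw [Q.q'_eq, Q.q_one, mul_one]
    exact_mod_cast (hC _).trans (Nat.mul_le_mul_left _ (Q.sig_le _))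
  change Tr S π a κ₁ C₀ _
  rw [e1]
  refine tr_pre hsz p.one_le p.le₁ p.r_dir p.r_sz hx' e2 ((hht _).trans e2) (Nat.cast_nonneg _) ?_
  exact_mod_cast (by omega : L - (C * K + 2) + C * K + 2 ≤ L)

end Vale.Agent.P188
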