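import Vale.Agent.P188.GromD3

/-! Gromov's theorem on groups of polynomial growth, in poly-`ℤ` form. -/

namespace Vale.Agent.P188

theorem gromov_pf : Gromov_stmt := Grom.gromov_of_gstar Grom.gstar

end Vale.Agent.P188
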