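import Vale.Agent.P188.HSTB

/-! The Hilbert space structure theorem for cocycles of towers. -/

namespace Vale.Agent.P188

open Filter Topology Function Finset Matrix

namespace HST

variable {G V : Type} [Group G] [NormedAddCommGroup V] [InnerProductSpace ℝ V]
  {U : G →* (V ≃ₗᵢ[ℝ] V)} {b : G → V}

theorem coc_conj (hb : IsCocycle U b) (g a : G) : ‖b (g * a * g⁻¹)‖ ≤ ‖b a‖ + 2 * ‖b g‖ := by
  linarith [coc_norm_mul hb (g * a) g⁻¹, coc_norm_mul hb g a, coc_norm_inv hb g]

theorem avg_le {ι : Type} {B : Finset ι} (hB : B.Nonempty) {v : V} {C : ℝ} (h : ‖v‖ ≤ #B * C) :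
    ‖(#B : ℝ)⁻¹ • v‖ ≤ C := by
  have : (0 : ℝ) < #B := by exact_mod_cast hB.card_pos
  rwa [norm_smul, norm_inv, Real.norm_natCast, inv_mul_le_iff₀ this]

theorem sum_le {ι : Type} {B : Finset ι} {f : ι → V} {C : ℝ} (h : ∀ i ∈ B, ‖f i‖ ≤ C) :
    ‖∑ i ∈ B, f i‖ ≤ #B * C := by
  rw [← nsmul_eq_mul]
  exact (norm_sum_le _ _).trans (sum_le_card_nsmul _ _ _ h)

theorem core [CompleteSpace V] {S S' : Set G} (hS : ∀ g, ∀ s ∈ S, g⁻¹ * s⁻¹ * g ∈ S)
    (hc : ∀ s ∈ S, ∀ t ∈ S, s * t = t * s) (hS' : Fix U S' ≤ Fix U S) (hb : IsCocycle U b)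
    (ho : ∀ g, b g ∈ (Fix U S)ᗮ) {ι : Type} (B : ℕ → Finset ι) (hB : ∀ n, (B n).Nonempty)
    (x : ℕ → ι → G) (hx : ∀ n i, x n i ∈ S)
    (h2 : ∀ g, ∃ C : ℝ, ∀ n, ‖∑ i ∈ B n, (b (g * x n i) - b (x n i))‖ ≤ #(B n) * C)
    (h3 : ∀ s ∈ S', ∀ ζ, ∃ C : ℝ, ∀ n,
      ‖∑ i ∈ B n, (U (x n i * s) ζ - U (x n i) ζ)‖ ≤ #(B n) * (C / (n + 1 : ℕ))) : HACob U b := by
  have e : ∀ g n, b g - (U g (-((#(B n) : ℝ)⁻¹ • ∑ i ∈ B n, b (x n i))) -
      -((#(B n) : ℝ)⁻¹ • ∑ i ∈ B n, b (x n i))) =
      (#(B n) : ℝ)⁻¹ • ∑ i ∈ B n, (b (g * x n i) - b (x n i)) := fun g n => by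
    have : (#(B n) : ℝ) ≠ 0 := by exact_mod_cast (hB n).card_pos.ne'
    simp only [hb g, sum_sub_distrib, sum_add_distrib, sum_const, map_neg, map_smul, map_sum,
      smul_sub, smul_add, ← Nat.cast_smul_eq_nsmul ℝ, inv_smul_smul₀ this]
    abel
  refine mazur hS hb (fun n => -((#(B n) : ℝ)⁻¹ • ∑ i ∈ B n, b (x n i))) (fun g n => ?_)
    (fun g => ?_) fun s hs => ?_
  · rw [e]
    exact Submodule.smul_mem _ _ (sum_mem fun i _ => sub_mem (ho _) (ho _))
  · obtain ⟨C, hC⟩ := h2 g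
    exact ⟨C, fun n => by rw [e]; exact avg_le (hB n) (hC n)⟩
  · let T : ℕ → V →ₗ[ℝ] V := fun n =>
      (#(B n) : ℝ)⁻¹ • ∑ i ∈ B n, (U (x n i)).toLinearEquiv.toLinearMap
    have hT : ∀ n v, T n v = (#(B n) : ℝ)⁻¹ • ∑ i ∈ B n, U (x n i) v := fun n v => by
      simp [T]
    refine (tend_orth (U := U) (S := S') T (C := 1) (fun n v => ?_) (fun s hs ζ => ?_) (b s)
      (Submodule.orthogonal_le hS' (ho s))).congr fun n => ?_
    · rw [hT, one_mul]
      exact avg_le (hB n) (sum_le fun i _ => ((U _).norm_map v).le)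
    · obtain ⟨C, hC⟩ := h3 s hs ζ
      refine squeeze_zero_norm (fun n => ?_)
        ((tendsto_const_div_atTop_nhds_zero_nat C).comp (tendsto_add_atTop_nat 1))
      simp only [hT, map_sub, ← U_mul, ← smul_sub, ← sum_sub_distrib]
      exact avg_le (hB n) (hC n)
    · simp only [e, hT, hc s hs _ (hx n _), hb (x n _), add_sub_cancel_left]

theorem van_lattice {m k : ℕ} (j : (Fin m → ℤ) → G) (hj : ∀ v w, j (v + w) = j v * j w)
    (R : (Fin k → ℤ) → Matrix (Fin m) (Fin m) ℤ) (R0 : R 0 = 1)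
    (hR : ∀ a a', R (a + a') = R a * R a') (σ : G → Fin k → ℤ) (hσ : Surjective σ)
    (hc : ∀ g v, g * j v * g⁻¹ = j (R (σ g) *ᵥ v)) : Van G (Set.range j) := by
  intro V _ _ _ U b hb ho
  have j0 : j 0 = 1 := by simpa using hj 0 0
  have jn : ∀ v, (j v)⁻¹ = j (-v) := fun v =>
    inv_eq_of_mul_eq_one_right (by rw [← hj, add_neg_cancel, j0])
  obtain ⟨C, hC, hW⟩ := family (fun v => ‖b (j v)‖) (by simp only [j0, coc_one hb, norm_zero])
    (fun v w => by simp only [hj]; exact coc_norm_mul hb _ _) R R0 hR fun a => by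
      obtain ⟨g, rfl⟩ := hσ a
      exact ⟨_, fun v => by simp only [← hc]; exact coc_conj hb g _⟩
  choose L w hL h1 h2 using fun n => hW (n + 1) n.succ_pos
  have h0 : ∀ {m L : ℕ}, 0 < L → (0 : Fin m → ℤ) ∈ box m L := fun h =>
    mem_box.2 fun _ => ⟨le_rfl, by simpa using h⟩
  refine core (S' := Set.range fun i => j (Pi.single i 1)) ?_ ?_ (fun v hv => ?_) hb ho
    (fun n => box k (n + 1) ×ˢ box m (L n))
    (fun n => ⟨(0, 0), mem_product.2 ⟨h0 n.succ_pos, h0 (hL n)⟩⟩)
    (fun n x => j (R x.1 *ᵥ w n x.2)) (fun _ _ => ⟨_, rfl⟩) (fun g => ?_) ?_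
  · rintro g _ ⟨v, rfl⟩
    exact ⟨R (σ g⁻¹) *ᵥ (-v), by rw [← hc, jn, inv_inv]⟩
  · rintro _ ⟨v, rfl⟩ _ ⟨v', rfl⟩
    rw [← hj, ← hj, add_comm]
  · rintro _ ⟨u, rfl⟩
    induction u using Pi.single_induction with
    | zero => rw [j0, U_one]
    | add a a' h h' => rw [hj, U_mul, h', h]
    | single i z =>
      have h := hv _ ⟨i, rfl⟩
      induction z using Int.induction_on with
      | zero => rw [Pi.single_zero, j0, U_one]
      | succ z ih => rw [Pi.single_add, hj, U_mul, h, ih]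
      | pred z ih =>
        rw [Pi.single_sub, sub_eq_add_neg, hj, U_mul, ← jn]
        conv_lhs => rw [← h, U_inv, ih]
  · refine ⟨2 * (C * (2 + ‖σ g‖)) * (∑ i, (σ g i).natAbs : ℕ) + ‖b g‖, fun n => ?_⟩
    have e : ∀ x : (Fin k → ℤ) × (Fin m → ℤ), b (g * j (R x.1 *ᵥ w n x.2)) - b (j (R x.1 *ᵥ w n x.2))
        = (b (j (R (x.1 + σ g) *ᵥ w n x.2)) - b (j (R x.1 *ᵥ w n x.2))) +
          U (j (R (x.1 + σ g) *ᵥ w n x.2)) (b g) := fun x => by
      rw [sub_add_eq_add_sub, ← hb, add_comm x.1, hR, ← mulVec_mulVec, ← hc, inv_mul_cancel_right]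
    simp only [e]
    rw [sum_add_distrib, mul_add]
    refine (norm_add_le _ _).trans (add_le_add ?_ (sum_le fun _ _ => ((U _).norm_map _).le))
    rw [sum_product_right, card_product, Nat.cast_mul, mul_comm (#(box k _) : ℝ), mul_assoc]
    refine sum_le fun l hl => ?_
    have a1 : (1 : ℝ) ≤ (n + 1 : ℕ) := by exact_mod_cast n.succ_pos
    refine (shift_sum n.succ_pos (σ g) (fun a => b (j (R a *ᵥ w n l)))
      (M := C * (2 + ‖σ g‖) * (n + 1 : ℕ)) (fun a ha => (h1 n l hl _).trans ?_)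
      fun a ha => (h1 n l hl _).trans ?_).trans_eq ?_
    · rw [mul_assoc]
      refine mul_le_mul_of_nonneg_left ?_ hC
      nlinarith [norm_box ha, norm_nonneg (σ g)]
    · rw [mul_assoc]
      refine mul_le_mul_of_nonneg_left ?_ hC
      nlinarith [norm_box ha, norm_nonneg (σ g), norm_add_le a (σ g)]
    · field_simp
  · rintro _ ⟨i, rfl⟩ ζ
    refine ⟨2 * ‖ζ‖ * m, fun n => ?_⟩
    rw [sum_product, card_product, Nat.cast_mul, mul_assoc]
    refine sum_le fun a ha => ?_
    obtain ⟨c, c1, c2⟩ := h2 n a ha i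
    simp only [← hj, ← c2]
    refine (shift_sum (hL n) c (fun l => U (j (R a *ᵥ w n l)) ζ) (M := ‖ζ‖)
      (fun _ _ => ((U _).norm_map _).le) fun _ _ => ((U _).norm_map _).le).trans
      (mul_le_mul_of_nonneg_left ?_ (Nat.cast_nonneg _))
    rw [div_le_div_iff₀ (by exact_mod_cast hL n) (by positivity), mul_assoc, mul_assoc _ (m : ℝ)]
    refine mul_le_mul_of_nonneg_left ?_ (by positivity)
    rw [mul_comm]
    exact_mod_cast c1

theorem ker_conj {G' : Type} [Group G'] (π : G →* G') :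
    ∀ g, ∀ s ∈ (π.ker : Set G), g⁻¹ * s * g ∈ (π.ker : Set G) := fun g s hs =>
  π.normal_ker.conj_mem' s hs g

theorem van_tower (hB : TowerBasic_stmt) {k : ℕ} {Γ : Type} [Group Γ] {π : Γ →* Zk k}
    {w : List (Wt k)} (T : Tower Γ π w) : Van Γ π.ker := by
  induction T with
  | base π h =>
    intro V _ _ _ U b hb ho F ε hε
    refine ⟨0, fun g _ => ?_⟩
    have : b g = 0 := inner_self_eq_zero.1 (ho g _ fun s hs => by
      rw [h.1 (hs.trans π.map_one.symm), U_one])
    simp [this, hε.le]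
  | @ext Γ Γ' _ _ π' w T L E ih =>
    intro V _ _ _ U b hb ho
    have hs := (hB _ _ _ _ (T.ext L E)).2.1
    let j : (Fin L.m → ℤ) → Γ := fun v => E.ι (Multiplicative.ofAdd v)
    have hj : ∀ a, a ∈ Set.range j ↔ a ∈ E.p.ker := fun a => by
      rw [← E.range_eq]
      rfl
    have hK := Fix_inv (U := U) (S := Set.range j) fun g s h =>
      (hj _).2 (ker_conj E.p g s ((hj _).1 h))
    have hP := coc_proj hK hb
    have hle : Fix U (π'.comp E.p).ker ≤ Fix U (Set.range j) := fun v hv s h => hv s <| by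
      change π' (E.p s) = 1
      rw [(hj _).1 h, map_one]
    have h1 := van_lattice j (fun v w => map_mul E.ι _ _)
      (fun a => L.ρ (Multiplicative.ofAdd a)) (map_one L.ρ) (fun a a' => map_mul L.ρ _ _)
      (fun g => Multiplicative.toAdd (π' (E.p g))) hs (fun g v => E.conj g _) V U _
      (coc_sub hb hP) fun g => Submodule.sub_starProjection_mem_orthogonal _
    have h2 := descent E.p E.p_surj ih hP (fun a ha => ?_) fun g => proj_orth hle (ho g)
    · simpa using hacob_add h1 h2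
    · refine inner_self_eq_zero.1 (proj_orth hle (ho a) _ fun n hn => ?_)
      have ha' := (hj a).2 ha
      have e : n * a = a * n := by
        obtain ⟨v, rfl⟩ := ha'
        have := E.conj n (Multiplicative.ofAdd v)
        rw [show π' (E.p n) = 1 from hn, Layer.act, map_one, one_mulVec] at this
        exact mul_inv_eq_iff_eq_mul.1 this
      have e1 := hP n a
      rw [e, hP a n, (Fix U (Set.range j)).starProjection_apply_mem _ a ha', add_comm] at e1
      exact (add_left_cancel e1).symm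

theorem van_ab (k : ℕ) : Van (Zk k) Set.univ := by
  have := van_lattice (G := Zk k) Multiplicative.ofAdd (fun _ _ => rfl) (fun _ => 1) rfl
    (fun _ _ => (mul_one _).symm) Multiplicative.toAdd Multiplicative.toAdd.surjective
    fun g v => by rw [one_mulVec, mul_inv_cancel_comm]
  rwa [Multiplicative.ofAdd.surjective.range_eq] at this

end HST

open HST in
theorem hst_pf (_hF : Flag_stmt) (hB : TowerBasic_stmt) : HST_stmt := by
  intro k Γ _ π w T V _ _ _ U b hb
  obtain ⟨-, hs, -, S, -, hS⟩ := hB _ _ _ _ T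
  have hc := coc_proj (Fix_inv (U := U) (ker_conj π)) hb
  have h1 := van_tower hB T V U _ (coc_sub hb hc)
    fun g => Submodule.sub_starProjection_mem_orthogonal _
  have hN : ∀ g, (Fix U π.ker).starProjection (b g) ∈ Fix U π.ker := fun g =>
    Submodule.starProjection_apply_mem _ _
  generalize hc' : (fun g => (Fix U π.ker).starProjection (b g)) = c at hc
  have e : ∀ g, (Fix U π.ker).starProjection (b g) = c g := congrFun hc'
  simp only [e] at h1 hN
  set E := Submodule.span ℝ (c '' π.ker) with hE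
  have hEc : ∀ n ∈ π.ker, c n ∈ E := fun n hn => Submodule.subset_span ⟨n, hn, rfl⟩
  have hfin : FiniteDimensional ℝ E := by
    have := FiniteDimensional.span_of_finite ℝ
      ((S.finite_toSet.inter_of_left (π.ker : Set Γ)).image c)
    refine Submodule.finiteDimensional_of_le (S₂ := Submodule.span ℝ (c '' (S ∩ π.ker)))
      (Submodule.span_le.2 ?_)
    rintro _ ⟨n, hn, rfl⟩
    rw [← hS] at hn
    induction hn using Subgroup.closure_induction with
    | mem x hx => exact Submodule.subset_span ⟨x, hx, rfl⟩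
    | one => rw [coc_one hc]; exact zero_mem _
    | mul x y hx _ h h' =>
      rw [hc, hN y x (hS.le hx)]
      exact add_mem h h'
    | inv x hx h =>
      have a1 := hc x x⁻¹
      rw [mul_inv_cancel, coc_one hc, hN _ x (hS.le hx), eq_comm, add_eq_zero_iff_neg_eq] at a1
      rw [← a1]
      exact neg_mem h
  have hinv : ∀ g, ∀ v ∈ E, U g v ∈ E := fun g v hv => by
    refine (Submodule.span_le (p := E.comap (U g).toLinearEquiv.toLinearMap)).2 ?_ hv
    rintro _ ⟨n, hn, rfl⟩
    have hn' := π.normal_ker.conj_mem n hn g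
    have a1 := hc (g * n * g⁻¹) g
    rw [inv_mul_cancel_right, hc g n, hN g _ hn', add_comm] at a1
    have a2 := hEc _ hn'
    rwa [← add_right_cancel a1] at a2
  have hle : E ≤ Fix U π.ker := Submodule.span_le.2 (by rintro _ ⟨n, -, rfl⟩; exact hN n)
  have hE1 := coc_proj hinv hc
  have hE2 : ∀ n ∈ π.ker, E.starProjection (c n) = c n := fun n hn =>
    Submodule.starProjection_eq_self_iff.2 (hEc n hn)
  have hc1 := coc_sub hc hE1
  have hd := coc_proj (Fix_inv (U := U) (S := Set.univ) fun _ _ _ => trivial) hc1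
  have hd1 : ∀ g h, U g ((Fix U Set.univ).starProjection (c h - E.starProjection (c h))) = _ :=
    fun g h => (Fix U Set.univ).starProjection_apply_mem _ g trivial
  let d : Γ →* Multiplicative V := MonoidHom.mk'
    (fun g => Multiplicative.ofAdd ((Fix U Set.univ).starProjection (c g - E.starProjection (c g))))
    fun g h => by rw [← ofAdd_add, ← hd1 g h, ← hd g h]
  have hk : π.ker ≤ d.ker := fun n hn => by
    change Multiplicative.ofAdd _ = 1
    rw [hE2 n hn, sub_self, map_zero, ofAdd_zero]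
  have hD : ∀ g, π.liftOfSurjective hs ⟨d, hk⟩ (π g) = d g := fun g =>
    MonoidHom.liftOfRightInverse_comp_apply _ _ _ _ _
  refine ⟨E, fun g => E.starProjection (c g), π.liftOfSurjective hs ⟨d, hk⟩, hfin, hE1,
    fun g => Submodule.starProjection_apply_mem _ _, hinv, fun n hn v hv => hle hv n hn,
    by rw [Set.image_congr hE2], fun g a => ?_, ?_⟩
  · obtain ⟨h, rfl⟩ := hs a
    rw [hD]
    exact hd1 g h
  · have h2 := descent π hs (van_ab k) (coc_sub hc1 hd)
      (fun n hn => by simp only [hE2 n hn, sub_self, map_zero])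
      fun g => Submodule.sub_starProjection_mem_orthogonal _
    convert hacob_add h1 h2 using 2 with g
    rw [hD]
    change _ - _ - (Fix U Set.univ).starProjection (c g - E.starProjection (c g)) = _
    abel

end Vale.Agent.P188
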