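import Vale.Agent.P188.Iid

/-! P188: the set of points that hit a set almost surely is invariant. -/

namespace Vale.Agent.P188

open MeasureTheory Filter

theorem hit_pf : Hit_stmt := by
  intro Y N _ _ μ _ P _ T hT G hG
  set H : Set (Y × (ℕ → N)) := {p | ∃ n, orb T p.1 p.2 n ∈ G} with hH
  have mH : MeasurableSet H := by
    rw [hH, Set.ofPred_exists]
    exact MeasurableSet.iUnion fun n => hT.measurable_orb n hG
  set I : Set Y := {y | ∀ᵐ ω ∂(iid P), (y, ω) ∈ H} with hI
  have mI : MeasurableSet I :=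
    (measurable_measure_prodMk_left (ν := iid P) mH.compl) (measurableSet_singleton 0)
  have hGI : G ⊆ I := fun y hy =>
    show ∀ᵐ ω ∂(iid P), (y, ω) ∈ H from Eventually.of_forall fun ω => ⟨0, hy⟩
  refine ⟨I, mI, hGI, ?_, fun y hy => hy⟩
  have hθ := hT.mp_skewShift P
  have h1 := ae_eq_of_subset_of_measure_ge (μ := μ.prod (iid P))
    (s := (fun p : Y × (ℕ → N) => (T (p.2 0) p.1, fun j => p.2 (j + 1))) ⁻¹' H) (t := H)
    (by
      rintro p ⟨n, hn⟩
      exact ⟨n + 1, by rw [orb_succ']; exact hn⟩)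
    (hθ.measure_preimage mH.nullMeasurableSet).ge (hθ.measurable mH).nullMeasurableSet
    (measure_ne_top _ _)
  have h2 := (MeasurePreserving.id μ).prod (mp_consN P)
  have h3 := Measure.ae_ae_of_ae_prod (h2.quasiMeasurePreserving.ae h1.mem_iff)
  have h4 : ∀ᵐ y ∂μ, ∀ᵐ g ∂P, y ∈ I → T g y ∈ I := by
    filter_upwards [h3] with y hy
    by_cases hyI : y ∈ I
    · have h5 := (mp_consN P).quasiMeasurePreserving.ae hyI
      have h6 : ∀ᵐ q ∂(P.prod (iid P)), (T q.1 y, q.2) ∈ H := by
        filter_upwards [hy, h5] with q h7 h8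
        exact h7.2 h8
      filter_upwards [Measure.ae_ae_of_ae_prod h6] with g hg _
      exact hg
    · exact Eventually.of_forall fun g h => absurd h hyI
  have hτ : MeasurePreserving (fun p : Y × N => T p.2 p.1) (μ.prod P) μ :=
    (measurePreserving_fst (μ := μ) (ν := P)).comp (hT.mp_pair P)
  have h5 : ∀ᵐ p ∂(μ.prod P), p.1 ∈ I → T p.2 p.1 ∈ I :=
    (Measure.ae_prod_iff_ae_ae ((measurable_fst mI).imp (hT.meas mI))).2 h4
  have h6 := ae_eq_of_ae_subset_of_measure_ge (μ := μ.prod P) (s := Prod.fst ⁻¹' I)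
    (t := (fun p : Y × N => T p.2 p.1) ⁻¹' I) h5
    (by rw [hτ.measure_preimage mI.nullMeasurableSet,
      (measurePreserving_fst (μ := μ) (ν := P)).measure_preimage mI.nullMeasurableSet])
    (measurable_fst mI).nullMeasurableSet (measure_ne_top _ _)
  exact h6.symm.mem_iff

end Vale.Agent.P188
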