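import Vale.Agent.P188.TailS

/-! P188: almost invariance under the chain gives almost invariance under the group. -/

namespace Vale.Agent.P188

open Function MeasureTheory
open scoped ENNReal NNReal

namespace InvAux

theorem tri (a b c : ℝ) : ‖a - c‖ₑ ^ 2 ≤ 2 * ‖a - b‖ₑ ^ 2 + 2 * ‖b - c‖ₑ ^ 2 := by
  simp only [enorm_eq_nnnorm]
  norm_cast
  rw [← NNReal.coe_le_coe]
  push_cast
  simp only [Real.norm_eq_abs, sq_abs]
  nlinarith [sq_nonneg (a - 2 * b + c)]

variable {k : ℕ} {Γ : Type} [Group Γ] [MeasurableSpace Γ] (π : Γ →* Zk k) (P : Pair Γ k)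

/-- The action on the state space. -/
def R {Z : Type} [MulAction Γ Z] (γ : Γ) (y : Z × P.σ) : Z × P.σ :=
  (γ⁻¹ • y.1, P.act (π γ) y.2)

/-- The almost invariance property of one group element. -/
def A (γ : Γ) : Prop :=
  ∃ C : ℝ≥0, ∀ (Z : Type) [MulAction Γ Z] [MeasurableSpace Z] (ν : Measure Z)
    [SFinite ν], (∀ g : Γ, MeasurePreserving (g • ·) ν ν) →
    ∀ G F : Z × P.σ → ℝ, Measurable G → Measurable F →
    ∫⁻ y, ‖G (R π P γ y) - G y‖ₑ ^ 2 ∂(ν.prod P.μσ) ≤
      C * ∫⁻ p, ‖G p.1 - F (skew P.step p.2 p.1)‖ₑ ^ 2 ∂((ν.prod P.μσ).prod P.μN)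

variable {π P} {S : Finset Γ}

section
variable {Z : Type} [MulAction Γ Z]

theorem R_one (h : PairProp S π P) (y : Z × P.σ) : R π P 1 y = y := by
  simp [R, h.act_one]

theorem R_mul (h : PairProp S π P) (γ γ' : Γ) (y : Z × P.σ) :
    R π P (γ * γ') y = R π P γ' (R π P γ y) := by
  simp [R, ← h.act_mul, mul_smul, mul_comm]

variable [MeasurableSpace Z] {ν : Measure Z} [SFinite ν]

theorem R_mp (h : PairProp S π P) (hν : ∀ g : Γ, MeasurePreserving (g • ·) ν ν) (γ : Γ) :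
    MeasurePreserving (R π P γ) (ν.prod P.μσ) (ν.prod P.μσ) :=
  (hν γ⁻¹).prod (h.act_mp (π γ))

theorem meas_d (h : PairProp S π P) (hν : ∀ g : Γ, MeasurePreserving (g • ·) ν ν)
    {G : Z × P.σ → ℝ} (hG : Measurable G) (γ : Γ) :
    Measurable fun y => ‖G (R π P γ y) - G y‖ₑ ^ 2 :=
  ((hG.comp (R_mp h hν γ).measurable).sub hG).enorm.pow_const 2

end

theorem A_one (h : PairProp S π P) : A π P 1 :=
  ⟨0, fun Z _ _ ν _ _ G F _ _ => by simp [R_one h]⟩

theorem A_mul (h : PairProp S π P) {γ γ' : Γ} (h1 : A π P γ) (h2 : A π P γ') :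
    A π P (γ * γ') := by
  obtain ⟨C, h1⟩ := h1
  obtain ⟨C', h2⟩ := h2
  refine ⟨2 * C' + 2 * C, fun Z _ _ ν _ hν G F hG hF => ?_⟩
  have m := meas_d h hν hG
  have m' := (m γ').comp (R_mp h hν γ).measurable
  refine (lintegral_mono fun y => tri _ (G (R π P γ y)) _).trans ?_
  simp only [R_mul h]
  rw [lintegral_add_right _ ((m γ).const_mul 2), lintegral_const_mul _ (m γ),
    lintegral_const_mul (f := fun y => ‖G (R π P γ' (R π P γ y)) - G (R π P γ y)‖ₑ ^ 2) _ m',
    (R_mp h hν γ).lintegral_comp (m γ')]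
  push_cast
  rw [add_mul, mul_assoc, mul_assoc]
  exact add_le_add (mul_le_mul_right (h2 Z ν hν G F hG hF) 2)
    (mul_le_mul_right (h1 Z ν hν G F hG hF) 2)

theorem A_inv (h : PairProp S π P) {γ : Γ} (h1 : A π P γ) : A π P γ⁻¹ := by
  obtain ⟨C, h1⟩ := h1
  refine ⟨C, fun Z _ _ ν _ hν G F hG hF => le_trans (le_of_eq ?_) (h1 Z ν hν G F hG hF)⟩
  rw [← (R_mp h hν γ).lintegral_comp (meas_d h hν hG γ⁻¹)]
  refine lintegral_congr fun y => ?_
  rw [← R_mul h, mul_inv_cancel, R_one h, enorm_sub_rev]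

theorem A_gen [Countable Γ] [DiscreteMeasurableSpace Γ] (h : PairProp S π P)
    (hm : Measurable fun p : P.σ × P.N => P.step p.1 p.2) {s : Γ} (hs : s ∈ S)
    (hk : π s ≠ 1 → ∀ n, π n = 1 → A π P n) : A π P s := by
  obtain ⟨i, i', C, T, mi, mi', hi, hi', hT, hT1, hst⟩ := h.ext s hs
  have hA : ∀ n ∈ T, A π P n := fun n hn => by
    rcases eq_or_ne (π s) 1 with e | e
    · rw [hT1 e, Finset.mem_singleton] at hn
      exact hn ▸ A_one h
    · exact hk e n (hT n hn)
  choose! K hK using hA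
  refine ⟨∑ n ∈ T, (2 * K n + 4 * C) + 4 * C, fun Z _ _ ν _ hν G F hG hF => ?_⟩
  obtain ⟨e, he⟩ : ∃ e : (Z × P.σ) × P.N → ℝ≥0∞,
    e = fun p => ‖G p.1 - F (skew P.step p.2 p.1)‖ₑ ^ 2 := ⟨_, rfl⟩
  have m0 : Measurable fun q : Z × Γ => q.2⁻¹ • q.1 :=
    measurable_from_prod_countable_left fun g => (hν g⁻¹).measurable
  have m1 : Measurable fun p : (Z × P.σ) × P.N => P.step p.1.2 p.2 :=
    hm.comp (measurable_fst.snd.prodMk measurable_snd)
  have me : Measurable e := he ▸ ((hG.comp measurable_fst).sub (hF.comp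
    ((m0.comp (measurable_fst.fst.prodMk m1.fst)).prodMk m1.snd))).enorm.pow_const 2
  have my : ∀ y, Measurable fun g => e (y, g) := fun y => me.comp measurable_prodMk_left
  have mj : ∀ y {j : P.N → P.N}, Measurable j → Measurable fun g => e (y, j g) :=
    fun y _ mj => (my y).comp mj
  have mΦ : Measurable fun y => ∫⁻ g, e (y, g) ∂P.μN := me.lintegral_prod_right'
  have dom : ∀ {j : P.N → P.N}, Measurable j → P.μN.map j ≤ C • P.μN → ∀ y,
      ∫⁻ g, 4 * e (y, j g) ∂P.μN ≤ 4 * C * ∫⁻ g, e (y, g) ∂P.μN := fun {j} hm hj y => by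
    rw [lintegral_const_mul _ (mj y hm), ← lintegral_map (my y) hm, mul_assoc]
    refine mul_le_mul_right ((lintegral_mono' hj le_rfl).trans_eq ?_) 4
    rw [lintegral_smul_measure]
    rfl
  have pt : ∀ y g, ‖G (R π P s y) - G y‖ₑ ^ 2 ≤
      ∑ n ∈ T, (2 * ‖G (R π P n (R π P s y)) - G (R π P s y)‖ₑ ^ 2 +
        4 * e (R π P (s * n) y, i' g)) + 4 * e (y, i g) := fun y g => by
    obtain ⟨e1, n, hn, e2⟩ := hst y.2 g
    have e3 : skew P.step (i' g) (R π P (s * n) y) = skew P.step (i g) y := by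
      simp [skew, R, e1, e2, hT n hn, mul_smul]
    refine le_trans ?_ (add_le_add_left (Finset.single_le_sum (fun _ _ => zero_le) hn) _)
    refine (tri _ (G (R π P (s * n) y)) _).trans ?_
    rw [add_assoc, enorm_sub_rev, ← R_mul h]
    refine add_le_add_right ((mul_le_mul_right (tri _ (F (skew P.step (i g) y)) _) 2).trans_eq ?_) _
    simp only [he, e3, enorm_sub_rev (F _)]
    ring
  have pt2 : ∀ y, ‖G (R π P s y) - G y‖ₑ ^ 2 ≤
      ∑ n ∈ T, (2 * ‖G (R π P n (R π P s y)) - G (R π P s y)‖ₑ ^ 2 +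
        4 * C * ∫⁻ g, e (R π P (s * n) y, g) ∂P.μN) + 4 * C * ∫⁻ g, e (y, g) ∂P.μN := fun y => by
    have := lintegral_mono (μ := P.μN) (pt y)
    rw [lintegral_const, measure_univ, mul_one,
      lintegral_add_right _ ((mj y mi).const_mul 4), lintegral_finsetSum _ fun n _ =>
        measurable_const.fun_add ((mj (R π P (s * n) y) mi').const_mul 4)] at this
    refine this.trans (add_le_add (Finset.sum_le_sum fun n _ => ?_) (dom mi hi y))
    rw [lintegral_add_left measurable_const, lintegral_const, measure_univ, mul_one]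
    exact add_le_add_right (dom mi' hi' _) _
  have md : ∀ n, Measurable fun y => ‖G (R π P n (R π P s y)) - G (R π P s y)‖ₑ ^ 2 :=
    fun n => (meas_d h hν hG n).comp (R_mp h hν s).measurable
  have mr : ∀ n, Measurable fun y => ∫⁻ g, e (R π P n y, g) ∂P.μN :=
    fun n => mΦ.comp (R_mp h hν n).measurable
  have hK' := fun n hn => hK n hn Z ν hν G F hG hF
  rw [← he] at hK' ⊢
  refine (lintegral_mono pt2).trans ?_
  rw [lintegral_add_right _ (mΦ.const_mul _), lintegral_const_mul _ mΦ,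
    ← lintegral_prod _ me.aemeasurable,
    lintegral_finsetSum _ fun n _ => ((md n).const_mul 2).fun_add ((mr (s * n)).const_mul _)]
  push_cast
  rw [add_mul, Finset.sum_mul]
  refine add_le_add_left (Finset.sum_le_sum fun n hn => ?_) _
  rw [lintegral_add_left ((md n).const_mul 2), lintegral_const_mul _ (md n),
    lintegral_const_mul _ (mr _), add_mul, mul_assoc 2,
    (R_mp h hν s).lintegral_comp (meas_d h hν hG n), (R_mp h hν (s * n)).lintegral_comp mΦ,
    ← lintegral_prod _ me.aemeasurable]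
  exact add_le_add_left (mul_le_mul_right (hK' n hn) 2) _

end InvAux

open InvAux in
theorem inv_pf : Inv_stmt := by
  intro k Γ _ _ _ _ π S hS hS' P h hm _ γ
  have key : ∀ T : Set Γ, (∀ s ∈ T, A π P s) → ∀ g ∈ Subgroup.closure T, A π P g :=
    fun T hT g hg => Subgroup.closure_induction hT (A_one h) (fun _ _ _ _ => A_mul h)
      (fun _ _ => A_inv h) hg
  have h1 : ∀ n, π n = 1 → A π P n := fun n hn =>
    key ((S : Set Γ) ∩ π.ker) (fun s hs => A_gen h hm hs.1 fun e => (e hs.2).elim) n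
      (hS'.symm ▸ MonoidHom.mem_ker.2 hn)
  exact key S (fun s hs => A_gen h hm hs fun _ => h1) γ (hS.symm ▸ Subgroup.mem_top γ)

end Vale.Agent.P188
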