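import Vale.Agent.P188.Iid

/-! P188: the drift matrix is an isometry of the entropy norm. -/

namespace Vale.Agent.P188

open Function MeasureTheory Filter Topology
open scoped ENNReal NNReal

namespace IsoX

variable {k : ℕ}

theorem ht_mul {Γ : Type} [Group Γ] (π : Γ →* Zk k) (g h : Γ) :
    ht π (g * h) = ht π g + ht π h := by
  ext i; simp [ht, toR]

theorem lp_dir {Γ σ N : Type} [Group Γ] (π : Γ →* Zk k) (step : σ → N → Γ × σ) {a : Rk k}
    {Cs : ℝ} (h : ∀ u g, ‖ht π (step u g).1 - a‖ ≤ Cs) (x : Γ × σ) (ω : ℕ → N) (j : ℕ) :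
    ‖ht π (lp step x ω j) - ht π x.1 - (j : ℝ) • a‖ ≤ Cs * j := by
  induction j with
  | zero => simp [lp, cpath]
  | succ j ih =>
    have e : ht π (lp step x ω (j + 1)) - ht π x.1 - ((j + 1 : ℕ) : ℝ) • a =
        (ht π (lp step x ω j) - ht π x.1 - (j : ℝ) • a) +
          (ht π (step (cpath step x ω j).2 (ω j)).1 - a) := by
      simp only [lp, cpath, mv, ht_mul, Nat.cast_succ, add_smul, one_smul]
      abel
    rw [e]
    refine (norm_add_le_of_le ih (h _ _)).trans (le_of_eq ?_)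
    push_cast; ring

theorem kap_smul (w : List (Wt k)) (a : Rk k) {M : ℝ} (hM : 0 < M) : kap w (M • a) = kap w a := by
  unfold kap
  congr 2
  funext χ
  simp [mul_neg_iff, hM, hM.not_gt]

theorem drift_cond {Γ Z : Type} [Group Γ] [MulAction Γ Z] [MeasurableSpace Z] {π : Γ →* Zk k}
    {q : Z → Γ → Γ} {K' : ℝ} {ν : Measure Z} {D : Z → Matrix (Fin k) (Fin k) ℝ}
    (h : Drift π q K' ν D) {W : Set Z} (hW : MeasurableSet W) (h0 : ν W ≠ 0)
    (hi : ∀ (g : Γ) z, g • z ∈ W ↔ z ∈ W) : Drift π q K' (ProbabilityTheory.cond ν W) D := by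
  have := h.prob
  have hc : (ν W)⁻¹ ≠ ⊤ := ENNReal.inv_ne_top.2 h0
  refine ⟨ProbabilityTheory.cond_isProbabilityMeasure h0, fun g => ?_, h.meas, h.inv, h.bdd,
    fun F ε hε => ?_⟩
  · have h1 := (h.mp g).restrict_preimage hW
    rw [show (g • ·) ⁻¹' W = W from Set.ext (hi g)] at h1
    exact h1.smul_measure _
  · obtain ⟨c, hc'⟩ : ∃ c : ℝ≥0, (ν W)⁻¹ ^ (1 / (2 : ℝ≥0∞)).toReal = c :=
      ⟨_, (ENNReal.coe_toNNReal (ENNReal.rpow_ne_top_of_nonneg (by positivity) hc)).symm⟩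
    obtain ⟨β, b1, b2, b3⟩ := h.acob F (ε / (c + 1)) (by positivity)
    refine ⟨β, b1, (b2.restrict W).smul_measure hc, fun g hg => ?_⟩
    refine (eLpNorm_smul_measure_le _ _ _ _).trans ?_
    rw [hc', smul_eq_mul]
    refine (mul_le_mul_right ((eLpNorm_mono_measure _ Measure.restrict_le_self).trans (b3 g hg))
      _).trans ?_
    rw [← ENNReal.ofReal_coe_nnreal, ← ENNReal.ofReal_mul (by positivity)]
    refine ENNReal.ofReal_le_ofReal ?_
    rw [← mul_div_assoc, div_le_iff₀ (by positivity)]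
    nlinarith

theorem freq_good {Γ Z X : Type} [Group Γ] [Countable Γ] [MeasurableSpace Γ]
    [DiscreteMeasurableSpace Γ] [MulAction Γ Z] [MeasurableSpace Z] [MeasurableSpace X]
    (ν : Measure Z) [IsProbabilityMeasure ν] (P : Measure X) [IsProbabilityMeasure P]
    (hν : ∀ g : Γ, MeasurePreserving (g • ·) ν ν) {G : Set Z} (hG : MeasurableSet G)
    (h : ν Gᶜ < 1 / 2) (p : ℕ → X → Γ) (hp : ∀ n, Measurable (p n)) :
    ∃ᵐ z ∂ν, ∃ᶠ n in atTop, P {x | (p n x)⁻¹ • z ∉ G} < 1 / 2 := by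
  have hm : Measurable fun y : Z × Γ => y.2⁻¹ • y.1 :=
    measurable_from_prod_countable_left fun g => (hν g⁻¹).measurable
  have hT : ∀ n, MeasurableSet {y : Z × X | (p n y.2)⁻¹ • y.1 ∉ G} := fun n =>
    (hm.comp (measurable_fst.prodMk ((hp n).comp measurable_snd))) hG.compl
  have h1 : ∀ n, ∫⁻ z, P {x | (p n x)⁻¹ • z ∉ G} ∂ν = ν Gᶜ := fun n => by
    refine (Measure.prod_apply (hT n)).symm.trans ?_
    rw [Measure.prod_apply_symm (hT n)]
    exact (lintegral_congr (g := fun _ => ν Gᶜ) fun x =>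
      (hν (p n x)⁻¹).measure_preimage hG.compl.nullMeasurableSet).trans (by simp)
  have h2 := lintegral_liminf_le (μ := ν) (u := atTop)
    (f := fun n z => P {x | (p n x)⁻¹ • z ∉ G}) fun n => measurable_measure_prodMk_left (hT n)
  simp only [h1, liminf_const] at h2
  intro hc
  refine absurd (h2.trans_lt h) (not_lt.2 ?_)
  calc (1 / 2 : ℝ≥0∞) = ∫⁻ _, 1 / 2 ∂ν := by simp
    _ ≤ _ := by
      refine lintegral_mono_ae (hc.mono fun z hz => le_liminf_of_le (by isBoundedDefault) ?_)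
      simpa only [not_frequently, not_lt] using hz

theorem exists_supp {Z : Type} [MeasurableSpace Z] (ν : Measure Z)
    (D : Z → Matrix (Fin k) (Fin k) ℝ) (P : Matrix (Fin k) (Fin k) ℝ → Prop)
    (h : ¬ ∀ᵐ z ∂ν, ¬ P (D z)) : ∃ D₀, P D₀ ∧ ∀ (a : Rk k) (δ : ℝ), 0 < δ →
      ν {z | ‖(D z).mulVec a - D₀.mulVec a‖ ≤ δ} ≠ 0 := by
  have : SecondCountableTopology (Matrix (Fin k) (Fin k) ℝ) :=
    inferInstanceAs (SecondCountableTopology (Fin k → Fin k → ℝ))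
  obtain ⟨D₀, h0, h1⟩ := exists_mem_forall_mem_nhdsWithin_pos_measure
    (μ := OuterMeasure.map D ν.toOuterMeasure) (s := {M | P M}) (by
      simpa [ae_iff] using h)
  refine ⟨D₀, h0, fun a δ hδ => (h1 {M | ‖M.mulVec a - D₀.mulVec a‖ ≤ δ} ?_).ne'⟩
  have hc : Continuous fun M : Matrix (Fin k) (Fin k) ℝ => ‖M.mulVec a - D₀.mulVec a‖ :=
    ((continuous_id.matrix_mulVec continuous_const).sub continuous_const).norm
  exact mem_nhdsWithin_of_mem_nhds (hc.continuousAt.eventually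
    (eventually_le_nhds (by simpa using hδ)))

theorem meas_near {Z : Type} [MeasurableSpace Z] {D : Z → Matrix (Fin k) (Fin k) ℝ}
    (h : ∀ i j, Measurable fun z => D z i j) (a a' : Rk k) (δ : ℝ) :
    MeasurableSet {z | ‖(D z).mulVec a - a'‖ ≤ δ} := by
  have h1 : Measurable fun z => (D z).mulVec a := measurable_pi_lambda _ fun i =>
    Finset.measurable_sum (f := fun j z => D z i j * a j) Finset.univ fun j _ =>
      (h i j).mul_const _
  exact measurableSet_le (h1.sub_const _).norm measurable_const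

/-- a set of almost full measure is exhausted by an increasing sequence -/
theorem exists_lam {X : Type} [MeasurableSpace X] (P : Measure X) [IsProbabilityMeasure P]
    (f : X → ℕ → ℝ) (h : ∀ᵐ x ∂P, ∃ Λ : ℕ, ∀ j : ℕ, f x j ≤ 1 * j + Λ) :
    ∃ Λ : ℕ, 3 / 4 < P {x | ∀ j : ℕ, f x j ≤ 1 * j + Λ} := by
  have h1 := tendsto_measure_iUnion_atTop (μ := P)
    (s := fun Λ : ℕ => {x | ∀ j : ℕ, f x j ≤ 1 * j + Λ}) fun a b hab x hx j =>
      (hx j).trans (by gcongr)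
  have h2 : P (⋃ Λ : ℕ, {x | ∀ j : ℕ, f x j ≤ 1 * j + Λ}) = 1 := by
    rw [← measure_univ (μ := P)]
    exact measure_congr (ae_eq_univ.2 (mem_ae_iff.1 (h.mono fun x hx => Set.mem_iUnion.2 hx)))
  rw [h2] at h1
  exact (h1.eventually (lt_mem_nhds (ENNReal.div_lt_of_lt_mul (by norm_num)))).exists

theorem track {D : Matrix (Fin k) (Fin k) ℝ} {K' Cs Λ j : ℝ} {a a' X Y : Rk k} (hj : 0 ≤ j)
    (hD : ∀ b, ‖D.mulVec b‖ ≤ K' * ‖b‖) (ha : ‖D.mulVec a - a'‖ ≤ 1)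
    (hY : ‖Y - j • a‖ ≤ Cs * j) (hX : ‖X - D.mulVec Y‖ ≤ 1 * j + Λ) :
    ‖X - j • a'‖ ≤ (|K'| * Cs + 2) * j + Λ := by
  have e : X - j • a' = (X - D.mulVec Y) + D.mulVec (Y - j • a) + j • (D.mulVec a - a') := by
    rw [Matrix.mulVec_sub, Matrix.mulVec_smul, smul_sub]; abel
  have h1 : ‖D.mulVec (Y - j • a)‖ ≤ |K'| * (Cs * j) :=
    (hD _).trans (mul_le_mul (le_abs_self _) hY (norm_nonneg _) (abs_nonneg _))
  have h2 : ‖j • (D.mulVec a - a')‖ ≤ j := by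
    rw [norm_smul, Real.norm_of_nonneg hj]; exact mul_le_of_le_one_right hj ha
  rw [e]
  refine (norm_add_le_of_le (norm_add_le_of_le hX h1) h2).trans (le_of_eq ?_)
  ring

theorem gain {κ κ' : Wt k} {A Cs Λ j : ℝ} {a a' X Y : Rk k} (hj : 0 ≤ j)
    (hg : ‖κ'‖ * A + ‖κ‖ * Cs + 1 ≤ κ' a' - κ a) (hY : ‖Y - j • a‖ ≤ Cs * j)
    (hX : ‖X - j • a'‖ ≤ A * j + Λ) : j - ‖κ'‖ * Λ ≤ κ' X - κ Y := by
  have h1 := abs_le.1 ((κ.le_opNorm _).trans (mul_le_mul_of_nonneg_left hY (norm_nonneg κ)))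
  have h2 := abs_le.1 ((κ'.le_opNorm _).trans (mul_le_mul_of_nonneg_left hX (norm_nonneg κ')))
  rw [map_sub, map_smul, smul_eq_mul] at h1 h2
  nlinarith [mul_le_mul_of_nonneg_left hg hj, h1.2, h2.1]

theorem core (hV : V_stmt) (hR : Reg_stmt) (hG : GoodM_stmt) {Γ : Type} [Group Γ] [Countable Γ]
    [MeasurableSpace Γ] [DiscreteMeasurableSpace Γ] {π : Γ →* Zk k} {w : List (Wt k)}
    {S : Finset Γ} (hS : Subgroup.closure (S : Set Γ) = ⊤) {K : ℕ} {Z : Type} [MulAction Γ Z]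
    [MeasurableSpace Z] {Q : QP S K Z} {K' : ℝ} (hd : Dual π Q K') {ν : Measure Z}
    {D : Z → Matrix (Fin k) (Fin k) ℝ} (hν : Drift π Q.q K' ν D) {a a' : Rk k}
    {Cs κ₁ κ₂ C₀ κ₂' C₀' : ℝ} {c c' : Chain Γ} (hc : ChainProp S π w a Cs κ₁ κ₂ C₀ c)
    (hc' : ChainProp S π w a' Cs κ₁ κ₂' C₀' c') (h1 : |K'| * Cs + 3 ≤ κ₁)
    (h2 : |K'| * Cs + 3 ≤ κ₂') (hW : ∀ᵐ z ∂ν, ‖(D z).mulVec a - a'‖ ≤ 1 / (1 + |K'|))
    (hg : ‖kap w a'‖ * (|K'| * Cs + 2) + ‖kap w a‖ * Cs + 1 ≤ kap w a' a' - kap w a a) :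
    False := by
  have := hν.prob
  obtain ⟨ν', D', hν', hq, -, hP⟩ := hd ν D hν
  have hK : 0 < 1 + |K'| := by positivity
  have hW' : ∀ᵐ z ∂ν', ‖(D' z).mulVec a' - a‖ ≤ 1 := by
    filter_upwards [hP (fun M => ‖M.mulVec a - a'‖ ≤ 1 / (1 + |K'|)) hW] with z ⟨D₀, b1, b2⟩
    have e : (D' z).mulVec a' - a = -(D' z).mulVec (D₀.mulVec a - a') := by
      rw [Matrix.mulVec_sub, Matrix.mulVec_mulVec, b2, Matrix.one_mulVec, neg_sub]
    rw [e, norm_neg]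
    refine ((hν'.bdd z _).trans
      (mul_le_mul (le_abs_self _) b1 (norm_nonneg _) (abs_nonneg _))).trans ?_
    rw [mul_one_div, div_le_one hK]
    linarith
  obtain ⟨g1, g2, g3, g4⟩ := hG k Γ π w S hS K Z Q K' ν ν' D D' hν hν' hq a a' Cs κ₁ κ₂ C₀ Cs κ₁
    κ₂' C₀' c c' hc hc' hW' h1
  obtain ⟨L, hL, hL1⟩ := ((g4.eventually (lt_mem_nhds (by norm_num : (1 / 2 : ℝ) < 1))).and
    (eventually_ge_atTop 1)).exists
  obtain ⟨C, hC, hv⟩ := hV k Γ π w S hS a a' Cs κ₁ κ₂ C₀ Cs κ₁ κ₂' C₀' c c' hc hc' K L hL1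
  have hlp : ∀ n, Measurable fun x : c.σ × (ℕ → c.N) => lp c.step (1, x.1) x.2 n := fun n =>
    (measurable_cpath c.step hc.meas_step n).fst.comp
      ((measurable_const.prodMk measurable_fst).prodMk measurable_snd)
  have hfr := freq_good ν (c.μσ.prod (iid c.μN)) hν.mp (g2 L) (by
    rw [← ENNReal.toReal_lt_toReal (measure_ne_top _ _) (by simp), ← Measure.real,
      probReal_compl_eq_one_sub (g2 L)]
    simp only [one_div, ENNReal.toReal_inv, ENNReal.toReal_ofNat] at hL ⊢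
    linarith) _ hlp
  obtain ⟨z, hz, z1, z2, z3⟩ := (hfr.and_eventually (g1.and (hW.and
    (hR k Γ π S K Z Q.toQS K' ν D hν c hc.meas_step hc.fin hc.mp 1 one_pos)))).exists
  obtain ⟨Λ, hΛ⟩ := exists_lam _ _ (z3 1)
  have z2' : ‖(D z).mulVec a - a'‖ ≤ 1 := z2.trans (by
    rw [div_le_one hK]; linarith [abs_nonneg K'])
  have hlim : Tendsto (fun n : ℕ => C * Real.exp (C * Λ - (n - ‖kap w a'‖ * Λ))) atTop (𝓝 0) := by
    simpa [sub_eq_add_neg] using (Real.tendsto_exp_atBot.comp (tendsto_atBot_add_const_left _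
      (C * Λ) (tendsto_neg_atTop_atBot.comp (tendsto_atTop_add_const_right _ (-(‖kap w a'‖ * Λ))
        tendsto_natCast_atTop_atTop)))).const_mul C
  obtain ⟨n, n1, n2⟩ := (hz.and_eventually (hlim.eventually
    (gt_mem_nhds (by norm_num : (0 : ℝ) < 1 / 4)))).exists
  obtain ⟨A, hA⟩ : ∃ A : Set (c.σ × (ℕ → c.N)), A = {x | ∀ j : ℕ,
    ‖ht π (Q.q z (lp c.step (1, x.1) x.2 j)) - ht π (Q.q z 1) -
      (D z).mulVec (ht π (lp c.step (1, x.1) x.2 j) - ht π 1)‖ ≤ 1 * j + Λ} := ⟨_, rfl⟩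
  obtain ⟨B, hB⟩ : ∃ B : Set (c.σ × (ℕ → c.N)), B = {x | (lp c.step (1, x.1) x.2 n)⁻¹ • z ∉
    {z | Good S π a κ₁ C₀ c.r c' (Q.q z) (Q.q' z) L 1}} := ⟨_, rfl⟩
  rw [← hA] at hΛ
  rw [← hB] at n1
  have mA : MeasurableSet A := by
    rw [hA, Set.setOf_forall]
    exact MeasurableSet.iInter fun j => hlp j (MeasurableSet.of_discrete (s := {g |
      ‖ht π (Q.q z g) - ht π (Q.q z 1) - (D z).mulVec (ht π g - ht π 1)‖ ≤ 1 * j + Λ}))
  have mB : MeasurableSet B := by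
    rw [hB]
    exact hlp n (MeasurableSet.of_discrete (s := {g | g⁻¹ • z ∉
      {z | Good S π a κ₁ C₀ c.r c' (Q.q z) (Q.q' z) L 1}}))
  have hu : ∀ u, iid c.μN (Prod.mk u ⁻¹' (A \ B)) ≤ ENNReal.ofReal (1 / 4) := fun u => by
    have b1 := hv (Q.q z) (Q.q' z) (fun p s hs => by
      rw [Q.q_mul, inv_mul_cancel_left]; exact Q.q_lip _ s hs) z1 Λ (n - ‖kap w a'‖ * Λ) (1, u)
      (Nat.cast_nonneg Λ)
    refine le_trans (measure_mono ?_) ((ENNReal.le_ofReal_iff_toReal_le (measure_ne_top _ _)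
      (by norm_num)).2 (b1.trans n2.le))
    rintro ω ⟨x1, x2⟩
    rw [hA] at x1
    rw [hB] at x2
    have t1 := fun j : ℕ => track (Nat.cast_nonneg j) (hν.bdd z) z2'
      (lp_dir π c.step hc.dir (1, u) ω j) (x1 j)
    refine ⟨n, (g3 L z _).2 (not_not.1 x2), gain (Nat.cast_nonneg n) hg
      (lp_dir π c.step hc.dir (1, u) ω n) (t1 n), fun j _ => (t1 j).trans ?_⟩
    gcongr
    linarith
  have b2 : (c.μσ.prod (iid c.μN)) (A \ B) ≤ ENNReal.ofReal (1 / 4) := by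
    rw [Measure.prod_apply (mA.diff mB)]
    exact (lintegral_mono hu).trans (by simp)
  have b3 : (c.μσ.prod (iid c.μN)) A ≤ (c.μσ.prod (iid c.μN)) B + (c.μσ.prod (iid c.μN)) (A \ B) :=
    (measure_mono (Set.diff_subset_iff.1 subset_rfl)).trans (measure_union_le _ _)
  have b4 := hΛ.trans_le (b3.trans (add_le_add n1.le b2))
  rw [← ENNReal.toReal_lt_toReal (by finiteness) (by finiteness),
    ENNReal.toReal_add (by finiteness) (by finiteness), ENNReal.toReal_ofReal (by norm_num)] at b4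
  norm_num at b4

theorem claimA (hC : ChainEx_stmt) (hV : V_stmt) (hR : Reg_stmt) (hG : GoodM_stmt)
    (hP : Phi_stmt) (hB : TowerBasic_stmt) {Γ : Type} [Group Γ] [Countable Γ]
    {π : Γ →* Zk k} {w : List (Wt k)} (hT : Tower Γ π w) (hw : Definite w)
    {S : Finset Γ} (hS : Subgroup.closure (S : Set Γ) = ⊤) {K : ℕ} {Z : Type} [MulAction Γ Z]
    [MeasurableSpace Z] {Q : QP S K Z} {K' : ℝ} (hd : Dual π Q K') {ν : Measure Z}
    {D : Z → Matrix (Fin k) (Fin k) ℝ} (hν : Drift π Q.q K' ν D) :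
    ∀ᵐ z ∂ν, ∀ b, enorm' w b ≤ enorm' w ((D z).mulVec b) := by
  letI : MeasurableSpace Γ := ⊤
  have : DiscreteMeasurableSpace Γ := ⟨fun _ => trivial⟩
  obtain ⟨-, -, -, p4, -, p6⟩ := hP k w (hB k Γ π w hT).2.2.1 hw
  obtain ⟨ν', D', -, -, hu, -⟩ := hd ν D hν
  by_contra hc
  obtain ⟨D₀, ⟨d1, b, d2⟩, d3⟩ := exists_supp ν D
    (fun M => IsUnit M.det ∧ ∃ b, enorm' w (M.mulVec b) < enorm' w b) fun h => hc (by
      filter_upwards [h, hu] with z h1 h2 b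
      exact not_lt.1 fun h3 => h1 ⟨Matrix.isUnit_det_of_left_inverse h2, b, h3⟩)
  obtain ⟨a, a1, a2, a3⟩ := p6 D₀ d1 b d2
  obtain ⟨Cs, c1, hch⟩ := hC k Γ π w hT S hS
  have k0 : 0 ≤ |K'| * Cs := by positivity
  obtain ⟨κ₂, -, e1⟩ := hch (|K'| * Cs + 3 + Cs) 0 (by linarith) a a1
  obtain ⟨κ₂', k2, e2⟩ := hch (|K'| * Cs + 3 + Cs) (|K'| * Cs + 3) (by linarith) _ a2
  obtain ⟨M, ⟨C₀, P, -, h1, -⟩, ⟨C₀', P', -, h2, -⟩, M0, M1⟩ := (e1.and (e2.and
    ((eventually_gt_atTop 0).and (eventually_ge_atTop ((‖kap w (D₀.mulVec a)‖ * (|K'| * Cs + 2) +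
      ‖kap w a‖ * Cs + 1) / (enorm' w a - enorm' w (D₀.mulVec a))))))).exists
  have hm := meas_near hν.meas (M • a) (D₀.mulVec (M • a)) (1 / (1 + |K'|))
  refine core hV hR hG hS hd (drift_cond hν hm (d3 _ _ (by positivity)) fun g z => by
    simp only [Set.mem_setOf_eq, hν.inv]) h1 h2 (by linarith) k2 ?_ ?_
  · filter_upwards [ProbabilityTheory.ae_cond_mem (μ := ν) hm] with z hz
    rwa [← Matrix.mulVec_smul]
  · rw [div_le_iff₀ (by linarith), p4, p4] at M1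
    rw [kap_smul w _ M0, kap_smul w _ M0, map_smul, map_smul, smul_eq_mul, smul_eq_mul]
    linarith

end IsoX

theorem iso_pf (hC : ChainEx_stmt) (hV : V_stmt) (hR : Reg_stmt) (hG : GoodM_stmt)
    (hP : Phi_stmt) (hB : TowerBasic_stmt) : Iso_stmt := by
  intro k Γ _ _ π w hT hw S hS K Z _ _ Q K' hd ν D hν
  obtain ⟨ν', D', hν', hq, hu, -⟩ := hd ν D hν
  filter_upwards [IsoX.claimA hC hV hR hG hP hB hT hw hS hd hν, hu,
    hq.ae (IsoX.claimA hC hV hR hG hP hB hT hw hS hd hν')] with z h1 h2 h3 b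
  refine le_antisymm ?_ (h1 b)
  simpa only [Matrix.mulVec_mulVec, h2, Matrix.one_mulVec] using h3 ((D z).mulVec b)

end Vale.Agent.P188
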