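import Vale.Agent.P188.OpC

/-! P188, Op: sublinear deficiency for invariant measures, and the averaged deficiency. -/

namespace Vale.Agent.P188.OpX

open MeasureTheory Filter Topology
open scoped ENNReal NNReal

theorem num_R (L f e : ℝ) (hL : 0 ≤ L) (hf : 0 ≤ f) (he : 0 < e) :
    ∃ η > 0, ∀ b : ℝ, 0 ≤ b → ∃ R : ℕ, 0 < R ∧ ENNReal.ofReal L * (2 * ENNReal.ofReal b +
      R * ENNReal.ofReal (f * η)) < ENNReal.ofReal e * R := by
  refine ⟨e / (2 * (L * f + 1)), by positivity, fun b hb => ?_⟩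
  obtain ⟨R, hR⟩ := exists_nat_gt (4 * L * b / e)
  have hR0 : (0 : ℝ) < R := lt_of_le_of_lt (by positivity) hR
  refine ⟨R, by exact_mod_cast hR0, ?_⟩
  rw [← ENNReal.ofReal_ofNat 2, ← ENNReal.ofReal_natCast R, ← ENNReal.ofReal_mul (by norm_num),
    ← ENNReal.ofReal_mul hR0.le, ← ENNReal.ofReal_add (by positivity) (by positivity),
    ← ENNReal.ofReal_mul hL, ← ENNReal.ofReal_mul he.le,
    ENNReal.ofReal_lt_ofReal_iff (by positivity)]
  rw [div_lt_iff₀ he] at hR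
  have h1 : L * f * (e / (2 * (L * f + 1))) ≤ e / 2 := by
    calc _ ≤ (L * f + 1) * (e / (2 * (L * f + 1))) := by gcongr; linarith
      _ = _ := by field_simp
  have h2 := mul_le_mul_of_nonneg_left h1 hR0.le
  nlinarith

variable {Γ σ N Z : Type} [Group Γ] [MulAction Γ Z] {step : σ → N → Γ × σ}
  [MeasurableSpace Z] {k K : ℕ} (π : Γ →* Zk k) {S : Finset Γ} (Q : QS S K Z)
  [Countable Γ] [MeasurableSpace Γ] [DiscreteMeasurableSpace Γ] [MeasurableSpace σ]
  [MeasurableSpace N] {μσ : Measure σ} [IsProbabilityMeasure μσ]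
  (P : Measure N) [IsProbabilityMeasure P]

theorem drift_small (hm : Measurable fun p : σ × N => step p.1 p.2)
    (hmp : ∀ g, MeasurePreserving (fun u => (step u g).2) μσ μσ)
    (hF : ∃ F : Finset Γ, ∀ u g, (step u g).1 ∈ F) {a : Rk k} {Cs : ℝ}
    (hCs : ∀ u g, ‖ht π (step u g).1 - a‖ ≤ Cs) {K' : ℝ} (κ : Wt k) {c : ℝ} (hc : 0 ≤ c)
    {μ : Measure Z} {D : Z → Matrix (Fin k) (Fin k) ℝ} (hD : Drift π Q.q K' μ D)
    (ha : ∀ᵐ z ∂μ, c * ‖(D z).mulVec a - a‖ ≤ κ ((D z).mulVec a - a)) {e : ℝ} (he : 0 < e) :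
    ∃ R : ℕ, 0 < R ∧ ∫⁻ p, ENNReal.ofReal (defic (skew step) (defect π Q.q step) κ c
      ((c + ‖κ‖) * (|K'| + 1) * Cs) p.1 p.2 0 R) ∂((μ.prod μσ).prod (iid P)) <
      ENNReal.ofReal e * R := by
  have := hD.prob
  obtain ⟨F, hF⟩ := hF
  obtain ⟨η, hη, hR⟩ := num_R (c + ‖κ‖) F.card e (add_nonneg hc (norm_nonneg κ))
    (Nat.cast_nonneg _) he
  obtain ⟨β, hβ, hβ2, hβr⟩ := hD.acob F η hη
  let r : Γ → Z → Rk k := fun g z =>
    ht π (Q.q z g) - (D z).mulVec (ht π g) - (β (g⁻¹ • z) - β z)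
  have hDm : ∀ b : Rk k, Measurable fun z => (D z).mulVec b := fun b =>
    measurable_pi_lambda _ fun i =>
      Finset.measurable_sum Finset.univ fun j _ => (hD.meas i j).mul_const (b j)
  have hr : ∀ g, Measurable (r g) := fun g =>
    ((meas_q π Q g).sub (hDm _)).sub ((hβ.comp (hD.mp g⁻¹).measurable).sub hβ)
  have hρ : Measurable fun z => ∑ g ∈ F, ‖r g z‖ := Finset.measurable_sum _ fun g _ => (hr g).norm
  obtain ⟨R, hR0, hR⟩ := hR (∫⁻ z, ‖β z‖ₑ ∂μ).toReal ENNReal.toReal_nonneg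
  refine ⟨R, hR0, lt_of_le_of_lt ?_ hR⟩
  rw [mul_assoc]
  refine (int_defic_le P (rmp_skew hD.mp hm hmp) (defect π Q.q step) κ hc ((|K'| + 1) * Cs)
    (fun y => (D y.1).mulVec a - a) (fun y => β y.1) (fun y => ∑ g ∈ F, ‖r g y.1‖)
    (fun g y => by simp only [skew, hD.inv]) (fun y g => ?_)
    ((measurePreserving_fst (μ := μ) (ν := μσ)).quasiMeasurePreserving.ae ha)
    (hβ.comp measurable_fst) (hρ.comp measurable_fst)
    (fun y => Finset.sum_nonneg fun g _ => norm_nonneg _) R).trans ?_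
  · have e1 : defect π Q.q step y g - ((D y.1).mulVec a - a) - (β (skew step g y).1 - β y.1) =
        ((D y.1).mulVec (ht π (step y.2 g).1 - a) - (ht π (step y.2 g).1 - a)) +
          r (step y.2 g).1 y.1 := by
      simp only [defect, skew, r, Matrix.mulVec_sub]
      abel
    rw [e1]
    refine (norm_add_le _ _).trans (add_le_add ((norm_sub_le _ _).trans ?_)
      (Finset.single_le_sum (f := fun g => ‖r g y.1‖) (fun _ _ => norm_nonneg _) (hF _ _)))
    have h1 := hD.bdd y.1 (ht π (step y.2 g).1 - a)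
    have h2 := hCs y.2 g
    have h3 := mul_le_mul (le_abs_self K') h2 (norm_nonneg _) (abs_nonneg _)
    linarith
  · gcongr
    · rw [(measurePreserving_fst (μ := μ) (ν := μσ)).lintegral_comp hβ.enorm,
        ENNReal.ofReal_toReal (hβ2.integrable one_le_two).2.ne]
    · rw [(measurePreserving_fst (μ := μ) (ν := μσ)).lintegral_comp hρ.ennreal_ofReal]
      simp only [ENNReal.ofReal_sum_of_nonneg fun g _ => norm_nonneg (r g _), ofReal_norm]
      rw [lintegral_finsetSum _ fun g _ => (hr g).enorm, ENNReal.ofReal_mul (Nat.cast_nonneg _),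
        ENNReal.ofReal_natCast, ← nsmul_eq_mul, ← Finset.sum_const]
      refine Finset.sum_le_sum fun g hg => ?_
      rw [← eLpNorm_one_eq_lintegral_enorm]
      exact (eLpNorm_le_eLpNorm_of_exponent_le one_le_two (hr g).aestronglyMeasurable).trans
        (hβr g hg)

theorem int_Psi {ψ : (Z × σ) × (ℕ → N) → ℝ≥0∞} (hψ : Measurable ψ) (ν : Measure Z) [SFinite ν]
    {w : Z → ℝ≥0∞} (hw : Measurable w) :
    ∫⁻ p, w p.1.1 * ψ p ∂((ν.prod μσ).prod (iid P)) =
      ∫⁻ z, w z * ∫⁻ u, ∫⁻ ω, ψ ((z, u), ω) ∂(iid P) ∂μσ ∂ν := by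
  have h1 : Measurable fun p : (Z × σ) × (ℕ → N) => w p.1.1 * ψ p :=
    (hw.comp measurable_fst.fst).mul hψ
  have h2 : Measurable fun y : Z × σ => ∫⁻ ω, ψ (y, ω) ∂(iid P) := hψ.lintegral_prod_right'
  rw [lintegral_prod _ h1.aemeasurable, lintegral_prod _ h1.lintegral_prod_right'.aemeasurable]
  refine lintegral_congr fun z => ?_
  have h3 : Measurable fun u : σ => ∫⁻ ω, ψ ((z, u), ω) ∂(iid P) := h2.comp measurable_prodMk_left
  rw [← lintegral_const_mul _ h3]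
  refine lintegral_congr fun u => ?_
  exact lintegral_const_mul (w z) (hψ.comp measurable_prodMk_left)

omit [Countable Γ] [MeasurableSpace Γ] [DiscreteMeasurableSpace Γ] [IsProbabilityMeasure μσ]
  [IsProbabilityMeasure P] in
theorem Psi_facts [TopologicalSpace Z] [CompactSpace Z] (hQ : ∀ p y, IsClopen {z | Q.q z p = y})
    (hF : ∃ F : Finset Γ, ∀ u g, (step u g).1 ∈ F) (κ : Wt k) (c ε₀ : ℝ) (R : ℕ) :
    (∃ M : ℝ, 0 < M ∧ ∀ y ω, defic (skew step) (defect π Q.q step) κ c ε₀ y ω 0 R ≤ M) ∧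
    IsLocallyConstant fun z => ∫⁻ u, ∫⁻ ω, ENNReal.ofReal
      (defic (skew step) (defect π Q.q step) κ c ε₀ (z, u) ω 0 R) ∂(iid P) ∂μσ := by
  obtain ⟨A, hA, hlp⟩ := fin_lp hF R
  let d : Γ → Γ → ℝ := fun y g => c * ‖ht π y - ht π g‖ - κ (ht π y - ht π g) - ε₀ * R
  have hd : ∀ z u ω, defic (skew step) (defect π Q.q step) κ c ε₀ (z, u) ω 0 R =
      d (Q.q z (lp step (1, u) ω R)) (lp step (1, u) ω R) := by
    intro z u ω
    have z0 : sumU (skew step) (defect π Q.q step) (z, u) ω 0 = 0 := by simp [sumU]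
    simp only [defic, z0, sub_zero, sumU_skew, d, Nat.cast_zero]
  have hlc : ∀ g, IsLocallyConstant fun z => Q.q z g := fun g =>
    (IsLocallyConstant.iff_isOpen_fiber).2 fun y => (hQ g y).isOpen
  constructor
  · obtain ⟨M, hM⟩ := (hA.biUnion fun g _ =>
      ((hlc g).comp fun y => d y g).range_finite).bddAbove
    refine ⟨max M 1, lt_max_of_lt_right one_pos, fun y ω => le_max_of_le_left ?_⟩
    rw [← Prod.mk.eta (p := y), hd]
    exact hM (Set.mem_biUnion (hlp y.2 ω) ⟨y.1, rfl⟩)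
  · refine (IsLocallyConstant.iff_eventually_eq _).2 fun z₀ => ?_
    have : ∀ᶠ z in 𝓝 z₀, ∀ g ∈ A, Q.q z g = Q.q z₀ g :=
      (eventually_all_finite hA).2 fun g _ => (hlc g).eventually_eq z₀
    filter_upwards [this] with z hz
    simp only [hd, hz _ (hlp _ _)]

end Vale.Agent.P188.OpX
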