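import Vale.Agent.P188.OpA
import Vale.Agent.P188.OpD

/-! P188, Op: uniform smallness of the deficiency and the operator bound. -/

namespace Vale.Agent.P188

open MeasureTheory Filter Topology BoundedContinuousFunction
open scoped ENNReal NNReal

namespace OpX

section
variable {σ Z : Type} [MeasurableSpace Z] [MeasurableSpace σ] {μσ : Measure σ}
  [IsProbabilityMeasure μσ] {ν : Measure Z} [SFinite ν]

theorem int_m {G : Z × σ → ℝ≥0∞} (hG : Measurable G) {h : Z → ℝ≥0∞} (hh : Measurable h) :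
    ∫⁻ z, h z ∂(ν.withDensity fun z => ∫⁻ u, G (z, u) ^ 2 ∂μσ) =
      ∫⁻ y, G y ^ 2 * h y.1 ∂(ν.prod μσ) := by
  have h1 : Measurable fun y : Z × σ => G y ^ 2 * h y.1 :=
    (hG.pow_const 2).mul (hh.comp measurable_fst)
  rw [lintegral_withDensity_eq_lintegral_mul _ (hG.pow_const 2).lintegral_prod_right' hh,
    lintegral_prod _ h1.aemeasurable]
  refine lintegral_congr fun z => ?_
  exact (lintegral_mul_const (h z) ((hG.pow_const 2).comp measurable_prodMk_left)).symm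

variable {Γ : Type} [Group Γ] [MulAction Γ Z]

theorem ainv [TopologicalSpace Z] [BorelSpace Z] (hν : ∀ g : Γ, MeasurePreserving (g • ·) ν ν)
    {G : Z × σ → ℝ≥0∞} (hG : Measurable G) (h1 : ∫⁻ y, G y ^ 2 ∂(ν.prod μσ) ≤ 1)
    (A : Γ → σ → σ) (hA : ∀ γ, MeasurePreserving (A γ) μσ μσ) (C : Γ → ℝ≥0) {η : ℝ≥0∞}
    (herr : ∀ γ, ∫⁻ y, ‖(G (γ⁻¹ • y.1, A γ y.2)).toReal - (G y).toReal‖ₑ ^ 2 ∂(ν.prod μσ) ≤
      C γ * η) {t : ℝ≥0} (h0 : 0 < t) (ht : t ≤ 1) (hη : (2 / t : ℝ≥0) * η ≤ t) :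
    AInv C t (ν.withDensity fun z => ∫⁻ u, G (z, u) ^ 2 ∂μσ) := by
  intro γ h M hM
  have hh := h.measurable_coe_ennreal_comp
  have hγ : Measurable fun z => (h (γ • z) : ℝ≥0∞) := hh.comp (hν γ).measurable
  have hR : MeasurePreserving (fun y : Z × σ => (γ⁻¹ • y.1, A γ y.2)) (ν.prod μσ) (ν.prod μσ) :=
    (hν γ⁻¹).prod (hA γ)
  have h2 : Measurable fun y : Z × σ => G y ^ 2 * (h (γ • y.1) : ℝ≥0∞) :=
    (hG.pow_const 2).mul (hγ.comp measurable_fst)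
  rw [int_m hG hγ, int_m hG hh, ← hR.lintegral_comp h2]
  simp only [smul_inv_smul]
  refine (weighted (hG.comp hR.measurable) hG (hh.comp measurable_fst)
    (hR.quasiMeasurePreserving.ae (ae_ne_top hG h1)) (M := M)
    (fun y => ENNReal.coe_le_coe.2 (hM _)) t h0 ht).trans (add_le_add le_rfl ?_)
  calc _ ≤ ((2 / t : ℝ≥0) : ℝ≥0∞) * M * (C γ * η) := by gcongr; exact herr γ
    _ = M * C γ * ((2 / t : ℝ≥0) * η) := by ring
    _ ≤ _ := by gcongr

variable [Countable Γ] [MeasurableSpace Γ] [DiscreteMeasurableSpace Γ] {N : Type}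
  [MeasurableSpace N] {P : Measure N} [IsProbabilityMeasure P] {step : σ → N → Γ × σ}

theorem dom_bound (hν : ∀ g : Γ, MeasurePreserving (g • ·) ν ν)
    (hT : RMP (ν.prod μσ) (skew step)) {C : ℝ≥0} {F : Finset Γ}
    (hdom : ∀ (u : σ) (f : Γ × σ → ℝ≥0∞), Measurable f →
      ∫⁻ g, f (step u g) ∂P ≤ C * ∑ γ ∈ F, ∫⁻ u', f (γ, u') ∂μσ)
    {G : Z × σ → ℝ≥0∞} (hG : Measurable G) {ψ : (Z × σ) × (ℕ → N) → ℝ≥0∞} (hψ : Measurable ψ)
    {Ψ : Z → ℝ≥0∞} (hΨ : ∀ z, Ψ z = ∫⁻ u, ∫⁻ ω, ψ ((z, u), ω) ∂(iid P) ∂μσ) :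
    ∫⁻ p, mk P (skew step) G p.1 ^ 2 * ψ p ∂((ν.prod μσ).prod (iid P)) ≤
      C * ∫⁻ z, ∑ γ ∈ F, Ψ (γ • z) ∂(ν.withDensity fun z => ∫⁻ u, G (z, u) ^ 2 ∂μσ) := by
  let Φ : Z → ℝ≥0∞ := fun z => ∫⁻ u, G (z, u) ^ 2 ∂μσ
  have hΦ : Measurable Φ := (hG.pow_const 2).lintegral_prod_right'
  have hΨm : Measurable Ψ := by
    rw [funext hΨ]
    exact hψ.lintegral_prod_right'.lintegral_prod_right'
  have hw : Measurable fun z => ∑ γ ∈ F, Φ (γ⁻¹ • z) :=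
    Finset.measurable_sum _ fun γ _ => hΦ.comp (hν γ⁻¹).measurable
  have h1 : ∀ y : Z × σ, mk P (skew step) G y ^ 2 ≤ C * ∑ γ ∈ F, Φ (γ⁻¹ • y.1) := by
    intro y
    refine (mk_sq_le hT hG y).trans (hdom y.2 (fun q => G (q.1⁻¹ • y.1, q.2) ^ 2) ?_)
    exact measurable_from_prod_countable_right fun γ =>
      (hG.comp (measurable_prodMk_left (x := γ⁻¹ • y.1))).pow_const 2
  have h3 : ∀ γ : Γ, Measurable fun z => Φ (γ⁻¹ • z) * Ψ z := fun γ =>
    (hΦ.comp (hν γ⁻¹).measurable).mul hΨm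
  have h2 : ∀ γ : Γ, Measurable fun z => Ψ (γ • z) := fun γ => hΨm.comp (hν γ).measurable
  calc _ ≤ ∫⁻ p, (C * ∑ γ ∈ F, Φ (γ⁻¹ • p.1.1)) * ψ p ∂((ν.prod μσ).prod (iid P)) :=
        lintegral_mono fun p => mul_le_mul_left (h1 p.1) _
    _ = ∫⁻ z, (C * ∑ γ ∈ F, Φ (γ⁻¹ • z)) * Ψ z ∂ν := by
        rw [int_Psi P hψ ν (hw.const_mul C)]
        simp only [hΨ]
    _ = C * ∑ γ ∈ F, ∫⁻ z, Φ (γ⁻¹ • z) * Ψ z ∂ν := by
        simp only [mul_assoc, Finset.sum_mul]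
        rw [lintegral_const_mul _ (Finset.measurable_fun_sum _ fun γ _ => h3 γ),
          lintegral_finsetSum _ fun γ _ => h3 γ]
    _ = C * ∑ γ ∈ F, ∫⁻ z, Φ z * Ψ (γ • z) ∂ν := by
        congr 1
        refine Finset.sum_congr rfl fun γ _ => ?_
        rw [← (hν γ⁻¹).lintegral_comp (hΦ.fun_mul (h2 γ))]
        simp only [smul_inv_smul]
    _ = _ := by
        rw [lintegral_withDensity_eq_lintegral_mul _ hΦ (Finset.measurable_fun_sum _ fun γ _ => h2 γ),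
          ← lintegral_finsetSum _ fun γ _ => hΦ.fun_mul (h2 γ)]
        simp only [Pi.mul_apply, Finset.mul_sum]

end

theorem num_fin {ε M δ : ℝ} (C : ℝ≥0) (f R : ℕ) (hε : 0 < ε) (hM : 0 < M) (hδ : 0 < δ)
    (hδ' : δ ≤ ε * R / (8 * M)) :
    (1 + ((1 : ℝ≥0) : ℝ≥0∞)) * (C * ((f + 1) * (ENNReal.ofReal (ε / (4 * (C + 1) * (f + 1))) * R))) +
      (2 / 1 : ℝ≥0) * ENNReal.ofReal M * ENNReal.ofReal (2 * δ) ≤ ENNReal.ofReal (ε * R) := by
  have e1 : (1 + ((1 : ℝ≥0) : ℝ≥0∞)) = ENNReal.ofReal 2 := by simp [one_add_one_eq_two]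
  have e2 : ((2 / 1 : ℝ≥0) : ℝ≥0∞) = ENNReal.ofReal 2 := by simp
  have e3 : ((f : ℝ≥0∞) + 1) = ENNReal.ofReal (f + 1) := by
    rw [ENNReal.ofReal_add (by positivity) zero_le_one]; simp
  rw [e1, e2, e3, ← ENNReal.ofReal_coe_nnreal, ← ENNReal.ofReal_natCast R,
    ← ENNReal.ofReal_mul (by positivity), ← ENNReal.ofReal_mul (by positivity),
    ← ENNReal.ofReal_mul (by positivity), ← ENNReal.ofReal_mul (by positivity),
    ← ENNReal.ofReal_mul (by positivity), ← ENNReal.ofReal_mul (by positivity),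
    ← ENNReal.ofReal_add (by positivity) (by positivity)]
  refine ENNReal.ofReal_le_ofReal ?_
  have h1 : 2 * M * (2 * δ) ≤ ε * R / 2 := by
    calc _ ≤ 2 * M * (2 * (ε * R / (8 * M))) := by gcongr
      _ = _ := by field_simp; ring
  have h2 : 2 * (C * ((f + 1) * (ε / (4 * (C + 1) * (f + 1)) * R))) ≤ ε * R / 2 := by
    calc _ ≤ 2 * ((C + 1) * ((f + 1) * (ε / (4 * (C + 1) * (f + 1)) * R))) := by
          gcongr; linarith
      _ = _ := by field_simp; ring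
  linarith

theorem num_t {δ : ℝ} {t : ℝ≥0} (ht : 0 < t) (h : δ ≤ (t : ℝ) ^ 2 / 8) :
    ((2 / t : ℝ≥0) : ℝ≥0∞) * ENNReal.ofReal (2 * (2 * δ)) ≤ t := by
  have ht' : (0 : ℝ) < t := ht
  rw [← ENNReal.ofReal_coe_nnreal, ← ENNReal.ofReal_coe_nnreal (p := t),
    ← ENNReal.ofReal_mul (by positivity)]
  refine ENNReal.ofReal_le_ofReal ?_
  push_cast
  calc _ ≤ 2 / (t : ℝ) * (2 * (2 * ((t : ℝ) ^ 2 / 8))) := by gcongr
    _ = _ := by field_simp; ring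

end OpX

open OpX in
theorem op_pf (h : Inv_stmt) : Op_stmt := by
  intro k Γ _ _ _ _ π S hS hS' P hP hm hmp hF a Cs hCs K Z _ _ _ _ _ _ _ Q hQ K' κ c hc hD ν hν1 hν
    ε hε
  obtain ⟨C, F, hdom⟩ := hP.dom
  choose Ci hCi using h k Γ π S hS hS' P hP hm hmp
  obtain ⟨ε₀, hε₀⟩ : ∃ ε₀, ε₀ = (c + ‖κ‖) * (|K'| + 1) * Cs := ⟨_, rfl⟩
  rw [← hε₀]
  let ψ : ℕ → (Z × P.σ) × (ℕ → P.N) → ℝ≥0∞ := fun R p =>
    ENNReal.ofReal (defic (skew P.step) (defect π Q.q P.step) κ c ε₀ p.1 p.2 0 R)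
  have hT := rmp_skew hν hm hmp
  have hU := meas_defect π Q hm
  have hψ : ∀ R, Measurable (ψ R) := fun R => meas_defic hT hU κ c ε₀ R
  choose M hM0 hM using fun R => (Psi_facts π Q (μσ := P.μσ) P.μN hQ hF κ c ε₀ R).1
  have hψM : ∀ R p, ψ R p ≤ ENNReal.ofReal (M R) := fun R p => ENNReal.ofReal_le_ofReal (hM R _ _)
  choose Ψ hΨ using fun R => exists_bcf _ (Psi_facts π Q (μσ := P.μσ) P.μN hQ hF κ c ε₀ R).2
    (fun z => ne_top_of_le_ne_top (ENNReal.ofReal_ne_top (r := M R)) (by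
      refine (lintegral_mono fun u => lintegral_mono fun ω => hψM R ((z, u), ω)).trans ?_
      simp))
  have hint : ∀ (μ : Measure Z) [IsProbabilityMeasure μ] (R : ℕ),
      ∫⁻ z, Ψ R z ∂μ = ∫⁻ p, ψ R p ∂((μ.prod P.μσ).prod (iid P.μN)) := by
    intro μ _ R
    have := int_Psi (μσ := P.μσ) P.μN (hψ R) μ (measurable_const (a := 1))
    simp only [one_mul] at this
    rw [this]
    simp only [hΨ]
    rfl
  obtain ⟨R, hR2, hR⟩ := exists_R (Γ := Γ) Ψ (ENNReal.ofReal (ε / (4 * (C + 1) * (F.card + 1))))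
    (fun μ _ hμ R j => by
      rw [hint, hint]
      exact int_defic_mul (rmp_skew hμ hm hmp) hU κ hc ε₀ R j)
    (fun μ h1 hμ => by
      obtain ⟨D, hD1, hD2⟩ := hD μ h1 hμ
      obtain ⟨R, h2, h3⟩ := drift_small π Q P.μN hm hmp hF hCs κ hc hD1 hD2
        (e := ε / (4 * (C + 1) * (F.card + 1))) (by positivity)
      rw [← hε₀] at h3
      exact ⟨R, h2, by rw [hint]; exact h3⟩)
  let Ψ' : Z →ᵇ ℝ≥0 := ∑ γ ∈ F, (Ψ R).compContinuous ⟨fun z => γ • z, continuous_const_smul γ⟩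
  have hΨ' : ∀ z, (Ψ' z : ℝ≥0∞) = ∑ γ ∈ F, (Ψ R (γ • z) : ℝ≥0∞) := fun z => by
    simp [Ψ']
  obtain ⟨t, ht0, ht1, ht⟩ := exists_t Ci Ψ'
    ((F.card + 1) * (ENNReal.ofReal (ε / (4 * (C + 1) * (F.card + 1))) * R)) (fun μ h1 hμ => by
      have hx := hR μ h1 hμ
      have hmeas := (Ψ R).measurable_coe_ennreal_comp
      simp only [hΨ']
      rw [lintegral_finsetSum _ fun γ _ => hmeas.fun_comp (hμ γ).measurable]
      simp only [fun γ => (hμ γ).lintegral_comp hmeas, Finset.sum_const, nsmul_eq_mul]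
      rw [add_mul, one_mul]
      calc _ ≤ (F.card : ℝ≥0∞) * _ := mul_le_mul_right hx.le _
        _ < _ := ENNReal.lt_add_right (ENNReal.mul_ne_top (ENNReal.natCast_ne_top _)
          (ENNReal.mul_ne_top ENNReal.ofReal_ne_top (ENNReal.natCast_ne_top _)))
          (lt_of_le_of_lt bot_le hx).ne')
  have hR0 : (0 : ℝ) < R := by exact_mod_cast (show 0 < R by omega)
  have ht0' : (0 : ℝ) < t := ht0
  have hMR := hM0 R
  obtain ⟨δ, hδ0, hδ1, hδ2, hδ3⟩ : ∃ δ > 0, δ ≤ 1 / 4 ∧ δ ≤ (t : ℝ) ^ 2 / 8 ∧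
      δ ≤ ε * R / (8 * M R) :=
    ⟨min (1 / 4) (min ((t : ℝ) ^ 2 / 8) (ε * R / (8 * M R))), by positivity, min_le_left _ _,
      (min_le_right _ _).trans (min_le_left _ _), (min_le_right _ _).trans (min_le_right _ _)⟩
  refine ⟨R, δ, by omega, hδ0, fun f g hf hg hf1 hg1 hfg => ?_⟩
  obtain ⟨R', rfl⟩ : ∃ R', R = R' + 1 + 1 := ⟨R - 2, by omega⟩
  obtain ⟨m2, n2, -⟩ := iter_mk (P := P.μN) hT hf R'
  have e0 := (iter_mk (P := P.μN) hT hf (R' + 1 + 1)).2.2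
  rw [Function.iterate_succ_apply', Function.iterate_succ_apply'] at e0
  generalize (mk P.μN (skew P.step))^[R'] f = f2 at m2 n2 e0
  have m1 := meas_mk (P := P.μN) hT m2
  have n1 := (int_mk_sq (P := P.μN) hT m2).trans (n2.trans hf1)
  have e1 : ∫⁻ p, mk P.μN (skew P.step) f2 p.1 * f2 (skew P.step p.2 p.1)
      ∂((ν.prod P.μσ).prod P.μN) = ∫⁻ y, mk P.μN (skew P.step) f2 y ^ 2 ∂(ν.prod P.μσ) := by
    refine (lintegral_prod _ ((m1.comp measurable_fst).mul (m2.comp hT.meas)).aemeasurable).trans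
      (lintegral_congr fun y => ?_)
    rw [sq]
    exact lintegral_const_mul (mk P.μN (skew P.step) f2 y)
      (m2.comp (hT.meas.comp measurable_prodMk_left))
  generalize mk P.μN (skew P.step) f2 = f1 at m1 n1 e0 e1
  have m0 := meas_mk (P := P.μN) hT m1
  have n0 := int_mk_sq (P := P.μN) hT m1
  have a0 : ENNReal.ofReal (1 - δ) ≤ ∫⁻ y, g y * mk P.μN (skew P.step) f1 y ∂(ν.prod P.μσ) := by
    refine hfg.trans (le_of_eq ?_)
    have hmo := hf.comp (hT.measurable_orb (R' + 1 + 1))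
    refine (lintegral_prod _ ((hg.comp measurable_fst).mul hmo).aemeasurable).trans
      (lintegral_congr fun y => ?_)
    rw [← e0]
    exact lintegral_const_mul (g y) (hmo.comp measurable_prodMk_left)
  have a1 := err_le hg m0 hg1 (n0.trans n1) hδ0.le (by linarith) a0
  have a2 := (sq_ge hg m0 hg1 (by linarith) a0).trans n0
  have a3 := err_le (m := (ν.prod P.μσ).prod P.μN) (m1.comp measurable_fst) (m2.comp hT.meas)
    (((measurePreserving_fst (μ := ν.prod P.μσ) (ν := P.μN)).lintegral_comp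
      (m1.pow_const 2)).le.trans n1)
    (((mp_step (P := P.μN) hT).lintegral_comp (m2.pow_const 2)).le.trans (n2.trans hf1))
    (δ := 2 * δ) (by linarith) (by linarith) (a2.trans e1.ge)
  have a4 := ainv hν m1 n1 (fun γ => P.act (π γ)) (fun γ => hP.act_mp _) Ci
    (fun γ => (hCi γ Z ν hν _ _ m1.ennreal_toReal m2.ennreal_toReal).trans
      (mul_le_mul_right a3 _)) ht0 ht1 (num_t ht0 hδ2)
  have a5 : (ν.withDensity fun z => ∫⁻ u, f1 (z, u) ^ 2 ∂P.μσ) Set.univ =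
      ∫⁻ y, f1 y ^ 2 ∂(ν.prod P.μσ) := by
    have := int_m (ν := ν) (μσ := P.μσ) m1 (measurable_const (a := 1))
    simpa using this
  have a6 := ht _ (by
    rw [a5]
    refine le_trans ?_ a2
    rw [← ENNReal.ofReal_ofNat 2, ← ENNReal.ofReal_inv_of_pos (by norm_num)]
    exact ENNReal.ofReal_le_ofReal (by linarith)) (a5.le.trans n1) a4
  have a7 := dom_bound hν hT hdom m1 (hψ (R' + 1 + 1)) (Ψ := fun z => Ψ (R' + 1 + 1) z) (hΨ _)
  simp only [hΨ'] at a6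
  have hfst := measurePreserving_fst (μ := ν.prod P.μσ) (ν := iid P.μN)
  refine (weighted (hg.comp measurable_fst) (m0.comp measurable_fst) (hψ (R' + 1 + 1))
    (hfst.quasiMeasurePreserving.ae (ae_ne_top hg hg1)) (hψM _) 1 one_pos le_rfl).trans
    (le_trans ?_ (num_fin C F.card _ hε hMR hδ0 hδ3))
  gcongr
  · exact a7.trans (mul_le_mul_right a6 _)
  · exact (hfst.lintegral_comp (meas_err hg m0)).le.trans a1

end Vale.Agent.P188
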