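import Vale.Agent.P188.PairExtA

/-! P188: the pair invariant along one extension. -/

namespace Vale.Agent.P188

open Function MeasureTheory Filter Matrix
open scoped ENNReal NNReal Topology

section
variable {k : ℕ} {L : Layer k} {Γ Γ' : Type} [Group Γ] [Group Γ'] {π' : Γ' →* Zk k}

theorem pairExt_projF (E : Ext L Γ Γ' π') {s : Γ' → Γ} (hs : ∀ g, E.p (s g) = g) {𝒮 : Type}
    (e : 𝒮 → Γ) (P : Pair Γ' k) (lab : P.N → 𝒮) (u : P.σ) (g : P.N) :
    E.p (E.lftF s e P lab u g) = (P.step u g).1 := by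
  simp [Ext.lftF, hs]

theorem pairExt_det (L : Layer k) (b : Zk k) {R : ℝ} (hR : R ≠ 0) :
    (L.R b * (R • L.Q)).det ≠ 0 := by
  have h1 : (L.R b).det ≠ 0 := fun h => by
    have := congrArg Matrix.det (L.R_mul b b⁻¹)
    rw [mul_inv_cancel, L.R_one, det_one, det_mul, h, zero_mul] at this
    exact one_ne_zero this
  have h2 : L.Q.det ≠ 0 := fun h => by
    have := congrArg Matrix.det L.Q_mul
    rw [det_one, det_mul, h, zero_mul] at this
    exact zero_ne_one this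
  rw [det_mul, det_smul]
  exact mul_ne_zero h1 (mul_ne_zero (pow_ne_zero _ hR) h2)

theorem pairExt_stepX (E : Ext L Γ Γ' π') (R : ℝ) (b : Zk k) (v : Tor L.m) (t : Fin L.m → ℝ) :
    E.stepX true R b v t =
      (L.R b⁻¹).mulVec (lift v) + (L.R 1 * (R • L.Q)).mulVec (clamp t) := by
  simp only [Ext.stepX, if_true, ← mulVec_mulVec, smul_mulVec, mulVec_smul]

theorem pairExt_fin (E : Ext L Γ Γ' π') (R : ℝ) (b : Zk k) :
    ∃ W : Finset (Zk L.m), ∀ v t, flo (E.stepX true R b v t) ∈ W := by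
  obtain ⟨M1, h1⟩ := pairExt_mulVec_bd (L.R b⁻¹)
  obtain ⟨M2, h2⟩ := pairExt_mulVec_bd (L.R 1 * (R • L.Q))
  obtain ⟨W, hW⟩ := pairExt_flo_fin L.m (M1 + M2)
  refine ⟨W, fun v t => hW _ ?_⟩
  rw [pairExt_stepX]
  exact (norm_add_le _ _).trans (add_le_add (h1 _ (norm_lift_le v)) (h2 _ (norm_clamp_le t)))

theorem pairExt_dom [MeasurableSpace Γ] [MeasurableSpace Γ'] (E : Ext L Γ Γ' π') (c : Chain Γ')
    (lft : c.σ → c.N → Γ) {R : ℝ} (hR : R ≠ 0) (h1 : ∃ F : Finset Γ', ∀ u g, (c.step u g).1 ∈ F)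
    (h2 : ∃ F : Finset Γ, ∀ u g, lft u g ∈ F)
    (hd : ∃ (C : ℝ≥0) (F : Finset Γ'), ∀ (u : c.σ) (f : Γ' × c.σ → ℝ≥0∞), Measurable f →
      ∫⁻ g, f (c.step u g) ∂c.μN ≤ C * ∑ γ ∈ F, ∫⁻ u', f (γ, u') ∂c.μσ) :
    ∃ (C : ℝ≥0) (F : Finset Γ), ∀ (u : c.σ × Tor L.m) (f : Γ × (c.σ × Tor L.m) → ℝ≥0∞),
      Measurable f →
      ∫⁻ g : c.N × (Fin L.m → ℝ),
        f (lft u.1 g.1 * E.ι (flo (E.stepX true R (π' (c.step u.1 g.1).1) u.2 g.2)),
          ((c.step u.1 g.1).2, prj (E.stepX true R (π' (c.step u.1 g.1).1) u.2 g.2)))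
        ∂(c.μN.prod (noiseM L.m)) ≤
        C * ∑ γ ∈ F, ∫⁻ u', f (γ, u') ∂(c.μσ.prod (torM L.m)) := by
  classical
  obtain ⟨F1, h1⟩ := h1
  obtain ⟨F2, h2⟩ := h2
  obtain ⟨C, F, hd⟩ := hd
  choose W hW using pairExt_fin E R
  obtain ⟨C1, hC1⟩ := pairExt_noise_tor _ (pairExt_det L 1 hR)
  set G : Finset Γ := (F2 ×ˢ F1.biUnion fun γ => W (π' γ)).image fun q => q.1 * E.ι q.2 with hG
  refine ⟨C1 * C * F.card, G, fun u f hf => (lintegral_prod_le _).trans ?_⟩
  have hm : ∀ γ : Γ, Measurable fun q : c.σ × Tor L.m => f (γ, q) := fun γ =>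
    hf.comp (measurable_const.prodMk measurable_id)
  have hφ : Measurable fun u' : c.σ => ∑ γ ∈ G, ∫⁻ v, f (γ, (u', v)) ∂torM L.m :=
    Finset.measurable_sum _ fun γ _ => (hm γ).lintegral_prod_right'
  have h3 : ∀ g : c.N, ∫⁻ t,
      f (lft u.1 g * E.ι (flo (E.stepX true R (π' (c.step u.1 g).1) u.2 t)),
        ((c.step u.1 g).2, prj (E.stepX true R (π' (c.step u.1 g).1) u.2 t))) ∂noiseM L.m ≤
      C1 * ∑ γ ∈ G, ∫⁻ v, f (γ, ((c.step u.1 g).2, v)) ∂torM L.m := fun g => by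
    have hm2 : ∀ γ : Γ, Measurable fun v : Tor L.m => f (γ, ((c.step u.1 g).2, v)) := fun γ =>
      (hm γ).comp (measurable_const.prodMk measurable_id)
    have h4 := hC1 (fun v => ∑ γ ∈ G, f (γ, ((c.step u.1 g).2, v)))
      (Finset.measurable_sum _ fun γ _ => hm2 γ) ((L.R (π' (c.step u.1 g).1)⁻¹).mulVec (lift u.2))
    rw [lintegral_finsetSum _ fun γ _ => hm2 γ] at h4
    refine (lintegral_mono fun t => ?_).trans h4
    rw [← pairExt_stepX E]
    refine Finset.single_le_sum (f := fun γ => f (γ, ((c.step u.1 g).2,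
      prj (E.stepX true R (π' (c.step u.1 g).1) u.2 t)))) (fun _ _ => zero_le) ?_
    exact Finset.mem_image.2 ⟨(_, _), Finset.mem_product.2
      ⟨h2 _ _, Finset.mem_biUnion.2 ⟨_, h1 _ _, hW _ _ _⟩⟩, rfl⟩
  refine (lintegral_mono h3).trans ?_
  rw [lintegral_const_mul' _ _ ENNReal.coe_ne_top]
  have h5 := hd u.1 (fun q => ∑ γ ∈ G, ∫⁻ v, f (γ, (q.2, v)) ∂torM L.m) (hφ.comp measurable_snd)
  refine (mul_le_mul_right h5 _).trans_eq ?_
  dsimp only
  rw [Finset.sum_const, lintegral_finsetSum _ fun γ _ => (hm γ).lintegral_prod_right',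
    Finset.sum_congr rfl fun γ _ => lintegral_prod _ (hm γ).aemeasurable]
  simp [mul_assoc]

end

theorem pairExt_pf : PairExt_stmt := by
  intro k Γ Γ' _ _ _ _ _ _ _ _ π' L E s hs a a' Cs 𝒮 _ _ _ e P lab rel hP h1 h2
  classical
  have hF : LftProp E P.toChain (E.lftF s e P lab) := by
    refine ⟨?_, ?_, pairExt_projF E hs e P lab⟩
    · have h3 : Measurable fun q : 𝒮 × Γ' => e q.1 * s ((E.p (e q.1))⁻¹ * q.2) :=
        Measurable.of_discrete
      exact h3.comp ((hP.lab_meas.comp measurable_snd).prodMk h1.meas_step.fst)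
    · obtain ⟨F, hF⟩ := h1.fin
      exact ⟨(Finset.univ ×ˢ F).image fun q : 𝒮 × Γ' => e q.1 * s ((E.p (e q.1))⁻¹ * q.2),
        fun u g => Finset.mem_image.2 ⟨(lab g, (P.step u g).1),
          Finset.mem_product.2 ⟨Finset.mem_univ _, hF u g⟩, rfl⟩⟩
  have hpB : ∀ u g, E.p (E.lftB s e P lab u g) = (P.step' u g).1 := fun u g => by
    rw [Ext.lftB, map_inv, pairExt_projF E hs, hP.inv₂, inv_inv]
  have hB : LftProp E P.bwd (E.lftB s e P lab) := by
    refine ⟨?_, ?_, hpB⟩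
    · have h3 : Measurable fun q : Γ => q⁻¹ := Measurable.of_discrete
      exact h3.comp (hF.meas.comp (h2.meas_step.snd.prodMk measurable_snd))
    · obtain ⟨F, hF⟩ := hF.fin
      exact ⟨F.image fun q => q⁻¹, fun u g => Finset.mem_image.2 ⟨_, hF _ _, rfl⟩⟩
  refine ⟨hF, hB, fun ref₁ ref₂ R r r' hR => ?_⟩
  have hb : ∀ ς u g, π' (P.step u (rel ς g)).1 = π' (E.p (e ς)) := fun ς u g => by
    rw [hP.ht_eq, hP.lab_rel]; rfl
  refine ⟨?_, ?_, ?_, ?_, ?_, ?_, ?_, ?_, ?_, ?_, ?_, ?_, ?_⟩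
  · rintro ⟨u, v⟩ ⟨g, t⟩
    have h3 := pairExt_key E (E.lftF s e P lab u g) v
      (E.stepX true R (π' (P.step u g).1) v t)
      (E.stepX false (-R) (π' (P.step u g).1⁻¹) (prj (E.stepX true R (π' (P.step u g).1) v t)) t)
      (by
        rw [pairExt_projF E hs]
        simp only [Ext.stepX, map_inv, inv_inv, if_true, mulVec_add, mulVec_mulVec, ← L.R_mul,
          mul_inv_cancel, L.R_one, one_mulVec, Matrix.one_mul, neg_smul, mulVec_neg]
        simp)
    have h4 : E.lftB s e P lab (P.step u g).2 g = (E.lftF s e P lab u g)⁻¹ := by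
      rw [Ext.lftB, hP.inv₁]
    change (E.lftB s e P lab (P.step u g).2 g * E.ι (flo (E.stepX false (-R)
      (π' (P.step' (P.step u g).2 g).1) (prj (E.stepX true R (π' (P.step u g).1) v t)) t)),
      ((P.step' (P.step u g).2 g).2, prj (E.stepX false (-R)
      (π' (P.step' (P.step u g).2 g).1) (prj (E.stepX true R (π' (P.step u g).1) v t)) t))) = _
    rw [h4, hP.inv₁, h3.1, h3.2]
  · rintro ⟨u, v⟩ ⟨g, t⟩
    have h3 := pairExt_key E (E.lftB s e P lab u g) v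
      (E.stepX false (-R) (π' (P.step' u g).1) v t)
      (E.stepX true R (π' (P.step' u g).1⁻¹) (prj (E.stepX false (-R) (π' (P.step' u g).1) v t)) t)
      (by
        rw [hpB]
        simp only [Ext.stepX, map_inv, inv_inv, if_true, mulVec_add, mulVec_mulVec, ← L.R_mul,
          mul_inv_cancel, L.R_one, one_mulVec, Matrix.one_mul, neg_smul, mulVec_neg,
          Bool.false_eq_true, if_false, ← Matrix.mul_assoc]
        simp)
    have h4 : E.lftF s e P lab (P.step' u g).2 g = (E.lftB s e P lab u g)⁻¹ := by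
      rw [Ext.lftB, inv_inv]
    change (E.lftF s e P lab (P.step' u g).2 g * E.ι (flo (E.stepX true R
      (π' (P.step (P.step' u g).2 g).1) (prj (E.stepX false (-R) (π' (P.step' u g).1) v t)) t)),
      ((P.step (P.step' u g).2 g).2, prj (E.stepX true R
      (π' (P.step (P.step' u g).2 g).1) (prj (E.stepX false (-R) (π' (P.step' u g).1) v t)) t))) = _
    rw [h4, hP.inv₂, h3.1, h3.2]
  · rintro ⟨u, v⟩
    change (P.act 1 u, prj ((L.R 1⁻¹).mulVec (lift v))) = (u, v)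
    rw [hP.act_one, inv_one, L.R_one, one_mulVec, prj_lift]
  · rintro b b' ⟨u, v⟩
    change (P.act (b * b') u, prj ((L.R (b * b')⁻¹).mulVec (lift v))) =
      (P.act b (P.act b' u), prj ((L.R b⁻¹).mulVec (lift (prj ((L.R b'⁻¹).mulVec (lift v))))))
    rw [hP.act_mul, pairExt_prj_R, mulVec_mulVec, ← L.R_mul, mul_inv]
  · intro b
    have h3 := mp_affine L b⁻¹ 0
    simp only [add_zero] at h3
    exact (hP.act_mp b).prod h3
  · exact pairExt_dom E P.toChain (E.lftF s e P lab) hR h1.fin hF.fin hP.dom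
  · exact hP.lab_meas.comp measurable_fst
  · exact fun ς => ((hP.rel_meas ς).comp measurable_fst).prodMk measurable_snd
  · obtain ⟨C, hC⟩ := hP.rel_le
    refine ⟨C, fun ς => ?_⟩
    change (P.μN.prod (noiseM L.m)).map (Prod.map (rel ς) id) ≤ C • P.μN.prod (noiseM L.m)
    rw [← Measure.map_prod_map _ _ (hP.rel_meas ς) measurable_id, Measure.map_id,
      ← Measure.prod_smul_left]
    exact Measure.prod_mono (hC ς) le_rfl
  · exact fun ς g => hP.lab_rel ς g.1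
  · rintro ⟨u, v⟩ ⟨g, t⟩
    change π' (E.p (E.lftF s e P lab u g * E.ι _)) = π' (E.p (e (lab g)))
    rw [map_mul, E.p_ι, mul_one, pairExt_projF E hs, hP.ht_eq]
    rfl
  · rintro ς ς' h ⟨u, v⟩ ⟨g, t⟩
    have h3 := hP.e₁ ς ς' h u g
    change (e ς)⁻¹ * (E.lftF s e P lab u (rel ς g) *
        E.ι (flo (E.stepX true R (π' (P.step u (rel ς g)).1) v t))) =
      (e ς')⁻¹ * (E.lftF s e P lab u (rel ς' g) *
        E.ι (flo (E.stepX true R (π' (P.step u (rel ς' g)).1) v t)))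
    have h4 : π' (E.p (e ς)) = π' (E.p (e ς')) := h
    simp only [Function.comp_apply] at h3
    rw [hb, hb, h4, Ext.lftF, Ext.lftF, hP.lab_rel, hP.lab_rel, h3]
    group
  · rintro ς ς' ⟨u, v⟩ ⟨g, t⟩
    change ((P.step u (rel ς' g)).2, prj (E.stepX true R (π' (P.step u (rel ς' g)).1) v t)) =
      ((P.step (P.act (π' (E.p (e ς')) * (π' (E.p (e ς)))⁻¹) u) (rel ς g)).2,
        prj (E.stepX true R
          (π' (P.step (P.act (π' (E.p (e ς')) * (π' (E.p (e ς)))⁻¹) u) (rel ς g)).1)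
          (prj ((L.R (π' (E.p (e ς')) * (π' (E.p (e ς)))⁻¹)⁻¹).mulVec (lift v))) t))
    rw [hb, hb, hP.e₂ ς ς', pairExt_stepX, pairExt_stepX, prj_add, prj_add, pairExt_prj_R,
      mulVec_mulVec, ← L.R_mul]
    have h3 : (π' (E.p (e ς)))⁻¹ * (π' (E.p (e ς')) * (π' (E.p (e ς)))⁻¹)⁻¹ =
        (π' (E.p (e ς')))⁻¹ := by
      rw [mul_inv, inv_inv, mul_left_comm, inv_mul_cancel, mul_one]
    rw [h3]
    rfl

end Vale.Agent.P188
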