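import Vale.Agent.P188.Big

/-! P188: steps and path formulas along one extension. -/

namespace Vale.Agent.P188

open Function MeasureTheory Filter Matrix
open scoped Topology

theorem path_opb {n n' : Type} [Fintype n] [Fintype n'] (M : Matrix n n' ℝ) :
    ∃ K : ℝ, 0 ≤ K ∧ ∀ x, ‖M.mulVec x‖ ≤ K * ‖x‖ :=
  ⟨‖LinearMap.toContinuousLinearMap M.mulVecLin‖, norm_nonneg _,
    fun x => (LinearMap.toContinuousLinearMap M.mulVecLin).le_opNorm x⟩

theorem path_cont {n n' : Type} [Fintype n] [Fintype n'] (M : Matrix n n' ℝ) :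
    Continuous M.mulVec := (LinearMap.toContinuousLinearMap M.mulVecLin).continuous

theorem path_flo_fin (m : ℕ) (K : ℝ) : (flo '' {x : Fin m → ℝ | ‖x‖ ≤ K}).Finite := by
  have h : (Set.pi Set.univ fun _ : Fin m => Set.Icc ⌊-K⌋ ⌊K⌋).Finite :=
    Set.Finite.pi fun _ => Set.finite_Icc _ _
  refine (h.image Multiplicative.ofAdd).subset ?_
  rintro _ ⟨x, hx, rfl⟩
  refine ⟨fun i => ⌊x i⌋, fun i _ => ?_, rfl⟩
  have h1 := abs_le.1 ((norm_le_pi_norm x i).trans hx)
  exact ⟨Int.floor_le_floor h1.1, Int.floor_le_floor h1.2⟩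

section
variable {k : ℕ} {L : Layer k} {Γ Γ' : Type} [Group Γ] [Group Γ'] {π' : Γ' →* Zk k}
  (E : Ext L Γ Γ' π')

theorem path_meas_stepX (post : Bool) (R : ℝ) (b : Zk k) :
    Measurable fun q : Tor L.m × (Fin L.m → ℝ) => E.stepX post R b q.1 q.2 :=
  ((path_cont (L.R b⁻¹)).measurable.comp (measurable_lift.comp measurable_fst)).add
    (((path_cont (L.R (if post then 1 else b⁻¹))).comp ((path_cont L.Q).comp
      (continuous_clamp.const_smul R))).measurable.comp measurable_snd)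

theorem path_bd_stepX (post : Bool) (R : ℝ) (b : Zk k) :
    ∃ K : ℝ, ∀ u t, ‖E.stepX post R b u t‖ ≤ K := by
  obtain ⟨K1, h1, h1'⟩ := path_opb (L.R b⁻¹)
  obtain ⟨K2, h2, h2'⟩ := path_opb (L.R (if post then 1 else b⁻¹))
  obtain ⟨K3, h3, h3'⟩ := path_opb L.Q
  refine ⟨K1 * 1 + K2 * (K3 * (‖R‖ * 1)), fun u t => (norm_add_le _ _).trans (add_le_add ?_ ?_)⟩
  · exact (h1' _).trans (mul_le_mul_of_nonneg_left (norm_lift_le u) h1)
  · refine (h2' _).trans (mul_le_mul_of_nonneg_left ((h3' _).trans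
      (mul_le_mul_of_nonneg_left ?_ h3)) h2)
    rw [norm_smul]
    exact mul_le_mul_of_nonneg_left (norm_clamp_le t) (norm_nonneg R)

theorem path_start (γ : Γ) (v : Tor L.m) :
    E.place γ ((L.B (π' (E.p γ))).mulVec (L.Qi.mulVec (lift v))) = (γ, v) := by
  have h : (L.R (π' (E.p γ))⁻¹).mulVec (L.Q.mulVec
      ((L.B (π' (E.p γ))).mulVec (L.Qi.mulVec (lift v)))) = lift v := by
    rw [L.Q_B, mulVec_mulVec, ← L.R_mul, inv_mul_cancel, L.R_one, one_mulVec, mulVec_mulVec,
      L.Q_mul, one_mulVec]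
  rw [Ext.place, h, flo_lift, map_one, mul_one, prj_lift]

theorem path_act (b : Zk k) (v : Zk L.m) : L.act b (L.act b⁻¹ v) = v := by
  rw [Layer.act, Layer.act, toAdd_ofAdd, mulVec_mulVec, ← map_mul, mul_inv_cancel, map_one,
    one_mulVec, ofAdd_toAdd]

theorem path_one (post : Bool) (R : ℝ) (γ g : Γ) (X t : Fin L.m → ℝ) :
    E.place (γ * g) (X + (L.B (π' (E.p (if post then γ * g else γ)))).mulVec (R • clamp t)) =
      ((E.place γ X).1 * (g * E.ι (flo (E.stepX post R (π' (E.p g)) (E.place γ X).2 t))),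
        prj (E.stepX post R (π' (E.p g)) (E.place γ X).2 t)) := by
  obtain ⟨x, hx⟩ : ∃ x, x = (L.R (π' (E.p γ))⁻¹).mulVec (L.Q.mulVec X) := ⟨_, rfl⟩
  have h0 : E.place γ X = (γ * E.ι (flo x), prj x) := by rw [hx, Ext.place]
  have h1 : (π' (E.p (γ * g)))⁻¹ * π' (E.p (if post then γ * g else γ)) =
      if post then 1 else (π' (E.p g))⁻¹ := by
    cases post
    · simp only [map_mul, Bool.false_eq_true, if_false]
      rw [_root_.mul_inv_rev, inv_mul_cancel_right]
    · simp only [if_true]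
      rw [inv_mul_cancel]
  have h3 : (L.R (π' (E.p (γ * g)))⁻¹).mulVec (L.Q.mulVec X) = (L.R (π' (E.p g))⁻¹).mulVec x := by
    rw [hx, mulVec_mulVec (L.Q.mulVec X), ← L.R_mul, map_mul, map_mul, _root_.mul_inv_rev]
  have h2 : (L.R (π' (E.p (γ * g)))⁻¹).mulVec (L.Q.mulVec
      (X + (L.B (π' (E.p (if post then γ * g else γ)))).mulVec (R • clamp t))) =
      E.stepX post R (π' (E.p g)) (prj x) t +
        fun i => (((L.ρ (π' (E.p g))⁻¹).mulVec (Multiplicative.toAdd (flo x)) i : ℤ) : ℝ) := by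
    rw [mulVec_add, mulVec_add, L.Q_B, h3, mulVec_mulVec (L.Q.mulVec _), ← L.R_mul, h1,
      Ext.stepX, ← L.R_cast, add_right_comm, ← mulVec_add, lift_prj_add_flo]
  have h4 : g * E.ι (L.act (π' (E.p g))⁻¹ (flo x)) = E.ι (flo x) * g := by
    rw [E.mul_ι, path_act]
  rw [h0, Ext.place, h2, flo_add_int, prj_add, prj_int, add_zero, mul_comm (flo _), map_mul]
  refine Prod.ext ?_ rfl
  change γ * g * (E.ι (L.act (π' (E.p g))⁻¹ (flo x)) * _) = γ * E.ι (flo x) * (g * _)
  rw [mul_assoc γ, ← mul_assoc g, h4, mul_assoc γ, mul_assoc]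

theorem path_place (g : Γ) (X : Fin L.m → ℝ) : ∃ (v : Fin L.m → ℤ) (u : Tor L.m),
    (E.place g X).1 = E.ι (Multiplicative.ofAdd v) * g ∧
      L.co v = X - (L.B (π' (E.p g))).mulVec (L.Qi.mulVec (lift u)) := by
  obtain ⟨x, hx⟩ : ∃ x, x = (L.R (π' (E.p g))⁻¹).mulVec (L.Q.mulVec X) := ⟨_, rfl⟩
  refine ⟨(L.ρ (π' (E.p g))).mulVec (Multiplicative.toAdd (flo x)), prj x, ?_, ?_⟩
  · rw [Ext.place, ← hx]
    exact E.mul_ι g _
  · have h1 : (L.B (π' (E.p g))).mulVec (L.Qi.mulVec x) = X := by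
      rw [hx, L.B_eq, mulVec_mulVec, mulVec_mulVec, mulVec_mulVec, Matrix.mul_assoc _ L.Q L.Qi,
        L.Q_mul, Matrix.mul_one, Matrix.mul_assoc L.Qi, ← L.R_mul, mul_inv_cancel, L.R_one,
        Matrix.mul_one, L.Qi_mul, one_mulVec]
    rw [L.co_rho, Layer.co, eq_sub_iff_add_eq, ← mulVec_add, ← mulVec_add, add_comm,
      lift_prj_add_flo, h1]

variable [MeasurableSpace Γ] [MeasurableSpace Γ'] {a : Rk k} {Cs : ℝ} {c : Chain Γ'}
  {lft : c.σ → c.N → Γ}

omit [Group Γ'] [MeasurableSpace Γ] [MeasurableSpace Γ'] in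
theorem path_succ (x : Γ × c.σ) (ω : ℕ → c.N) (j : ℕ) : lp (stepL c lft) x ω (j + 1) =
    lp (stepL c lft) x ω j * lft (cpath (stepL c lft) x ω j).2 (ω j) := rfl

theorem path_ht (hc : StepProp π' a Cs c) (hl : LftProp E c lft) (x : Γ × c.σ) (ω : ℕ → c.N)
    (j : ℕ) : ‖ht (π'.comp E.p) (lp (stepL c lft) x ω j) -
      ht (π'.comp E.p) (lp (stepL c lft) x ω 0) - (j : ℝ) • a‖ ≤ Cs * j := by
  induction j with
  | zero => rw [sub_self, Nat.cast_zero, zero_smul, sub_self, norm_zero, mul_zero]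
  | succ j ih =>
    have h1 : ‖ht (π'.comp E.p) (lft (cpath (stepL c lft) x ω j).2 (ω j)) - a‖ ≤ Cs := by
      have h2 := hc.dir (cpath (stepL c lft) x ω j).2 (ω j)
      rw [← hl.proj] at h2
      exact h2
    have h3 := (norm_add_le _ _).trans (add_le_add ih h1)
    rw [path_succ, ht_mul, Nat.cast_succ, add_smul, one_smul, mul_add, mul_one]
    refine le_of_eq_of_le (congrArg norm ?_) h3
    abel

theorem path_geom (hB : L.Big a Cs) (hc : StepProp π' a Cs c) (hl : LftProp E c lft)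
    (x : Γ × c.σ) (ω : ℕ → c.N) : ∃ C : ℝ, 0 ≤ C ∧ ∀ j y,
      ‖(L.Bm a (π' (E.p (lp (stepL c lft) x ω j)))).mulVec y‖ ≤ C * (1 / 2) ^ j * ‖y‖ := by
  obtain ⟨K, hK, hK'⟩ := path_opb (L.Bm a (π' (E.p (lp (stepL c lft) x ω 0))))
  refine ⟨K, hK, fun j y => ?_⟩
  rcases Nat.eq_zero_or_pos j with rfl | hj
  · rw [pow_zero, mul_one]
    exact hK' y
  · have h1 := hB.1 j hj ((π' (E.p (lp (stepL c lft) x ω 0)))⁻¹ *
      π' (E.p (lp (stepL c lft) x ω j))) (by
        rw [toR_mul, toR_inv, neg_add_eq_sub, mul_comm]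
        exact path_ht E hc hl x ω j) y
    rw [← mul_inv_cancel_left (π' (E.p (lp (stepL c lft) x ω 0)))
      (π' (E.p (lp (stepL c lft) x ω j))), L.Bm_mulVec_mul, mul_assoc]
    refine (hK' _).trans (mul_le_mul_of_nonneg_left (h1.trans ?_) hK)
    have h2 : 0 ≤ (1 / 2 : ℝ) ^ j * ‖y‖ := by positivity
    linarith

omit [MeasurableSpace Γ'] in
theorem path_proj (hl : LftProp E c lft) (γ : Γ) (u : c.σ) (ω : ℕ → c.N) (j : ℕ) :
    (E.p (lp (stepL c lft) (γ, u) ω j), (cpath (stepL c lft) (γ, u) ω j).2) =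
      cpath c.step (E.p γ, u) ω j := by
  induction j with
  | zero => rfl
  | succ j ih =>
    rw [path_succ, map_mul, hl.proj]
    change _ = mv c.step (cpath c.step (E.p γ, u) ω j) (ω j)
    rw [← ih]
    rfl

omit [MeasurableSpace Γ'] in
theorem path_mv (hl : LftProp E c lft) (s : Γ' → Γ) (a : Rk k) (ref' : c.B → ℕ → Γ')
    (post : Bool) (R : ℝ) (r γ : Γ) (u : c.σ) (X : Fin L.m → ℝ) (g : c.N) (t : Fin L.m → ℝ) :
    mv (E.chain s a c ref' post R lft r).step ((E.place γ X).1, (u, (E.place γ X).2)) (g, t) =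
      ((E.place (γ * lft u g) (X + (L.B (π' (E.p (if post then γ * lft u g else γ)))).mulVec
          (R • clamp t))).1, ((c.step u g).2,
        (E.place (γ * lft u g) (X + (L.B (π' (E.p (if post then γ * lft u g else γ)))).mulVec
          (R • clamp t))).2)) := by
  rw [path_one, hl.proj]
  rfl

omit [MeasurableSpace Γ'] in
theorem path_cpath (hl : LftProp E c lft) (s : Γ' → Γ) (a : Rk k) (ref' : c.B → ℕ → Γ')
    (post : Bool) (R : ℝ) (r γ : Γ) (u : c.σ) (X : Fin L.m → ℝ) (ω : ℕ → c.N)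
    (t : ℕ → Fin L.m → ℝ) (j : ℕ) :
    cpath (E.chain s a c ref' post R lft r).step ((E.place γ X).1, (u, (E.place γ X).2))
        (fun l => (ω l, t l)) j =
      ((E.place (lp (stepL c lft) (γ, u) ω j) (X + ∑ l ∈ Finset.range j,
          (L.B (beta E c lft post (γ, u) ω l)).mulVec (R • clamp (t l)))).1,
        ((cpath (stepL c lft) (γ, u) ω j).2,
          (E.place (lp (stepL c lft) (γ, u) ω j) (X + ∑ l ∈ Finset.range j,
            (L.B (beta E c lft post (γ, u) ω l)).mulVec (R • clamp (t l)))).2)) := by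
  induction j with
  | zero =>
    rw [Finset.range_zero, Finset.sum_empty, add_zero]
    rfl
  | succ j ih =>
    have hb : beta E c lft post (γ, u) ω j = π' (E.p (if post then
        lp (stepL c lft) (γ, u) ω j * lft (cpath (stepL c lft) (γ, u) ω j).2 (ω j)
        else lp (stepL c lft) (γ, u) ω j)) := by
      cases post <;> rfl
    rw [cpath, ih, path_mv E hl, Finset.sum_range_succ, ← add_assoc, hb]
    rfl

theorem path_step [Countable Γ] [DiscreteMeasurableSpace Γ] [Countable Γ']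
    [DiscreteMeasurableSpace Γ'] (hc : StepProp π' a Cs c) (hl : LftProp E c lft) (s : Γ' → Γ)
    (ref' : c.B → ℕ → Γ') (post : Bool) (R : ℝ) (r : Γ) :
    StepProp (π'.comp E.p) a Cs (E.chain s a c ref' post R lft r) := by
  have hX : Measurable fun q : (Tor L.m × (Fin L.m → ℝ)) × Γ' =>
      E.stepX post R (π' q.2) q.1.1 q.1.2 :=
    measurable_from_prod_countable_left fun γ => path_meas_stepX E post R (π' γ)
  refine ⟨?_, ?_, fun u g => ?_, fun g => ?_⟩
  · have h1 : Measurable fun p : (c.σ × Tor L.m) × (c.N × (Fin L.m → ℝ)) =>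
        c.step p.1.1 p.2.1 := hc.meas_step.comp (measurable_fst.fst.prodMk measurable_snd.fst)
    have h2 : Measurable fun p : (c.σ × Tor L.m) × (c.N × (Fin L.m → ℝ)) =>
        E.stepX post R (π' (c.step p.1.1 p.2.1).1) p.1.2 p.2.2 := by
      have h := hX.comp ((measurable_fst.snd.prodMk measurable_snd.snd).prodMk h1.fst)
      exact h
    have h3 : Measurable fun v : Fin L.m → ℤ => E.ι (Multiplicative.ofAdd v) :=
      Measurable.of_discrete
    have h4 : Measurable fun x : Fin L.m → ℝ => E.ι (flo x) :=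
      h3.comp (measurable_pi_lambda _ fun i => (measurable_pi_apply i).floor)
    have h5 : Measurable fun q : Γ × Γ => q.1 * q.2 := Measurable.of_discrete
    have h6 : Measurable fun p : (c.σ × Tor L.m) × (c.N × (Fin L.m → ℝ)) => lft p.1.1 p.2.1 :=
      hl.meas.comp (measurable_fst.fst.prodMk measurable_snd.fst)
    exact (h5.comp (h6.prodMk (h4.comp h2))).prodMk
      (h1.snd.prodMk (continuous_prj.measurable.comp h2))
  · obtain ⟨F1, hF1⟩ := hl.fin
    obtain ⟨F2, hF2⟩ := hc.fin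
    choose K hK using fun γ : Γ' => path_bd_stepX E post R (π' γ)
    have h1 : (⋃ γ ∈ (F2 : Set Γ'), E.ι '' (flo '' {x : Fin L.m → ℝ | ‖x‖ ≤ K γ})).Finite :=
      F2.finite_toSet.biUnion fun γ _ => (path_flo_fin _ _).image _
    have h2 := F1.finite_toSet.image2 (fun x y : Γ => x * y) h1
    refine ⟨h2.toFinset, fun u g => h2.mem_toFinset.2 ⟨_, hF1 u.1 g.1, _, ?_, rfl⟩⟩
    exact Set.mem_biUnion (hF2 u.1 g.1) ⟨_, ⟨_, hK _ _ _, rfl⟩, rfl⟩
  · have h1 := hc.dir u.1 g.1
    rw [← hl.proj] at h1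
    change ‖toR (π' (E.p (lft u.1 g.1 * E.ι _))) - a‖ ≤ Cs
    rw [map_mul, E.p_ι, mul_one]
    exact h1
  · refine (hc.mp g.1).skew_product
      (g := fun u v => prj (E.stepX post R (π' (c.step u g.1).1) v g.2)) ?_
      (ae_of_all _ fun u => (mp_affine L _ _).map_eq)
    have h1 : Measurable fun p : c.σ × Tor L.m => c.step p.1 g.1 :=
      hc.meas_step.comp (measurable_fst.prodMk measurable_const)
    have h := continuous_prj.measurable.comp
      (hX.comp ((measurable_snd.prodMk (measurable_const (a := g.2))).prodMk h1.fst))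
    exact h

end

theorem path_pf : Path_stmt := by
  intro k Γ Γ' _ _ _ _ _ _ _ _ π' L E S s a Cs κ₂ c ref' post R lft r hCs hκ hB hc hl hτ
  have htr : ∃ Λ : ℝ, ∀ x ω, Tr S (π'.comp E.p) a Cs Λ (lp (stepL c lft) x ω) := by
    obtain ⟨F, hF⟩ := hl.fin
    refine ⟨∑ γ ∈ F, (sz S (π'.comp E.p) γ : ℝ), fun x ω j => ⟨?_, ?_⟩⟩
    · rw [path_succ, inv_mul_cancel_left]
      exact le_add_of_nonneg_of_le (by positivity) (Finset.single_le_sum
        (f := fun γ => (sz S (π'.comp E.p) γ : ℝ)) (fun _ _ => Nat.cast_nonneg _) (hF _ _))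
    · exact (path_ht E hc hl x ω j).trans
        (le_add_of_nonneg_right (Finset.sum_nonneg fun _ _ => Nat.cast_nonneg _))
  have hgeom : ∀ x ω, ∃ C : ℝ, 0 ≤ C ∧ ∀ l y,
      ‖(L.Bm a (beta E c lft post x ω l)).mulVec y‖ ≤ C * (1 / 2) ^ l * ‖y‖ := by
    intro x ω
    obtain ⟨C, hC, h⟩ := path_geom E hB hc hl x ω
    refine ⟨C, hC, fun l y => (h _ y).trans (mul_le_mul_of_nonneg_right
      (mul_le_mul_of_nonneg_left ?_ hC) (norm_nonneg y))⟩
    refine pow_le_pow_of_le_one (by norm_num) (by norm_num) ?_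
    split_ifs
    · exact Nat.le_succ l
    · exact le_rfl
  refine ⟨path_step E hc hl s ref' post R r, htr, path_proj E hl, path_start E,
    path_mv E hl s a ref' post R r, fun x ω => (hgeom x ω).imp fun C h => h.2,
    fun γ u X ω t => ?_⟩
  obtain ⟨Λ, hΛ⟩ := htr
  obtain ⟨C, hC, hCb⟩ := hgeom (γ, u) ω
  obtain ⟨C', hC', hCb'⟩ := path_geom E hB hc hl (γ, u) ω
  obtain ⟨K, hK, hK'⟩ := path_opb L.Qi
  choose v w hv hw using fun j => path_place E (lp (stepL c lft) (γ, u) ω j)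
    (X + ∑ l ∈ Finset.range j, (L.B (beta E c lft post (γ, u) ω l)).mulVec (R • clamp (t l)))
  have h1 : lp (E.chain s a c ref' post R lft r).step ((E.place γ X).1, (u, (E.place γ X).2))
      (fun l => (ω l, t l)) =
      fun j => E.ι (Multiplicative.ofAdd (v j)) * lp (stepL c lft) (γ, u) ω j := by
    funext j
    rw [lp, path_cpath E hl, hv]
  have h2 : E.p ∘ (fun j => E.ι (Multiplicative.ofAdd (v j)) * lp (stepL c lft) (γ, u) ω j) =
      lp c.step (E.p γ, u) ω := by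
    funext j
    rw [Function.comp_apply, map_mul, E.p_ι, one_mul]
    exact congrArg Prod.fst (path_proj E hl γ u ω j)
  have h3 : Summable fun l =>
      (L.Bm a (beta E c lft post (γ, u) ω l)).mulVec (L.pr a (R • clamp (t l))) := by
    refine Summable.of_norm_bounded
      ((summable_geometric_two.mul_left C).mul_right (‖R‖ * 1)) fun l => (hCb l _).trans ?_
    refine mul_le_mul_of_nonneg_left ((L.norm_pr_le a _).trans ?_) (by positivity)
    rw [norm_smul]
    exact mul_le_mul_of_nonneg_left (norm_clamp_le _) (norm_nonneg R)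
  have h4 : Tendsto (fun j => (L.Bm a (π' (E.p (lp (stepL c lft) (γ, u) ω j)))).mulVec
      (L.pr a (L.Qi.mulVec (lift (w j))))) atTop (𝓝 0) := by
    refine squeeze_zero_norm (fun j => (hCb' j _).trans (mul_le_mul_of_nonneg_left
      ((L.norm_pr_le a _).trans ((hK' _).trans
        (mul_le_mul_of_nonneg_left (norm_lift_le _) hK))) (by positivity))) ?_
    exact ((summable_geometric_two.mul_left C').mul_right (K * 1)).tendsto_atTop_zero
  have h5 : ∀ j, L.pr a (L.co (v j)) = L.pr a X + ∑ l ∈ Finset.range j,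
      (L.Bm a (beta E c lft post (γ, u) ω l)).mulVec (L.pr a (R • clamp (t l))) -
      (L.Bm a (π' (E.p (lp (stepL c lft) (γ, u) ω j)))).mulVec
        (L.pr a (L.Qi.mulVec (lift (w j)))) := by
    intro j
    rw [hw, L.pr_sub, L.pr_add, L.pr_B]
    simp only [← L.pr_B]
    refine congrArg (fun z => L.pr a X + z - _) (funext fun i => ?_)
    rw [Layer.pr, Finset.sum_apply, Finset.sum_apply]
    rfl
  have h6 := (h3.hasSum.tendsto_sum_nat.const_add (L.pr a X)).sub h4
  rw [sub_zero] at h6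
  rw [h1, Ext.theta, h2, hτ.transl Λ _ v _ ((hΛ _ _).mono hκ le_rfl)
    (h6.congr fun j => (h5 j).symm), add_assoc]

end Vale.Agent.P188
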