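import Vale.Agent.P188.Stmts

/-! Polyhedral geometry of the entropy norm. -/

namespace Vale.Agent.P188

open Filter Topology Classical

namespace PhiX

variable {k : ℕ}

theorem kap_nil (a : Rk k) : kap ([] : List (Wt k)) a = 0 := rfl

theorem kap_cons (χ : Wt k) (w : List (Wt k)) (a : Rk k) :
    kap (χ :: w) a = (if χ a < 0 then χ else 0) + kap w a := by
  unfold kap
  rw [List.filter_cons]
  by_cases h : χ a < 0 <;> simp [h]

theorem en_cons (χ : Wt k) (w : List (Wt k)) (b : Rk k) :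
    enorm' (χ :: w) b = max (-(χ b)) 0 + enorm' w b := by
  simp [enorm']

theorem term_le (χ : Wt k) (a b : Rk k) :
    -((if χ a < 0 then χ else 0 : Wt k) b) ≤ max (-(χ b)) 0 := by
  split_ifs
  · exact le_max_left _ _
  · simp

theorem kap_le (w : List (Wt k)) (a b : Rk k) : -kap w a b ≤ enorm' w b := by
  induction w with
  | nil => simp [kap_nil, enorm']
  | cons χ w ih =>
    rw [kap_cons, en_cons, add_apply]
    linarith [term_le χ a b]

/-- `b` lies in the closed chamber of `a`. -/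
def Cl (w : List (Wt k)) (a b : Rk k) : Prop :=
  ∀ χ ∈ w, (χ a < 0 → χ b ≤ 0) ∧ (0 ≤ χ a → 0 ≤ χ b)

theorem cl_iff (w : List (Wt k)) (a b : Rk k) : -kap w a b = enorm' w b ↔ Cl w a b := by
  induction w with
  | nil => simp [kap_nil, enorm', Cl]
  | cons χ w ih =>
    have h1 := term_le χ a b
    have h2 := kap_le w a b
    have h3 : -((if χ a < 0 then χ else 0 : Wt k) b) = max (-(χ b)) 0 ↔
        (χ a < 0 → χ b ≤ 0) ∧ (0 ≤ χ a → 0 ≤ χ b) := by
      split_ifs with h
      · rw [eq_comm, max_eq_left_iff]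
        constructor
        · intro h4
          exact ⟨fun _ => by linarith, fun h5 => absurd h (not_lt.2 h5)⟩
        · intro h4
          linarith [h4.1 h]
      · rw [zero_apply, neg_zero, eq_comm, max_eq_right_iff]
        constructor
        · intro h4
          exact ⟨fun h5 => absurd h5 h, fun _ => by linarith⟩
        · intro h4
          linarith [h4.2 (not_lt.1 h)]
    rw [kap_cons, en_cons, add_apply]
    unfold Cl at ih ⊢
    rw [List.forall_mem_cons, ← ih, ← h3]
    constructor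
    · intro h
      constructor <;> linarith
    · intro h
      linarith [h.1, h.2]

theorem en_eq (w : List (Wt k)) (a : Rk k) : enorm' w a = -kap w a a :=
  ((cl_iff w a a).2 fun _ _ => ⟨fun h => h.le, id⟩).symm

theorem kap_add_neg (w : List (Wt k)) {a : Rk k} (ha : Generic w a) :
    kap w a + kap w (-a) = w.sum := by
  induction w with
  | nil => simp [kap_nil]
  | cons χ w ih =>
    rw [kap_cons, kap_cons, List.sum_cons,
      ← ih fun ψ hψ => ha ψ (List.mem_cons_of_mem _ hψ), map_neg]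
    have h : (if χ a < 0 then χ else 0) + (if -χ a < 0 then χ else 0) = χ := by
      by_cases h0 : χ = 0
      · simp [h0]
      · rcases lt_or_gt_of_ne (ha χ List.mem_cons_self h0) with h | h
        · rw [if_pos h, if_neg (by linarith), add_zero]
        · rw [if_neg (by linarith), if_pos (by linarith), zero_add]
    rw [add_add_add_comm, h]

theorem en_zero_imp {w : List (Wt k)} (hs : w.sum = 0) (hd : Definite w) {b : Rk k}
    (h : enorm' w b = 0) : b = 0 := by
  by_contra hb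
  obtain ⟨χ, hχ, h0⟩ := hd b hb
  have h1 : ∀ ψ ∈ w, 0 ≤ ψ b := fun ψ hψ =>
    ((cl_iff w 0 b).1 (by rw [h, neg_eq_zero]; simp [kap]) ψ hψ).2 (by simp)
  have h2 : (w.map fun ψ => ψ b).sum = w.sum b := by
    clear hs hd h hχ h1
    induction w with
    | nil => simp
    | cons ψ w ih => simp [ih]
  rw [hs, zero_apply] at h2
  refine h0 (List.all_zero_of_le_zero_le_of_sum_eq_zero (fun x hx => ?_) h2
    (List.mem_map_of_mem hχ))
  obtain ⟨ψ, hψ, rfl⟩ := List.mem_map.1 hx
  exact h1 ψ hψ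

theorem en_cont (w : List (Wt k)) : Continuous (enorm' w) := by
  induction w with
  | nil => exact continuous_const
  | cons χ w ih =>
    rw [show enorm' (χ :: w) = fun b => max (-(χ b)) 0 + enorm' w b from funext (en_cons χ w)]
    exact (χ.continuous.neg.max continuous_const).add ih

theorem generic_dense (w : List (Wt k)) :
    IsOpen {a | Generic w a} ∧ Dense {a | Generic w a} := by
  induction w with
  | nil =>
    have : {a : Rk k | Generic [] a} = Set.univ := by ext a; simp [Generic]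
    rw [this]
    exact ⟨isOpen_univ, dense_univ⟩
  | cons χ w ih =>
    by_cases h0 : χ = 0
    · have : {a : Rk k | Generic (χ :: w) a} = {a | Generic w a} := by
        ext a; simp [Generic, h0]
      rwa [this]
    · have : {a : Rk k | Generic (χ :: w) a} =
          ((LinearMap.ker (χ : Rk k →ₗ[ℝ] ℝ) : Submodule ℝ (Rk k)) : Set (Rk k))ᶜ ∩
            {a | Generic w a} := by
        ext a; simp [Generic, h0]
      rw [this]
      have h1 : IsOpen
          ((LinearMap.ker (χ : Rk k →ₗ[ℝ] ℝ) : Submodule ℝ (Rk k)) : Set (Rk k))ᶜ :=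
        χ.isClosed_ker.isOpen_compl
      refine ⟨h1.inter ih.1, Dense.inter_of_isOpen_left ?_ ih.2 h1⟩
      rw [← interior_eq_empty_iff_dense_compl]
      by_contra h2
      have h3 := Submodule.eq_top_of_nonempty_interior' _ (Set.nonempty_iff_ne_empty.2 h2)
      exact h0 (ContinuousLinearMap.coe_injective (LinearMap.ker_eq_top.1 h3))

theorem exists_generic (w : List (Wt k)) {b : Rk k} {P : Rk k → Prop} (h : ∀ᶠ a in 𝓝 b, P a) :
    ∃ a, Generic w a ∧ P a := by
  obtain ⟨a, h1, h2⟩ := mem_closure_iff_nhds.1 ((generic_dense w).2 b) _ h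
  exact ⟨a, h2, h1⟩

/-- `b` lies in the open star of `a`. -/
def Op (w : List (Wt k)) (a b : Rk k) : Prop :=
  ∀ χ ∈ w, (χ a < 0 → χ b < 0) ∧ (0 < χ a → 0 < χ b)

theorem op_nhds (w : List (Wt k)) (a : Rk k) : ∀ᶠ b in 𝓝 a, Op w a b := by
  refine (eventually_all_finite (List.finite_toSet w)).2 fun χ _ => Eventually.and ?_ ?_
  · by_cases h : χ a < 0
    · exact (χ.continuous.continuousAt.eventually (gt_mem_nhds h)).mono fun _ hb _ => hb
    · exact Eventually.of_forall fun _ h' => absurd h' h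
  · by_cases h : 0 < χ a
    · exact (χ.continuous.continuousAt.eventually (lt_mem_nhds h)).mono fun _ hb _ => hb
    · exact Eventually.of_forall fun _ h' => absurd h' h

theorem op_generic {w : List (Wt k)} {a b : Rk k} (ha : Generic w a) (h : Op w a b) :
    Generic w b ∧ kap w b = kap w a := by
  refine ⟨fun χ hχ h0 => ?_, ?_⟩
  · rcases lt_or_gt_of_ne (ha χ hχ h0) with h1 | h1
    · exact ((h χ hχ).1 h1).ne
    · exact ((h χ hχ).2 h1).ne'
  · unfold kap
    congr 1
    refine List.filter_congr fun χ hχ => ?_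
    rw [decide_eq_decide]
    refine ⟨fun h1 => ?_, (h χ hχ).1⟩
    by_cases h0 : χ = 0
    · simp [h0] at h1
    · rcases lt_or_gt_of_ne (ha χ hχ h0) with h2 | h2
      · exact h2
      · exact absurd ((h χ hχ).2 h2) (not_lt.2 h1.le)

theorem exists_norming (w : List (Wt k)) (b : Rk k) :
    ∃ a, Generic w a ∧ -kap w a b = enorm' w b := by
  obtain ⟨a, h1, h2⟩ := exists_generic w (op_nhds w b)
  refine ⟨a, h1, (cl_iff w a b).2 fun χ hχ => ⟨fun h => ?_, fun h => ?_⟩⟩
  · exact not_lt.1 fun h3 => absurd ((h2 χ hχ).2 h3) (not_lt.2 h.le)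
  · exact not_lt.1 fun h3 => absurd ((h2 χ hχ).1 h3) (not_lt.2 h)

/-- A supporting functional at a generic point is unique. -/
theorem support_eq {w : List (Wt k)} {a : Rk k} (ha : Generic w a) (μ : Wt k)
    (h1 : ∀ b, -μ b ≤ enorm' w b) (h2 : -μ a = enorm' w a) : μ = kap w a := by
  have h3 : IsLocalMin (fun b => (μ - kap w a) b) a := by
    refine (op_nhds w a).mono fun b hb => ?_
    have h4 := h1 b
    rw [en_eq, (op_generic ha hb).2] at h4
    rw [en_eq] at h2
    simp only [sub_apply]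
    linarith
  exact sub_eq_zero.1 (h3.hasFDerivAt_eq_zero (μ - kap w a).hasFDerivAt)

/-- A matrix as a continuous linear map. -/
noncomputable def mv (D : Matrix (Fin k) (Fin k) ℝ) : Rk k →L[ℝ] Rk k :=
  LinearMap.toContinuousLinearMap (Matrix.mulVecLin D)

theorem mv_apply (D : Matrix (Fin k) (Fin k) ℝ) (b : Rk k) : mv D b = D.mulVec b := rfl

theorem unit_of_phi {w : List (Wt k)} (hs : w.sum = 0) (hd : Definite w)
    {D : Matrix (Fin k) (Fin k) ℝ} (hD : D ∈ Phi w) : IsUnit D.det := by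
  rw [isUnit_iff_ne_zero]
  intro h
  obtain ⟨v, hv, h0⟩ := Matrix.exists_mulVec_eq_zero_iff.2 h
  refine hv (en_zero_imp hs hd ?_)
  rw [← hD v, h0, en_eq, map_zero, neg_zero]

theorem surj_of_unit {D : Matrix (Fin k) (Fin k) ℝ} (hD : IsUnit D.det) (a : Rk k) :
    ∃ b, D.mulVec b = a :=
  Matrix.mulVec_surjective_iff_isUnit.2 ((Matrix.isUnit_iff_isUnit_det D).2 hD) a

theorem kap_comp {w : List (Wt k)} (hs : w.sum = 0) (hd : Definite w)
    {D : Matrix (Fin k) (Fin k) ℝ} (hD : D ∈ Phi w) {a : Rk k} (ha : Generic w a) :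
    ∃ a', (kap w a).comp (mv D) = kap w a' := by
  obtain ⟨b, hb⟩ := surj_of_unit (unit_of_phi hs hd hD) a
  have h1 : ∀ᶠ a' in 𝓝 b, Op w a (mv D a') :=
    (mv D).continuous.continuousAt.eventually (by rw [mv_apply, hb]; exact op_nhds w a)
  obtain ⟨a', h2, h3⟩ := exists_generic w h1
  refine ⟨a', support_eq h2 _ (fun c => ?_) ?_⟩
  · rw [← hD c]
    exact kap_le w a _
  · rw [← hD a', en_eq, ← mv_apply, (op_generic ha h3).2]
    rfl

theorem kap_finite (w : List (Wt k)) : (Set.range (kap w)).Finite := by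
  refine ((List.finite_toSet w.sublists).image List.sum).subset ?_
  rintro _ ⟨a, rfl⟩
  exact ⟨_, List.mem_sublists.2 List.filter_sublist, rfl⟩

theorem phi_finite {w : List (Wt k)} (hs : w.sum = 0) (hd : Definite w) : (Phi w).Finite := by
  have h1 : (kap w '' {a | Generic w a}).Finite :=
    (kap_finite w).subset (Set.image_subset_range _ _)
  have := h1.to_subtype
  refine Set.Finite.of_finite_image
    (f := fun D => fun l : kap w '' {a | Generic w a} => l.1.comp (mv D)) ?_ ?_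
  · refine (Set.Finite.pi' fun _ : kap w '' {a | Generic w a} => kap_finite w).subset ?_
    rintro _ ⟨D, hD, rfl⟩ ⟨_, a, ha, rfl⟩
    obtain ⟨a', h⟩ := kap_comp hs hd hD ha
    exact ⟨a', h.symm⟩
  · intro D hD D' hD' h
    refine Matrix.ext_iff_mulVec.2 fun b => ?_
    obtain ⟨a, ha, h2⟩ := exists_norming w (D.mulVec b - D'.mulVec b)
    have h3 : kap w a (D.mulVec b) = kap w a (D'.mulVec b) :=
      congrArg (fun μ : Wt k => μ b) (congrFun h ⟨_, a, ha, rfl⟩)
    rw [map_sub, h3, sub_self, neg_zero] at h2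
    exact sub_eq_zero.1 (en_zero_imp hs hd h2.symm)

/-- Every chamber contains a point fixed by its stabiliser. -/
theorem exists_center {w : List (Wt k)} (hs : w.sum = 0) (hd : Definite w) {a₀ : Rk k}
    (h₀ : Generic w a₀) : ∃ a, Generic w a ∧ kap w a = kap w a₀ ∧ ∀ D ∈ Phi w,
      D.mulVec a - a = 0 ∨ 0 < kap w a (D.mulVec a - a) := by
  set S := (phi_finite hs hd).toFinset.filter fun D => (kap w a₀).comp (mv D) = kap w a₀ with hS
  have hm : ∀ D, D ∈ S ↔ D ∈ Phi w ∧ ∀ b, kap w a₀ (D.mulVec b) = kap w a₀ b := by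
    intro D
    rw [hS, Finset.mem_filter, Set.Finite.mem_toFinset, ContinuousLinearMap.ext_iff]
    rfl
  have h1 : (1 : Matrix (Fin k) (Fin k) ℝ) ∈ S :=
    (hm 1).2 ⟨fun b => by rw [Matrix.one_mulVec], fun b => by rw [Matrix.one_mulVec]⟩
  have hcl : ∀ D ∈ S, Cl w a₀ (D.mulVec a₀) := fun D hD =>
    (cl_iff _ _ _).1 (by rw [((hm D).1 hD).2, ((hm D).1 hD).1, en_eq])
  have hop : Op w a₀ (∑ D ∈ S, D.mulVec a₀) := by
    intro χ hχ
    rw [map_sum]
    refine ⟨fun h => ?_, fun h => ?_⟩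
    · exact Finset.sum_neg' (fun D hD => (hcl D hD χ hχ).1 h)
        ⟨1, h1, by rwa [Matrix.one_mulVec]⟩
    · exact Finset.sum_pos' (fun D hD => (hcl D hD χ hχ).2 h.le)
        ⟨1, h1, by rwa [Matrix.one_mulVec]⟩
  obtain ⟨hg, hk⟩ := op_generic h₀ hop
  refine ⟨_, hg, hk, fun D hD => ?_⟩
  set a := ∑ D ∈ S, D.mulVec a₀ with ha
  have h2 := kap_le w a (D.mulVec a)
  rw [hD a, en_eq] at h2
  rw [map_sub]
  rcases h2.eq_or_lt with h3 | h3
  · left
    have h4 : (kap w a).comp (mv D) = kap w a := by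
      refine support_eq hg _ (fun c => ?_) (by rw [en_eq]; exact h3)
      rw [← hD c]
      exact kap_le w a _
    rw [hk] at h4
    have h5 : D ∈ S := Finset.mem_filter.2 ⟨(Set.Finite.mem_toFinset _).2 hD, h4⟩
    have h6 : ∀ D' ∈ S, D * D' ∈ S := fun D' hD' => (hm _).2
      ⟨fun b => by rw [← Matrix.mulVec_mulVec, hD, ((hm D').1 hD').1],
        fun b => by rw [← Matrix.mulVec_mulVec, ((hm D).1 h5).2, ((hm D').1 hD').2]⟩
    have h7 : Function.Injective fun D' : Matrix (Fin k) (Fin k) ℝ => D * D' :=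
      ((Matrix.isUnit_iff_isUnit_det D).2 (unit_of_phi hs hd hD)).mul_right_injective
    have h8 : S.image (fun D' => D * D') = S :=
      Finset.eq_of_subset_of_card_le (Finset.image_subset_iff.2 h6)
        (Finset.card_image_of_injective S h7).ge
    rw [sub_eq_zero, ha, Matrix.mulVec_sum]
    conv_rhs => rw [← h8, Finset.sum_image fun x _ y _ h => h7 h]
    exact Finset.sum_congr rfl fun D' _ => Matrix.mulVec_mulVec _ _ _
  · right
    linarith

theorem small {x y : ℝ} (h : x = 0 ∧ y = 0 ∨ 0 < y) : ∀ᶠ c in 𝓝[>] (0 : ℝ), c * x ≤ y := by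
  rcases h with ⟨rfl, rfl⟩ | h
  · simp
  · have h1 : Tendsto (fun c : ℝ => c * x) (𝓝 0) (𝓝 (0 * x)) :=
      (continuous_id.mul continuous_const).tendsto 0
    rw [zero_mul] at h1
    exact ((h1.eventually (gt_mem_nhds h)).mono fun _ hc => hc.le).filter_mono nhdsWithin_le_nhds

theorem exists_F {w : List (Wt k)} (hs : w.sum = 0) (hd : Definite w) :
    ∃ (F : Finset (Rk k)) (c : ℝ), 0 < c ∧
      (∀ a ∈ F, Generic w a ∧ ∀ D ∈ Phi w, c * ‖D.mulVec a - a‖ ≤ kap w a (D.mulVec a - a)) ∧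
      ∀ b, c * ‖b‖ ≤ ∑ a ∈ F, |kap w a b| := by
  have h1 : (kap w '' {a | Generic w a}).Finite :=
    (kap_finite w).subset (Set.image_subset_range _ _)
  have := h1.fintype
  have h2 : ∀ l : kap w '' {a | Generic w a}, ∃ a, Generic w a ∧ kap w a = l.1 ∧ ∀ D ∈ Phi w,
      D.mulVec a - a = 0 ∨ 0 < kap w a (D.mulVec a - a) := by
    rintro ⟨_, a₀, h₀, rfl⟩
    exact exists_center hs hd h₀
  choose r hr1 hr2 hr3 using h2
  set F : Finset (Rk k) := Finset.univ.image r with hF
  let f : Rk k →ₗ[ℝ] (F → ℝ) := LinearMap.pi fun a => (kap w a.1 : Rk k →ₗ[ℝ] ℝ)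
  have hf : LinearMap.ker f = ⊥ := by
    refine LinearMap.ker_eq_bot'.2 fun b hb => ?_
    obtain ⟨a, ha, h3⟩ := exists_norming w b
    have h4 : kap w (r ⟨_, a, ha, rfl⟩) b = 0 :=
      congrFun hb ⟨_, Finset.mem_image_of_mem r (Finset.mem_univ _)⟩
    rw [hr2] at h4
    refine en_zero_imp hs hd ?_
    rw [← h3, neg_eq_zero]
    exact h4
  obtain ⟨K, hK, hA⟩ := f.exists_antilipschitzWith hf
  have hK' : (0 : ℝ) < K := hK
  have h5 : ∀ b, ‖b‖ ≤ K * ∑ a ∈ F, |kap w a b| := by
    intro b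
    refine (ZeroHomClass.bound_of_antilipschitz f hA b).trans
      (mul_le_mul_of_nonneg_left ?_ hK'.le)
    refine (pi_norm_le_iff_of_nonneg (Finset.sum_nonneg fun _ _ => abs_nonneg _)).2 fun a => ?_
    exact Finset.single_le_sum (f := fun a => |kap w a b|) (fun _ _ => abs_nonneg _) a.2
  have e1 : ∀ᶠ c in 𝓝[>] (0 : ℝ), ∀ a ∈ F, ∀ D ∈ Phi w,
      c * ‖D.mulVec a - a‖ ≤ kap w a (D.mulVec a - a) := by
    refine (eventually_all_finset F).2 fun a ha =>
      (eventually_all_finite (phi_finite hs hd)).2 fun D hD => small ?_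
    obtain ⟨l, -, rfl⟩ := Finset.mem_image.1 ha
    rcases hr3 l D hD with h | h
    · exact Or.inl ⟨by rw [h, norm_zero], by rw [h, map_zero]⟩
    · exact Or.inr h
  have e2 : ∀ᶠ c in 𝓝[>] (0 : ℝ), c * (K : ℝ) ≤ 1 := small (Or.inr one_pos)
  obtain ⟨c, ⟨hc1, hc2⟩, hc3⟩ := ((e1.and e2).and self_mem_nhdsWithin).exists
  have hc : 0 < c := hc3
  refine ⟨F, c, hc, fun a ha => ⟨?_, hc1 a ha⟩, fun b => ?_⟩
  · obtain ⟨l, -, rfl⟩ := Finset.mem_image.1 ha
    exact hr1 l
  · have h6 : 0 ≤ ∑ a ∈ F, |kap w a b| := Finset.sum_nonneg fun _ _ => abs_nonneg _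
    calc c * ‖b‖ ≤ c * (K * ∑ a ∈ F, |kap w a b|) := mul_le_mul_of_nonneg_left (h5 b) hc.le
      _ = c * K * ∑ a ∈ F, |kap w a b| := by ring
      _ ≤ _ := mul_le_of_le_one_left h6 hc2

theorem exists_both (w : List (Wt k)) {D : Matrix (Fin k) (Fin k) ℝ} (hD : IsUnit D.det)
    {a : Rk k} (h : enorm' w (D.mulVec a) < enorm' w a) :
    ∃ a', Generic w a' ∧ Generic w (D.mulVec a') ∧ enorm' w (D.mulVec a') < enorm' w a' := by
  have h1 : ∀ᶠ a' in 𝓝 a, enorm' w (mv D a') < enorm' w a' :=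
    ((en_cont w).comp (mv D).continuous).continuousAt.eventually_lt (en_cont w).continuousAt h
  obtain ⟨a', h2, h3⟩ := exists_generic (w ++ w.map fun χ => χ.comp (mv D)) h1
  refine ⟨a', fun χ hχ => h2 χ (List.mem_append_left _ hχ), fun χ hχ h0 => ?_, h3⟩
  refine h2 (χ.comp (mv D)) (List.mem_append_right _ (List.mem_map_of_mem hχ)) fun h4 => h0 ?_
  ext1 b
  obtain ⟨c, rfl⟩ := surj_of_unit hD b
  exact congrArg (fun μ : Wt k => μ c) h4

end PhiX

theorem phi_pf : Phi_stmt := fun _ w hs hd =>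
  ⟨PhiX.phi_finite hs hd, fun _ hD => PhiX.unit_of_phi hs hd hD, PhiX.exists_F hs hd,
    PhiX.en_eq w, fun _ ha => eq_neg_of_add_eq_zero_right ((PhiX.kap_add_neg w ha).trans hs),
    fun _ hD _ h => PhiX.exists_both w hD h⟩

end Vale.Agent.P188
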