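import Vale.Agent.P188.Iid

/-! P188: sublinear growth of almost coboundaries along the chain. -/

namespace Vale.Agent.P188

open Function MeasureTheory
open scoped ENNReal NNReal

namespace RegX

section
variable {Γ : Type} [Group Γ] {k : ℕ} (π : Γ →* Zk k)

theorem ht_one : ht π 1 = 0 := by
  funext i
  simp [ht, toR]

theorem ht_mul (g h : Γ) : ht π (g * h) = ht π g + ht π h := by
  funext i
  simp [ht, toR]

theorem ht_pow (g : Γ) (n : ℕ) : ht π (g ^ n) = (n : ℝ) • ht π g := by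
  funext i
  simp [ht, toR]

end

theorem iter_fst {Y N : Type} (T : N → Y → Y) (l : ℕ) (p : Y × (ℕ → N)) :
    ((fun p : Y × (ℕ → N) => (T (p.2 0) p.1, fun j => p.2 (j + 1)))^[l] p).1 = orb T p.1 p.2 l := by
  induction l generalizing p with
  | zero => rfl
  | succ l ih => rw [iterate_succ_apply, ih, orb_succ']

theorem maxOrb (h : MaxErg_stmt) {Y N : Type} [MeasurableSpace Y] [MeasurableSpace N]
    {μ : Measure Y} [IsProbabilityMeasure μ] (P : Measure N) [IsProbabilityMeasure P]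
    {T : N → Y → Y} (hT : RMP μ T) {f : Y → ℝ} (hf : Measurable f) (h0 : ∀ y, 0 ≤ f y)
    (hi : Integrable f μ) {c : ℝ} (hc : 0 < c) :
    (μ.prod (iid P)).real {p | ∃ n : ℕ, c * n < ∑ j ∈ Finset.range n, f (orb T p.1 p.2 j)} ≤
      (∫ y, f y ∂μ) / c := by
  have h1 := h _ (μ.prod (iid P)) _ (hT.mp_skewShift P) (fun p => f p.1) (hf.comp measurable_fst)
    (fun p => h0 _) (hi.comp_fst _) c hc
  simpa only [iter_fst, integral_fun_fst, probReal_univ, one_smul] using h1

variable {Γ : Type} [Group Γ] [Countable Γ] [MeasurableSpace Γ] [DiscreteMeasurableSpace Γ]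
  {Z : Type} [MulAction Γ Z] [MeasurableSpace Z]

theorem rmp_skew {ν : Measure Z} [SFinite ν] (hν : ∀ g : Γ, MeasurePreserving (g • ·) ν ν)
    (c : Chain Γ) (hm : Measurable fun p : c.σ × c.N => c.step p.1 p.2)
    (hp : ∀ g, MeasurePreserving (fun u => (c.step u g).2) c.μσ c.μσ) :
    RMP (ν.prod c.μσ) (skew c.step) := by
  have h1 : Measurable fun p : Γ × Z => p.1⁻¹ • p.2 :=
    measurable_from_prod_countable_right fun g => (hν g⁻¹).measurable
  have h2 : Measurable fun p : (Z × c.σ) × c.N => c.step p.1.2 p.2 :=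
    hm.comp (measurable_fst.snd.prodMk measurable_snd)
  refine ⟨(h1.comp (h2.fst.prodMk measurable_fst.fst)).prodMk h2.snd, fun g => ?_⟩
  have h3 := (hp g).skew_product (g := fun u (z : Z) => (c.step u g).1⁻¹ • z) (μc := ν) (μd := ν)
    (h1.comp ((hm.comp (measurable_fst.prodMk measurable_const)).fst.prodMk measurable_snd))
    (.of_forall fun u => (hν _).map_eq)
  exact (Measure.measurePreserving_swap.comp h3).comp Measure.measurePreserving_swap

omit [DiscreteMeasurableSpace Γ] in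
theorem meas_q {S : Finset Γ} {K : ℕ} (Q : QS S K Z) (g : Γ) : Measurable fun z => Q.q z g :=
  measurable_to_countable' (Q.q_meas g)

end RegX

open RegX in
theorem reg_pf (h : MaxErg_stmt) : Reg_stmt := by
  intro k Γ _ _ _ _ π S K Z _ _ Q K' ν D hD c hm ⟨F, hF⟩ hp ε hε
  have := hD.prob
  obtain ⟨θ, hθ⟩ : ∃ θ : Γ → Z → Rk k, ∀ g z, θ g z = ht π (Q.q z g) - (D z).mulVec (ht π g) :=
    ⟨_, fun _ _ => rfl⟩
  have θmul : ∀ g g' z, θ (g * g') z = θ g z + θ g' (g⁻¹ • z) := fun g g' z => by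
    simp only [hθ, Q.q_mul, ht_mul, hD.inv, Matrix.mulVec_add]
    abel
  have θone : ∀ z, θ 1 z = 0 := fun z => by simp [hθ, Q.q_one, ht_one]
  have θm : ∀ g, Measurable (θ g) := fun g => by
    rw [funext (hθ g)]
    refine ((Measurable.of_discrete (f := ht π)).comp (meas_q Q g)).sub
      (measurable_pi_lambda _ fun i => ?_)
    simp only [Matrix.mulVec, dotProduct]
    exact Finset.measurable_sum _ fun j _ => (hD.meas i j).mul_const _
  have hT := rmp_skew hD.mp c hm hp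
  have key : ∀ᵐ p ∂((ν.prod c.μσ).prod (iid c.μN)), ∃ Λ : ℕ, ∀ j : ℕ,
      ‖θ (lp c.step (1, p.1.2) p.2 j) p.1.1‖ ≤ ε * j + Λ := by
    rw [ae_iff, ← measureReal_eq_zero_iff]
    refine le_antisymm (le_of_forall_pos_le_add fun η hη => ?_) measureReal_nonneg
    obtain ⟨β, βm, β2, hβ⟩ := hD.acob F (η * ε / 4 / (F.card + 1)) (by positivity)
    simp only [← hθ] at hβ
    have rm : ∀ g, Measurable fun z => θ g z - (β (g⁻¹ • z) - β z) := fun g =>
      (θm g).sub ((βm.comp (hD.mp g⁻¹).measurable).sub βm)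
    have ri : ∀ g ∈ F, Integrable (fun z => ‖θ g z - (β (g⁻¹ • z) - β z)‖) ν := fun g hg =>
      (MemLp.integrable one_le_two
        ⟨(rm g).aestronglyMeasurable, (hβ g hg).trans_lt ENNReal.ofReal_lt_top⟩).norm
    have rb : ∀ g ∈ F, ∫ z, ‖θ g z - (β (g⁻¹ • z) - β z)‖ ∂ν ≤ η * ε / 4 / (F.card + 1) :=
      fun g hg => by
        rw [integral_norm_eq_lintegral_enorm (rm g).aestronglyMeasurable,
          ← eLpNorm_one_eq_lintegral_enorm]
        exact ENNReal.toReal_le_of_le_ofReal (by positivity)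
          ((eLpNorm_le_eLpNorm_of_exponent_le one_le_two (rm g).aestronglyMeasurable).trans
            (hβ g hg))
    have b2 : Integrable (fun z => ‖β z‖ ^ 2) ν := β2.norm.integrable_sq
    obtain ⟨A, hA⟩ : ∃ A, A = (∫ z, ‖β z‖ ^ 2 ∂ν) / (η / 2) + 1 := ⟨_, rfl⟩
    have I0 : 0 ≤ ∫ z, ‖β z‖ ^ 2 ∂ν := integral_nonneg fun _ => sq_nonneg _
    have A0 : 0 < A := by rw [hA]; positivity
    have m1 := maxOrb h c.μN hT (f := fun y => ∑ g ∈ F, ‖θ g y.1 - (β (g⁻¹ • y.1) - β y.1)‖)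
      (Finset.measurable_sum _ fun g _ => ((rm g).comp measurable_fst).norm)
      (fun _ => Finset.sum_nonneg fun _ _ => norm_nonneg _)
      ((integrable_finsetSum _ ri).comp_fst _) (half_pos hε)
    have m2 := maxOrb h c.μN hT (f := fun y => ‖β y.1‖ ^ 2)
      ((βm.comp measurable_fst).norm.pow_const 2) (fun _ => sq_nonneg _) (b2.comp_fst _) A0
    rw [integral_fun_fst fun z => ∑ g ∈ F, ‖θ g z - (β (g⁻¹ • z) - β z)‖, probReal_univ, one_smul,
      integral_finsetSum _ ri] at m1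
    rw [integral_fun_fst fun z => ‖β z‖ ^ 2, probReal_univ, one_smul] at m2
    have e1 : (∑ g ∈ F, ∫ z, ‖θ g z - (β (g⁻¹ • z) - β z)‖ ∂ν) / (ε / 2) ≤ η / 2 := by
      rw [div_le_iff₀ (half_pos hε)]
      refine (Finset.sum_le_card_nsmul _ _ _ rb).trans ?_
      rw [nsmul_eq_mul, ← mul_div_assoc, div_le_iff₀ (by positivity)]
      nlinarith [mul_pos hη hε]
    have e2 : (∫ z, ‖β z‖ ^ 2 ∂ν) / A ≤ η / 2 := by
      rw [div_le_iff₀ A0, hA, mul_add, mul_div_cancel₀ _ (half_pos hη).ne']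
      linarith
    refine le_trans (le_trans (measureReal_mono fun p hp => ?_) (measureReal_union_le _ _))
      ((add_le_add (m1.trans e1) (m2.trans e2)).trans_eq (by ring))
    obtain ⟨⟨z, u⟩, ω⟩ := p
    by_contra hn
    simp only [Set.mem_union, Set.mem_ofPred_eq, not_or, not_exists, not_lt, orb_skew] at hn
    have s1 : ∀ j, ‖θ (lp c.step (1, u) ω j) z - (β ((lp c.step (1, u) ω j)⁻¹ • z) - β z)‖ ≤
        ∑ l ∈ Finset.range j, ∑ g ∈ F, ‖θ g ((lp c.step (1, u) ω l)⁻¹ • z) -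
          (β (g⁻¹ • (lp c.step (1, u) ω l)⁻¹ • z) - β ((lp c.step (1, u) ω l)⁻¹ • z))‖ := by
      intro j
      induction j with
      | zero => simp [lp, cpath, θone]
      | succ j ih =>
        have e : lp c.step (1, u) ω (j + 1) =
            lp c.step (1, u) ω j * (c.step (cpath c.step (1, u) ω j).2 (ω j)).1 := rfl
        rw [Finset.sum_range_succ, e, θmul, mul_inv_rev, mul_smul]
        refine le_trans (le_of_eq (congrArg _ ?_)) (norm_add_le_of_le ih
          (Finset.single_le_sum (f := fun g => ‖θ g ((lp c.step (1, u) ω j)⁻¹ • z) -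
            (β (g⁻¹ • (lp c.step (1, u) ω j)⁻¹ • z) - β ((lp c.step (1, u) ω j)⁻¹ • z))‖)
            (fun _ _ => norm_nonneg _) (hF (cpath c.step (1, u) ω j).2 (ω j))))
        abel
    obtain ⟨Λ, hΛ⟩ := exists_nat_ge (ε / 2 + A / ε + ‖β z‖)
    refine hp ⟨Λ, fun j => ?_⟩
    have s2 : ‖β ((lp c.step (1, u) ω j)⁻¹ • z)‖ ^ 2 ≤ A * (j + 1) := by
      refine le_trans ?_ ((hn.2 (j + 1)).trans_eq (by rw [Nat.cast_succ]))
      rw [Finset.sum_range_succ]
      exact le_add_of_nonneg_left (Finset.sum_nonneg fun _ _ => sq_nonneg _)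
    have s3 : ‖β ((lp c.step (1, u) ω j)⁻¹ • z)‖ ≤ ε / 2 * (j + 1) + A / ε := by
      refine le_of_sq_le_sq (s2.trans ?_) (by positivity)
      have e : A * (j + 1) = ε / 2 * (j + 1) * (A / ε) * 2 := by field_simp
      rw [e]
      nlinarith [sq_nonneg (ε / 2 * (j + 1)), sq_nonneg (A / ε)]
    have s4 := norm_le_norm_add_norm_sub' (θ (lp c.step (1, u) ω j) z)
      (β ((lp c.step (1, u) ω j)⁻¹ • z) - β z)
    have s5 := norm_sub_le (β ((lp c.step (1, u) ω j)⁻¹ • z)) (β z)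
    have s6 := (s1 j).trans (hn.1 j)
    change ‖θ (lp c.step (1, u) ω j) z‖ ≤ _
    linarith
  have k2 := Measure.ae_ae_of_ae_prod
    (((measurePreserving_prodAssoc ν c.μσ (iid c.μN)).symm _).quasiMeasurePreserving.ae key)
  refine ae_all_iff.2 fun y => ((hD.mp y⁻¹).quasiMeasurePreserving.ae k2).mono fun z hz =>
    hz.mono fun x ⟨Λ, hx⟩ => ⟨Λ, fun j => le_trans (le_of_eq (congrArg _ ?_)) (hx j)⟩
  have e := θmul y (lp c.step (1, x.1) x.2 j) z
  rw [← lp_mul, mul_one, hθ, hθ y] at e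
  rw [Matrix.mulVec_sub]
  exact (sub_sub_sub_comm _ _ _ _).trans (sub_eq_of_eq_add' e)

end Vale.Agent.P188
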