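import Vale.Agent.P188.STd

/-! The structure theorem for the height cocycle. -/

namespace Vale.Agent.P188

open Function Filter Topology MeasureTheory

theorem st_ofLp_le {k : ℕ} (x : EuclideanSpace ℝ (Fin k)) : ‖x.ofLp‖ ≤ ‖x‖ :=
  (pi_norm_le_iff_of_nonneg (norm_nonneg _)).2 fun i => PiLp.norm_apply_le x i

theorem st_toLp_le (k : ℕ) : ∃ M : ℝ, 0 ≤ M ∧ ∀ x : Rk k,
    ‖(WithLp.toLp 2 x : EuclideanSpace ℝ (Fin k))‖ ≤ M * ‖x‖ :=
  ⟨_, norm_nonneg _, (EuclideanSpace.equiv (Fin k) ℝ).symm.toContinuousLinearMap.le_opNorm⟩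

theorem st_pow_mem {Γ : Type} [Group Γ] {S : Finset Γ} {g : Γ} {r : ℕ} (hg : g ∈ wBall S r)
    (n : ℕ) : g ^ n ∈ wBall S (n * r) := by
  induction n with
  | zero => simpa using st_one_mem 0
  | succ n ih =>
    rw [pow_succ, add_mul, one_mul]
    exact st_mul_mem ih hg

theorem st_lim {Z W Γ : Type} [MeasurableSpace Z] {ν : Measure Z} [IsProbabilityMeasure ν]
    [NormedAddCommGroup W] [InnerProductSpace ℝ W] [Group Γ]
    {U : Γ →* (Lp W 2 ν ≃ₗᵢ[ℝ] Lp W 2 ν)} {c : Γ → Lp W 2 ν} (hc : IsCocycle U c) (h : HACob U c)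
    (g : Γ) (d : Lp W 2 ν) {M : ℝ}
    (hM : ∀ n : ℕ, ∀ᵐ z ∂ν, ‖(c (g ^ n) + (n : ℝ) • d : Lp W 2 ν) z‖ ≤ n * M) :
    ∀ᵐ z ∂ν, ‖d z‖ ≤ M + 1 := by
  rw [ae_iff, ← measureReal_eq_zero_iff]
  refine le_antisymm (le_of_forall_pos_le_add fun η hη => ?_) measureReal_nonneg
  obtain ⟨ξ, hξ⟩ := h {g} (√η / 2) (by positivity)
  obtain ⟨n, h1⟩ := exists_nat_gt (4 * ‖ξ‖ / √η)
  have h2 : (0 : ℝ) < n := lt_of_le_of_lt (by positivity) h1
  rw [div_lt_iff₀ (by positivity)] at h1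
  have h3 := st_c_tel (st_c_res hc ξ) (g ^ ·) (pow_zero g) n
  have h4 : ‖c (g ^ n)‖ ≤ √η * n := by
    have h5 : ‖c (g ^ n) - (U (g ^ n) ξ - ξ)‖ ≤ n * (√η / 2) := by
      rw [h3]
      refine (norm_sum_le_of_le (n := fun _ => √η / 2) _ fun i _ => ?_).trans_eq (by simp)
      rw [LinearIsometryEquiv.norm_map, pow_succ, inv_mul_cancel_left]
      exact hξ g (Finset.mem_singleton_self g)
    have h6 := norm_sub_le (U (g ^ n) ξ) ξ
    rw [LinearIsometryEquiv.norm_map] at h6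
    linarith [norm_le_norm_add_norm_sub' (c (g ^ n)) (U (g ^ n) ξ - ξ)]
  have h5 := st_chebL _ h2 h4
  rw [mul_div_cancel_right₀ _ h2.ne', Real.sq_sqrt hη.le] at h5
  rw [zero_add]
  refine le_trans (ENNReal.toReal_mono (measure_ne_top _ _) (measure_mono_ae ?_)) h5
  filter_upwards [hM n, Lp.coeFn_add (c (g ^ n)) ((n : ℝ) • d), Lp.coeFn_smul (n : ℝ) d]
    with z a1 a2 a3 a4
  rw [a2, Pi.add_apply, a3, Pi.smul_apply] at a1
  have a5 := norm_sub_le (c (g ^ n) z + (n : ℝ) • d z) (c (g ^ n) z)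
  rw [add_sub_cancel_left, norm_smul, Real.norm_natCast] at a5
  have a6 := mul_lt_mul_of_pos_left (not_le.1 a4) h2
  change (n : ℝ) ≤ _
  linarith

theorem st_pf (hH : HST_stmt) (hE : Eig_stmt) (hC : Count_stmt) (hB : TowerBasic_stmt) :
    ST_stmt := by
  classical
  intro k Γ _ π w hT hw S hS K
  have hπ := (hB k Γ π w hT).2.1
  have := st_countable hS
  obtain ⟨C, hC'⟩ := st_ht_le π S
  obtain ⟨M, hM0, hM⟩ := st_toLp_le k
  choose t ht' using fun i : Fin k => hπ (Multiplicative.ofAdd (Pi.single i 1))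
  obtain ⟨r, hr⟩ := st_unif hS (Finset.univ.image t)
  refine ⟨k * (M * (C * (K * r) : ℕ) + 1), fun Z _ _ Q ν _ hν => ?_⟩
  obtain ⟨U, hU⟩ := st_rep (W := EuclideanSpace ℝ (Fin k)) hν
  have hbd : ∀ {g : Γ} {r : ℕ}, g ∈ wBall S r → ∀ z,
      ‖(WithLp.toLp 2 (ht π (Q.q z g)) : EuclideanSpace ℝ (Fin k))‖ ≤ M * (C * (K * r) : ℕ) :=
    fun hg z => (hM _).trans (mul_le_mul_of_nonneg_left (hC' _ _ (st_q_mem hS Q hg z)) hM0)
  have hmem : ∀ g, MemLp (fun z => (WithLp.toLp 2 (ht π (Q.q z g)) : EuclideanSpace ℝ (Fin k)))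
      2 ν := fun g => by
    let _ : MeasurableSpace Γ := ⊤
    obtain ⟨r, hg⟩ := st_exists hS g
    exact MemLp.of_bound ((measurable_from_top (f := fun y =>
      (WithLp.toLp 2 (ht π y) : EuclideanSpace ℝ (Fin k)))).comp
        (measurable_to_countable' fun y => Q.q_meas g y)).aestronglyMeasurable _
      (ae_of_all _ (hbd hg))
  obtain ⟨b, hb⟩ : ∃ b : Γ → Lp (EuclideanSpace ℝ (Fin k)) 2 ν,
      ∀ g, ∀ᵐ z ∂ν, b g z = WithLp.toLp 2 (ht π (Q.q z g)) :=
    ⟨fun g => (hmem g).toLp _, fun g => (hmem g).coeFn_toLp⟩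
  have hcoc : IsCocycle U b := fun g g' => by
    refine Lp.ext ?_
    filter_upwards [hb (g * g'), hb g, hU g (b g'), (hν g⁻¹).quasiMeasurePreserving.ae (hb g'),
      Lp.coeFn_add (b g) (U g (b g'))] with z a1 a2 a3 a4 a5
    rw [a5, Pi.add_apply, a1, a2, a3, a4, Q.q_mul, st_ht_mul, WithLp.toLp_add]
  obtain ⟨E, bE, D, _, h1, h2, h3, h4, h5, h6, h7⟩ := hH k Γ π w hT _ U b hcoc
  have h8 := st_noE hE hC hT hw hπ hS Q hcoc (fun g => (hb g).mono fun z a1 => by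
    rw [a1]
    exact st_ofLp_le (WithLp.toLp 2 _)) h1 h2 h3 h4 h5 h6 h7
  have h9 : ∀ g, bE g = 0 := fun g => (Submodule.mem_bot ℝ).1 (h8 ▸ h2 g)
  obtain ⟨d, hd⟩ : ∃ d : Fin k → Lp (EuclideanSpace ℝ (Fin k)) 2 ν, ∀ i,
    d i = Multiplicative.toAdd (D (Multiplicative.ofAdd (Pi.single i 1))) := ⟨_, fun _ => rfl⟩
  let Z0 : Set Z := {z | (∀ (g : Γ) i, d i (g • z) = d i z) ∧
    ∀ i, ‖d i z‖ ≤ M * (C * (K * r) : ℕ) + 1}
  have h10 : ∀ (g : Γ), ∀ z ∈ Z0, g • z ∈ Z0 := fun g z hz =>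
    ⟨fun g' i => by rw [← mul_smul, hz.1, hz.1], fun i => (hz.1 g i).symm ▸ hz.2 i⟩
  have h11 : ∀ᵐ z ∂ν, z ∈ Z0 := by
    refine (ae_all_iff.2 fun g => ae_all_iff.2 fun i => ?_).and (ae_all_iff.2 fun i => ?_)
    · have := hU g⁻¹ (d i)
      rw [hd, h6, ← hd, inv_inv] at this
      exact this.mono fun z a1 => a1.symm
    · refine st_lim (st_c_diff (π := π) hcoc h1 h6) h7 (t i) _ fun n => ?_
      rw [h9, sub_zero, map_pow, ht', map_pow, toAdd_pow, ← hd, Nat.cast_smul_eq_nsmul,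
        sub_add_cancel]
      filter_upwards [hb (t i ^ n)] with z a1
      rw [a1]
      refine (hbd (st_pow_mem (hr _ (Finset.mem_image_of_mem t (Finset.mem_univ i))) n) z).trans_eq
        ?_
      push_cast
      ring
  have h12 : MeasurableSet Z0 := by
    have a1 := fun i => Lp.stronglyMeasurable (d i)
    simp only [Z0, Set.ofPred_and, Set.ofPred_forall]
    exact (MeasurableSet.iInter fun g => MeasurableSet.iInter fun i =>
      ((a1 i).comp_measurable (hν g).measurable).measurableSet_eq_fun (a1 i)).inter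
      (MeasurableSet.iInter fun i => measurableSet_le (a1 i).norm.measurable measurable_const)
  have h13 : ∀ (x : Lp (EuclideanSpace ℝ (Fin k)) 2 ν) j, Measurable fun z => x z j := fun x j =>
    ((EuclideanSpace.proj j).continuous.comp_stronglyMeasurable (Lp.stronglyMeasurable x)).measurable
  have h14 : ∀ z (a : Rk k), (Matrix.of fun j i => d i z j).mulVec a = (∑ i, a i • d i z).ofLp :=
    fun z a => by
      funext j
      simp [Matrix.mulVec, dotProduct, mul_comm]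
  refine ⟨fun z => if z ∈ Z0 then Matrix.of fun j i => d i z j else 0, fun j i => ?_,
    fun g z => ?_, fun z a => ?_, fun F ε hε => ?_⟩
  · simp only [Matrix.ite_apply]
    exact Measurable.ite h12 (h13 _ j) measurable_const
  · by_cases hz : z ∈ Z0
    · simp only [hz, h10 g z hz, if_true, hz.1]
    · have : g • z ∉ Z0 := fun a1 => hz (by simpa using h10 g⁻¹ _ a1)
      simp only [hz, this, if_false]
  · dsimp only
    split_ifs with hz
    · rw [h14]
      refine (st_ofLp_le _).trans ((norm_sum_le_of_le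
        (n := fun _ => ‖a‖ * (M * (C * (K * r) : ℕ) + 1)) _ fun i _ => ?_).trans_eq ?_)
      · rw [norm_smul]
        exact mul_le_mul (norm_le_pi_norm a i) (hz.2 i) (norm_nonneg _) (norm_nonneg _)
      · simp only [Finset.sum_const, Finset.card_univ, Fintype.card_fin, nsmul_eq_mul]
        ring
    · rw [Matrix.zero_mulVec, norm_zero]
      positivity
  · obtain ⟨ξ, hξ⟩ := h7 F ε hε
    refine ⟨fun z => (ξ z).ofLp, measurable_pi_lambda _ (h13 ξ), (Lp.memLp ξ).of_le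
      (measurable_pi_lambda _ (h13 ξ)).aestronglyMeasurable
      (ae_of_all _ fun z => st_ofLp_le _), fun g hg => ?_⟩
    have a0 := hξ g hg
    simp only [h9, sub_zero] at a0
    rw [st_D_sum] at a0
    simp only [← hd] at a0
    refine le_trans (eLpNorm_mono_ae ?_) ((Lp.enorm_def _).symm.trans_le
      ((ofReal_norm _).symm.trans_le (ENNReal.ofReal_le_ofReal a0)))
    filter_upwards [h11, hb g, hU g ξ, st_comb d (toR (π g)), Lp.coeFn_sub (U g ξ) ξ,
      Lp.coeFn_sub (b g) (∑ i, toR (π g) i • d i),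
      Lp.coeFn_sub (b g - ∑ i, toR (π g) i • d i) (U g ξ - ξ)] with z a1 a2 a3 a4 a5 a6 a7
    rw [a7, Pi.sub_apply, a6, a5, Pi.sub_apply, Pi.sub_apply, a2, a3, a4, if_pos a1, h14]
    exact st_ofLp_le (WithLp.toLp 2 (ht π (Q.q z g)) - ∑ i, toR (π g) i • d i z -
      (ξ (g⁻¹ • z) - ξ z))

end Vale.Agent.P188
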