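import Vale.Agent.P188.ScaleDet

/-! P188: the scale argument on the two-sided stationary path. -/

namespace Vale.Agent.P188

open Function MeasureTheory
open scoped ENNReal NNReal

namespace Sc

section
variable {Y N : Type}

/-- The forward shift of the two-sided path. -/
def thF (T : N → Y → Y) (x : Y × ((ℕ → N) × (ℕ → N))) : Y × ((ℕ → N) × (ℕ → N)) :=
  (T (x.2.1 0) x.1, (fun j => x.2.1 (j + 1), consN (x.2.1 0) x.2.2))

/-- Exchange of past and future. -/
def swT (x : Y × ((ℕ → N) × (ℕ → N))) : Y × ((ℕ → N) × (ℕ → N)) := (x.1, (x.2.2, x.2.1))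

theorem consN_eta (ω : ℕ → N) : consN (ω 0) (fun j => ω (j + 1)) = ω := by
  funext j; cases j <;> rfl

/-- The invertible shift. -/
def thE (T T' : N → Y → Y) (h₁ : ∀ g y, T' g (T g y) = y) (h₂ : ∀ g y, T g (T' g y) = y) :
    Equiv.Perm (Y × ((ℕ → N) × (ℕ → N))) where
  toFun := thF T
  invFun := fun x => swT (thF T' (swT x))
  left_inv := fun x => by
    obtain ⟨y, ω, ω'⟩ := x
    simp only [thF, swT]
    refine Prod.ext (h₁ _ _) (Prod.ext (consN_eta ω) rfl)
  right_inv := fun x => by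
    obtain ⟨y, ω, ω'⟩ := x
    simp only [thF, swT]
    refine Prod.ext (h₂ _ _) (Prod.ext rfl (consN_eta ω'))

theorem thF_iter (T : N → Y → Y) (x : Y × ((ℕ → N) × (ℕ → N))) (t : ℕ) :
    ((thF T)^[t] x).1 = orb T x.1 x.2.1 t ∧ ((thF T)^[t] x).2.1 = fun j => x.2.1 (j + t) := by
  induction t with
  | zero => exact ⟨rfl, rfl⟩
  | succ t ih =>
    rw [Function.iterate_succ_apply']
    refine ⟨?_, ?_⟩
    · show T (((thF T)^[t] x).2.1 0) ((thF T)^[t] x).1 = _
      rw [ih.1, ih.2, orb]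
      simp
    · funext j
      show ((thF T)^[t] x).2.1 (j + 1) = _
      rw [ih.2]
      exact congrArg x.2.1 (by omega)

theorem thE_pow (T T' : N → Y → Y) (h₁ : ∀ g y, T' g (T g y) = y) (h₂ : ∀ g y, T g (T' g y) = y)
    (x : Y × ((ℕ → N) × (ℕ → N))) (i : ℤ) (t : ℕ) :
    (thE T T' h₁ h₂ ^ (i + t)) x = (thF T)^[t] ((thE T T' h₁ h₂ ^ i) x) := by
  induction t with
  | zero => simp
  | succ t ih =>
    rw [Function.iterate_succ_apply', ← ih, Nat.cast_succ, ← add_assoc, add_comm _ (1 : ℤ),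
      zpow_one_add]
    rfl

theorem thE_pow' (T T' : N → Y → Y) (h₁ : ∀ g y, T' g (T g y) = y)
    (h₂ : ∀ g y, T g (T' g y) = y) (x : Y × ((ℕ → N) × (ℕ → N))) (i : ℤ) (t : ℕ) :
    (thE T T' h₁ h₂ ^ (i - t)) x = swT ((thF T')^[t] (swT ((thE T T' h₁ h₂ ^ i) x))) := by
  induction t with
  | zero => simp [swT]
  | succ t ih =>
    rw [Function.iterate_succ_apply', show i - ((t + 1 : ℕ) : ℤ) = -1 + (i - t) by
      push_cast; ring, zpow_add, zpow_neg_one, Equiv.Perm.mul_apply, ih]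
    rfl

variable [MeasurableSpace Y] [MeasurableSpace N] {μ : Measure Y} [IsProbabilityMeasure μ]
  (P : Measure N) [IsProbabilityMeasure P]

theorem mp_swT : MeasurePreserving (swT (Y := Y) (N := N)) (μ.prod ((iid P).prod (iid P)))
    (μ.prod ((iid P).prod (iid P))) :=
  (MeasurePreserving.id μ).prod Measure.measurePreserving_swap

theorem mp_thF {T : N → Y → Y} (h : RMP μ T) : MeasurePreserving (thF T)
    (μ.prod ((iid P).prod (iid P))) (μ.prod ((iid P).prod (iid P))) := by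
  have h1 := (MeasurePreserving.id μ).prod ((mp_headTail P).prod (MeasurePreserving.id (iid P)))
  have h2 := (MeasurePreserving.id μ).prod (measurePreserving_prodAssoc P (iid P) (iid P))
  have h3 := (measurePreserving_prodAssoc μ P ((iid P).prod (iid P))).symm _
  have h4 := (h.mp_pair P).prod (MeasurePreserving.id ((iid P).prod (iid P)))
  have h5 := measurePreserving_prodAssoc μ P ((iid P).prod (iid P))
  have h6 := (MeasurePreserving.id μ).prod ((MeasurePreserving.id P).prod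
    (Measure.measurePreserving_swap (μ := iid P) (ν := iid P)))
  have h7 := (MeasurePreserving.id μ).prod ((measurePreserving_prodAssoc P (iid P) (iid P)).symm _)
  have h8 := (MeasurePreserving.id μ).prod ((mp_consN P).prod (MeasurePreserving.id (iid P)))
  exact (mp_swT P).comp (h8.comp (h7.comp (h6.comp (h5.comp (h4.comp (h3.comp (h2.comp h1)))))))

theorem mp_thE {T T' : N → Y → Y} (h : RMP μ T) (h' : RMP μ T') (h₁ : ∀ g y, T' g (T g y) = y)
    (h₂ : ∀ g y, T g (T' g y) = y) (i : ℤ) : MeasurePreserving (thE T T' h₁ h₂ ^ i :)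
    (μ.prod ((iid P).prod (iid P))) (μ.prod ((iid P).prod (iid P))) := by
  induction i using Int.induction_on with
  | zero => exact MeasurePreserving.id _
  | succ n ih =>
    rw [zpow_add_one, Equiv.Perm.coe_mul]
    exact ih.comp (mp_thF P h)
  | pred n ih =>
    rw [zpow_sub_one, Equiv.Perm.coe_mul]
    exact ih.comp ((mp_swT P).comp ((mp_thF P h').comp (mp_swT P)))

theorem mp_fwd : MeasurePreserving (fun x : Y × ((ℕ → N) × (ℕ → N)) => (x.1, x.2.1))
    (μ.prod ((iid P).prod (iid P))) (μ.prod (iid P)) :=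
  (MeasurePreserving.id μ).prod measurePreserving_fst

theorem mp_bwd : MeasurePreserving (fun x : Y × ((ℕ → N) × (ℕ → N)) => (x.1, x.2.2))
    (μ.prod ((iid P).prod (iid P))) (μ.prod (iid P)) :=
  (MeasurePreserving.id μ).prod measurePreserving_snd

theorem mp_head : MeasurePreserving (fun x : Y × ((ℕ → N) × (ℕ → N)) => (x.1, x.2.1 0))
    (μ.prod ((iid P).prod (iid P))) (μ.prod P) :=
  ((MeasurePreserving.id μ).prod (measurePreserving_eval_infinitePi (fun _ : ℕ => P) 0)).comp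
    (mp_fwd P)

end

theorem scale_num (C₁ η₁ C : ℝ) (hη : 0 < η₁) (hC : 0 < C) (L : ℕ) :
    C₁ * Real.exp (-η₁ * (8 * L : ℕ)) + (4 * L + 1) * (2 * (C * Real.exp (C * (1 / (2 * C) * L) - L)))
      ≤ (|C₁| + 8 * C) * (L + 1) * Real.exp (-(2 * min η₁ (1 / 4)) * L) := by
  have h0 : (0 : ℝ) ≤ L := by positivity
  have h1 : Real.exp (-η₁ * (8 * L : ℕ)) ≤ Real.exp (-(2 * min η₁ (1 / 4)) * L) := by
    refine Real.exp_le_exp.2 ?_
    have := min_le_left η₁ (1 / 4)
    push_cast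
    nlinarith
  have h2 : Real.exp (C * (1 / (2 * C) * L) - L) ≤ Real.exp (-(2 * min η₁ (1 / 4)) * L) := by
    refine Real.exp_le_exp.2 ?_
    have := min_le_right η₁ (1 / 4)
    have h3 : C * (1 / (2 * C) * L) = L / 2 := by field_simp
    rw [h3]
    nlinarith
  set e := Real.exp (-(2 * min η₁ (1 / 4)) * L)
  have he : 0 < e := Real.exp_pos _
  have h3 : C₁ * Real.exp (-η₁ * (8 * L : ℕ)) ≤ |C₁| * e :=
    (mul_le_mul_of_nonneg_right (le_abs_self _) (Real.exp_pos _).le).trans (by gcongr)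
  have h4 : (4 * L + 1) * (2 * (C * Real.exp (C * (1 / (2 * C) * L) - L))) ≤
      (4 * L + 1) * (2 * (C * e)) := by gcongr
  have h5 : 0 ≤ |C₁| * e * L := by positivity
  have h6 : 0 ≤ C * e := by positivity
  nlinarith

theorem le_ofReal_of_real {Ω : Type} [MeasurableSpace Ω] {Q : Measure Ω} [IsFiniteMeasure Q]
    {s : Set Ω} {r : ℝ} (h : Q.real s ≤ r) : Q s ≤ ENNReal.ofReal r := by
  rw [← ofReal_measureReal]
  exact ENNReal.ofReal_le_ofReal h

end Sc

open Sc in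
theorem scale_pf : Scale_stmt := by
  intro Y N _ _ μ _ P _ T T' hT hT' h₁ h₂ k U CU _ _ κ c ε₀ κ₀ hc hε₀ hκ hLD E b hE hb hEi hbi
    hf hf' C hC hst hst'
  set θ := thE T T' h₁ h₂ with hθ
  set Q := μ.prod ((iid P).prod (iid P)) with hQ
  have hmp : ∀ i : ℤ, MeasurePreserving (θ ^ i :) Q Q := mp_thE P hT hT' h₁ h₂
  set lam : ℝ := 1 / (2 * C) with hlam
  have hlam0 : 0 < lam := by positivity
  set ε : ℝ := min 1 (c * lam) with hε
  have hε0 : 0 < ε := lt_min one_pos (by positivity)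
  obtain ⟨C₁, η₁, hη₁, hC₁⟩ := hLD (ε / 8) (by positivity)
  set A₁ : ℕ → Set (Y × (ℕ → N)) := fun l =>
    {p | ∃ i j, i ≤ j ∧ j ≤ l ∧ ε / 8 * l < defic T U κ c ε₀ p.1 p.2 i j} with hA₁
  set A₂ : ℕ → Set (Y × (ℕ → N)) := fun L => {p | p.1 ∈ E ∧ b p.1 ≤ -(L : ℝ) ∧
      ∀ n : ℕ, ‖sumU T U p.1 p.2 n‖ ≤ κ₀ * n + lam * L} with hA₂
  set A₃ : ℕ → Set (Y × (ℕ → N)) := fun L => {p | p.1 ∈ E ∧ (L : ℝ) ≤ b p.1 ∧
      ∀ n : ℕ, ‖sumU T' (fun y g => -U (T' g y) g) p.1 p.2 n‖ ≤ κ₀ * n + lam * L} with hA₃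
  set fw : ℤ → Y × ((ℕ → N) × (ℕ → N)) → Y × (ℕ → N) := fun i x =>
    (((θ ^ i) x).1, ((θ ^ i) x).2.1) with hfw
  set bw : ℤ → Y × ((ℕ → N) × (ℕ → N)) → Y × (ℕ → N) := fun i x =>
    (((θ ^ i) x).1, ((θ ^ i) x).2.2) with hbw
  have hfwm : ∀ i, MeasurePreserving (fw i) Q (μ.prod (iid P)) := fun i => (mp_fwd P).comp (hmp i)
  have hbwm : ∀ i, MeasurePreserving (bw i) Q (μ.prod (iid P)) := fun i => (mp_bwd P).comp (hmp i)
  set Bad : ℕ → Set (Y × ((ℕ → N) × (ℕ → N))) := fun L =>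
    fw (-(4 * L)) ⁻¹' A₁ (8 * L) ∪ ⋃ i ∈ Finset.Icc (-(2 * (L : ℤ))) (2 * L),
      (fw i ⁻¹' A₂ L ∪ bw i ⁻¹' A₃ L) with hBad
  have hBadm : ∀ L : ℕ, Q (Bad L) ≤ ENNReal.ofReal ((|C₁| + 8 * C) * (L + 1) *
      Real.exp (-(2 * min η₁ (1 / 4)) * L)) := by
    intro L
    have e0 : 0 ≤ C * Real.exp (C * (lam * L) - L) := by positivity
    have e1 : Q (fw (-(4 * L)) ⁻¹' A₁ (8 * L)) ≤
        ENNReal.ofReal (C₁ * Real.exp (-η₁ * (8 * L : ℕ))) :=
      ((hfwm _).measure_preimage_le _).trans (le_ofReal_of_real (hC₁ (8 * L)))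
    have e2 : ∀ i : ℤ, Q (fw i ⁻¹' A₂ L ∪ bw i ⁻¹' A₃ L) ≤
        ENNReal.ofReal (2 * (C * Real.exp (C * (lam * L) - L))) := by
      intro i
      rw [two_mul, ENNReal.ofReal_add e0 e0]
      exact (measure_union_le _ _).trans (add_le_add
        (((hfwm _).measure_preimage_le _).trans
          (le_ofReal_of_real (hst (lam * L) L (by positivity))))
        (((hbwm _).measure_preimage_le _).trans
          (le_ofReal_of_real (hst' (lam * L) L (by positivity)))))
    have e3 : Q (⋃ i ∈ Finset.Icc (-(2 * (L : ℤ))) (2 * L), (fw i ⁻¹' A₂ L ∪ bw i ⁻¹' A₃ L)) ≤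
        ENNReal.ofReal ((4 * L + 1) * (2 * (C * Real.exp (C * (lam * L) - L)))) := by
      refine (measure_biUnion_finset_le _ _).trans ((Finset.sum_le_sum fun i _ => e2 i).trans ?_)
      rw [Finset.sum_const, Int.card_Icc, nsmul_eq_mul,
        ENNReal.ofReal_mul (p := 4 * L + 1) (by positivity),
        show (2 * (L : ℤ) + 1 - -(2 * (L : ℤ))).toNat = 4 * L + 1 by omega,
        show (4 * L + 1 : ℝ) = ((4 * L + 1 : ℕ) : ℝ) by push_cast; ring, ENNReal.ofReal_natCast]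
    have e4 : 0 ≤ C₁ * Real.exp (-η₁ * (8 * L : ℕ)) := measureReal_nonneg.trans (hC₁ (8 * L))
    refine (measure_union_le _ _).trans ((add_le_add e1 e3).trans ?_)
    rw [← ENNReal.ofReal_add e4 (by positivity)]
    exact ENNReal.ofReal_le_ofReal (scale_num C₁ η₁ C hη₁ hC L)
  have hstep : ∀ i : ℤ, ∀ x, ((θ ^ (i + 1)) x).1 = T (((θ ^ i) x).2.1 0) ((θ ^ i) x).1 := by
    intro i x
    have := thE_pow T T' h₁ h₂ x i 1
    rw [Nat.cast_one] at this
    rw [hθ, this]
    rfl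
  have ha1 : ∀ᵐ x ∂Q, ∀ i : ℤ, (((θ ^ (i + 1)) x).1 ∈ E ↔ ((θ ^ i) x).1 ∈ E) ∧
      (((θ ^ i) x).1 ∈ E → b ((θ ^ (i + 1)) x).1 - b ((θ ^ i) x).1 =
        κ (U ((θ ^ i) x).1 (((θ ^ i) x).2.1 0))) := by
    refine ae_all_iff.2 fun i => ?_
    have := ((mp_head P).comp (hmp i)).quasiMeasurePreserving.ae (hEi.and hbi)
    filter_upwards [this] with x hx
    rw [hstep]
    exact hx
  have hdet : ∀ᵐ x ∂Q, x ∈ Prod.fst ⁻¹' E → ∀ l : ℕ, 1 ≤ l → (ε₀ + 3) * l ≤ |b x.1| →
      ∃ L, l ≤ L ∧ x ∈ Bad L := by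
    filter_upwards [ha1, (hfwm 0).quasiMeasurePreserving.ae hf,
      (hbwm 0).quasiMeasurePreserving.ae hf'] with x hx hx1 hx2 hxE l hl hbl
    by_contra hcon
    push Not at hcon
    obtain ⟨s, hs⟩ := exists_prim fun i : ℤ => U ((θ ^ i) x).1 (((θ ^ i) x).2.1 0)
    have hs1 : ∀ (i : ℤ) (m : ℕ), s (i + m) - s i = sumU T U (fw i x).1 (fw i x).2 m := by
      intro i m
      rw [prim_add hs, sumU]
      refine Finset.sum_congr rfl fun t _ => ?_
      rw [hθ, thE_pow, (thF_iter T _ t).1, (thF_iter T _ t).2]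
      simp only [zero_add]
      rfl
    have hs2 : ∀ (i : ℤ) (m : ℕ), s (i - m) - s i =
        sumU T' (fun y g => -U (T' g y) g) (bw i x).1 (bw i x).2 m := by
      intro i m
      rw [prim_sub hs, sumU]
      refine Finset.sum_congr rfl fun t _ => ?_
      rw [hθ, thE_pow', Function.iterate_succ_apply']
      show -U (T' (((thF T')^[t] (swT ((θ ^ i) x))).2.1 0) ((thF T')^[t] (swT ((θ ^ i) x))).1)
        (((thF T')^[t] (swT ((θ ^ i) x))).2.1 0) = _
      rw [(thF_iter T' _ t).1, (thF_iter T' _ t).2]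
      simp only [zero_add]
      rfl
    have hE0 : ∀ i : ℤ, ((θ ^ i) x).1 ∈ E := by
      intro i
      induction i using Int.induction_on with
      | zero => exact hxE
      | succ n ih => exact (hx n).1.2 ih
      | pred n ih => exact (hx (-n - 1)).1.1 (by rwa [sub_add_cancel])
    have hb0 : ∀ i : ℤ, b ((θ ^ i) x).1 - κ (s i) = b x.1 - κ (s 0) := by
      have h3 : ∀ i : ℤ, b ((θ ^ (i + 1)) x).1 - κ (s (i + 1)) = b ((θ ^ i) x).1 - κ (s i) := by
        intro i
        have := (hx i).2 (hE0 i)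
        rw [hs, map_add]
        linarith
      intro i
      induction i using Int.induction_on with
      | zero => rfl
      | succ n ih => rw [h3, ih]
      | pred n ih => rw [← h3, sub_add_cancel, ih]
    have hb1 : ∀ i j : ℤ, κ (s j - s i) = b ((θ ^ j) x).1 - b ((θ ^ i) x).1 := by
      intro i j
      have h3 := hb0 i
      have h4 := hb0 j
      rw [map_sub]
      linarith
    obtain ⟨Λ₁, hΛ₁⟩ := hx1
    obtain ⟨Λ₂, hΛ₂⟩ := hx2
    refine absurd hbl (not_le.2 (scale_det2 s (fun i => b ((θ ^ i) x).1) c ε₀ κ₀ ε lam hc hε₀ hκ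
      (min_le_left _ _) hlam0.le (min_le_right _ _) l hl ?_ ?_ ?_ (|b x.1| + Λ₁ + Λ₂) ?_))
    · intro L hL i j i1 i2 i3
      by_contra h3
      rw [not_le] at h3
      refine hcon L hL (Or.inl ?_)
      obtain ⟨i', rfl⟩ : ∃ i' : ℕ, i = -(4 * (L : ℤ)) + i' := ⟨(i + 4 * L).toNat, by omega⟩
      obtain ⟨j', rfl⟩ : ∃ j' : ℕ, j = -(4 * (L : ℤ)) + j' := ⟨(j + 4 * L).toNat, by omega⟩
      refine ⟨i', j', by omega, by omega, ?_⟩
      rw [defic, ← hs1, ← hs1, sub_sub_sub_cancel_right, hb1]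
      push_cast at h3 ⊢
      linarith
    · intro L hL i hi h3
      by_contra h4
      push Not at h4
      refine hcon L hL (Or.inr (Set.mem_biUnion (Finset.mem_Icc.2 (abs_le.1 hi)) (Or.inl
        ⟨hE0 i, h3, fun n => ?_⟩)))
      rw [← hs1]
      exact h4 n
    · intro L hL i hi h3
      by_contra h4
      push Not at h4
      refine hcon L hL (Or.inr (Set.mem_biUnion (Finset.mem_Icc.2 (abs_le.1 hi)) (Or.inr
        ⟨hE0 i, h3, fun n => ?_⟩)))
      rw [← hs2]
      exact h4 n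
    · intro n
      have h3 : |b ((θ ^ n) x).1| ≤ |κ (s n - s 0)| + |b x.1| := by
        rw [hb1]
        have := abs_add_le (b ((θ ^ n) x).1 - b x.1) (b x.1)
        rwa [sub_add_cancel] at this
      have h5 : (0 : ℝ) ≤ Λ₁ := by positivity
      have h6 : (0 : ℝ) ≤ Λ₂ := by positivity
      obtain ⟨m, rfl | rfl⟩ := n.eq_nat_or_neg
      · have h4 := hΛ₁ m
        rw [← hs1, zero_add] at h4
        simp only [Int.cast_natCast, Nat.abs_cast]
        linarith
      · have h4 := hΛ₂ m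
        rw [← hs2, zero_sub] at h4
        simp only [Int.cast_neg, Int.cast_natCast, abs_neg, Nat.abs_cast]
        linarith
  have hη₂ : 0 < min η₁ (1 / 4) := lt_min hη₁ (by norm_num)
  have hfin := exp_int Q (fun x => b x.1) (Prod.fst ⁻¹' E) (measurable_fst hE) (ε₀ + 3)
    (by positivity) Bad hdet _ _ hη₂ hBadm
  have hm : Measurable fun y => Real.exp (min η₁ (1 / 4) / (ε₀ + 3) * |b y|) := by fun_prop
  refine ⟨min η₁ (1 / 4) / (ε₀ + 3), by positivity, hm.aestronglyMeasurable, ?_⟩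
  rw [hasFiniteIntegral_iff_ofReal (Filter.Eventually.of_forall fun y => (Real.exp_pos _).le)]
  have hfst : MeasurePreserving Prod.fst Q μ := measurePreserving_fst
  rw [← (hfst.restrict_preimage hE).lintegral_comp hm.ennreal_ofReal]
  exact hfin

end Vale.Agent.P188
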