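import Vale.Agent.P188.Stmts

/-! Elementary properties of the logarithmic size. -/

namespace Vale.Agent.P188

open Function

namespace SzBasic

variable {k : ℕ} {Γ : Type} [Group Γ] {π : Γ →* Zk k} {S : Finset Γ}

lemma ht_one : ht π 1 = 0 := by
  ext i; simp [ht, toR]

lemma ht_mul (g h : Γ) : ht π (g * h) = ht π g + ht π h := by
  ext i; simp [ht, toR]

lemma ht_inv (g : Γ) : ht π g⁻¹ = -ht π g := by
  ext i; simp [ht, toR]

lemma word_append {l l' : List Γ} (h : IsWord S l) (h' : IsWord S l') : IsWord S (l ++ l') :=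
  fun x hx => (List.mem_append.1 hx).elim (h x) (h' x)

lemma word_inv {l : List Γ} (h : IsWord S l) : IsWord S (l.map fun x => x⁻¹).reverse := by
  intro x hx
  obtain ⟨y, hy, rfl⟩ := List.mem_map.1 (List.mem_reverse.1 hx)
  simpa [or_comm] using h y hy

lemma wBall_mul {r r' : ℕ} {g g' : Γ} (h : g ∈ wBall S r) (h' : g' ∈ wBall S r') :
    g * g' ∈ wBall S (r + r') := by
  obtain ⟨l, h1, h2, rfl⟩ := h
  obtain ⟨l', h1', h2', rfl⟩ := h'
  exact ⟨l ++ l', word_append h1 h1', by simpa using add_le_add h2 h2', List.prod_append⟩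

lemma wBall_inv {r : ℕ} {g : Γ} (h : g ∈ wBall S r) : g⁻¹ ∈ wBall S r := by
  obtain ⟨l, h1, h2, rfl⟩ := h
  exact ⟨_, word_inv h1, by simpa using h2, (List.prod_inv_reverse l).symm⟩

lemma wBall_one (r : ℕ) : (1 : Γ) ∈ wBall S r := ⟨[], fun _ h => by simp at h, by simp, rfl⟩

lemma wBall_zpow {r : ℕ} {g : Γ} (h : g ∈ wBall S r) (n : ℤ) :
    g ^ n ∈ wBall S (n.natAbs * r) := by
  have hp : ∀ n : ℕ, g ^ n ∈ wBall S (n * r) := fun n => by
    induction n with
    | zero => simpa using wBall_one 0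
    | succ n ih => rw [pow_succ, add_mul, one_mul]; exact wBall_mul ih h
  obtain ⟨m, rfl | rfl⟩ := n.eq_nat_or_neg
  · simpa using hp m
  · simpa using wBall_inv (hp m)

lemma mem_wBall (hS : Subgroup.closure (S : Set Γ) = ⊤) (g : Γ) :
    g ∈ wBall S (wordLength S g) := by
  have : ∃ r, g ∈ wBall S r := by
    have hg : g ∈ Subgroup.closure (S : Set Γ) := hS ▸ Subgroup.mem_top g
    induction hg using Subgroup.closure_induction with
    | mem x hx => exact ⟨1, [x], fun y hy => Or.inl (List.mem_singleton.1 hy ▸ hx), le_rfl, by simp⟩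
    | one => exact ⟨0, wBall_one 0⟩
    | mul x y _ _ hx hy => exact ⟨_, wBall_mul hx.choose_spec hy.choose_spec⟩
    | inv x _ hx => exact ⟨_, wBall_inv hx.choose_spec⟩
  obtain ⟨r, l, h1, -, h2⟩ := this
  obtain ⟨l', h3, h4, h5⟩ := Nat.sInf_mem (s := {n | ∃ l : List Γ, l.length = n ∧
    (∀ x ∈ l, x ∈ S ∨ x⁻¹ ∈ S) ∧ l.prod = g}) ⟨_, l, rfl, h1, h2⟩
  exact ⟨l', h4, h3.le, h5⟩

lemma norm_prod_le {A : ℝ} (hA : ∀ s ∈ S, ‖ht π s‖ ≤ A) :
    ∀ l : List Γ, IsWord S l → ‖ht π l.prod‖ ≤ A * l.length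
  | [], _ => by simp [ht_one]
  | x :: l, h => by
    have h1 := norm_prod_le hA l fun y hy => h y (List.mem_cons_of_mem _ hy)
    have h2 : ‖ht π x‖ ≤ A := (h x List.mem_cons_self).elim (hA x) fun hx => by
      simpa [ht_inv] using hA _ hx
    rw [List.prod_cons, ht_mul, List.length_cons]
    push_cast
    linarith [norm_add_le (ht π x) (ht π l.prod)]

lemma exists_hBall (π : Γ →* Zk k) (S : Finset Γ) : ∃ C : ℕ, ∀ r : ℕ, ∀ g ∈ wBall S r,
    g ∈ hBall S (ht π) (2 ^ (C * r)) (C * r : ℕ) := by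
  obtain ⟨A, hA⟩ := exists_nat_ge (∑ s ∈ S, ‖ht π s‖)
  have hA' : ∀ s ∈ S, ‖ht π s‖ ≤ A := fun s hs =>
    (Finset.single_le_sum (f := fun s => ‖ht π s‖) (fun _ _ => norm_nonneg _) hs).trans hA
  refine ⟨A + 1, ?_⟩
  rintro r _ ⟨l, h1, h2, rfl⟩
  refine ⟨l, h1, h2.trans (le_trans (by nlinarith) Nat.lt_two_pow_self.le), rfl, fun i => ?_⟩
  refine (norm_prod_le hA' _ fun y hy => h1 y (List.mem_of_mem_take hy)).trans ?_
  have : (l.take i).length ≤ r := (List.length_take_le' i l).trans h2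
  exact_mod_cast (Nat.mul_le_mul (Nat.le_succ A) this)

lemma sz_le {g : Γ} {n : ℕ} (h : g ∈ hBall S (ht π) (2 ^ n) n) : sz S π g ≤ n := Nat.sInf_le h

end SzBasic

open SzBasic

theorem szBasic_pf : SzBasic_stmt := by
  intro k Γ _ π S hS
  obtain ⟨C, hC⟩ := exists_hBall π S
  have hm : ∀ g, g ∈ hBall S (ht π) (2 ^ sz S π g) (sz S π g) := fun g =>
    Nat.sInf_mem (s := {n : ℕ | g ∈ hBall S (ht π) (2 ^ n) n}) ⟨_, hC _ _ (mem_wBall hS g)⟩
  have hh : ∀ (l : List Γ) (ρ : ℝ), (∀ i, ‖ht π (l.take i).prod‖ ≤ ρ) → ‖ht π l.prod‖ ≤ ρ :=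
    fun l ρ h => by simpa using h l.length
  refine ⟨hm, ?_, fun g h => ?_, fun g => ?_, fun g => ?_,
    ⟨C, fun g => sz_le (hC _ _ (mem_wBall hS g))⟩, fun hb => ?_⟩
  · simpa using sz_le (hC 0 1 (wBall_one 0))
  · obtain ⟨l, h1, h2, h3, h4⟩ := hm g
    obtain ⟨l', h1', h2', h3', h4'⟩ := hm h
    refine sz_le ⟨l ++ l', word_append h1 h1', ?_, by rw [List.prod_append, h3, h3'], fun i => ?_⟩
    · have a := Nat.pow_le_pow_right two_pos (Nat.le_add_right (sz S π g) (sz S π h))
      have b := Nat.pow_le_pow_right two_pos (Nat.le_add_left (sz S π h) (sz S π g))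
      rw [List.length_append, pow_succ]
      omega
    · rw [List.take_append, List.prod_append, ht_mul]
      push_cast
      linarith [norm_add_le (ht π (l.take i).prod) (ht π (l'.take (i - l.length)).prod),
        h4 i, h4' (i - l.length)]
  · obtain ⟨l, h1, h2, h3, h4⟩ := hm g
    refine sz_le ⟨_, word_inv h1, ?_, by rw [← List.prod_inv_reverse, h3], fun i => ?_⟩
    · simpa using h2.trans (Nat.pow_le_pow_right two_pos (by omega))
    · rw [List.take_reverse, ← List.map_drop, ← List.prod_inv_reverse, ht_inv, norm_neg]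
      generalize (l.map fun x => x⁻¹).length - i = j
      have e : ht π (l.drop j).prod = ht π l.prod - ht π (l.take j).prod := by
        rw [← List.prod_take_mul_prod_drop l j, ht_mul, add_sub_cancel_left]
      rw [e]
      push_cast
      linarith [norm_sub_le (ht π l.prod) (ht π (l.take j).prod), h4 j, hh l _ h4]
  · obtain ⟨l, -, -, h3, h4⟩ := hm g
    simpa only [h3] using hh l _ h4
  · let e := MulEquiv.ofBijective π hb
    let x : Fin k → Γ := fun i => e.symm (Multiplicative.ofAdd (Pi.single i 1))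
    refine ⟨C * ∑ i, wordLength S (x i), fun g => ?_⟩
    let a := Multiplicative.toAdd (π g)
    have key : ∀ s : Finset (Fin k), e.symm (Multiplicative.ofAdd (∑ i ∈ s, a i • Pi.single i 1)) ∈
        wBall S (∑ i ∈ s, (a i).natAbs * wordLength S (x i)) := fun s => by
      classical
      induction s using Finset.induction_on with
      | empty => simpa using wBall_one 0
      | insert i s hi ih =>
        rw [Finset.sum_insert hi, Finset.sum_insert hi, ofAdd_add, map_mul, ofAdd_zsmul, map_zpow]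
        exact wBall_mul (wBall_zpow (mem_wBall hS _) _) ih
    have h1 := key Finset.univ
    rw [← pi_eq_sum_univ' a] at h1
    have h2 := sz_le (π := π) (hC _ _ h1)
    rw [show e.symm (Multiplicative.ofAdd a) = g from e.symm_apply_apply g] at h2
    refine (Nat.cast_le.2 h2).trans ?_
    push_cast
    rw [mul_assoc, Finset.sum_mul]
    refine mul_le_mul_of_nonneg_left (Finset.sum_le_sum fun i _ => ?_) (by positivity)
    have h3 : ‖ht π g i‖ ≤ ‖ht π g‖ := norm_le_pi_norm _ i
    rw [mul_comm, Nat.cast_natAbs, Int.cast_abs]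
    exact mul_le_mul_of_nonneg_left (h3.trans (by linarith)) (by positivity)

end Vale.Agent.P188
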