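import Vale.Agent.P188.NilB

/-! The logarithmic size along an extension, and counting in towers. -/

namespace Vale.Agent.P188.Nil

open Pointwise Function

variable {G G' : Type*} [Group G] [Group G']

lemma coord_of_ht {k : ℕ} (π : G →* Zk k) {g : G} {ρ : ℕ} (h : ‖ht π g‖ ≤ ρ) (i : Fin k) :
    |Multiplicative.toAdd (π g) i| ≤ ρ := by
  have h1 := (norm_le_pi_norm (ht π g) i).trans h
  simp only [ht, toR, Real.norm_eq_abs] at h1
  exact_mod_cast h1

/-- The main estimate: words with bounded heights are short in the kernel. -/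
lemma main_est {k : ℕ} (π : G →* Zk k) (hπ : Surjective π) {xs : List G} (hx : cl xs = π.ker)
    (S : Finset G) : ∃ (σ : Zk k → G) (K : ℕ), 1 ≤ K ∧ σ 1 = 1 ∧
      ∀ r ρ : ℕ, ∀ g ∈ hBall S (ht π) r ρ, (∀ i, |Multiplicative.toAdd (π g) i| ≤ ρ) ∧
        g * (σ (π g))⁻¹ ∈ Sy xs ^ (r * K ^ (ρ + 1)) := by
  obtain ⟨σ, K, hK, h1, -, h⟩ := exp_sec π hπ hx S.toList
  refine ⟨σ, K, hK, h1, ?_⟩
  have key : ∀ (ρ : ℕ) (l : List G), IsWord S l → (∀ i, ‖ht π (l.take i).prod‖ ≤ ρ) →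
      l.prod * (σ (π l.prod))⁻¹ ∈ Sy xs ^ (l.length * K ^ (ρ + 1)) := by
    intro ρ l
    induction l using List.reverseRecOn with
    | nil => intro _ _; simp [h1]
    | append_singleton l s ih =>
      intro hw hh
      have h2 : ∀ i, ‖ht π (l.take i).prod‖ ≤ ρ := by
        intro i
        have := hh (min i l.length)
        rwa [List.take_append_of_le_length (min_le_right _ _), ← List.take_take,
          List.take_length] at this
      have h3 := ih (fun x hx => hw x (List.mem_append_left _ hx)) h2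
      have hs : s ∈ Sy S.toList := Or.inr (by simpa using hw s (by simp))
      have h4 := h2 l.length
      have h5 := hh (l ++ [s]).length
      rw [List.take_length] at h4 h5
      rw [List.prod_append, List.prod_singleton] at h5 ⊢
      have h6 := h ρ s hs (π l.prod) (coord_of_ht π h4) (by
        rw [← map_mul]; exact coord_of_ht π h5)
      have h7 := mul_mem_pow h3 h6
      convert h7 using 1
      · simp [add_mul]
      · rw [map_mul]; group
  rintro r ρ _ ⟨l, hw, hl, rfl, hh⟩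
  refine ⟨?_, up_Sy (key ρ l hw hh) (Nat.mul_le_mul_right _ hl)⟩
  have := hh l.length
  rw [List.take_length] at this
  exact coord_of_ht π this

lemma ext_good {k : ℕ} {Γ Γ' : Type} [Group Γ] [Group Γ'] {π' : Γ' →* Zk k} {L : Layer k}
    (E : Ext L Γ Γ' π') {xs : List Γ'} (h : Good π'.ker xs) (hx : cl xs = π'.ker) :
    ∃ ys : List Γ, Good (π'.comp E.p).ker (ys ++ (bas L.m).map E.ι) ∧
      cl (ys ++ (bas L.m).map E.ι) = (π'.comp E.p).ker := by
  obtain ⟨ys, rfl⟩ := exists_lifts E.p E.p_surj xs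
  have hz : cl ((bas L.m).map E.ι) = E.p.ker := (cl_bas E.ι).trans E.range_eq
  refine ⟨ys, ?_, by rw [cl_append E.p hz, hx, MonoidHom.comap_ker]⟩
  rw [← MonoidHom.comap_ker]
  refine good_lift E.p hz (good_bas E.ι E.ι_inj (fun v => ?_) fun g hg v => ?_) h
  · have : E.p (E.ι v) = 1 := by rw [← MonoidHom.mem_ker, ← E.range_eq]; exact ⟨v, rfl⟩
    rw [Subgroup.mem_comap, this]; exact one_mem _
  · have : π' (E.p g) = 1 := hg
    rw [E.conj, this]; simp [Layer.act]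

lemma tower_good {k : ℕ} {Γ : Type} [Group Γ] {π : Γ →* Zk k} {w : List (Wt k)}
    (T : Tower Γ π w) : Surjective π ∧ ∃ xs, Good π.ker xs ∧ cl xs = π.ker := by
  induction T with
  | base π h =>
    refine ⟨h.2, [], trivial, ?_⟩
    rw [(MonoidHom.ker_eq_bot_iff π).2 h.1]; simp [cl]
  | ext T L E ih =>
    obtain ⟨h1, xs, h2, h3⟩ := ih
    obtain ⟨ys, h⟩ := ext_good E h2 h3
    exact ⟨h1.comp E.p_surj, _, h⟩

lemma add_two_le {z a n : ℕ} (hz : 2 ≤ z) (h : a ≤ z ^ n) : a + 2 ≤ z ^ (n + 2) := by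
  obtain ⟨r, rfl⟩ := Nat.exists_eq_add_of_le' hz
  have := pw_add r n
  omega

theorem _root_.Vale.Agent.P188.count_pf : Count_stmt := by
  intro k Γ _ π w T S
  obtain ⟨hπ, xs, hg, hx⟩ := tower_good T
  obtain ⟨σ, K, hK, -, h⟩ := main_est π hπ hx S
  obtain ⟨d, hd⟩ := good_growth hg
  obtain ⟨d', hd'⟩ := good_growth (good_bas (N := ⊤) (MonoidHom.id (Zk k)) injective_id
    (fun _ => trivial) (fun g _ v => by simp))
  rw [MonoidHom.coe_id, List.map_id] at hd'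
  refine ⟨(K + 1 + 2) * d + (k + 1 + 2) * d' + 2, fun r ρ => ?_⟩
  have hsub : hBall S (ht π) r ρ ⊆ (fun p : Γ × Zk k => p.1 * σ p.2) ''
      ((Sy xs ^ (r * K ^ (ρ + 1))) ×ˢ (Sy (bas k) ^ (k * ρ))) := fun g hg =>
    ⟨(_, π g), ⟨(h r ρ g hg).2, mem_bas_pow (h r ρ g hg).1⟩, by simp⟩
  have hfin := (Sy_pow_finite xs (r * K ^ (ρ + 1))).prod (Sy_pow_finite (bas k) (k * ρ))
  refine (Set.ncard_le_ncard hsub (hfin.image _)).trans ((Set.ncard_image_le hfin).trans ?_)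
  rw [Set.ncard_prod]
  obtain ⟨z, hz⟩ : ∃ z, z = (r + 1) * 2 ^ (ρ + 1) := ⟨_, rfl⟩
  have hρ : ρ + 1 < 2 ^ (ρ + 1) := Nat.lt_two_pow_self
  have h1 : 2 ^ (ρ + 1) ≤ z := by rw [hz]; nlinarith
  have h2 : 2 ≤ z := by omega
  have h3 : r ≤ z := by rw [hz]; nlinarith
  have h4 : r * K ^ (ρ + 1) ≤ z ^ (K + 1) := by
    rw [pow_succ' z]
    refine Nat.mul_le_mul h3 ?_
    calc K ^ (ρ + 1) ≤ (2 ^ K) ^ (ρ + 1) := Nat.pow_le_pow_left Nat.lt_two_pow_self.le _
      _ = (2 ^ (ρ + 1)) ^ K := by rw [← pow_mul, ← pow_mul, mul_comm]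
      _ ≤ z ^ K := Nat.pow_le_pow_left h1 _
  have h5 : k * ρ ≤ z ^ (k + 1) := by
    rw [pow_succ]
    exact Nat.mul_le_mul (Nat.lt_two_pow_self.le.trans (Nat.pow_le_pow_left h2 _)) (by omega)
  calc _ ≤ (z ^ (K + 1 + 2)) ^ d * (z ^ (k + 1 + 2)) ^ d' :=
        Nat.mul_le_mul ((hd _).trans (Nat.pow_le_pow_left (add_two_le h2 h4) _))
          ((hd' _).trans (Nat.pow_le_pow_left (add_two_le h2 h5) _))
    _ = z ^ ((K + 1 + 2) * d + (k + 1 + 2) * d') := by rw [← pow_mul, ← pow_mul, ← pow_add]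
    _ ≤ z ^ ((K + 1 + 2) * d + (k + 1 + 2) * d' + 2) := Nat.pow_le_pow_right (by omega) (by omega)
    _ ≤ _ := by
        refine Nat.pow_le_pow_left ?_ _
        rw [hz, pow_succ, mul_assoc _ (r + 1)]
        nlinarith [Nat.zero_le (((K + 1 + 2) * d + (k + 1 + 2) * d') * ((r + 1) * 2 ^ ρ))]

lemma hBall_mono {k : ℕ} {S : Finset G} {π : G →* Zk k} {r r' : ℕ} {ρ ρ' : ℝ} (hr : r ≤ r')
    (hρ : ρ ≤ ρ') {g : G} (h : g ∈ hBall S (ht π) r ρ) : g ∈ hBall S (ht π) r' ρ' := by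
  obtain ⟨l, h1, h2, h3, h4⟩ := h
  exact ⟨l, h1, h2.trans hr, h3, fun i => (h4 i).trans hρ⟩

lemma hBall_mul {k : ℕ} {S : Finset G} {π : G →* Zk k} {r r' : ℕ} {ρ : ℝ} {g g' : G}
    (h : g ∈ hBall S (ht π) r ρ) (hg : π g = 1) (h' : g' ∈ hBall S (ht π) r' ρ) :
    g * g' ∈ hBall S (ht π) (r + r') ρ := by
  obtain ⟨l, h1, h2, rfl, h4⟩ := h
  obtain ⟨l', h1', h2', rfl, h4'⟩ := h'
  refine ⟨l ++ l', fun x hx => (List.mem_append.1 hx).elim (h1 x) (h1' x),
    by rw [List.length_append]; omega, List.prod_append, fun i => ?_⟩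
  rcases le_total i l.length with hi | hi
  · rw [List.take_append_of_le_length hi]; exact h4 i
  · rw [List.take_append, List.take_of_length_le hi, List.prod_append]
    have := h4' (i - l.length)
    simpa [ht, hg] using this

lemma hBall_pow {k : ℕ} {S : Finset G} {π : G →* Zk k} {r : ℕ} {ρ : ℝ} (hρ : 0 ≤ ρ) {Y : Set G}
    (hY : ∀ y ∈ Y, y ∈ hBall S (ht π) r ρ ∧ π y = 1) (n : ℕ) :
    ∀ g ∈ Y ^ n, g ∈ hBall S (ht π) (r * n) ρ := by
  induction n with
  | zero =>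
    intro g hg
    rw [pow_zero, Set.mem_one] at hg
    refine ⟨[], fun x hx => by simp at hx, by simp, by simp [hg], fun i => ?_⟩
    have : ht π 1 = 0 := by ext j; simp [ht, toR]
    simpa [this] using hρ
  | succ n ih =>
    intro g hg
    rw [pow_succ'] at hg
    obtain ⟨a, ha, b, hb, rfl⟩ := hg
    rw [mul_add, mul_one, add_comm]
    exact hBall_mul (hY a ha).1 (hY a ha).2 (ih b hb)

open Classical in
lemma hBall_map {k : ℕ} {S : Finset G} (p : G →* G') {π : G' →* Zk k} {r : ℕ} {ρ : ℝ} {g : G}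
    (h : g ∈ hBall S (ht (π.comp p)) r ρ) : p g ∈ hBall (S.image p) (ht π) r ρ := by
  obtain ⟨l, h1, h2, rfl, h4⟩ := h
  refine ⟨l.map p, fun x hx => ?_, by simpa using h2, by rw [map_list_prod], fun i => ?_⟩
  · obtain ⟨y, hy, rfl⟩ := List.mem_map.1 hx
    exact (h1 y hy).imp (Finset.mem_image_of_mem p) fun h => by
      rw [← map_inv]; exact Finset.mem_image_of_mem p h
  · rw [← List.map_take, ← map_list_prod]; exact h4 i

open Classical in
lemma hBall_lift {k : ℕ} {S : Finset G} (p : G →* G') {π : G' →* Zk k} {r : ℕ} {ρ : ℝ} {g : G'}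
    (h : g ∈ hBall (S.image p) (ht π) r ρ) :
    ∃ x ∈ hBall S (ht (π.comp p)) r ρ, p x = g := by
  obtain ⟨l, h1, h2, rfl, h4⟩ := h
  have : ∃ l' : List G, IsWord S l' ∧ l'.map p = l := by
    clear h2 h4
    induction l with
    | nil => exact ⟨[], fun x hx => by simp at hx, rfl⟩
    | cons a l ih =>
      obtain ⟨l', h5, rfl⟩ := ih fun x hx => h1 x (List.mem_cons_of_mem _ hx)
      have : ∃ b, (b ∈ S ∨ b⁻¹ ∈ S) ∧ p b = a := by
        rcases h1 a List.mem_cons_self with h | h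
        · obtain ⟨b, hb, rfl⟩ := Finset.mem_image.1 h
          exact ⟨b, Or.inl hb, rfl⟩
        · obtain ⟨b, hb, h⟩ := Finset.mem_image.1 h
          exact ⟨b⁻¹, Or.inr (by simpa using hb), by simp [h]⟩
      obtain ⟨b, hb, rfl⟩ := this
      exact ⟨b :: l', fun x hx => (List.mem_cons.1 hx).elim (fun e => e ▸ hb) (h5 x), rfl⟩
  obtain ⟨l', h5, rfl⟩ := this
  refine ⟨l'.prod, ⟨l', h5, by simpa using h2, rfl, fun i => ?_⟩, by rw [map_list_prod]⟩
  have := h4 i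
  rwa [← List.map_take, ← map_list_prod] at this

theorem _root_.Vale.Agent.P188.szExt_pf (h : SzBasic_stmt) : SzExt_stmt := by
  classical
  intro k Γ Γ' _ _ π' w T L E S hS
  have hS' : Subgroup.closure ((S.image E.p : Finset Γ') : Set Γ') = ⊤ := by
    rw [Finset.coe_image, ← MonoidHom.map_closure, hS,
      Subgroup.map_top_of_surjective _ E.p_surj]
  obtain ⟨hb, hb1, -⟩ := h k Γ (π'.comp E.p) S hS
  obtain ⟨hb', -⟩ := h k Γ' π' _ hS'
  have hker : ∀ v, (π'.comp E.p) (E.ι v) = 1 := fun v => by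
    have : E.p (E.ι v) = 1 := by rw [← MonoidHom.mem_ker, ← E.range_eq]; exact ⟨v, rfl⟩
    rw [MonoidHom.comp_apply, this, map_one]
  refine ⟨fun g => Nat.sInf_le (hBall_map E.p (hb g)), ?_, ?_, ?_⟩
  · have : ∀ g, ∃ x, E.p x = g ∧ sz S (π'.comp E.p) x ≤ sz (S.image E.p) π' g := fun g => by
      obtain ⟨x, hx, rfl⟩ := hBall_lift E.p (S := S) (by convert hb' g)
      exact ⟨x, rfl, Nat.sInf_le hx⟩
    choose s hs hs' using this
    refine ⟨fun g => if g = 1 then 1 else s g, by simp, fun g => ?_, fun g => ?_⟩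
    · by_cases hg : g = 1 <;> simp [hg, hs]
    · by_cases hg : g = 1
      · simp [hg, hb1]
      · simp only [hg, if_false]; convert hs' g
  · obtain ⟨c, hc⟩ := ((Sy_finite (bas L.m)).image fun v => sz S (π'.comp E.p) (E.ι v)).bddAbove
    refine ⟨c + L.m, fun v n hv => Nat.sInf_le ?_⟩
    have h1 := hom_pow E.ι (Z := E.ι '' Sy (bas L.m)) (fun x hx => ⟨x, hx, rfl⟩)
      (mem_bas_pow (ρ := 2 ^ n) (v := v) (by exact_mod_cast hv))
    have h2 := hBall_pow (S := S) (π := π'.comp E.p) (r := 2 ^ c) (ρ := c) (by positivity)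
      (Y := E.ι '' Sy (bas L.m)) (by
        rintro _ ⟨x, hx, rfl⟩
        have h3 : sz S (π'.comp E.p) (E.ι x) ≤ c := hc ⟨x, hx, rfl⟩
        exact ⟨hBall_mono (Nat.pow_le_pow_right (by omega) h3) (by exact_mod_cast h3) (hb _),
          hker x⟩) _ _ h1
    refine hBall_mono ?_ (by exact_mod_cast (by omega)) h2
    rw [show n + (c + L.m) = c + (L.m + n) by ring, pow_add, pow_add]
    exact Nat.mul_le_mul_left _ (Nat.mul_le_mul_right _ Nat.lt_two_pow_self.le)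
  · obtain ⟨hπ, xs, hg, hx⟩ := tower_good T
    obtain ⟨ys, hg', hx'⟩ := ext_good E hg hx
    obtain ⟨σ, K, hK, h1, hm⟩ := main_est (π'.comp E.p) (hπ.comp E.p_surj) hx' S
    obtain ⟨d, hd⟩ := good_sub hg'
    refine ⟨(K + 1 + 2) * d, fun v i => ?_⟩
    obtain ⟨n, hn⟩ : ∃ n, n = sz S (π'.comp E.p) (E.ι v) := ⟨_, rfl⟩
    have h2 := (hm _ _ _ (hb (E.ι v))).2
    rw [hker, h1, inv_one, mul_one, ← hn] at h2
    have h3 := hd _ _ h2 (by rw [cl_bas]; exact ⟨v, rfl⟩)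
    obtain ⟨u, hu, h4⟩ := lift_pow E.ι (fun z hz => lift_mem_Sy E.ι hz) h3
    rw [E.ι_inj h4] at hu
    refine (coord_le i _ v hu).trans ?_
    rw [← hn]
    have h5 : 2 ^ n * K ^ (n + 1) ≤ (2 ^ (n + 1)) ^ (K + 1) := by
      rw [pow_succ' (2 ^ (n + 1))]
      refine Nat.mul_le_mul (Nat.pow_le_pow_right (by omega) (by omega)) ?_
      calc K ^ (n + 1) ≤ (2 ^ K) ^ (n + 1) := Nat.pow_le_pow_left Nat.lt_two_pow_self.le _
        _ = (2 ^ (n + 1)) ^ K := by rw [← pow_mul, ← pow_mul, mul_comm]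
    have h6 : 2 ≤ 2 ^ (n + 1) := by
      have : 1 ≤ 2 ^ n := Nat.one_le_two_pow
      rw [pow_succ]; omega
    have h7 := Nat.pow_le_pow_left (add_two_le h6 h5) d
    rw [← pow_mul, ← pow_mul, mul_comm (n + 1)] at h7
    exact_mod_cast h7

end Vale.Agent.P188.Nil
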