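import Vale.Agent.P188.TTa

/-! P188: tail triviality along an extension. -/

namespace Vale.Agent.P188.TT

open Function MeasureTheory Filter Matrix
open scoped ENNReal NNReal Topology

/-- The shift on (state, noise, parameter). -/
def sh {G σ N X : Type} [Group G] (step : σ → N → G × σ) (j : ℕ)
    (q : ((G × σ) × (ℕ → N)) × X) : ((G × σ) × (ℕ → N)) × X :=
  ((cpath step q.1.1 q.1.2 j, fun l => q.1.2 (l + j)), q.2)

lemma sh_succ {G σ N X : Type} [Group G] (step : σ → N → G × σ) (j : ℕ) (x : G × σ)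
    (ω : ℕ → N) (p : X) :
    sh step (j + 1) ((x, ω), p) = sh step j ((mv step x (ω 0), fun j => ω (j + 1)), p) := by
  simp only [sh, cpath_succ']; rfl

lemma measurable_sh {G σ N X : Type} [Group G] [Countable G] [MeasurableSpace G]
    [DiscreteMeasurableSpace G] [MeasurableSpace σ] [MeasurableSpace N] [MeasurableSpace X]
    {step : σ → N → G × σ} (h : Measurable fun p : σ × N => step p.1 p.2) (j : ℕ) :
    Measurable (sh (X := X) step j) :=
  (((measurable_cpath step h j).comp measurable_fst).prodMk (measurable_pi_lambda _ fun _ =>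
    (measurable_pi_apply _).comp measurable_fst.snd)).prodMk measurable_snd

variable {k : ℕ} {L : Layer k} {Γ Γ' : Type} [Group Γ] [Group Γ'] {π' : Γ' →* Zk k}
  (E : Ext L Γ Γ' π') {c : Chain Γ'} {Xp : Type}

/-- The state with real coordinate `X` over `x`. -/
noncomputable def st (x : Γ × c.σ) (X : Fin L.m → ℝ) : Γ × (c.σ × Tor L.m) :=
  ((E.place x.1 X).1, (x.2, (E.place x.1 X).2))

/-- The fibre event. -/
def F0 (A : Set (((Γ × (c.σ × Tor L.m)) × (ℕ → c.N × (Fin L.m → ℝ))) × Xp))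
    (q : ((Γ × c.σ) × (ℕ → c.N)) × Xp) : Set ((Fin L.m → ℝ) × (ℕ → Fin L.m → ℝ)) :=
  {z | ((st E q.1.1 z.1, fun l => (q.1.2 l, z.2 l)), q.2) ∈ A}

/-- The new coordinate of the path without layer noise. -/
noncomputable def tau0 (s : Γ' → Γ) (a : Rk k) (ref' : c.B → ℕ → Γ') (lft : c.σ → c.N → Γ)
    (z : (Γ × c.σ) × (ℕ → c.N)) : L.Neg a → ℝ :=
  E.tau s a c.Θ ref' (lp (stepL c lft) z.1 z.2)

/-- The fibre probability as a function of the boundary coordinate. -/
noncomputable def HH (s : Γ' → Γ) (a : Rk k) (ref' : c.B → ℕ → Γ') (lft : c.σ → c.N → Γ)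
    (A : Set (((Γ × (c.σ × Tor L.m)) × (ℕ → c.N × (Fin L.m → ℝ))) × Xp))
    (q : ((Γ × c.σ) × (ℕ → c.N)) × Xp) (y : L.Neg a → ℝ) : ℝ :=
  fibG (F0 E A q) (L.emb a (y - tau0 E s a ref' lft q.1))

/-- Ball averages, as a function on the quotient chain. -/
noncomputable def an (s : Γ' → Γ) (a : Rk k) (ref' : c.B → ℕ → Γ') (lft : c.σ → c.N → Γ)
    (A : Set (((Γ × (c.σ × Tor L.m)) × (ℕ → c.N × (Fin L.m → ℝ))) × Xp)) (n : ℕ)
    (q : ((Γ' × c.σ) × (ℕ → c.N)) × (Xp × (L.Neg a → ℝ))) : ℝ :=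
  ⨍ y in Metric.ball (0 : L.Neg a → ℝ) (1 / ((n : ℝ) + 1)),
    HH E s a ref' lft A (((s q.1.1.1, q.1.1.2), q.1.2), q.2.1) (q.2.2 + y)

/-- The shift-invariant events of the quotient chain. -/
def En (s : Γ' → Γ) (a : Rk k) (ref' : c.B → ℕ → Γ') (lft : c.σ → c.N → Γ)
    (A : Set (((Γ × (c.σ × Tor L.m)) × (ℕ → c.N × (Fin L.m → ℝ))) × Xp)) (n : ℕ) :
    Set (((Γ' × c.σ) × (ℕ → c.N)) × (Xp × (L.Neg a → ℝ))) :=
  {q | 1 / 2 < limsup (fun j => an E s a ref' lft A n (sh c.step j q)) atTop}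

variable {E} {S : Finset Γ} {s : Γ' → Γ} {a : Rk k} {Cs κ₂ C : ℝ} {ref' : c.B → ℕ → Γ'}
  {post : Bool} {R : ℝ} {lft : c.σ → c.N → Γ} {r : Γ}
  {A : Set (((Γ × (c.σ × Tor L.m)) × (ℕ → c.N × (Fin L.m → ℝ))) × Xp)}

lemma En_shift (n : ℕ) (x : Γ' × c.σ) (ω : ℕ → c.N) (p : Xp × (L.Neg a → ℝ)) :
    ((x, ω), p) ∈ En E s a ref' lft A n ↔
      ((mv c.step x (ω 0), fun j => ω (j + 1)), p) ∈ En E s a ref' lft A n := by
  simp only [En, Set.mem_ofPred_eq]
  rw [← limsup_nat_add _ 1]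
  simp only [sh_succ]

section meas
variable [Countable Γ] [MeasurableSpace Γ] [DiscreteMeasurableSpace Γ] [MeasurableSpace Xp]

lemma measurable_F0 (hA : MeasurableSet A) : MeasurableSet
    {z : ((((Γ × c.σ) × (ℕ → c.N)) × Xp) × (Fin L.m → ℝ)) × (ℕ → Fin L.m → ℝ) |
      (z.1.2, z.2) ∈ F0 E A z.1.1} := by
  have h1 : Measurable fun z : ((((Γ × c.σ) × (ℕ → c.N)) × Xp) × (Fin L.m → ℝ)) ×
      (ℕ → Fin L.m → ℝ) => E.place z.1.1.1.1.1 z.1.2 :=
    (measurable_place E).comp (measurable_fst.fst.fst.fst.fst.prodMk measurable_fst.snd)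
  exact (((h1.fst.prodMk (measurable_fst.fst.fst.fst.snd.prodMk h1.snd)).prodMk
    (measurable_pi_lambda _ fun l => ((measurable_pi_apply l).comp
      measurable_fst.fst.fst.snd).prodMk ((measurable_pi_apply l).comp measurable_snd))).prodMk
    measurable_fst.fst.snd) hA

lemma measurable_G0 (hA : MeasurableSet A) : Measurable
    fun z : (((Γ × c.σ) × (ℕ → c.N)) × Xp) × (Fin L.m → ℝ) => fibG (F0 E A z.1) z.2 :=
  (measurable_measure_prodMk_left (ν := iid (noiseM L.m)) (measurable_F0 hA)).ennreal_toReal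

lemma measurable_HH (hA : MeasurableSet A)
    (hc : Measurable fun p : c.σ × c.N => (c.step p.1 p.2).2)
    (hl : Measurable fun p : c.σ × c.N => lft p.1 p.2)
    (hθ : Measurable (E.theta s a c.Θ ref')) : Measurable
    fun z : (((Γ × c.σ) × (ℕ → c.N)) × Xp) × (L.Neg a → ℝ) => HH E s a ref' lft A z.1 z.2 := by
  have h0 : Measurable (E.tau s a c.Θ ref') := hθ.snd
  have h1 : Measurable (tau0 E s a ref' lft) :=
    h0.comp (measurable_lp (stepL c lft) (hl.prodMk hc))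
  have h2 : Measurable fun z : (((Γ × c.σ) × (ℕ → c.N)) × Xp) × (L.Neg a → ℝ) =>
      (z.1, L.emb a (z.2 - tau0 E s a ref' lft z.1.1)) :=
    measurable_fst.prodMk ((continuous_emb L a).measurable.comp
      (measurable_snd.sub (h1.comp measurable_fst.fst)))
  have h3 := (measurable_G0 (E := E) hA).comp h2
  simpa only [HH, Function.comp_def] using h3

lemma measurable_En [Countable Γ'] [MeasurableSpace Γ'] [DiscreteMeasurableSpace Γ']
    (hA : MeasurableSet A) (hc : Measurable fun p : c.σ × c.N => c.step p.1 p.2)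
    (hl : Measurable fun p : c.σ × c.N => lft p.1 p.2)
    (hθ : Measurable (E.theta s a c.Θ ref')) (n : ℕ) :
    MeasurableSet (En E s a ref' lft A n) := by
  have hs : Measurable s := Measurable.of_discrete
  have h2 : Measurable fun z : (((Γ' × c.σ) × (ℕ → c.N)) × (Xp × (L.Neg a → ℝ))) ×
      (L.Neg a → ℝ) => ((((s z.1.1.1.1, z.1.1.1.2), z.1.1.2), z.1.2.1), z.1.2.2 + z.2) :=
    ((((hs.comp measurable_fst.fst.fst.fst).prodMk measurable_fst.fst.fst.snd).prodMk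
      measurable_fst.fst.snd).prodMk measurable_fst.snd.fst).prodMk
      (measurable_fst.snd.snd.add measurable_snd)
  have h4 := (measurable_HH hA hc.snd hl hθ).comp h2
  simp only [Function.comp_def] at h4
  have h3 : Measurable (an E s a ref' lft A n) := by
    unfold an
    refine measurable_avg ?_ _
    simpa only [Function.uncurry_def] using h4
  have h5 : ∀ j, Measurable fun q => an E s a ref' lft A n (sh c.step j q) := fun j => by
    simpa only [Function.comp_def] using h3.comp (measurable_sh hc j)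
  exact measurableSet_lt measurable_const (Measurable.limsup h5)

lemma fibSys (hA : MeasurableSet A) (hP : PathProp E S s a Cs c ref' post R lft r)
    (hi : ∀ x ω p, ((x, ω), p) ∈ A ↔
      ((mv (E.chain s a c ref' post R lft r).step x (ω 0), fun j => ω (j + 1)), p) ∈ A)
    (q : ((Γ × c.σ) × (ℕ → c.N)) × Xp) :
    FibSys L (beta E c lft post q.1.1 q.1.2) R fun j => F0 E A (sh (stepL c lft) j q) := by
  refine ⟨fun j => (show Measurable fun z : (Fin L.m → ℝ) × (ℕ → Fin L.m → ℝ) =>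
    ((sh (stepL c lft) j q, z.1), z.2) by fun_prop) (measurable_F0 hA), fun j X t => ?_⟩
  simp only [F0, Set.mem_ofPred_eq]
  rw [hi]
  have h := hP.one (cpath (stepL c lft) q.1.1 q.1.2 j).1 (cpath (stepL c lft) q.1.1 q.1.2 j).2
    X (q.1.2 j) (t 0)
  have hb : beta E c lft post q.1.1 q.1.2 j = π' (E.p (if post then
      (cpath (stepL c lft) q.1.1 q.1.2 j).1 * lft (cpath (stepL c lft) q.1.1 q.1.2 j).2 (q.1.2 j)
      else (cpath (stepL c lft) q.1.1 q.1.2 j).1)) := by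
    cases post <;> rfl
  rw [← hb] at h
  simp only [sh, st, zero_add]
  rw [h]
  simp only [Nat.add_right_comm _ 1 j]
  rfl

end meas

lemma beta_bound (hB : L.Big a Cs) (hP : PathProp E S s a Cs c ref' post R lft r)
    (x : Γ × c.σ) (ω : ℕ → c.N) :
    ∃ C : ℝ, ∀ j i, ¬ L.wt i a < 0 → -C ≤ L.wt i (toR (beta E c lft post x ω j)) := by
  obtain ⟨Λ, hΛ⟩ := hP.tr
  let b : ℝ := ‖ht (π'.comp E.p) (lp (stepL c lft) x ω 0)‖ + |Λ|
  refine ⟨∑ i, ‖L.wt i‖ * b, fun j i hi => ?_⟩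
  have h1 : ‖L.wt i‖ * b ≤ ∑ i, ‖L.wt i‖ * b :=
    Finset.single_le_sum (f := fun i => ‖L.wt i‖ * b) (fun i _ => by positivity)
      (Finset.mem_univ i)
  obtain ⟨n, hn⟩ : ∃ n : ℕ, toR (beta E c lft post x ω j) =
    ht (π'.comp E.p) (lp (stepL c lft) x ω n) := ⟨_, rfl⟩
  rw [hn]
  have h2 := (hΛ x ω n).2
  generalize ht (π'.comp E.p) (lp (stepL c lft) x ω n) = y at h2
  have h0 : 0 ≤ ‖L.wt i‖ * b := by positivity
  rcases hB.2 i with h | h
  · rw [h]; simp only [_root_.zero_apply]; linarith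
  · rw [abs_of_nonneg (not_lt.1 hi)] at h
    generalize hy0 : ht (π'.comp E.p) (lp (stepL c lft) x ω 0) = y0 at h2
    have h3 := (L.wt i).le_opNorm (y - y0 - (n : ℝ) • a)
    have h4 := (L.wt i).le_opNorm y0
    rw [map_sub, map_sub, map_smul, smul_eq_mul, Real.norm_eq_abs, abs_le] at h3
    rw [Real.norm_eq_abs, abs_le] at h4
    have h5 := mul_le_mul_of_nonneg_left h2 (norm_nonneg (L.wt i))
    have h6 := mul_le_mul_of_nonneg_left h (Nat.cast_nonneg (α := ℝ) n)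
    have h7 := mul_le_mul_of_nonneg_left (le_abs_self Λ) (norm_nonneg (L.wt i))
    have h8 : ‖L.wt i‖ * b = ‖L.wt i‖ * ‖y0‖ + ‖L.wt i‖ * |Λ| := by rw [← hy0]; ring
    nlinarith [h3.1, h4.1]

lemma tau0_sh [MeasurableSpace Γ] (hκ : Cs ≤ κ₂) (hP : PathProp E S s a Cs c ref' post R lft r)
    (hb : BdProp S (π'.comp E.p) a C κ₂ (E.theta s a c.Θ ref') (E.ref s a ref'))
    (q : ((Γ × c.σ) × (ℕ → c.N)) × Xp) (j : ℕ) :
    tau0 E s a ref' lft (sh (stepL c lft) j q).1 = tau0 E s a ref' lft q.1 := by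
  obtain ⟨Λ, hΛ⟩ := hP.tr
  induction j generalizing q with
  | zero => rfl
  | succ j ih =>
    obtain ⟨⟨x, ω⟩, p⟩ := q
    rw [sh_succ, ih]
    have h := congrArg Prod.snd (hb.shift Λ _ ((hΛ x ω).mono hκ le_rfl))
    refine Eq.trans ?_ h
    simp only [tau0, Ext.theta, lp, cpath_succ']
    rfl

lemma HH_sec (hs : ∀ g, E.p (s g) = g) (hκ : Cs ≤ κ₂)
    (hP : PathProp E S s a Cs c ref' post R lft r) (hT : TauProp E S s a κ₂ c.Θ ref')
    (hF : ∀ q X v, L.pr a v = 0 → fibG (F0 E A q) (X + v) = fibG (F0 E A q) X)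
    (g : Γ) (u : c.σ) (ω : ℕ → c.N) (p : Xp) (y : L.Neg a → ℝ) :
    HH E s a ref' lft A (((s (E.p g), u), ω), p) y = HH E s a ref' lft A (((g, u), ω), p) y := by
  obtain ⟨Λ, hΛ⟩ := hP.tr
  obtain ⟨v, hv⟩ : ∃ v, s (E.p g) = E.ι (Multiplicative.ofAdd v) * g :=
    ⟨E.vOf (s (E.p g) * g⁻¹), by rw [E.ι_vOf (by simp [hs])]; group⟩
  rw [hv]
  have h1 : tau0 E s a ref' lft ((E.ι (Multiplicative.ofAdd v) * g, u), ω) =
      tau0 E s a ref' lft ((g, u), ω) + L.pr a (L.co v) := by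
    rw [tau0, tau0, ← hT.transl Λ _ (fun _ => v) _ ((hΛ (g, u) ω).mono hκ le_rfl)
      tendsto_const_nhds]
    congr 1
    funext j
    exact lp_mul _ _ _ _ _ _
  have h2 : ∀ X, fibG (F0 E A (((E.ι (Multiplicative.ofAdd v) * g, u), ω), p)) X =
      fibG (F0 E A (((g, u), ω), p)) (X + L.co v) := fun X => by
    simp only [fibG, F0, st, Set.mem_ofPred_eq, E.place_ι_mul]
  simp only [HH]
  rw [h1, h2, ← hF _ (L.emb a (y - tau0 E s a ref' lft ((g, u), ω)))
    (L.emb a (y - (tau0 E s a ref' lft ((g, u), ω) + L.pr a (L.co v))) + L.co v -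
      L.emb a (y - tau0 E s a ref' lft ((g, u), ω)))]
  · congr 1; abel
  · rw [L.pr_sub, L.pr_add, L.pr_emb, L.pr_emb]; abel

lemma an_sh [MeasurableSpace Γ] (hs : ∀ g, E.p (s g) = g) (hκ : Cs ≤ κ₂)
    (hP : PathProp E S s a Cs c ref' post R lft r) (hT : TauProp E S s a κ₂ c.Θ ref')
    (hb : BdProp S (π'.comp E.p) a C κ₂ (E.theta s a c.Θ ref') (E.ref s a ref'))
    (hF : ∀ q X v, L.pr a v = 0 → fibG (F0 E A q) (X + v) = fibG (F0 E A q) X)
    (g : Γ) (u : c.σ) (ω : ℕ → c.N) (p : Xp) (z : L.Neg a → ℝ) (n j : ℕ) :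
    an E s a ref' lft A n (sh c.step j (((E.p g, u), ω),
        (p, tau0 E s a ref' lft ((g, u), ω) + z))) =
      ⨍ y in Metric.ball z (1 / ((n : ℝ) + 1)),
        fibG (F0 E A (sh (stepL c lft) j (((g, u), ω), p))) (L.emb a y) := by
  rw [avg_ball _ z]
  simp only [an, sh, ← hP.proj g u ω j]
  congr 1
  funext y
  rw [HH_sec hs hκ hP hT hF]
  have h := tau0_sh hκ hP hb (((g, u), ω), p) j
  simp only [sh] at h
  simp only [HH]
  rw [show tau0 E s a ref' lft ((lp (stepL c lft) (g, u) ω j,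
    (cpath (stepL c lft) (g, u) ω j).2), fun l => ω (l + j)) = _ from h]
  congr 2
  abel

lemma mp_Psi {U N V X : Type} [MeasurableSpace U] [MeasurableSpace N] [MeasurableSpace V]
    [MeasurableSpace X] (μU : Measure U) (μN : Measure N) (μV : Measure V) (μ : Measure X)
    [IsProbabilityMeasure μU] [IsProbabilityMeasure μN] [IsProbabilityMeasure μV]
    [IsFiniteMeasure μ] :
    MeasurePreserving (fun z : ((U × (ℕ → N)) × X) × (ℕ → V) =>
      ((z.1.1.1, fun l => (z.1.1.2 l, z.2 l)), z.1.2))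
      (((μU.prod (iid μN)).prod μ).prod (iid μV)) ((μU.prod (iid (μN.prod μV))).prod μ) := by
  have h1 := measurePreserving_prodAssoc (μU.prod (iid μN)) μ (iid μV)
  have h2 := (MeasurePreserving.id (μU.prod (iid μN))).prod
    (Measure.measurePreserving_swap (μ := μ) (ν := iid μV))
  have h3 := (measurePreserving_prodAssoc (μU.prod (iid μN)) (iid μV) μ).symm _
  have h4 := (((MeasurePreserving.id μU).prod (mp_zip μN μV)).comp
    (measurePreserving_prodAssoc μU (iid μN) (iid μV))).prod (MeasurePreserving.id μ)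
  exact h4.comp (h3.comp (h2.comp h1))

lemma ae_param {U U' W X Y : Type} [MeasurableSpace U] [MeasurableSpace U'] [MeasurableSpace W]
    [MeasurableSpace X] [MeasurableSpace Y] (μU : Measure U) (μU' : Measure U') (μW : Measure W)
    (μ : Measure X) (ν : Measure Y) [IsProbabilityMeasure μU] [IsProbabilityMeasure μU']
    [IsProbabilityMeasure μW] [IsFiniteMeasure μ] [SFinite ν] {P : (U × W) × (X × Y) → Prop}
    (h : ∀ᵐ p ∂(μU.prod μW).prod (μ.prod ν.toFinite), P p) :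
    ∀ᵐ q ∂((μU.prod μU').prod μW).prod μ, ∀ᵐ y ∂ν, P ((q.1.1.1, q.1.2), (q.2, y)) := by
  have h1 := Measure.ae_ae_of_ae_prod
    ((measurePreserving_prodAssoc (μU.prod μW) μ ν.toFinite).quasiMeasurePreserving.ae h)
  have h2 := ((measurePreserving_fst (μ := μU) (ν := μU')).prod
    (MeasurePreserving.id μW)).prod (MeasurePreserving.id μ)
  filter_upwards [h2.quasiMeasurePreserving.ae h1] with q hq
  exact (absolutelyContinuous_toFinite ν).ae_le hq

lemma fib_lim [Countable Γ] [MeasurableSpace Γ] [DiscreteMeasurableSpace Γ] [MeasurableSpace Xp]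
    (h1 : FibP_stmt) (h2 : FibM_stmt) (hR : R ≠ 0) (hB : L.Big a Cs)
    (hs : ∀ g, E.p (s g) = g) (hκ : Cs ≤ κ₂)
    (hP : PathProp E S s a Cs c ref' post R lft r) (hT : TauProp E S s a κ₂ c.Θ ref')
    (hb : BdProp S (π'.comp E.p) a C κ₂ (E.theta s a c.Θ ref') (E.ref s a ref'))
    (hA : MeasurableSet A) (hi : ∀ x ω p, ((x, ω), p) ∈ A ↔
      ((mv (E.chain s a c ref' post R lft r).step x (ω 0), fun j => ω (j + 1)), p) ∈ A)
    (E' : ℕ → Set (c.B × (Xp × (L.Neg a → ℝ)))) (γ : Γ) (u : c.σ) (v : Tor L.m)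
    (ω : ℕ → c.N) (p : Xp)
    (h : ∀ n, ∀ᵐ y, (((E.p γ, u), ω), (p, y)) ∈ En E s a ref' lft A n ↔
      (c.Θ (lp c.step (E.p γ, u) ω), (p, y)) ∈ E' n) :
    Tendsto (fun n => iid (noiseM L.m) {t | ¬ ((((γ, (u, v)), fun l => (ω l, t l)), p) ∈ A ↔
      ((E.theta s a c.Θ ref' (lp (E.chain s a c ref' post R lft r).step (γ, (u, v))
        fun l => (ω l, t l))).1, (p, (E.theta s a c.Θ ref'
          (lp (E.chain s a c ref' post R lft r).step (γ, (u, v)) fun l => (ω l, t l))).2)) ∈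
            E' n)}) atTop (𝓝 0) := by
  have hFS := fibSys hA hP hi
  have hFP := fun q => h1 k L a _ R hR (beta_bound hB hP _ _) _ (hFS q)
  have hF : ∀ q X v, L.pr a v = 0 → fibG (F0 E A q) (X + v) = fibG (F0 E A q) X :=
    fun q => hFP q 0
  obtain ⟨X, hX⟩ : ∃ X, E.place γ X = (γ, v) := ⟨_, hP.start γ v⟩
  obtain ⟨C', hC'⟩ := hP.geom (γ, u) ω
  have h3 := ENNReal.tendsto_ofReal (h2 k L a _ R hR ⟨C', hC'⟩ _ (hFS (((γ, u), ω), p))
    (hFP (((γ, u), ω), p)) X)
  rw [ENNReal.ofReal_zero] at h3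
  refine h3.congr fun n => ?_
  rw [ofReal_measureReal]
  refine measure_congr ?_
  filter_upwards [ae_sum L a hC' hR (tau0 E s a ref' lft ((γ, u), ω) + L.pr a X) (h n)] with t ht
  have h4 := hP.theta γ u X ω t
  rw [hX] at h4
  have h5 : (X, t) ∈ F0 E A (sh (stepL c lft) 0 (((γ, u), ω), p)) ↔
      (((γ, (u, v)), fun l => (ω l, t l)), p) ∈ A := by
    simp only [F0, sh, st, cpath, hX, Set.mem_ofPred_eq, add_zero]
  rw [add_assoc] at ht h4
  simp only [En, Set.mem_ofPred_eq, an_sh hs hκ hP hT hb hF] at ht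
  refine propext (not_congr (iff_congr h5 ?_))
  rw [h4]
  exact ht

theorem _root_.Vale.Agent.P188.ttExt_pf (h1 : FibP_stmt) (h2 : FibM_stmt) : TTExt_stmt := by
  intro k Γ Γ' _ _ _ _ _ _ _ _ π' L E S s a Cs κ₂ C c ref' post R lft r hR _ hκ hB hs hc hT _ hl
    hc' hb hτ hP Xp _ μ _ A hA hi
  choose E' hE'm hE' using fun n => hT (Xp × (L.Neg a → ℝ)) (μ.prod volume.toFinite)
    (En E s a ref' lft A n) (measurable_En hA hc.meas_step hl.meas hb.meas_Θ n) (En_shift n)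
  obtain ⟨E2, hE2⟩ : ∃ E2 : ℕ → Set ((c.B × (L.Neg a → ℝ)) × Xp),
    ∀ n, E2 n = (fun z => (z.1.1, (z.2, z.1.2))) ⁻¹' E' n := ⟨_, fun _ => rfl⟩
  have hE2m : ∀ n, MeasurableSet (E2 n) := fun n => by
    rw [hE2]
    exact (measurable_fst.fst.prodMk (measurable_snd.prodMk measurable_fst.snd)) (hE'm n)
  obtain ⟨bad, hbad⟩ : ∃ bad : Γ → ℕ →
      Set (((c.σ × Tor L.m) × (ℕ → c.N × (Fin L.m → ℝ))) × Xp), ∀ γ n, bad γ n =
      {p | ¬ ((((γ, p.1.1), p.1.2), p.2) ∈ A ↔ (E.theta s a c.Θ ref'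
        (lp (E.chain s a c ref' post R lft r).step (γ, p.1.1) p.1.2), p.2) ∈ E2 n)} :=
    ⟨_, fun _ _ => rfl⟩
  have hbm : ∀ γ n, MeasurableSet (bad γ n) := fun γ n => by
    have h3 : Measurable fun p : ((c.σ × Tor L.m) × (ℕ → c.N × (Fin L.m → ℝ))) × Xp =>
        ((γ, p.1.1), p.1.2) :=
      (measurable_const.prodMk measurable_fst.fst).prodMk measurable_fst.snd
    have h4 := (hb.meas_Θ.comp ((measurable_lp _ hc'.meas_step).comp h3)).prodMk measurable_snd
    rw [hbad]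
    exact (((h3.prodMk measurable_snd) hA).iff (h4 (hE2m n))).compl
  have hlim : ∀ γ, Tendsto (fun n => ((c.μσ.prod (torM L.m)).prod
      (iid (c.μN.prod (noiseM L.m)))).prod μ (bad γ n)) atTop (𝓝 0) := fun γ => by
    have h3 := mp_Psi (c.μσ.prod (torM L.m)) c.μN (noiseM L.m) μ
    refine Tendsto.congr (fun n => (Measure.prod_apply (h3.measurable (hbm γ n))).symm.trans
      (h3.measure_preimage (hbm γ n).nullMeasurableSet)) ?_
    rw [← lintegral_zero (μ := ((c.μσ.prod (torM L.m)).prod (iid c.μN)).prod μ)]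
    refine tendsto_lintegral_of_dominated_convergence (fun _ => 1)
      (fun n => measurable_measure_prodMk_left (h3.measurable (hbm γ n)))
      (fun n => ae_of_all _ fun q => prob_le_one) (by simp) ?_
    filter_upwards [ae_all_iff.2 fun n => ae_param c.μσ (torM L.m) (iid c.μN) μ volume
      (hE' n (E.p γ))] with q hq
    have := fib_lim h1 h2 hR hB hs hκ hP hτ hb hA hi E' γ q.1.1.1 q.1.1.2 q.1.2 q.2 hq
    simp only [hbad, hE2]
    exact this
  obtain ⟨φ, hφ⟩ := subseq_ae _ bad hlim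
  refine ⟨⋃ N, ⋂ j, ⋂ _ : N ≤ j, E2 (φ j), MeasurableSet.iUnion fun N =>
    MeasurableSet.iInter fun j => MeasurableSet.iInter fun _ => hE2m _, fun γ => ?_⟩
  filter_upwards [hφ γ] with p hp
  simp only [hbad, Set.mem_ofPred_eq, not_not] at hp
  obtain ⟨N, hN⟩ := eventually_atTop.1 hp
  simp only [Set.mem_iUnion, Set.mem_iInter]
  exact ⟨fun h => ⟨N, fun j hj => (hN j hj).1 h⟩, fun ⟨M, hM⟩ =>
    (hN (max N M) (le_max_left _ _)).2 (hM _ (le_max_right _ _))⟩

end Vale.Agent.P188.TT
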