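import Vale.Agent.P188.TailC

/-! P188: exponential tails of the height defect. -/

namespace Vale.Agent.P188

open Function MeasureTheory Filter
open scoped ENNReal NNReal Topology

namespace Tail

open SzBasic

lemma kap_smul {k : ℕ} (w : List (Wt k)) (a : Rk k) {M : ℝ} (hM : 0 < M) :
    kap w (M • a) = kap w a := by
  unfold kap
  congr 2
  funext χ
  simp [mul_neg_iff, hM, hM.not_gt]

lemma one_dir (hC : ChainEx_stmt) (hV : V_stmt) (hR : Reg_stmt) (hG : GoodM_stmt) (h1 : Hit_stmt)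
    (h2 : Cob_stmt) (h3 : FK_stmt) (h4 : Scale_stmt) (h5 : Inv_stmt) (h6 : Op_stmt)
    {k : ℕ} {Γ : Type} [Group Γ] [Countable Γ] {π : Γ →* Zk k} {w : List (Wt k)}
    (hT : Tower Γ π w) {S : Finset Γ} (hS : Subgroup.closure (S : Set Γ) = ⊤)
    (hS' : Subgroup.closure ((S : Set Γ) ∩ π.ker) = π.ker) {K : ℕ} {Z : Type}
    [TopologicalSpace Z] [CompactSpace Z] [TopologicalSpace.MetrizableSpace Z] [MeasurableSpace Z]
    [BorelSpace Z] [MulAction Γ Z] [ContinuousConstSMul Γ Z] (Q : QP S K Z)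
    (hQ : ∀ p y, IsClopen {z | Q.q z p = y}) {K' c : ℝ} (hc : 0 < c) {a : Rk k}
    (ha : Generic w a) (hn : ∀ a, Generic w a → kap w (-a) = -kap w a)
    (hD : ∀ μ : Measure Z, IsProbabilityMeasure μ → (∀ g : Γ, MeasurePreserving (g • ·) μ μ) →
      ∃ D, Drift π Q.q K' μ D ∧
        ∀ᵐ z ∂μ, c * ‖(D z).mulVec a - a‖ ≤ kap w a ((D z).mulVec a - a))
    {ν ν' : Measure Z} (hν : Drift π Q.q 1 ν fun _ => 1) (hν' : Drift π Q.q 1 ν' fun _ => 1)
    (ht' : Measure.QuasiMeasurePreserving Q.t ν ν') {δ : ℝ} (hδ : 0 < δ) :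
    ∃ (F : Set Z) (β : Z → ℝ) (η : ℝ), MeasurableSet F ∧ (∀ (g : Γ) z, g • z ∈ F ↔ z ∈ F) ∧
      ν.real Fᶜ ≤ δ ∧ Measurable β ∧ (∀ z, 0 ≤ β z) ∧ 0 < η ∧
      Integrable (fun z => Real.exp (η * β z)) ν ∧
      ∀ g : Γ, ∀ᵐ z ∂ν, z ∈ F → |kap w a (ht π (Q.q z g) - ht π g)| ≤ β z + β (g⁻¹ • z) := by
  let : MeasurableSpace Γ := ⊤
  have : DiscreteMeasurableSpace Γ := ⟨fun _ => trivial⟩
  have := hν.prob
  obtain ⟨Cs, hCs, hC⟩ := hC k Γ π w hT S hS
  set ε₀ := (c + ‖kap w a‖) * (|K'| + 1) * Cs with hε₀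
  have hε : 0 ≤ ε₀ := by positivity
  obtain ⟨κ₂, hκ, hC⟩ := hC (Cs + 3) ((15 * ε₀ + 42) / c + Cs + 1) (by linarith) a ha
  obtain ⟨M, ⟨C₀, P, hP, c1, c2⟩, hM⟩ := (hC.and (eventually_gt_atTop 0)).exists
  obtain ⟨G, C, mG, bG, hC0, vG⟩ := vs_chain hV hG hS Q hν hν' ht' c1 hκ (by positivity : 0 < δ / 6)
  obtain ⟨G', C', mG', bG', hC0', vG'⟩ :=
    vs_chain hV hG hS Q hν hν' ht' c2 hκ (by positivity : 0 < δ / 6)
  have r1 := rs_chain hR Q.toQS hν P.toChain c1.meas_step c1.fin c1.mp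
  have r2 := rs_chain hR Q.toQS hν P.bwd c2.meas_step c2.fin c2.mp
  rw [hn _ fun χ hχ h0 => by
    rw [map_smul]; exact smul_ne_zero hM.ne' (ha χ hχ h0)] at vG'
  rw [kap_smul w a hM] at vG vG'
  have e : defect π Q.q P.step' =
      fun (y : Z × P.σ) g => -defect π Q.q P.step (skew P.step' g y) g := by
    funext y g
    simp only [defect, skew, hP.inv₂, q_inv Q.toQS, ht_inv]
    abel
  have t1 := rmp_skew c1.meas_step c1.mp hν.mp
  have mU := meas_defect (π := π) Q.toQS c1.meas_step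
  obtain ⟨CU, hCU⟩ := bdd_defect (π := π) hS Q.toQS c1.fin
  have ld := h3 _ _ _ _ _ t1 k _ CU mU hCU (kap w a) c ε₀ hc.le hε
    (h6 k Γ π S hS hS' P hP c1.meas_step c1.mp c1.fin (M • a) Cs c1.dir K Z Q.toQS hQ K' (kap w a) c
      hc.le (fun μ p1 p2 => by
        obtain ⟨D, d1, d2⟩ := hD μ p1 p2
        refine ⟨D, d1, d2.mono fun z hz => ?_⟩
        rw [Matrix.mulVec_smul, ← smul_sub, map_smul, norm_smul, Real.norm_of_nonneg hM.le,
          mul_left_comm]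
        exact mul_le_mul_of_nonneg_left hz hM.le) ν hν.prob hν.mp)
  obtain ⟨E, b, η, mE, mb, bE, iE, eE, hη, hi⟩ := abstract h1 h2 h4 t1
    (rmp_skew c2.meas_step c2.mp hν.mp) (fun g y => by simp [skew, hP.inv₁])
    (fun g y => by simp [skew, hP.inv₂]) mU hCU hc hε
    (by rw [mul_div_cancel₀ _ hc.ne']; linarith) ld mG mG' hC0 hC0' vG (e ▸ vG') r1 (e ▸ r2)
    (by positivity : 0 < δ / 6)
  obtain ⟨F, β, f1, f2, f3, f4, f5, f6, f7⟩ := descent hν.mp (fun g => hP.act_mp (π g)) mE mb hη hi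
    (inv_step h5 hS hS' Q.toQS hν.mp P hP c1.meas_step c1.mp (kap w a) mE mb iE eE)
  exact ⟨F, β, η / 2, f1, f2, by linarith, f4, f5, half_pos hη, f6, f7⟩

end Tail

open Tail

theorem tail_pf (hC : ChainEx_stmt) (hV : V_stmt) (hR : Reg_stmt) (hG : GoodM_stmt)
    (hP : Phi_stmt) (hB : TowerBasic_stmt) (h1 : Hit_stmt) (h2 : Cob_stmt) (h3 : FK_stmt)
    (h4 : Scale_stmt) (h5 : Inv_stmt) (h6 : Op_stmt) : Tail_stmt := by
  intro k Γ _ _ π w hT hw S hS hS' K Z _ _ _ _ _ _ _ Q hQ K' hD ν ν' hν hν' ht' δ hδ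
  have := hν.prob
  obtain ⟨-, -, ⟨F, c, hc, hF, hF'⟩, -, hn, -⟩ := hP k w (hB k Γ π w hT).2.2.1 hw
  choose E β η e1 e2 e3 e4 e5 e6 e7 e8 using fun a : F => one_dir hC hV hR hG h1 h2 h3 h4 h5 h6 hT
    hS hS' Q hQ hc (hF a a.2).1 hn (fun μ p1 p2 => (hD μ p1 p2).imp fun D h =>
      ⟨h.1, h.2.mono fun z hz => (hF a a.2).2 _ hz⟩) hν hν' ht'
      (by positivity : 0 < δ / (F.card + 1))
  obtain ⟨η₀, hη₀, hη⟩ : ∃ η₀ : ℝ, 0 < η₀ ∧ ∀ a, η₀ ≤ η a := by
    refine ⟨(∑ a, (η a)⁻¹ + 1)⁻¹, inv_pos.2 (add_pos_of_nonneg_of_pos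
      (Finset.sum_nonneg fun a _ => (inv_pos.2 (e6 a)).le) one_pos), fun a => ?_⟩
    refine inv_le_of_inv_le₀ (e6 a) ?_
    linarith [Finset.single_le_sum (f := fun a => (η a)⁻¹) (fun a _ => (inv_pos.2 (e6 a)).le)
      (Finset.mem_univ a)]
  have mβ : Measurable fun z => (∑ a, β a z) / c :=
    (Finset.measurable_sum _ fun a _ => e4 a).div_const c
  refine ⟨⋂ a, E a, fun z => (∑ a, β a z) / c, η₀ / (F.card + 1) * c, MeasurableSet.iInter e1,
    fun g z => by simp only [Set.mem_iInter, e2], ?_, mβ, by positivity,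
    Integrable.integrableOn ?_, fun g => ?_⟩
  · have a1 := measureReal_iUnion_fintype_le (μ := ν) fun a => (E a)ᶜ
    have a2 := Finset.sum_le_sum fun a (_ : a ∈ Finset.univ) => e3 a
    rw [← Set.compl_iInter, probReal_compl_eq_one_sub (MeasurableSet.iInter e1)] at a1
    rw [Finset.sum_const, Finset.card_univ, Fintype.card_coe, nsmul_eq_mul] at a2
    have a3 : F.card * (δ / (F.card + 1)) ≤ δ := by
      rw [mul_div_assoc', div_le_iff₀ (by positivity)]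
      linarith
    linarith
  · refine ((integrable_const 1).add (integrable_finsetSum Finset.univ fun a _ => e7 a)).mono'
      (mβ.const_mul _).exp.aestronglyMeasurable (ae_of_all _ fun z => ?_)
    have s0 : 0 ≤ ∑ a, Real.exp (η a * β a z) := Finset.sum_nonneg fun a _ => (Real.exp_pos _).le
    have p0 : 0 < 1 + ∑ a, Real.exp (η a * β a z) := by linarith
    have l0 : 0 ≤ Real.log (1 + ∑ a, Real.exp (η a * β a z)) := Real.log_nonneg (by linarith)
    rw [Real.norm_of_nonneg (Real.exp_pos _).le, Pi.add_apply, ← Real.le_log_iff_exp_le p0]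
    have a1 : ∀ a, η₀ * β a z ≤ Real.log (1 + ∑ a, Real.exp (η a * β a z)) := fun a => by
      rw [Real.le_log_iff_exp_le p0]
      linarith [Finset.single_le_sum (f := fun a => Real.exp (η a * β a z))
        (fun a _ => (Real.exp_pos _).le) (Finset.mem_univ a),
        Real.exp_le_exp.2 (mul_le_mul_of_nonneg_right (hη a) (e5 a z))]
    have a2 := Finset.sum_le_sum fun a (_ : a ∈ Finset.univ) => a1 a
    rw [Finset.sum_const, Finset.card_univ, Fintype.card_coe, nsmul_eq_mul, ← Finset.mul_sum] at a2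
    rw [mul_assoc, mul_div_cancel₀ _ hc.ne', div_mul_eq_mul_div, div_le_iff₀ (by positivity)]
    linarith
  · filter_upwards [ae_all_iff.2 fun a => e8 a g] with z hz hE
    rw [← add_div, le_div_iff₀' hc, ← Finset.sum_add_distrib]
    refine (hF' _).trans ?_
    rw [← Finset.sum_coe_sort]
    exact Finset.sum_le_sum fun a _ => hz a (Set.mem_iInter.1 hE a)

end Vale.Agent.P188
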