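import Vale.Agent.P188.TowerS

/-! P188: block determinants from growth bounds. -/

namespace Vale.Agent.P188

open Matrix Filter Finset

namespace LayerDetAux

lemma le_one_of_pow_le {r K t : ℝ} {d : ℕ} (ht : 0 ≤ t)
    (h : ∀ n : ℕ, r ^ n ≤ K * (1 + n * t) ^ d) : r ≤ 1 := by
  refine not_lt.1 fun hr => ?_
  have hK : 0 ≤ K := zero_le_one.trans (by simpa using h 0)
  have h1 := (tendsto_pow_const_div_const_pow_of_one_lt d hr).const_mul (K * (1 + t) ^ d)
  rw [mul_zero] at h1
  refine absurd (ge_of_tendsto h1 ?_) (not_le.2 one_pos)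
  filter_upwards [eventually_ge_atTop 1] with n hn
  have hn' : (1 : ℝ) ≤ n := by exact_mod_cast hn
  rw [← mul_div_assoc, le_div_iff₀ (by positivity), one_mul, mul_assoc, ← mul_pow]
  exact (h n).trans (mul_le_mul_of_nonneg_left (pow_le_pow_left₀ (by positivity) (by linarith) d) hK)

lemma toR_pow {k : ℕ} (b : Zk k) (n : ℕ) : toR (b ^ n) = (n : ℝ) • toR b := by
  funext i
  simp [toR]

lemma eq_exp {k : ℕ} (l : Zk k →* ℝ) (χ : Wt k) {K : ℝ} {d : ℕ}
    (h : ∀ b, |l b| ≤ K * (1 + ‖toR b‖) ^ d * Real.exp (χ (toR b))) (b : Zk k) :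
    |l b| = Real.exp (χ (toR b)) := by
  have key : ∀ b, |l b| ≤ Real.exp (χ (toR b)) := fun b => by
    rw [← div_le_one (Real.exp_pos _)]
    refine le_one_of_pow_le (K := K) (d := d) (norm_nonneg (toR b)) fun n => ?_
    have := h (b ^ n)
    rw [toR_pow, map_pow, abs_pow, norm_smul, Real.norm_natCast, map_smul, smul_eq_mul,
      Real.exp_nat_mul] at this
    rwa [div_pow, div_le_iff₀ (by positivity)]
  refine le_antisymm (key b) ?_
  have h1 := mul_le_mul_of_nonneg_right (key b⁻¹) (abs_nonneg (l b))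
  rwa [← abs_mul, ← map_mul, inv_mul_cancel, map_one, abs_one,
    show toR b⁻¹ = -toR b by funext i; simp [toR], map_neg, Real.exp_neg,
    le_inv_mul_iff₀ (Real.exp_pos _), mul_one] at h1

end LayerDetAux

open LayerDetAux in
theorem layerDet_pf : LayerDet_stmt := by
  intro k m ρ Q Qi wt hQ hb ⟨C, d, hC⟩
  have hρ : ∀ b b', (ρ (b * b')).map (Int.cast : ℤ → ℝ) =
      (ρ b).map (Int.cast : ℤ → ℝ) * (ρ b').map (Int.cast : ℤ → ℝ) := fun b b' => by
    rw [map_mul]
    exact Matrix.map_mul (f := Int.castRingHom ℝ)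
  have h1 : (ρ 1).map (Int.cast : ℤ → ℝ) = 1 := by simp
  have key : ∀ b (p : Fin m → Prop) [DecidablePred p], (∀ i j, wt i = wt j → (p i ↔ p j)) →
      |((Qi * (ρ b).map (Int.cast : ℤ → ℝ) * Q).toSquareBlockProp p).det| =
        Real.exp (∑ i with p i, wt i (toR b)) := by
    intro b p _ hp
    let l : Zk k →* ℝ :=
      { toFun := fun b => ((Qi * (ρ b).map (Int.cast : ℤ → ℝ) * Q).toBlock p p).det
        map_one' := by rw [h1, mul_one, mul_eq_one_comm.1 hQ, toBlock_one_self, det_one]
        map_mul' := fun b b' => by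
          have h0 : ((Qi * (ρ b).map (Int.cast : ℤ → ℝ) * Q).toBlock p fun i => ¬p i) = 0 := by
            ext i j
            exact hb b i j fun h => j.2 ((hp _ _ h).1 i.2)
          rw [← det_mul, show Qi * (ρ (b * b')).map (Int.cast : ℤ → ℝ) * Q =
            Qi * (ρ b).map (Int.cast : ℤ → ℝ) * Q * (Qi * (ρ b').map (Int.cast : ℤ → ℝ) * Q) by
              simp only [hρ, mul_assoc, ← mul_assoc Q, hQ, one_mul], toBlock_mul_eq_add p p p, h0,
            Matrix.zero_mul, add_zero] }
    rw [← _root_.sum_apply]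
    refine eq_exp l _ (K := (Fintype.card {i // p i}).factorial * C ^ Fintype.card {i // p i})
      (d := d * Fintype.card {i // p i}) (fun b => ?_) b
    have h2 := det_le (abv := AbsoluteValue.abs) (A := of fun i j : {i // p i} =>
      (Real.exp (wt i (toR b)))⁻¹ * (Qi * (ρ b).map (Int.cast : ℤ → ℝ) * Q).toBlock p p i j)
      (x := C * (1 + ‖toR b‖) ^ d) fun i j => by
        rw [AbsoluteValue.abs_apply, of_apply, abs_mul, abs_of_pos (by positivity),
          inv_mul_le_iff₀' (Real.exp_pos _)]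
        exact hC b i j
    rwa [AbsoluteValue.abs_apply, det_mul_column, abs_mul, prod_inv_distrib, ← Real.exp_sum,
      abs_of_pos (by positivity), inv_mul_le_iff₀' (Real.exp_pos _), nsmul_eq_mul, mul_pow,
      ← pow_mul, ← mul_assoc _ (C ^ _), ← sum_subtype (univ.filter p) (by simp)
        fun i => wt i (toR b), ← _root_.sum_apply] at h2
  refine ⟨key, ContinuousLinearMap.coe_injective (LinearMap.pi_ext fun i x => ?_)⟩
  have h2 := key (Multiplicative.ofAdd (Pi.single i 1)) (fun _ => True) (by simp)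
  have h3 : ∀ b, |(ρ b).det| = 1 := fun b =>
    Int.isUnit_iff_abs_eq.1 ((Group.isUnit b).map (detMonoidHom.comp ρ))
  rw [show ∀ M : Matrix (Fin m) (Fin m) ℝ, (M.toSquareBlockProp fun _ => True).det = M.det from
    fun M => det_submatrix_equiv_self (Equiv.subtypeUnivEquiv fun _ => trivial) M, det_mul_comm,
    ← mul_assoc, hQ, one_mul, ← Int.cast_det, ← Int.cast_abs, h3, Int.cast_one, eq_comm,
    Real.exp_eq_one_iff, filter_true, ← _root_.sum_apply] at h2
  rw [show Pi.single i x = x • toR (Multiplicative.ofAdd (Pi.single i 1)) by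
    funext j
    by_cases h : j = i <;> simp [toR, h], map_smul, map_smul]
  exact congrArg _ h2

end Vale.Agent.P188
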