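import Vale.Agent.P188.LayerFin

/-! P188: a real weight basis for commuting integer matrices. -/

namespace Vale.Agent.P188

open Matrix Finset Module

namespace LayerExAux

open LayerFinAux

variable {k m : ℕ}

lemma grow0 {y : End ℂ (Fin m → ℂ)} {c : ℝ} (h0 : 0 ≤ c) (hc : ∀ w, ‖(y - 1) w‖ ≤ c * ‖w‖) (j : ℕ) :
    ∀ v, ((y - 1) ^ j) v = 0 → ∀ n : ℕ, ‖(y ^ n) v‖ ≤ (1 + n * c) ^ j * ‖v‖ := by
  induction j with
  | zero =>
    intro v hv n
    simp [show v = 0 from hv]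
  | succ j ih =>
    intro v hv n
    have h1 := LinearMap.congr_fun (geom_sum_mul y n) v
    rw [End.mul_apply, LinearMap.sub_apply (y ^ n), LinearMap.sum_apply, eq_sub_iff_add_eq] at h1
    have h2 := sum_le_card_nsmul (range n) _ ((1 + n * c) ^ j * (c * ‖v‖)) fun i hi =>
      (ih ((y - 1) v) (by rwa [pow_succ] at hv) i).trans (by
        gcongr
        exacts [(mem_range.1 hi).le, hc v])
    have h3 := one_le_pow₀ (n := j) (show 1 ≤ 1 + n * c by simpa using by positivity)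
    rw [card_range, nsmul_eq_mul] at h2
    refine h1.symm ▸ (norm_add_le _ _).trans ((add_le_add ((norm_sum_le _ _).trans h2)
      (le_mul_of_one_le_left (norm_nonneg v) h3)).trans_eq (by ring))

lemma grow1 (x : End ℂ (Fin m → ℂ)) {μ : ℂ} (hμ : μ ≠ 0) : ∃ c : ℝ, 0 ≤ c ∧
    ∀ v ∈ x.maxGenEigenspace μ, ∀ n : ℕ,
      ‖(x ^ n) v‖ ≤ (1 + n * c) ^ m * Real.exp (Real.log ‖μ‖ * n) * ‖v‖ := by
  obtain ⟨y, rfl⟩ : ∃ y, x = μ • y := ⟨μ⁻¹ • x, (smul_inv_smul₀ hμ x).symm⟩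
  refine ⟨‖LinearMap.toContinuousLinearMap (y - 1)‖, norm_nonneg _, fun v hv n => ?_⟩
  rw [End.maxGenEigenspace_eq_genEigenspace_finrank, End.mem_genEigenspace_nat,
    show μ • y - μ • 1 = μ • (y - 1) from (smul_sub μ y 1).symm, _root_.smul_pow, LinearMap.mem_ker, LinearMap.smul_apply, smul_eq_zero_iff_right
      (pow_ne_zero _ hμ), finrank_fin_fun] at hv
  rw [_root_.smul_pow, LinearMap.smul_apply, norm_smul, norm_pow, Real.exp_mul,
    Real.exp_log (norm_pos_iff.2 hμ), Real.rpow_natCast, mul_right_comm, mul_comm]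
  exact mul_le_mul_of_nonneg_right (grow0 (norm_nonneg _)
    (LinearMap.toContinuousLinearMap (y - 1)).le_opNorm m v hv n) (by positivity)

lemma growZ (f : Zk k →* End ℂ (Fin m → ℂ)) (g : Zk k) (μ : ℂ) : ∃ c : ℝ, 0 ≤ c ∧
    ∀ v ∈ (f g).maxGenEigenspace μ, ∀ t : ℤ,
      ‖f (g ^ t) v‖ ≤ (1 + |(t : ℝ)| * c) ^ m * Real.exp (Real.log ‖μ‖ * t) * ‖v‖ := by
  have hi : f g⁻¹ * f g = 1 := by rw [← map_mul, inv_mul_cancel, map_one]
  have hc : Commute (f g⁻¹) (f g) := (Commute.all _ _).map f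
  rcases eq_or_ne μ 0 with rfl | hμ
  · refine ⟨0, le_rfl, fun v hv t => ?_⟩
    obtain ⟨j, hj⟩ := (End.mem_maxGenEigenspace _ _ _).1 hv
    have := congrArg (f g⁻¹ ^ j) hj
    rw [zero_smul, sub_zero, ← End.mul_apply, ← hc.mul_pow, hi, one_pow, map_zero] at this
    simp [show v = 0 from this]
  obtain ⟨c, c0, h⟩ := grow1 (f g) hμ
  obtain ⟨c', c0', h'⟩ := grow1 (f g⁻¹) (inv_ne_zero hμ)
  refine ⟨c + c', by positivity, fun v hv t => ?_⟩
  obtain ⟨n, rfl | rfl⟩ := t.eq_nat_or_neg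
  · rw [zpow_natCast, map_pow, Int.cast_natCast, Nat.abs_cast]
    refine (h v hv n).trans ?_
    gcongr
    linarith
  · obtain ⟨j, hj⟩ := (End.mem_maxGenEigenspace _ _ _).1 hv
    rw [_root_.zpow_neg, zpow_natCast, ← inv_pow, map_pow, Int.cast_neg, Int.cast_natCast, abs_neg,
      Nat.abs_cast, mul_neg, ← neg_mul, ← Real.log_inv, ← norm_inv]
    refine (h' v ((End.mem_maxGenEigenspace _ _ _).2 ⟨j, ?_⟩) n).trans ?_
    · have e : f g⁻¹ - μ⁻¹ • 1 = (-μ⁻¹) • (f g⁻¹ * (f g - μ • 1)) := by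
        rw [mul_sub, hi, mul_smul_comm, mul_one, smul_sub, smul_smul, neg_mul, inv_mul_cancel₀ hμ]
        ext1 w
        simp [sub_eq_add_neg, add_comm]
      rw [e, _root_.smul_pow, (hc.sub_right ((Commute.one_right _).smul_right μ)).mul_pow,
        LinearMap.smul_apply, End.mul_apply, hj, map_zero, smul_zero]
    · gcongr
      linarith

/-- the standard generators -/
def gen (i : Fin k) : Zk k := Multiplicative.ofAdd (Pi.single i 1)

/-- joint generalised eigenspaces -/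
noncomputable def E (f : Zk k →* End ℂ (Fin m → ℂ)) (μ : Fin k → ℂ) : Submodule ℂ (Fin m → ℂ) :=
  ⨅ i, (f (gen i)).maxGenEigenspace (μ i)

/-- the weight of a joint eigenvalue -/
noncomputable def chi (μ : Fin k → ℂ) : Wt k :=
  ∑ i, Real.log ‖μ i‖ • ContinuousLinearMap.proj (R := ℝ) (φ := fun _ => ℝ) i

/-- vectors of controlled growth -/
def Gr (f : Zk k →* End ℂ (Fin m → ℂ)) (χ : Wt k) : Submodule ℂ (Fin m → ℂ) where
  carrier := {v | ∃ (C : ℝ) (d : ℕ), 0 ≤ C ∧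
    ∀ b, ‖f b v‖ ≤ C * (1 + ‖toR b‖) ^ d * Real.exp (χ (toR b))}
  zero_mem' := ⟨0, 0, le_rfl, by simp⟩
  add_mem' := by
    rintro v w ⟨C, d, c0, h⟩ ⟨C', d', c0', h'⟩
    refine ⟨C + C', d + d', by positivity, fun b => ?_⟩
    have h1 : 1 ≤ 1 + ‖toR b‖ := by simp
    rw [map_add, add_mul, add_mul]
    refine (norm_add_le _ _).trans (add_le_add ((h b).trans ?_) ((h' b).trans ?_)) <;> gcongr <;> simp
  smul_mem' := by
    rintro c v ⟨C, d, c0, h⟩
    refine ⟨‖c‖ * C, d, by positivity, fun b => ?_⟩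
    rw [map_smul, norm_smul, mul_assoc, mul_assoc, ← mul_assoc C]
    exact mul_le_mul_of_nonneg_left (h b) (norm_nonneg c)

lemma E_inv (f : Zk k →* End ℂ (Fin m → ℂ)) (μ : Fin k → ℂ) (b : Zk k) :
    E f μ ≤ (E f μ).comap (f b) := fun _ hv => (Submodule.mem_iInf _).2 fun i =>
  End.mapsTo_maxGenEigenspace_of_comm ((Commute.all _ b).map f) _ ((Submodule.mem_iInf _).1 hv i)

lemma E_le (f : Zk k →* End ℂ (Fin m → ℂ)) (μ : Fin k → ℂ) : E f μ ≤ Gr f (chi μ) := by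
  classical
  choose c c0 hc using fun i => growZ f (gen i) (μ i)
  intro v hv
  refine ⟨(∏ i, (1 + c i) ^ m) * ‖v‖, m * k, mul_nonneg (prod_nonneg fun i _ => by
    have := c0 i; positivity) (norm_nonneg v), fun b => ?_⟩
  have key : ∀ s : Finset (Fin k), ‖f (∏ i ∈ s, gen i ^ Multiplicative.toAdd b i) v‖ ≤
      (∏ i ∈ s, (1 + c i) ^ m * (1 + ‖toR b‖) ^ m * Real.exp (Real.log ‖μ i‖ * toR b i)) * ‖v‖ := by
    intro s
    induction s using Finset.induction_on with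
    | empty => simp
    | insert i s hi ih =>
      have := c0 i
      rw [prod_insert hi, prod_insert hi, map_mul, End.mul_apply, mul_assoc _ _ ‖v‖, ← mul_pow]
      refine (hc i _ ((Submodule.mem_iInf _).1 (E_inv f μ _ hv) i) _).trans (mul_le_mul
        (mul_le_mul_of_nonneg_right (pow_le_pow_left₀ (by positivity) ?_ _) (Real.exp_pos _).le) ih
        (norm_nonneg _) (by positivity))
      linarith [norm_nonneg (toR b), mul_le_mul_of_nonneg_right
        (show |toR b i| ≤ _ from norm_le_pi_norm (toR b) i) this, show |toR b i| * c i =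
          |((Multiplicative.toAdd b i : ℤ) : ℝ)| * c i from rfl]
  have e : ∏ i, gen i ^ Multiplicative.toAdd b i = b := by
    apply Multiplicative.toAdd.injective
    ext j
    simp [gen, toAdd_prod, Finset.sum_apply, Pi.single_apply]
  refine (e ▸ key univ).trans_eq ?_
  simp only [prod_mul_distrib, prod_const, card_univ, Fintype.card_fin, ← pow_mul, ← Real.exp_sum,
    chi, _root_.sum_apply, _root_.smul_apply, ContinuousLinearMap.proj_apply, smul_eq_mul]
  ring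

lemma star_mem {x : End ℂ (Fin m → ℂ)} (hx : ∀ v, x (star v) = star (x v)) {μ : ℂ} {v : Fin m → ℂ}
    (hv : v ∈ x.maxGenEigenspace μ) : star v ∈ x.maxGenEigenspace (star μ) := by
  obtain ⟨j, hj⟩ := (End.mem_maxGenEigenspace _ _ _).1 hv
  have key : ∀ j : ℕ, ((x - star μ • 1) ^ j) (star v) = star (((x - μ • 1) ^ j) v) := fun j => by
    induction j with
    | zero => rfl
    | succ j ih => simp only [pow_succ', End.mul_apply, ih, LinearMap.sub_apply, hx,
        LinearMap.smul_apply, End.one_apply, star_sub, star_smul]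
  exact (End.mem_maxGenEigenspace _ _ _).2 ⟨j, by rw [key, hj, star_zero]⟩

/-- real vectors as complex vectors -/
noncomputable def ofR (m : ℕ) : (Fin m → ℝ) →ₗ[ℝ] Fin m → ℂ :=
  Complex.ofRealCLM.toLinearMap.compLeft _

lemma exists_W (ρ : Zk k →* Matrix (Fin m) (Fin m) ℤ) :
    ∃ W : Wt k → Submodule ℝ (Fin m → ℝ), iSupIndep W ∧ iSup W = ⊤ ∧ ∀ χ, ∀ v ∈ W χ,
      (∀ b, (ρ b).map (Int.cast : ℤ → ℝ) *ᵥ v ∈ W χ) ∧ ∃ (C : ℝ) (d : ℕ), 0 ≤ C ∧
        ∀ b, ‖(ρ b).map (Int.cast : ℤ → ℝ) *ᵥ v‖ ≤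
          C * (1 + ‖toR b‖) ^ d * Real.exp (χ (toR b)) := by
  let f : Zk k →* End ℂ (Fin m → ℂ) := (cx m).toMonoidHom.comp ρ
  have hf : ∀ b v, f b v = (ρ b).map (Int.cast : ℤ → ℂ) *ᵥ v := fun _ _ => rfl
  have hR : ∀ b v, ofR m ((ρ b).map (Int.cast : ℤ → ℝ) *ᵥ v) = f b (ofR m v) := fun b v => by
    ext i
    simp [hf, ofR, mulVec, dotProduct]
  have hm := fun (i j : Fin k) (φ : ℂ) =>
    End.mapsTo_maxGenEigenspace_of_comm ((Commute.all (gen j) (gen i)).map f) φ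
  have hind : iSupIndep (E f) := End.independent_iInf_maxGenEigenspace_of_forall_mapsTo _ hm
  have htop : ⨆ μ, E f μ = ⊤ := End.iSup_iInf_maxGenEigenspace_eq_top_of_forall_mapsTo _ hm
    fun _ => End.iSup_maxGenEigenspace_eq_top _
  refine ⟨fun χ => ((⨆ μ ∈ {μ | chi μ = χ}, E f μ).restrictScalars ℝ).comap (ofR m),
    fun χ => Submodule.disjoint_def.2 fun v h1 h2 => ?_, eq_top_iff.2 fun v _ => ?_,
    fun χ v hv => ⟨fun b => ?_, ?_⟩⟩
  · have h3 : v ∈ ((⨆ μ ∈ {μ | chi μ = χ}ᶜ, E f μ).restrictScalars ℝ).comap (ofR m) := by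
      refine (iSup₂_le fun χ' h => Submodule.comap_mono ?_ : _ ≤ _) h2
      exact (biSup_mono fun μ (hμ : chi μ = χ') (h' : chi μ = χ) => h (hμ.symm.trans h') :
        ⨆ μ ∈ {μ | chi μ = χ'}, E f μ ≤ ⨆ μ ∈ {μ | chi μ = χ}ᶜ, E f μ)
    ext i
    exact Complex.ofReal_eq_zero.1 (congrFun (Submodule.disjoint_def.1
      (hind.disjoint_biSup_biSup disjoint_compl_right) _ h1 h3) i)
  · refine Submodule.iSup_induction (E f) (motive := fun w => (fun i => (w i).re) ∈ _)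
      (htop.ge (trivial : ofR m v ∈ ⊤)) (fun μ w hw => Submodule.mem_iSup_of_mem (chi μ) ?_)
      (zero_mem _) fun _ _ => add_mem
    have h1 : star w ∈ E f (star μ) := (Submodule.mem_iInf _).2 fun i => star_mem (fun v => by
      ext i
      simp [hf, mulVec, dotProduct]) ((Submodule.mem_iInf _).1 hw i)
    rw [Submodule.mem_comap, show ofR m (fun i => (w i).re) = (2⁻¹ : ℂ) • (w + star w) by
      ext i
      simp [ofR, Complex.add_conj]]
    have h2 : ∀ ν, chi ν = chi μ → E f ν ≤ ⨆ ν ∈ {ν | chi ν = chi μ}, E f ν := fun ν hν =>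
      le_iSup₂_of_le ν hν le_rfl
    exact Submodule.smul_mem (⨆ ν ∈ {ν | chi ν = chi μ}, E f ν) _
      (add_mem (h2 μ rfl hw) (h2 (star μ) (by simp [chi]) h1))
  · rw [Submodule.mem_comap, hR]
    exact (iSup₂_le fun μ hμ => (E_inv f μ b).trans (Submodule.comap_mono
      (le_iSup₂_of_le μ hμ le_rfl)) : (⨆ μ ∈ {μ | chi μ = χ}, E f μ) ≤ _) hv
  · obtain ⟨C, d, c0, h⟩ := (iSup₂_le fun μ (hμ : chi μ = χ) => hμ ▸ E_le f μ :
      (⨆ μ ∈ {μ | chi μ = χ}, E f μ) ≤ Gr f χ) hv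
    refine ⟨C, d, c0, fun b => le_trans ?_ (h b)⟩
    rw [← hR]
    exact (pi_norm_le_iff_of_nonneg (norm_nonneg _)).2 fun i =>
      (Complex.norm_real _).ge.trans (norm_le_pi_norm (ofR m ((ρ b).map Int.cast *ᵥ v)) i)

end LayerExAux

open LayerExAux in
theorem layerEx_pf : LayerEx_stmt := by
  classical
  intro k m ρ
  obtain ⟨W, h1, h2, h3⟩ := exists_W ρ
  have hI := DirectSum.isInternal_submodule_of_iSupIndep_of_iSup_eq_top h1 h2
  let B := hI.collectedBasis fun χ => finBasis ℝ (W χ)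
  let e := B.indexEquiv (Pi.basisFun ℝ (Fin m))
  have key : ∀ (A : Matrix (Fin m) (Fin m) ℝ) i j, ((B.reindex e).toMatrix (Pi.basisFun ℝ (Fin m)) *
      A * (Pi.basisFun ℝ (Fin m)).toMatrix (B.reindex e)) i j =
      B.repr (A *ᵥ B (e.symm j)) (e.symm i) := fun A i j => by
    nth_rewrite 1 [← LinearMap.toMatrix'_toLin' A]
    rw [← LinearMap.toMatrix_eq_toMatrix', basis_toMatrix_mul_linearMap_toMatrix_mul_basis_toMatrix,
      LinearMap.toMatrix_apply, Basis.repr_reindex_apply, Basis.reindex_apply, toLin'_apply]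
  have h4 := fun j => h3 _ _ (hI.collectedBasis_mem (fun χ => finBasis ℝ (W χ)) (e.symm j))
  have h5 : ∀ b i j, (e.symm i).1 ≠ (e.symm j).1 →
      B.repr ((ρ b).map (Int.cast : ℤ → ℝ) *ᵥ B (e.symm j)) (e.symm i) = 0 := fun b i j h =>
    hI.collectedBasis_repr_of_mem_ne _ h.symm ((h4 j).1 b)
  refine ⟨_, _, fun j => (e.symm j).1, Basis.toMatrix_mul_toMatrix_flip _ _,
    fun b i j h => (key _ i j).trans (h5 b i j h), ?_⟩
  choose C d c0 hC using fun j => (h4 j).2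
  obtain ⟨K, hK⟩ := Finite.exists_le fun i => ‖LinearMap.toContinuousLinearMap (B.coord (e.symm i))‖
  obtain ⟨C', hC'⟩ := Finite.exists_le C
  obtain ⟨d', hd'⟩ := Finite.exists_le d
  refine ⟨K * C', d', fun b i j => ?_⟩
  have k0 := (norm_nonneg _).trans (hK i)
  have k1 := (c0 j).trans (hC' j)
  rw [key]
  by_cases h : (e.symm i).1 = (e.symm j).1
  · refine ((LinearMap.toContinuousLinearMap (B.coord (e.symm i))).le_opNorm _).trans
      ((mul_le_mul (hK i) (hC j b) (norm_nonneg _) k0).trans ?_)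
    rw [← h, ← mul_assoc, ← mul_assoc]
    gcongr
    exacts [hC' j, by simp, hd' j]
  · rw [h5 b i j h, abs_zero]
    positivity

end Vale.Agent.P188
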