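import Vale.Agent.P188.LayerDet

/-! P188: Kronecker type finiteness for commuting integer matrices. -/

namespace Vale.Agent.P188

open Matrix Finset Module

namespace LayerFinAux

/-- the complex endomorphism of an integer matrix -/
noncomputable def cx (m : ℕ) : Matrix (Fin m) (Fin m) ℤ →+* End ℂ (Fin m → ℂ) :=
  (toLinAlgEquiv' : Matrix (Fin m) (Fin m) ℂ ≃ₐ[ℂ] _).toRingEquiv.toRingHom.comp
    (Int.castRingHom ℂ).mapMatrix

lemma cx_inj (m : ℕ) : Function.Injective (cx m) := fun _ _ h =>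
  Matrix.map_injective (Int.cast_injective (α := ℂ)) (toLinAlgEquiv'.injective h)

lemma cx_comm {k m : ℕ} (ρ : Zk k →* Matrix (Fin m) (Fin m) ℤ) (a b : Zk k) :
    Commute (cx m (ρ a)) (cx m (ρ b)) := ((Commute.all a b).map ρ).map _

lemma ent_mul {m : ℕ} {A B : Matrix (Fin m) (Fin m) ℝ} {a b : ℝ} (hA : ∀ i j, |A i j| ≤ a)
    (hB : ∀ i j, |B i j| ≤ b) (i j : Fin m) : |(A * B) i j| ≤ m * (a * b) := by
  rw [mul_apply]
  refine (abs_sum_le_sum_abs _ _).trans ((sum_le_card_nsmul _ _ (a * b) fun l _ => ?_).trans (by simp))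
  rw [abs_mul]
  exact mul_le_mul (hA _ _) (hB _ _) (abs_nonneg _) ((abs_nonneg _).trans (hA i l))

lemma eig_le {k : ℕ} (L : Layer k) {R : ℝ} {a : Zk k} (ha : ∀ i, L.wt i (toR a) ≤ R) {μ : ℂ}
    (hμ : (cx L.m (L.ρ a)).HasEigenvalue μ) : ‖μ‖ ≤ Real.exp R := by
  obtain ⟨v, hv⟩ := hμ.exists_hasEigenvector
  obtain ⟨C, d, hC⟩ := L.bound
  obtain ⟨q, hq⟩ := Finite.exists_le fun p : Fin L.m × Fin L.m => |L.Q p.1 p.2|
  obtain ⟨q', hq'⟩ := Finite.exists_le fun p : Fin L.m × Fin L.m => |L.Qi p.1 p.2|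
  rw [← div_le_one (Real.exp_pos _)]
  refine LayerDetAux.le_one_of_pow_le (K := L.m * (L.m * (L.m * (q * |C|) * q'))) (d := d)
    (norm_nonneg (toR a)) fun n => ?_
  have h1 := ent_mul (ent_mul (fun i j => hq (i, j)) fun i j => (hC (a ^ n) i j).trans
    (show _ ≤ |C| * (1 + n * ‖toR a‖) ^ d * Real.exp R ^ n by
      rw [LayerDetAux.toR_pow, norm_smul, Real.norm_natCast, map_smul, smul_eq_mul, Real.exp_nat_mul]
      gcongr
      exacts [le_abs_self C, ha i])) fun i j => hq' (i, j)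
  rw [show ∀ A : Matrix (Fin L.m) (Fin L.m) ℝ, L.Q * (L.Qi * A * L.Q) * L.Qi = A from fun A => by
    simp only [← mul_assoc, L.Q_mul, one_mul]
    rw [mul_assoc, L.Q_mul, mul_one]] at h1
  have h2 := hv.pow_apply n
  obtain ⟨i, -, hi⟩ := exists_max_image univ (fun i => ‖v i‖) (by
    obtain ⟨i, -⟩ := Function.ne_iff.1 hv.2
    exact ⟨i, mem_univ i⟩)
  have h3 : 0 < ‖v i‖ := by
    obtain ⟨j, hj⟩ := Function.ne_iff.1 hv.2
    exact (norm_pos_iff.2 hj).trans_le (hi j (mem_univ j))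
  rw [← map_pow, ← map_pow] at h2
  have h4 := (congrArg (fun w => ‖w i‖) h2).symm.trans_le ((norm_sum_le _ _).trans
    (sum_le_card_nsmul _ _ _ fun j _ => (norm_mul _ _).trans_le (mul_le_mul
      ((Complex.norm_intCast _).trans_le (h1 i j)) (hi j (mem_univ j)) (norm_nonneg _)
      ((abs_nonneg _).trans (h1 i j)))))
  rw [Pi.smul_apply, norm_smul, norm_pow, card_univ, Fintype.card_fin, nsmul_eq_mul, ← mul_assoc,
    mul_le_mul_iff_left₀ h3] at h4
  rw [div_pow, div_le_iff₀ (by positivity)]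
  exact h4.trans_eq (by ring)

lemma fin_eig {k : ℕ} (L : Layer k) (R : ℝ) : ∃ Φ : Set ℂ, Φ.Finite ∧ ∀ a : Zk k,
    (∀ i, L.wt i (toR a) ≤ R) → ∀ μ, (cx L.m (L.ρ a)).HasEigenvalue μ → μ ∈ Φ := by
  classical
  obtain ⟨N, hN⟩ := exists_nat_ge (max (Real.exp R) 1 ^ L.m * L.m.choose (L.m / 2))
  refine ⟨_, Polynomial.bUnion_roots_finite (Int.castRingHom ℂ) L.m (Set.finite_Icc (-N : ℤ) N),
    fun a ha μ hμ => ?_⟩
  have key : ∀ z, z ∈ ((L.ρ a).charpoly.map (Int.castRingHom ℂ)).roots ↔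
      (cx L.m (L.ρ a)).HasEigenvalue z := fun z => by
    rw [Polynomial.mem_roots ((charpoly_monic _).map _).ne_zero, ← charpoly_map,
      End.hasEigenvalue_iff_isRoot_charpoly, ← charpoly_toLin']
    rfl
  have hd : (L.ρ a).charpoly.natDegree ≤ L.m := by simp
  refine Set.mem_iUnion₂.2 ⟨(L.ρ a).charpoly, ⟨hd, fun i => ?_⟩, by simpa using (key μ).2 hμ⟩
  have := (Polynomial.coeff_bdd_of_roots_le _ (charpoly_monic _) (IsAlgClosed.splits _) hd
    (fun z hz => eig_le L ha ((key z).1 hz)) i).trans hN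
  rw [Polynomial.coeff_map, eq_intCast, Complex.norm_intCast] at this
  exact abs_le.1 (by exact_mod_cast this)

end LayerFinAux

open LayerFinAux in
theorem layerFin_pf : LayerFin_stmt := by
  intro k L R S hS hR
  obtain ⟨Φ, hΦ, hΦ'⟩ := fin_eig L R
  have hm := fun (i j : Zk k) (φ : ℂ) => End.mapsTo_maxGenEigenspace_of_comm (cx_comm L.ρ j i) φ
  have hΛ := Submodule.finite_ne_bot_of_iSupIndep
    (End.independent_iInf_maxGenEigenspace_of_forall_mapsTo _ hm)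
  have htop := End.iSup_iInf_maxGenEigenspace_eq_top_of_forall_mapsTo _ hm fun _ =>
    End.iSup_maxGenEigenspace_eq_top _
  have := hS.to_subtype
  have := hΦ.to_subtype
  have := hΛ.to_subtype
  obtain ⟨y, hy⟩ := Finite.exists_infinite_fiber fun (a : S)
    (l : {l : Zk k → ℂ | ⨅ a, (cx L.m (L.ρ a)).maxGenEigenspace (l a) ≠ ⊥}) =>
    (⟨l.1 a, hΦ' a (hR a a.2) _ ((End.hasUnifEigenvalue_iff_hasUnifEigenvalue_one ENat.top_pos).1
      (ne_bot_of_le_ne_bot l.2 (iInf_le _ a.1)))⟩ : Φ)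
  refine ⟨_, Subtype.coe_image_subset _ _, (Set.infinite_coe_iff.1 hy).image
    Subtype.val_injective.injOn, ?_⟩
  rintro _ ⟨a, ha, rfl⟩ _ ⟨a', ha', rfl⟩
  have h1 : (cx L.m (L.ρ a) + (-1 : ℂ) • cx L.m (L.ρ a')).maxGenEigenspace 0 = ⊤ := by
    refine top_le_iff.1 (htop.ge.trans (iSup_le fun l => ?_))
    by_cases hl : ⨅ a, (cx L.m (L.ρ a)).maxGenEigenspace (l a) = ⊥
    · exact hl.le.trans bot_le
    have e : l a = l a' := congrArg Subtype.val (congrFun (ha.trans ha'.symm) ⟨l, hl⟩)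
    have e' := End.genEigenspace_inf_le_add _ _ (l a) (-1 * l a') ⊤ ⊤
      ((cx_comm L.ρ a a').smul_right (-1 : ℂ))
    rw [show l a + -1 * l a' = 0 by rw [e]; ring] at e'
    exact (le_inf (iInf_le _ a.1) ((iInf_le _ a'.1).trans
      (End.genEigenspace_le_smul _ _ (-1) _))).trans e'
  have h2 : IsNilpotent (L.ρ a - L.ρ a') := by
    rw [← IsNilpotent.map_iff (cx_inj L.m), End.isNilpotent_iff_of_finite]
    intro v
    rw [show (-1 : ℂ) • cx L.m (L.ρ a') = -cx L.m (L.ρ a') from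
      LinearMap.ext fun w => neg_one_smul ℂ (cx L.m (L.ρ a') w)] at h1
    simpa [sub_eq_add_neg] using (End.mem_maxGenEigenspace _ _ v).1 (h1.ge trivial)
  rw [show L.ρ (a / a') - 1 = (L.ρ a - L.ρ a') * L.ρ (a'⁻¹ : Zk k) by
    rw [sub_mul, ← map_mul, ← map_mul, mul_inv_cancel, map_one, div_eq_mul_inv]]
  exact (((Commute.all _ _).map L.ρ).sub_left ((Commute.all _ _).map L.ρ)).isNilpotent_mul_right h2

end Vale.Agent.P188
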