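import Vale.Agent.P188.TowerG4
import Vale.Agent.P188.LayerEx
import Vale.Agent.P188.LayerDet
import Vale.Agent.P188.LayerFin

/-! P188, module Tower: virtually polycyclic groups are virtually definite towers. -/

namespace Vale.Agent.P188

theorem tower_pf : Tower_stmt := TowerAux.tower_of layerEx_pf layerDet_pf layerFin_pf

end Vale.Agent.P188
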