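import Vale.Agent.P188.Stmts

/-! Towers are poly-`ℤ` and have adapted generating sets. -/

namespace Vale.Agent.P188

open Function

namespace TowerBasic

lemma polyZ_ext {m : ℕ} {A : Type} [Group A]
    (hA : ∀ (B : Type) [Group B] (ι : A →* B), Bijective ι → PolyZ m B) :
    ∀ (n : ℕ) (Γ Γ' : Type) [Group Γ] [Group Γ'] (ι : A →* Γ) (p : Γ →* Γ'), Injective ι →
      Surjective p → ι.range = p.ker → PolyZ n Γ' → PolyZ (m + n) Γ
  | 0, Γ, Γ', _, _, ι, p, hι, _, hr, h => by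
    have : Subsingleton Γ' := h
    refine hA Γ ι ⟨hι, fun g => ?_⟩
    have : g ∈ ι.range := by rw [hr]; exact Subsingleton.elim _ _
    exact this
  | n + 1, Γ, Γ', _, _, ι, p, hι, hp, hr, ⟨ψ, hψ, h⟩ => by
    have h1 : ∀ a, p (ι a) = 1 := fun a => by
      have : ι a ∈ p.ker := hr ▸ ⟨a, rfl⟩
      exact this
    refine ⟨ψ.comp p, hψ.comp hp, polyZ_ext hA n _ ψ.ker
      (ι.codRestrict _ fun a => by simp [h1])
      ((p.comp (Subgroup.subtype _)).codRestrict _ fun g => g.2)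
      (fun a b hab => hι (congrArg Subtype.val hab)) (fun g => ?_) ?_ h⟩
    · obtain ⟨x, hx⟩ := hp g
      exact ⟨⟨x, by simp [hx, MonoidHom.mem_ker.1 g.2]⟩, Subtype.ext hx⟩
    · ext g
      constructor
      · rintro ⟨a, rfl⟩
        exact Subtype.ext (h1 a)
      · intro hg
        have : g.1 ∈ ι.range := by rw [hr]; exact congrArg Subtype.val hg
        obtain ⟨a, ha⟩ := this
        exact ⟨a, Subtype.ext ha⟩

lemma polyZ_congr : ∀ (n : ℕ) (A : Type) [Group A], PolyZ n A →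
    ∀ (B : Type) [Group B] (ι : A →* B), Bijective ι → PolyZ n B
  | 0, A, _, h, B, _, ι, hι => by
    have : Subsingleton A := h
    exact hι.2.subsingleton
  | n + 1, A, _, ⟨ψ, hψ, h⟩, B, _, ι, hι => by
    let e := MulEquiv.ofBijective ι hι
    refine ⟨ψ.comp e.symm.toMonoidHom, hψ.comp e.symm.surjective, polyZ_congr n _ h _
      ((ι.comp (Subgroup.subtype _)).codRestrict _ fun g => ?_) ⟨fun a b hab => ?_, fun g => ?_⟩⟩
    · change ψ (e.symm (e g)) = 1
      rw [e.symm_apply_apply]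
      exact g.2
    · exact Subtype.ext (hι.1 (congrArg Subtype.val hab))
    · exact ⟨⟨e.symm g, g.2⟩, Subtype.ext (e.apply_symm_apply g)⟩

lemma polyZ_Zk : ∀ k : ℕ, PolyZ k (Zk k)
  | 0 => inferInstanceAs (Subsingleton (Fin 0 → ℤ))
  | k + 1 => by
    let ψ : (Fin (k + 1) → ℤ) →+ ℤ := Pi.evalAddMonoidHom _ 0
    let ι : (Fin k → ℤ) →+ (Fin (k + 1) → ℤ) :=
      { toFun := fun a => Fin.cons 0 a
        map_zero' := by ext i; refine Fin.cases ?_ (fun _ => ?_) i <;> simp
        map_add' := fun a b => by ext i; refine Fin.cases ?_ (fun _ => ?_) i <;> simp }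
    refine ⟨ψ.toMultiplicative, fun z => ⟨fun _ => z, rfl⟩, polyZ_congr k _ (polyZ_Zk k) _
      (ι.toMultiplicative.codRestrict _ fun _ => rfl) ⟨fun a b hab => ?_, fun g => ?_⟩⟩
    · exact Fin.cons_right_injective (α := fun _ => ℤ) 0 (congrArg Subtype.val hab)
    · refine ⟨Fin.tail (Multiplicative.toAdd g.1), Subtype.ext ?_⟩
      have h : Multiplicative.toAdd g.1 0 = 0 := g.2
      change Fin.cons 0 (Fin.tail (Multiplicative.toAdd g.1)) = Multiplicative.toAdd g.1
      rw [← h]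
      exact Fin.cons_self_tail _

lemma gen_Zk (k : ℕ) : ∃ T : Finset (Zk k), Subgroup.closure (T : Set (Zk k)) = ⊤ := by
  have : AddGroup.FG (Fin k → ℤ) := Module.Finite.iff_addGroup_fg.1 inferInstance
  exact (Group.fg_def.1 inferInstance)

lemma comap_le {Γ Γ' : Type} [Group Γ] [Group Γ'] (p : Γ →* Γ') {T : Set Γ} {T' : Set Γ'}
    (h1 : p.ker ≤ Subgroup.closure T) (h2 : T' ⊆ p '' T) :
    (Subgroup.closure T').comap p ≤ Subgroup.closure T := by
  rw [← Subgroup.comap_map_eq_self h1, MonoidHom.map_closure]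
  exact Subgroup.comap_mono (Subgroup.closure_mono h2)

end TowerBasic

open TowerBasic

theorem towerBasic_pf : TowerBasic_stmt := by
  classical
  intro k Γ _ π w T
  induction T with
  | @base Γ _ π h =>
    let e := MulEquiv.ofBijective π h
    obtain ⟨T, hT⟩ := gen_Zk k
    refine ⟨⟨k, polyZ_congr k _ (polyZ_Zk k) _ e.symm.toMonoidHom e.symm.bijective⟩, h.2, rfl,
      T.image e.symm.toMonoidHom, ?_,
      le_antisymm ((Subgroup.closure_le _).2 Set.inter_subset_right) ?_⟩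
    · rw [Finset.coe_image, ← MonoidHom.map_closure, hT, ← MonoidHom.range_eq_map,
        MonoidHom.range_eq_top]
      exact e.symm.surjective
    · rw [(MonoidHom.ker_eq_bot_iff _).2 h.1]
      exact bot_le
  | @ext Γ Γ' _ _ π' w T L E ih =>
    obtain ⟨⟨n, hn⟩, hs, hw, S, hS, hS'⟩ := ih
    obtain ⟨T, hT⟩ := gen_Zk L.m
    obtain ⟨s, hs'⟩ := E.p_surj.hasRightInverse
    have hk : ∀ v, E.p (E.ι v) = 1 := fun v => by
      have : E.ι v ∈ E.p.ker := E.range_eq ▸ ⟨v, rfl⟩
      exact this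
    have h1 : E.p.ker ≤ Subgroup.closure
        (((S.image s ∪ T.image E.ι : Finset Γ) : Set Γ) ∩ (π'.comp E.p).ker) := by
      rw [← E.range_eq, MonoidHom.range_eq_map, ← hT, MonoidHom.map_closure]
      refine Subgroup.closure_mono ?_
      rintro _ ⟨v, hv, rfl⟩
      exact ⟨by simpa using Or.inr ⟨v, hv, rfl⟩, by simp [hk]⟩
    refine ⟨⟨_, polyZ_ext (polyZ_congr _ _ (polyZ_Zk L.m)) n Γ Γ' E.ι E.p E.ι_inj E.p_surj
      E.range_eq hn⟩, hs.comp E.p_surj, ?_, S.image s ∪ T.image E.ι, ?_,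
      le_antisymm ((Subgroup.closure_le _).2 Set.inter_subset_right) ?_⟩
    · rw [List.sum_append, List.sum_ofFn, L.sum_wt, hw, add_zero]
    · rw [eq_top_iff, ← Subgroup.comap_top E.p, ← hS]
      exact comap_le _ (h1.trans (Subgroup.closure_mono Set.inter_subset_left)) fun x hx =>
        ⟨s x, by simpa using Or.inl ⟨x, hx, rfl⟩, hs' x⟩
    · rw [← MonoidHom.comap_ker, ← hS']
      rw [← MonoidHom.comap_ker] at h1
      refine le_trans (comap_le _ h1 fun x hx => ⟨s x, ⟨by simpa using Or.inl ⟨x, hx.1, rfl⟩, ?_⟩,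
        hs' x⟩) (by rw [hS'])
      change π' (E.p (s x)) = 1
      rw [hs' x]
      exact hx.2

end Vale.Agent.P188
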