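import Vale.Agent.P188.LayerB

/-! P188: density bounds along one extension. -/

namespace Vale.Agent.P188

open Function MeasureTheory Filter Matrix
open scoped ENNReal NNReal Topology

namespace UL

section
variable {ι : Type} [Fintype ι]

theorem pi_rho : (Measure.pi fun _ : ι => rho1) =
    volume.withDensity fun y => ENNReal.ofReal (∏ i, dens (y i)) := by
  refine Measure.pi_eq fun t ht => ?_
  have hi : Integrable (fun y : ι → ℝ => ∏ i, dens (y i))
      (Measure.pi fun i => (volume : Measure ℝ).restrict (t i)) :=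
    Integrable.fintype_prod fun i => integrable_dens.restrict
  rw [withDensity_apply _ (MeasurableSet.univ_pi ht), volume_pi, Measure.restrict_pi_pi,
    ← ofReal_integral_eq_lintegral_ofReal hi
      (ae_of_all _ fun y => Finset.prod_nonneg fun i _ => dens_nonneg _),
    integral_fintype_prod_eq_prod (fun _ : ι => dens),
    ENNReal.ofReal_prod_of_nonneg fun i _ => integral_nonneg dens_nonneg]
  refine Finset.prod_congr rfl fun i _ => ?_
  rw [rho1, withDensity_apply _ (ht i),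
    ofReal_integral_eq_lintegral_ofReal integrable_dens.restrict (ae_of_all _ dens_nonneg)]

theorem pi_le {A : Set (ι → ℝ)} (hA : MeasurableSet A) :
    (Measure.pi fun _ : ι => rho1) A ≤ ENNReal.ofReal ((3 / 2) ^ Fintype.card ι) * volume A := by
  rw [pi_rho, withDensity_apply _ hA, ← setLIntegral_const]
  refine lintegral_mono fun y => ENNReal.ofReal_le_ofReal ?_
  rw [← Finset.card_univ, ← Finset.prod_const]
  refine Finset.prod_le_prod (fun i _ => dens_nonneg _) fun i _ => ?_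
  have h : max (1 - |y i|) 0 ≤ 1 := max_le (by linarith [abs_nonneg (y i)]) zero_le_one
  unfold dens
  nlinarith [le_max_right (1 - |y i|) 0]

theorem pi_ge {A : Set (ι → ℝ)} (hA : MeasurableSet A) (h : ∀ y ∈ A, ‖y‖ ≤ 1 / 2) :
    ENNReal.ofReal ((3 / 8) ^ Fintype.card ι) * volume A ≤ (Measure.pi fun _ : ι => rho1) A := by
  rw [pi_rho, withDensity_apply _ hA, ← setLIntegral_const]
  refine setLIntegral_mono' hA fun y hy => ENNReal.ofReal_le_ofReal ?_
  rw [← Finset.card_univ, ← Finset.prod_const]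
  refine Finset.prod_le_prod (fun i _ => by norm_num) fun i _ => ?_
  have h1 : |y i| ≤ 1 / 2 := (norm_le_pi_norm y i).trans (h y hy)
  unfold dens
  rw [max_eq_left (by linarith)]
  nlinarith

theorem vol_aff [DecidableEq ι] {A : Matrix ι ι ℝ} (hA : A.det ≠ 0) {R : ℝ} (hR : R ≠ 0)
    (c : ι → ℝ) (D : Set (ι → ℝ)) : volume {y | c + A *ᵥ (R • y) ∈ D} =
      ENNReal.ofReal (|R| ^ Fintype.card ι * |A.det|)⁻¹ * volume D := by
  have e : LinearMap.det (toLin' (R • A)) = R ^ Fintype.card ι * A.det := by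
    rw [LinearMap.det_toLin', det_smul]
  rw [← measure_preimage_add volume c D, ← abs_pow, ← abs_mul, ← abs_inv, ← e,
    ← Measure.addHaar_preimage_linearMap _ (by rw [e]; positivity)]
  congr 1
  ext y
  simp [mulVec_smul, smul_mulVec]

end

theorem meas_mulVec {ι κ : Type} [Fintype ι] [Fintype κ] (A : Matrix κ ι ℝ) :
    Measurable fun y => A *ᵥ y :=
  (LinearMap.continuous_of_finiteDimensional (mulVecLin A)).measurable

variable {k : ℕ} {L : Layer k} {a : Rk k} {Cs : ℝ}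

theorem mp_pr : MeasurePreserving (L.pr a) (noiseM L.m) (Measure.pi fun _ => rho1) :=
  measurePreserving_fst.comp
    (measurePreserving_piEquivPiSubtypeProd (fun _ : Fin L.m => rho1) fun i => L.wt i a < 0)

theorem fib (hB : L.Big a Cs) (β : ℕ → Zk k)
    (hβ : ∀ l : ℕ, ‖toR ((β 0)⁻¹ * β l) - (l : ℝ) • a‖ ≤ l * Cs) {R : ℝ} (hR : R ≠ 0)
    (c : L.Neg a → ℝ) {D : Set (L.Neg a → ℝ)} (hD : MeasurableSet D) :
    iid (noiseM L.m) {t | c + ∑' l, L.Bm a (β l) *ᵥ L.pr a (R • clamp (t l)) ∈ D} ≤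
      ENNReal.ofReal ((3 / 2) ^ Fintype.card (L.Neg a)) *
        (ENNReal.ofReal (|R| ^ Fintype.card (L.Neg a) * |(L.Bm a (β 0)).det|)⁻¹ * volume D) ∧
    ((∀ τ ∈ D, ‖L.Bm a (β 0)⁻¹ *ᵥ (τ - c)‖ ≤ |R| / 4) →
      ENNReal.ofReal ((3 / 8) ^ Fintype.card (L.Neg a)) *
        (ENNReal.ofReal (|R| ^ Fintype.card (L.Neg a) * |(L.Bm a (β 0)).det|)⁻¹ * volume D) ≤
      iid (noiseM L.m) {t | c + ∑' l, L.Bm a (β l) *ᵥ L.pr a (R • clamp (t l)) ∈ D}) := by
  let f : (ℕ → Fin L.m → ℝ) → ℕ → L.Neg a → ℝ := fun t l =>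
    L.Bm a ((β 0)⁻¹ * β (l + 1)) *ᵥ L.pr a (R • clamp (t l))
  have h1 : ∀ t l, ‖f t l‖ ≤ |R| / 4 / 2 / 2 ^ l := fun t l => by
    refine (hB.1 (l + 1) l.succ_pos _ (hβ _) _).trans ?_
    have h : ‖L.pr a (R • clamp (t l))‖ ≤ |R| := (L.norm_pr_le _ _).trans (by
      rw [norm_smul]
      exact mul_le_of_le_one_right (abs_nonneg R) (norm_clamp_le _))
    refine (mul_le_mul_of_nonneg_left h (by positivity)).trans_eq ?_
    rw [pow_succ, _root_.one_div_pow]
    field_simp
  have h2 : ∀ t, Summable (f t) := fun t => .of_norm_bounded (summable_geometric_two' _) (h1 t)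
  have h3 : ∀ t, ‖∑' l, f t l‖ ≤ |R| / 4 := fun t =>
    tsum_of_norm_bounded (hasSum_geometric_two' _) (h1 t)
  have h4 : ∀ g t, ∑' l, L.Bm a (β l) *ᵥ L.pr a (R • clamp (consN g t l)) =
      L.Bm a (β 0) *ᵥ ∑' l, f t l + L.Bm a (β 0) *ᵥ (R • L.pr a (clamp g)) := fun g t => by
    have h := (h2 t).hasSum.mapL (LinearMap.toContinuousLinearMap (mulVecLin (L.Bm a (β 0))))
    simp only [LinearMap.coe_toContinuousLinearMap', mulVecLin_apply, f, ← L.Bm_mulVec_mul,
      mul_inv_cancel_left] at h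
    exact ((hasSum_nat_add_iff (f := fun l => L.Bm a (β l) *ᵥ L.pr a (R • clamp (consN g t l)))
      1).1 h).tsum_eq.trans (by rw [Finset.sum_range_one]; rfl)
  have hm : MeasurableSet {t : ℕ → Fin L.m → ℝ |
      c + ∑' l, L.Bm a (β l) *ᵥ L.pr a (R • clamp (t l)) ∈ D} :=
    (Measurable.const_add (Measurable.tsum fun l => (meas_mulVec _).comp (mp_pr.measurable.comp
      ((continuous_clamp.measurable.comp (measurable_pi_apply l)).const_smul R))) c) hD
  have hm' : ∀ c', MeasurableSet {y | c' + L.Bm a (β 0) *ᵥ (R • y) ∈ D} := fun c' =>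
    (((meas_mulVec _).comp (measurable_id.const_smul R)).const_add c') hD
  have hd : (L.Bm a (β 0)).det ≠ 0 := by
    rw [← abs_pos, L.abs_det_Bm]
    exact Real.exp_pos _
  have h5 : iid (noiseM L.m) {t | c + ∑' l, L.Bm a (β l) *ᵥ L.pr a (R • clamp (t l)) ∈ D} =
      ∫⁻ t, (Measure.pi fun _ => rho1)
        {y | c + L.Bm a (β 0) *ᵥ ∑' l, f t l + L.Bm a (β 0) *ᵥ (R • y) ∈ D} ∂iid (noiseM L.m) := by
    rw [← (mp_consN _).measure_preimage hm.nullMeasurableSet,
      Measure.prod_apply_symm (measurable_consN hm)]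
    refine lintegral_congr fun t => ?_
    rw [← mp_pr.measure_preimage (hm' _).nullMeasurableSet]
    refine measure_congr (ae_clamp.mono fun g hg => ?_)
    change (_ + _ ∈ D) = (_ + _ ∈ D)
    rw [h4, hg, add_assoc]
  rw [h5]
  refine ⟨(lintegral_mono fun t => (pi_le (hm' _)).trans_eq (by rw [vol_aff hd hR])).trans_eq
    (by rw [lintegral_const, measure_univ, mul_one]), fun h => Eq.trans_le
    (by rw [lintegral_const, measure_univ, mul_one]) (lintegral_mono fun t => Eq.trans_le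
      (by rw [vol_aff hd hR]) (pi_ge (hm' _) fun y hy => ?_))⟩
  have h6 := h _ hy
  rw [add_assoc, add_sub_cancel_left, ← mulVec_add, ← L.Bm_mulVec_mul, inv_mul_cancel, L.Bm_one,
    one_mulVec] at h6
  have h7 := norm_sub_le (∑' l, f t l + R • y) (∑' l, f t l)
  rw [add_sub_cancel_left, norm_smul, Real.norm_eq_abs] at h7
  have h8 := abs_pos.2 hR
  nlinarith [h3 t]

variable {Γ Γ' : Type} [Group Γ] [Group Γ'] {π' : Γ' →* Zk k} (E : Ext L Γ Γ' π')

theorem ht_lp [MeasurableSpace Γ] [MeasurableSpace Γ'] {c : Chain Γ'} {lft : c.σ → c.N → Γ}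
    (hs : StepProp π' a Cs c) (hl : LftProp E c lft) (x : Γ × c.σ) (ω : ℕ → c.N) (j l : ℕ) :
    ‖toR ((π' (E.p (lp (stepL c lft) x ω j)))⁻¹ * π' (E.p (lp (stepL c lft) x ω (j + l)))) -
      (l : ℝ) • a‖ ≤ l * Cs := by
  induction l with
  | zero => simp [toR_one]
  | succ l ih =>
    have h := hs.dir (cpath (stepL c lft) x ω (j + l)).2 (ω (j + l))
    rw [← hl.proj] at h
    have e : lp (stepL c lft) x ω (j + (l + 1)) = lp (stepL c lft) x ω (j + l) *
      lft (cpath (stepL c lft) x ω (j + l)).2 (ω (j + l)) := rfl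
    rw [e, map_mul, map_mul, ← mul_assoc, toR_mul, Nat.cast_succ, add_smul, one_smul,
      ← sub_add_sub_comm, add_mul, one_mul]
    exact (norm_add_le _ _).trans (add_le_add ih h)

theorem meas_step [Countable Γ] [MeasurableSpace Γ] [DiscreteMeasurableSpace Γ] [Countable Γ']
    [MeasurableSpace Γ'] [DiscreteMeasurableSpace Γ'] {c : Chain Γ'} {lft : c.σ → c.N → Γ}
    (hs : Measurable fun p : c.σ × c.N => c.step p.1 p.2) (hl : LftProp E c lft) (s : Γ' → Γ)
    (ref' : c.B → ℕ → Γ') (post : Bool) (R : ℝ) (r : Γ) :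
    Measurable fun p : (c.σ × Tor L.m) × (c.N × (Fin L.m → ℝ)) =>
      (E.chain s a c ref' post R lft r).step p.1 p.2 := by
  have h0 : Measurable fun p : (c.σ × Tor L.m) × (c.N × (Fin L.m → ℝ)) => (p.1.1, p.2.1) :=
    measurable_fst.fst.prodMk measurable_snd.fst
  have h1 : Measurable fun q : (Tor L.m × (Fin L.m → ℝ)) × Γ' =>
      E.stepX post R (π' q.2) q.1.1 q.1.2 := by
    refine measurable_from_prod_countable_left fun g => ?_
    exact ((meas_mulVec (L.R (π' g)⁻¹)).fun_comp (measurable_lift.fun_comp measurable_fst)).fun_add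
      ((meas_mulVec (L.R (if post then 1 else (π' g)⁻¹))).fun_comp ((meas_mulVec L.Q).fun_comp
        ((continuous_clamp.measurable.fun_comp measurable_snd).fun_const_smul R)))
  have h5 := hs.fun_comp h0
  have h2 := h1.fun_comp ((measurable_fst.snd.prodMk measurable_snd.snd).prodMk h5.fst)
  have h3 : Measurable fun x : Fin L.m → ℝ => E.ι (flo x) :=
    (Measurable.of_discrete (f := fun v : Fin L.m → ℤ => E.ι (Multiplicative.ofAdd v))).fun_comp
      (measurable_pi_lambda _ fun i => Int.measurable_floor.fun_comp (measurable_pi_apply i))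
  have h4 : Measurable fun q : Γ × Γ => q.1 * q.2 := Measurable.of_discrete
  exact (h4.fun_comp ((hl.meas.fun_comp h0).prodMk (h3.fun_comp h2))).prodMk
    (h5.snd.prodMk (continuous_prj.measurable.fun_comp h2))

end UL

open UL in
theorem ul_pf : UL_stmt := by
  intro k Γ Γ' _ _ _ _ _ _ _ _ π' w L E S s a Cs κ₂ C₀ C C' c ref' post lft r hCs hκ hB hsz hc hl
    hbd hτ hP
  obtain ⟨Λ, hΛ⟩ := (hP 0).tr
  obtain ⟨Bd, hBd⟩ := hτ.bound (max C₀ Λ)
  obtain ⟨F, hF⟩ := hc.st.fin
  obtain ⟨K, hK⟩ := ((F.finite_toSet.insert 1).image fun g =>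
    ‖LinearMap.toContinuousLinearMap (mulVecLin (L.Bm a (π' g)⁻¹))‖).bddAbove
  obtain ⟨q, hq0, hq⟩ := (LinearMap.toContinuousLinearMap (mulVecLin L.Qi)).bound
  set κ : Wt k := ∑ i with L.wt i a < 0, L.wt i with hκ'
  set n := Fintype.card (L.Neg a)
  set M := ‖κ‖ * (‖a‖ + Cs)
  have hd : ∀ γ u ω, ∃ g, beta E c lft post (γ, u) ω 0 = π' g * π' (E.p γ) ∧
      (∀ y, ‖L.Bm a (π' g)⁻¹ *ᵥ y‖ ≤ |K| * ‖y‖) ∧ |κ (ht π' g)| ≤ M := fun γ u ω => by
    have h : ∀ g ∈ insert 1 (F : Set Γ'), ∀ y, ‖L.Bm a (π' g)⁻¹ *ᵥ y‖ ≤ |K| * ‖y‖ := fun g hg y =>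
      ((LinearMap.toContinuousLinearMap (mulVecLin (L.Bm a (π' g)⁻¹))).le_opNorm y).trans
        (mul_le_mul_of_nonneg_right ((hK ⟨g, hg, rfl⟩).trans (le_abs_self K)) (norm_nonneg _))
    cases post
    · exact ⟨1, by rw [map_one, one_mul]; rfl, h 1 (Set.mem_insert _ _), by
        rw [ht_one, map_zero, abs_zero]; positivity⟩
    · refine ⟨(c.step u (ω 0)).1, ?_, h _ (Set.mem_insert_of_mem _ (hF _ _)),
        (κ.le_opNorm _).trans (mul_le_mul_of_nonneg_left ?_ (norm_nonneg _))⟩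
      · rw [mul_comm, ← hl.proj, ← map_mul, ← map_mul]
        rfl
      · linarith [norm_sub_norm_le (ht π' (c.step u (ω 0)).1) a, hc.st.dir u (ω 0)]
  have hdet : ∀ γ u ω, ∃ e : ℝ, |e| ≤ M ∧ |(L.Bm a (beta E c lft post (γ, u) ω 0)).det| =
      Real.exp (e + κ (ht π' (E.p γ))) := fun γ u ω => by
    obtain ⟨g, h1, -, h2⟩ := hd γ u ω
    refine ⟨_, h2, ?_⟩
    rw [L.abs_det_Bm, h1, ← map_add, toR_mul, hκ', ContinuousLinearMap.sum_apply]
    rfl
  have hβ : ∀ x ω (l : ℕ), ‖toR ((beta E c lft post x ω 0)⁻¹ * beta E c lft post x ω l) -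
      (l : ℝ) • a‖ ≤ l * Cs := fun x ω l => by
    cases post
    · simpa [beta] using ht_lp E hc.st hl x ω 0 l
    · simpa [beta, add_comm] using ht_lp E hc.st hl x ω 1 l
  refine ⟨4 * (|K| * (|Bd| + q)) + 1, by positivity, fun R hR => ?_⟩
  have hR0 : 0 < |R| := lt_of_lt_of_le (by positivity) hR
  have hξ : ∀ x, Measurable fun ω => c.Θ (lp c.step x ω) := fun x =>
    hc.bd.meas_Θ.comp ((measurable_lp _ hc.st.meas_step).comp measurable_prodMk_left)
  have key : ∀ γ u v (D : Set (c.B × (L.Neg a → ℝ))), MeasurableSet D →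
      iid (c.μN.prod (noiseM L.m)) {ω | E.theta s a c.Θ ref'
        (lp (E.chain s a c ref' post R lft r).step (γ, (u, v)) ω) ∈ D} =
      ∫⁻ ω, iid (noiseM L.m) {t | E.tau s a c.Θ ref' (lp (stepL c lft) (γ, u) ω) +
        L.pr a (L.B (π' (E.p γ)) *ᵥ L.Qi *ᵥ lift v) +
        ∑' l, L.Bm a (beta E c lft post (γ, u) ω l) *ᵥ L.pr a (R • clamp (t l)) ∈
          Prod.mk (c.Θ (lp c.step (E.p γ, u) ω)) ⁻¹' D} ∂iid c.μN := fun γ u v D hD => by
    have hm := (hbd.meas_Θ.comp ((measurable_lp _ (meas_step (a := a) E hc.st.meas_step hl s ref'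
      post R r)).comp (measurable_prodMk_left (x := (γ, (u, v)))))) hD
    refine ((mp_zip _ _).measure_preimage hm.nullMeasurableSet).symm.trans ?_
    rw [Measure.prod_apply ((mp_zip c.μN (noiseM L.m)).measurable hm)]
    refine lintegral_congr fun ω => congrArg _ (Set.ext fun t => ?_)
    have h := (hP R).theta γ u (L.B (π' (E.p γ)) *ᵥ L.Qi *ᵥ lift v) ω t
    rw [(hP R).start] at h
    exact (congrArg (· ∈ D) h).to_iff
  have hk : ∀ γ, -kap (List.ofFn L.wt ++ w) a (ht (π'.comp E.p) γ) =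
      -κ (ht π' (E.p γ)) + -kap w a (ht π' (E.p γ)) := fun γ => by
    rw [L.kap_append, ContinuousLinearMap.add_apply, neg_add]
    rfl
  constructor
  · obtain ⟨U, hU⟩ := hc.ub
    refine ⟨(3 / 2) ^ n * ((|R| ^ n)⁻¹ * Real.exp M) * U, fun ⟨γ, u, v⟩ D hD => ?_⟩
    have h1 : (iid c.μN).map (fun ω => c.Θ (lp c.step (E.p γ, u) ω)) ≤
        ENNReal.ofReal (U * Real.exp (-kap w a (ht π' (E.p γ)))) • c.m :=
      Measure.le_iff.2 fun A hA => by
        rw [Measure.map_apply (hξ _) hA]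
        exact hU (E.p γ, u) A hA
    have h2 := lintegral_mono' h1 (le_refl fun ξ => volume (Prod.mk ξ ⁻¹' D))
    rw [lintegral_map (measurable_measure_prodMk_left hD) (hξ _), lintegral_smul_measure,
      ← Measure.prod_apply hD] at h2
    refine (key γ u v D hD).trans_le ((lintegral_mono fun ω => ?_).trans
      (((lintegral_const_mul' (ENNReal.ofReal ((3 / 2) ^ n * ((|R| ^ n)⁻¹ *
        Real.exp (M - κ (ht π' (E.p γ)))))) _ ENNReal.ofReal_ne_top).le.trans
        (mul_le_mul_right h2 _)).trans_eq ?_))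
    · refine (fib hB _ (hβ _ ω) (abs_pos.1 hR0) _ (measurable_prodMk_left hD)).1.trans ?_
      obtain ⟨e, h3, h4⟩ := hdet γ u ω
      rw [← mul_assoc (ENNReal.ofReal _), ← ENNReal.ofReal_mul (by positivity), h4, mul_inv, ← Real.exp_neg]
      gcongr
      linarith [neg_abs_le e]
    · rw [smul_eq_mul, ← mul_assoc (ENNReal.ofReal _), ← ENNReal.ofReal_mul (by positivity), hk, Real.exp_add,
        sub_eq_add_neg, Real.exp_add]
      congr 2
      ring
  · obtain ⟨e₀, he, hU⟩ := hc.lb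
    refine ⟨(3 / 8) ^ n * ((|R| ^ n)⁻¹ * Real.exp (-M)) * e₀, by positivity,
      fun ⟨γ, u, v⟩ D hD hcore => ?_⟩
    have hf : Measurable fun ξ => volume (Prod.mk ξ ⁻¹' D) := measurable_measure_prodMk_left hD
    have hG : MeasurableSet (support fun ξ => volume (Prod.mk ξ ⁻¹' D)) := measurableSet_support hf
    have h1 : ENNReal.ofReal (e₀ * Real.exp (-kap w a (ht π' (E.p γ)))) •
        c.m.restrict (support fun ξ => volume (Prod.mk ξ ⁻¹' D)) ≤
        (iid c.μN).map (fun ω => c.Θ (lp c.step (E.p γ, u) ω)) :=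
      Measure.le_iff.2 fun A hA => by
        rw [Measure.map_apply (hξ _) hA, Measure.smul_apply, Measure.restrict_apply hA]
        refine (hU (E.p γ, u) _ (hA.inter hG) fun ξ hξ => ?_).trans
          (measure_mono fun ω h => h.1)
        obtain ⟨τ, hτ⟩ := nonempty_of_measure_ne_zero hξ.2
        obtain ⟨y, y0, y1, y2⟩ := hcore _ hτ
        exact ⟨E.p ∘ y, congrArg E.p y0, fun j => ⟨(Nat.cast_le.2 (by
          simpa using hsz ((y j)⁻¹ * y (j + 1)))).trans (y1 j).1, (y1 j).2⟩, congrArg Prod.fst y2⟩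
    have h2 := lintegral_mono' h1 (le_refl fun ξ => volume (Prod.mk ξ ⁻¹' D))
    rw [lintegral_map hf (hξ _), lintegral_smul_measure,
      setLIntegral_eq_of_support_subset subset_rfl, ← Measure.prod_apply hD] at h2
    refine le_of_eq_of_le ?_ (((mul_le_mul_right h2 _).trans_eq (lintegral_const_mul'
      (ENNReal.ofReal ((3 / 8) ^ n * ((|R| ^ n)⁻¹ * Real.exp (-M - κ (ht π' (E.p γ)))))) _
        ENNReal.ofReal_ne_top).symm).trans ((lintegral_mono fun ω => ?_).trans_eq
        (key γ u v D hD).symm))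
    · rw [smul_eq_mul, ← mul_assoc (ENNReal.ofReal _), ← ENNReal.ofReal_mul (by positivity), hk, Real.exp_add,
        sub_eq_add_neg, Real.exp_add]
      congr 2
      ring
    · refine le_trans ?_ ((fib hB _ (hβ _ ω) (abs_pos.1 hR0) _ (measurable_prodMk_left hD)).2
        fun τ hτ => ?_)
      · obtain ⟨e, h3, h4⟩ := hdet γ u ω
        rw [← mul_assoc (ENNReal.ofReal _), ← ENNReal.ofReal_mul (by positivity), h4, mul_inv, ← Real.exp_neg]
        gcongr
        linarith [le_abs_self e]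
      · obtain ⟨y, y0, y1, y2⟩ := hcore _ hτ
        obtain ⟨g, h3, h4, -⟩ := hd γ u ω
        have h5 := hBd y (lp (stepL c lft) (γ, u) ω) (y1.mono le_rfl (le_max_left _ _))
          ((hΛ _ _).mono hκ (le_max_right _ _)) y0 ((congrArg Prod.fst y2).trans
            (congrArg c.Θ (funext fun j => (congrArg Prod.fst ((hP R).proj γ u ω j)).symm)))
        rw [show E.tau s a c.Θ ref' y = τ from congrArg Prod.snd y2, y0] at h5
        have h6 : ‖L.pr a (L.Qi *ᵥ lift v)‖ ≤ q := (L.norm_pr_le _ _).trans ((hq _).trans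
          (mul_le_of_le_one_right hq0.le (norm_lift_le v)))
        rw [h3, mul_inv, L.Bm_mulVec_mul, ← sub_sub, mulVec_sub, L.pr_B, ← L.Bm_mulVec_mul,
          inv_mul_cancel, L.Bm_one, one_mulVec]
        refine (h4 _).trans ?_
        have h7 := mul_le_mul_of_nonneg_left ((norm_sub_le _ _).trans
          (add_le_add (h5.trans (le_abs_self _)) h6)) (abs_nonneg K)
        linarith

end Vale.Agent.P188
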