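import Vale.Agent.P188.VImg

/-! P188: the Ville-type inequality. -/

namespace Vale.Agent.P188

open Function MeasureTheory
open scoped ENNReal NNReal

namespace Vx

variable {Γ : Type} [Group Γ] {k : ℕ} {S : Finset Γ} {π : Γ →* Zk k} {a a' : Rk k}
  [MeasurableSpace Γ] {w : List (Wt k)} {Cs κ₁ κ₂ C₀ Cs' κ₁' κ₂' C₀' : ℝ} {c c' : Chain Γ}

/-- The comparison ray on the target side. -/
theorem ray (hc' : ChainProp S π w a' Cs' κ₁' κ₂' C₀' c') {M Λ : ℝ} {L L' n : ℕ} {q : Γ → Γ}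
    {y : ℕ → Γ} {r : Γ} (hM : ∀ x ω, Bd S π a' M Cs' 0 (lp c'.step x ω))
    (h1 : ∀ j, (sz S π ((q (y j))⁻¹ * q (y (j + 1))) : ℝ) ≤ M)
    (h2 : ∀ p, (sz S π ((q p)⁻¹ * q (p * r)) : ℝ) ≤ M)
    (h3 : ∀ p i, i ≤ L → ‖ht π (q (p * r ^ i)) - ht π (q p) - (i : ℝ) • a'‖ ≤ M)
    (h4 : ∀ j ≤ n, ‖ht π (q (y j)) - ht π (q (y 0)) - (j : ℝ) • a'‖ ≤ (κ₂' - 1) * j + Λ)
    (hΛ : 0 ≤ Λ) (hL : Λ + M ≤ L') (u : c'.σ) (ω : ℕ → c'.N) :
    ∃ Y, Y 0 = q (y 0) * (c'.r ^ L')⁻¹ ∧ Tr S π a' κ₂' C₀' Y ∧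
      c'.Θ Y = c'.Θ (lp c'.step (q (y n * r ^ L), u) ω) := by
  have k1 := hc'.one_le
  have k2 := hc'.le₁
  have k3 := hc'.le₂
  have k0 : 0 ≤ κ₂' := by linarith
  have z3 : Bd S π a' M κ₂' 0 (lp c'.step (q (y n * r ^ L), u) ω) :=
    (hM _ ω).mono le_rfl (by linarith)
  have z2 : Bd S π a' M κ₂' (M + 0) (splice L (fun i => q (y n * r ^ i))
      (lp c'.step (q (y n * r ^ L), u) ω)) := by
    refine bd_splice rfl (fun j _ => ?_) (fun j hj => ?_) z3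
    · rw [pow_succ, ← mul_assoc]
      exact h2 _
    · have : 0 ≤ κ₂' * j := by positivity
      rw [pow_zero, mul_one]
      linarith [h3 (y n) j hj]
  have e2 : splice L (fun i => q (y n * r ^ i)) (lp c'.step (q (y n * r ^ L), u) ω) 0 = q (y n) :=
    (splice_zero (y := fun i => q (y n * r ^ i)) rfl).trans (by simp)
  have z1 : Bd S π a' M κ₂' (Λ + (M + 0)) (splice n (fun j => q (y j)) (splice L
      (fun i => q (y n * r ^ i)) (lp c'.step (q (y n * r ^ L), u) ω))) := by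
    refine bd_splice e2 (fun j _ => h1 j) (fun j hj => (h4 j hj).trans ?_) z2
    have : (0 : ℝ) ≤ j := j.cast_nonneg
    linarith
  have e1 := splice_zero (y := fun j => q (y j)) e2
  have e0 := e1.trans (inv_mul_cancel_right (q (y 0)) (c'.r ^ L')).symm
  have m0 : 0 ≤ M := (Nat.cast_nonneg _).trans (h1 0)
  have z0 := tr_ray k1 (by linarith) hc'.r_dir hc'.r_sz z1 (by linarith) (by linarith) e0
  refine ⟨_, (splice_zero (y := fun j => q (y 0) * (c'.r ^ L')⁻¹ * c'.r ^ j) e0).trans (by simp),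
    z0, ?_⟩
  rw [theta_splice hc' z0, theta_splice hc' (z1.tr k0), theta_splice hc' (z2.tr k0)]

variable [Countable Γ] [DiscreteMeasurableSpace Γ]

/-- The boundary sets attached to a good point. -/
theorem goodD (hc : ChainProp S π w a Cs κ₁ κ₂ C₀ c) (hc' : ChainProp S π w a' Cs' κ₁' κ₂' C₀' c')
    {q q' : Γ → Γ} {L : ℕ} (hL : 1 ≤ L) {p : Γ} (hp : Good S π a κ₁ C₀ c.r c' q q' L p) :
    ∃ (D : Set c.B) (E : Set c'.B), MeasurableSet D ∧ MeasurableSet E ∧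
      (∀ ξ ∈ D, ∃ y, y 0 = p ∧ Tr S π a κ₁ C₀ y ∧ c.Θ y = ξ) ∧
      ENNReal.ofReal (1 / 2) ≤ c'.μσ.prod (iid c'.μN)
        {x | c'.Θ (lp c'.step (q (p * c.r ^ L), x.1) x.2) ∈ E} ∧
      ∀ γ, c'.μσ.prod (iid c'.μN) {x | c'.Θ (lp c'.step (γ, x.1) x.2) ∈ E} ≤
        c'.μσ.prod (iid c'.μN) {x | c.Θ (q' ∘ lp c'.step (γ, x.1) x.2) ∈ D} := by
  have k1 : 0 ≤ κ₁ := by linarith [hc.one_le, hc.le₁]
  have k2 : κ₁ ≤ κ₂ := by linarith [hc.le₂]
  have mq : Measurable fun y : ℕ → Γ => q' ∘ y :=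
    measurable_pi_lambda _ fun j => (Measurable.of_discrete (f := q')).comp (measurable_pi_apply j)
  have m1 : Measurable fun x : c'.σ × (ℕ → c'.N) => splice L (fun j => p * c.r ^ j)
      (q' ∘ lp c'.step (q (p * c.r ^ L), x.1) x.2) :=
    (measurable_splice L).comp (measurable_const.prodMk (mq.comp (meas_lp₂ hc' _)))
  obtain ⟨D, hD, hD1, hD2⟩ := img (c'.μσ.prod (iid c'.μN)) (hc.meas_Θ.comp m1)
    (m1 (meas_tr (S := S) (π := π) (a := a) κ₁ C₀))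
  have m2 := mq.comp (measurable_lp c'.step hc'.meas_step)
  obtain ⟨E, hE, hE1⟩ := hc'.tt {z | (∃ Λ : ℕ, Tr S π a κ₁ Λ (q' ∘ lp c'.step z.1 z.2)) ∧
      c.Θ (q' ∘ lp c'.step z.1 z.2) ∈ D} (by
      refine MeasurableSet.inter ?_ (hc.meas_Θ.comp m2 hD)
      refine measurableSet_setOfPred.2 (Measurable.exists fun Λ => ?_)
      exact measurableSet_setOfPred.1 (m2 (meas_tr (S := S) (π := π) (a := a) κ₁ Λ))) (by
      intro x ω
      have e : q' ∘ lp c'.step (mv c'.step x (ω 0)) (fun j => ω (j + 1)) =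
          fun j => (q' ∘ lp c'.step x ω) (j + 1) := by
        funext j
        simp only [comp_apply, lp, cpath_succ']
      simp only [Set.mem_ofPred_eq, e, exists_nat_tr]
      constructor
      · rintro ⟨⟨Λ, h1⟩, h2⟩
        have h3 := tr_shift k1 h1
        exact ⟨⟨_, h3⟩, by rwa [hc.shift Λ _ (tr_mono h1 k2 le_rfl)]⟩
      · rintro ⟨⟨Λ, h1⟩, h2⟩
        have h3 := tr_unshift k1 h1
        exact ⟨⟨_, h3⟩, by rwa [hc.shift _ _ (tr_mono h3 k2 le_rfl)] at h2⟩)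
  refine ⟨D, E, hD, hE, ?_, ?_, fun γ => ?_⟩
  · intro ξ hξ
    obtain ⟨x, hx, rfl⟩ := hD1 hξ
    exact ⟨_, (splice_lt _ _ hL).trans (by simp), hx, rfl⟩
  · refine le_trans (ENNReal.ofReal_le_of_le_toReal hp) (measure_mono_ae ?_)
    filter_upwards [hD2, hE1 (q (p * c.r ^ L))] with x h1 h2 h3
    have h4 : Tr S π a κ₁ C₀ (splice L (fun j => p * c.r ^ j)
      (q' ∘ lp c'.step (q (p * c.r ^ L), x.1) x.2)) := h3
    refine h2.1 ⟨exists_nat_tr.2 ?_, ?_⟩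
    · have h5 := tr_shiftn k1 h4 L
      rwa [splice_shift] at h5
    · have h5 := h1 h4
      rwa [comp_apply, theta_splice hc (tr_mono h4 k2 le_rfl)] at h5
  · refine measure_mono_ae ?_
    filter_upwards [hE1 γ] with x h1 h2
    exact (h1.2 h2).2

omit [Group Γ] in
theorem meas_det {n : ℕ} {A : (ℕ → Γ) → Prop} (h : ∀ y y', (∀ j ≤ n, y j = y' j) → A y → A y') :
    MeasurableSet {y | A y} := by
  have e : {y | A y} = (fun (y : ℕ → Γ) (j : Fin (n + 1)) => y j) ⁻¹'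
      {z | ∃ y, A y ∧ ∀ j : Fin (n + 1), y j = z j} := by
    ext y
    exact ⟨fun hy => ⟨y, hy, fun _ => rfl⟩, fun ⟨y', h1, h2⟩ =>
      h y' y (fun j hj => h2 ⟨j, by omega⟩) h1⟩
  rw [e]
  exact (measurable_pi_lambda _ fun j => measurable_pi_apply _) MeasurableSet.of_discrete

/-- Stopping at the first occurrence of an event. -/
theorem stop (hc : ChainProp S π w a Cs κ₁ κ₂ C₀ c) (x : Γ × c.σ) (A : ℕ → (ℕ → Γ) → Prop)
    (hA : ∀ n y y', (∀ j ≤ n, y j = y' j) → A n y → A n y') :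
    ∃ W : Γ × ℕ → Set (ℕ → c.N), (∀ i, MeasurableSet (W i)) ∧ Pairwise (Disjoint on W) ∧
      (∀ i ω ω', ω ∈ W i → splice i.2 ω ω' ∈ W i) ∧
      (∀ i, ∀ ω ∈ W i, lp c.step x ω i.2 = i.1 ∧ A i.2 (lp c.step x ω)) ∧
      {ω | ∃ n, A n (lp c.step x ω)} ⊆ ⋃ i, W i := by
  classical
  have hB : ∀ (i : Γ × ℕ) y y', (∀ j ≤ i.2, y j = y' j) →
      (y i.2 = i.1 ∧ A i.2 y ∧ ∀ j < i.2, ¬ A j y) →
      (y' i.2 = i.1 ∧ A i.2 y' ∧ ∀ j < i.2, ¬ A j y') := fun i y y' h h' =>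
    ⟨(h _ le_rfl).symm.trans h'.1, hA _ _ _ h h'.2.1, fun j hj h'' =>
      h'.2.2 j hj (hA _ _ _ (fun l hl => (h l (by omega)).symm) h'')⟩
  refine ⟨fun i => (lp c.step x) ⁻¹' {y | y i.2 = i.1 ∧ A i.2 y ∧ ∀ j < i.2, ¬ A j y},
    fun i => ?_, fun i j hij => ?_, fun i ω ω' h => ?_, fun i ω h => ⟨h.1, h.2.1⟩,
    fun ω h => ?_⟩
  · exact ((measurable_lp c.step hc.meas_step).comp (measurable_const.prodMk measurable_id))
      (meas_det (hB i))
  · refine Set.disjoint_left.2 fun ω h1 h2 => hij ?_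
    have e : i.2 = j.2 := le_antisymm (not_lt.1 fun h => h1.2.2 _ h h2.2.1)
      (not_lt.1 fun h => h2.2.2 _ h h1.2.1)
    exact Prod.ext (h1.1.symm.trans (e ▸ h2.1)) e
  · refine hB i _ _ (fun j hj => ?_) h
    exact congrArg Prod.fst (cpath_congr c.step x j fun l hl =>
      (splice_lt (n := i.2) ω ω' (by omega)).symm)
  · exact Set.mem_iUnion.2 ⟨(lp c.step x ω (Nat.find h), Nat.find h), rfl, Nat.find_spec h,
      fun j hj => Nat.find_min h hj⟩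

theorem num1 {e e' C' A t₀ t₁ s : ℝ} {ν : ℝ≥0∞} (he : 0 < e) (he' : 0 < e')
    (h : ENNReal.ofReal (e' * Real.exp (-t₀)) * ENNReal.ofReal (1 / 2) ≤
      ENNReal.ofReal (C' * Real.exp (-t₁)) * ν) (hν : ν ≠ ⊤) (hA : A ≤ -s + t₁ - t₀) :
    ENNReal.ofReal (e * e' / (2 * (|C'| + 1)) * Real.exp A) ≤
      ENNReal.ofReal (e * Real.exp (-s)) * ν := by
  lift ν to ℝ≥0 using hν
  have h1 : ENNReal.ofReal (C' * Real.exp (-t₁)) ≤ ENNReal.ofReal ((|C'| + 1) * Real.exp (-t₁)) :=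
    ENNReal.ofReal_le_ofReal (by gcongr; linarith [le_abs_self C'])
  have h2 := h.trans (mul_le_mul_left h1 _)
  rw [← ENNReal.ofReal_coe_nnreal, ← ENNReal.ofReal_mul (by positivity),
    ← ENNReal.ofReal_mul (by positivity), ENNReal.ofReal_le_ofReal_iff (by positivity)] at h2
  rw [← ENNReal.ofReal_coe_nnreal, ← ENNReal.ofReal_mul (by positivity)]
  refine ENNReal.ofReal_le_ofReal ?_
  have h3 : Real.exp A ≤ Real.exp (-s) * Real.exp t₁ * Real.exp (-t₀) := by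
    rw [← Real.exp_add, ← Real.exp_add]
    exact Real.exp_le_exp.2 (by linarith)
  have h4 : Real.exp t₁ * Real.exp (-t₁) = 1 := by rw [← Real.exp_add]; simp
  rw [div_mul_eq_mul_div, div_le_iff₀ (by positivity)]
  calc e * e' * Real.exp A ≤ e * e' * (Real.exp (-s) * Real.exp t₁ * Real.exp (-t₀)) := by gcongr
    _ = 2 * e * Real.exp (-s) * Real.exp t₁ * (e' * Real.exp (-t₀) * (1 / 2)) := by ring
    _ ≤ 2 * e * Real.exp (-s) * Real.exp t₁ * ((|C'| + 1) * Real.exp (-t₁) * ν) := by gcongr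
    _ = e * Real.exp (-s) * ν * (2 * (|C'| + 1)) * (Real.exp t₁ * Real.exp (-t₁)) := by ring
    _ = _ := by rw [h4, mul_one]

theorem num2 {d C c₁ c₂ Λ h t : ℝ} {m : ℝ≥0∞} (hd : 0 < d) (hc₂ : 0 ≤ c₂) (hΛ : 0 ≤ Λ)
    (hm : ENNReal.ofReal (d * Real.exp (h - t - c₁ - c₂ * Λ)) * m ≤
      ENNReal.ofReal (C * Real.exp (-t))) (hm' : m ≠ ⊤) :
    m.toReal ≤ (|C| * Real.exp c₁ / d + c₂ + 1) *
      Real.exp ((|C| * Real.exp c₁ / d + c₂ + 1) * Λ - h) := by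
  lift m to ℝ≥0 using hm'
  have h1 : ENNReal.ofReal (C * Real.exp (-t)) ≤ ENNReal.ofReal (|C| * Real.exp (-t)) :=
    ENNReal.ofReal_le_ofReal (by gcongr; exact le_abs_self C)
  have h2 := hm.trans h1
  rw [← ENNReal.ofReal_coe_nnreal, ← ENNReal.ofReal_mul (by positivity),
    ENNReal.ofReal_le_ofReal_iff (by positivity)] at h2
  have h0 : 0 ≤ |C| * Real.exp c₁ / d := by positivity
  have h3 : Real.exp (-t) = Real.exp (h - t - c₁ - c₂ * Λ) * (Real.exp c₁ *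
      Real.exp (c₂ * Λ - h)) := by
    rw [← Real.exp_add, ← Real.exp_add]; congr 1; ring
  have h4 : (m : ℝ) ≤ |C| * Real.exp c₁ / d * Real.exp (c₂ * Λ - h) := by
    rw [div_mul_eq_mul_div, le_div_iff₀ hd]
    refine le_of_mul_le_mul_left ?_ (Real.exp_pos (h - t - c₁ - c₂ * Λ))
    rw [h3] at h2
    linarith
  refine h4.trans ?_
  gcongr <;> linarith

end Vx

open Vx in
theorem v_pf (hS : SzBasic_stmt) : V_stmt := by
  intro k Γ _ _ _ _ π w S hgen a a' Cs κ₁ κ₂ C₀ Cs' κ₁' κ₂' C₀' c c' hc hc' K L hL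
  classical
  obtain ⟨C, hub⟩ := hc.ub
  obtain ⟨e, he, hlb⟩ := hc.lb
  obtain ⟨C', hub'⟩ := hc'.ub
  obtain ⟨e', he', hlb'⟩ := hc'.lb
  obtain ⟨F, hF⟩ := hc.fin
  obtain ⟨M₁, hM₁⟩ := lp_bd hc'
  choose B hB using lip_sz hS π hgen K
  obtain ⟨-, -, -, -, hht, -⟩ := hS k Γ π S hgen
  obtain ⟨M, m0, m1, m2, m3, m4⟩ : ∃ M : ℝ, 0 ≤ M ∧ M₁ ≤ M ∧ (∀ f ∈ F, (B f : ℝ) ≤ M) ∧
      (B c.r : ℝ) ≤ M ∧ ∀ i ≤ L, B (c.r ^ i) + i * ‖a'‖ ≤ M := by
    have b1 : (0 : ℝ) ≤ (F.sup B : ℕ) := Nat.cast_nonneg _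
    have b2 : (0 : ℝ) ≤ B c.r := Nat.cast_nonneg _
    have b3 : (0 : ℝ) ≤ ((Finset.range (L + 1)).sup fun i => B (c.r ^ i) : ℕ) := Nat.cast_nonneg _
    have b4 : 0 ≤ L * ‖a'‖ := by positivity
    have b5 := abs_nonneg M₁
    refine ⟨|M₁| + (F.sup B : ℕ) + B c.r +
      ((Finset.range (L + 1)).sup fun i => B (c.r ^ i) : ℕ) + L * ‖a'‖, by positivity,
      by linarith [le_abs_self M₁], fun f hf => ?_, by linarith, fun i hi => ?_⟩
    · have : (B f : ℝ) ≤ (F.sup B : ℕ) := by exact_mod_cast Finset.le_sup hf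
      linarith
    · have : (B (c.r ^ i) : ℝ) ≤ ((Finset.range (L + 1)).sup fun i => B (c.r ^ i) : ℕ) := by
        exact_mod_cast Finset.le_sup (f := fun i => B (c.r ^ i)) (Finset.mem_range.2 (by omega))
      have h2 : (i : ℝ) * ‖a'‖ ≤ L * ‖a'‖ := by gcongr
      linarith
  set d := e * e' / (2 * (|C'| + 1)) with hd
  set c₁ := ‖kap w a'‖ * (M + (M + 1) * ‖ht π c'.r‖) with hc₁
  set c₂ := ‖kap w a'‖ * ‖ht π c'.r‖ with hc₂
  have d0 : 0 < d := by positivity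
  refine ⟨|C| * Real.exp c₁ / d + c₂ + 1, by positivity, fun q q' hq _ Λ h x₀ hΛ => ?_⟩
  have hqh : ∀ p g, ‖ht π (q (p * g)) - ht π (q p)‖ ≤ B g := fun p g => by
    have h1 := (hht ((q p)⁻¹ * q (p * g))).trans (Nat.cast_le.2 (hB g q hq p))
    rwa [ht_mul, ht_inv, neg_add_eq_sub] at h1
  obtain ⟨W, w1, w2, w3, w4, w5⟩ := stop hc x₀ (fun n y => Good S π a κ₁ C₀ c.r c' q q' L (y n) ∧
      h ≤ kap w a' (ht π (q (y n)) - ht π (q x₀.1)) - kap w a (ht π (y n) - ht π x₀.1) ∧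
      ∀ j ≤ n, ‖ht π (q (y j)) - ht π (q x₀.1) - (j : ℝ) • a'‖ ≤ (κ₂' - 1) * j + Λ)
    (fun n y y' h1 h2 => by
      rw [← h1 n le_rfl]
      exact ⟨h2.1, h2.2.1, fun j hj => h1 j hj ▸ h2.2.2 j hj⟩)
  set L' := ⌈Λ + M⌉₊ with hL'
  set y₀ := q x₀.1 * (c'.r ^ L')⁻¹ with hy₀
  set P' := c'.μσ.prod (iid c'.μN) with hP'
  set lam : Γ × ℕ → ℝ≥0∞ := fun i => ENNReal.ofReal (e * Real.exp (-kap w a (ht π i.1))) with hlam
  set f : c'.σ × (ℕ → c'.N) → c.B := fun x => c.Θ (q' ∘ lp c'.step (y₀, x.1) x.2) with hf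
  have key : ∀ i : Γ × ℕ, ∃ D : Set c.B, MeasurableSet D ∧
      (∀ ξ ∈ D, ∃ y, y 0 = i.1 ∧ Tr S π a κ₁ C₀ y ∧ c.Θ y = ξ) ∧
      ENNReal.ofReal (d * Real.exp (h - kap w a (ht π x₀.1) - c₁ - c₂ * Λ)) * iid c.μN (W i) ≤
        lam i * iid c.μN (W i) * P' (f ⁻¹' D) := by
    intro i
    rcases (W i).eq_empty_or_nonempty with h0 | ⟨ω, hω⟩
    · exact ⟨∅, MeasurableSet.empty, fun _ h => h.elim, by simp [h0]⟩
    obtain ⟨e1, g1, g2, g3⟩ := w4 i ω hω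
    rw [e1] at g1 g2
    obtain ⟨D, E, hD, hE, d1, d2, d3⟩ := goodD hc hc' hL g1
    refine ⟨D, hD, d1, ?_⟩
    have t1 := transfer hc' hub' hlb' y₀ (q (i.1 * c.r ^ L)) (fun u ω' => by
      have := ray (L := L) (L' := L') (n := i.2) (q := q) (y := lp c.step x₀ ω) (r := c.r) hc'
        (fun x ω => (hM₁ x ω).mono m1 le_rfl)
        (fun j => (Nat.cast_le.2 (hB _ q hq _)).trans (m2 _ (hF _ _)))
        (fun p => (Nat.cast_le.2 (hB _ q hq _)).trans m3)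
        (fun p j hj => (norm_sub_le_of_le (hqh p _) (le_of_eq ?_)).trans (m4 j hj))
        g3 hΛ (Nat.le_ceil _) u ω'
      · rwa [e1] at this
      · rw [norm_smul, Real.norm_natCast]) hE
    rw [mul_right_comm (lam i)]
    refine mul_le_mul_left (num1 he he' (le_trans (mul_le_mul_right d2 _)
      (t1.trans (mul_le_mul_right (d3 y₀) _))) (measure_ne_top _ _) ?_) _
    have n1 : ‖ht π (q i.1) - ht π (q (i.1 * c.r ^ L))‖ ≤ M := by
      rw [norm_sub_rev]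
      have : 0 ≤ L * ‖a'‖ := by positivity
      linarith [hqh i.1 (c.r ^ L), m4 L le_rfl]
    have n2 : ‖ht π y₀ - ht π (q x₀.1)‖ ≤ (Λ + M + 1) * ‖ht π c'.r‖ := by
      rw [hy₀, ht_mul, add_sub_cancel_left, ht_inv, norm_neg, ht_pow, norm_smul,
        Real.norm_natCast]
      gcongr
      exact (Nat.ceil_lt_add_one (by positivity)).le
    have n3 := (le_abs_self _).trans (((kap w a').le_opNorm _).trans
      (mul_le_mul_of_nonneg_left (norm_add_le_of_le n1 n2) (norm_nonneg _)))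
    simp only [map_sub, map_add] at g2 n3
    rw [hc₁, hc₂]
    linarith
  choose D hD hD1 hD2 using key
  have hfm : Measurable f := hc.meas_Θ.comp (measurable_pi_lambda _ fun j =>
    (Measurable.of_discrete (f := q')).comp ((measurable_pi_apply j).comp (meas_lp₂ hc' y₀)))
  have main : ENNReal.ofReal (d * Real.exp (h - kap w a (ht π x₀.1) - c₁ - c₂ * Λ)) *
      iid c.μN (⋃ i, W i) ≤ ENNReal.ofReal (C * Real.exp (-kap w a (ht π x₀.1))) := by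
    rw [measure_iUnion w2 w1, ← ENNReal.tsum_mul_left]
    refine (ENNReal.tsum_le_tsum hD2).trans ?_
    have e1 : ∀ i, lam i * iid c.μN (W i) * P' (f ⁻¹' D i) =
        ∫⁻ x, (f ⁻¹' D i).indicator (fun _ => lam i * iid c.μN (W i)) x ∂P' := fun i =>
      (lintegral_indicator_const (hfm (hD i)) _).symm
    rw [tsum_congr e1, ← lintegral_tsum fun i =>
      (measurable_const.indicator (hfm (hD i))).aemeasurable]
    refine (lintegral_mono fun x => ?_).trans_eq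
      ((lintegral_const _).trans (by rw [measure_univ, mul_one]))
    rw [ENNReal.tsum_eq_iSup_sum]
    refine iSup_le fun s => le_trans (le_of_eq ?_) (shadow hc he hub hlb x₀ Prod.snd Prod.fst W
      w1 w2 w3 (fun i ω hω => (w4 i ω hω).1) (f x) (s.filter fun i => f x ∈ D i)
      fun i hi => hD1 i _ (Finset.mem_filter.1 hi).2)
    rw [Finset.sum_filter]
    exact Finset.sum_congr rfl fun i _ => Set.indicator_apply _ _ _
  exact (measureReal_mono w5).trans (num2 d0 (by positivity) hΛ main (measure_ne_top _ _))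

end Vale.Agent.P188
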