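import Vale.Agent.P188.Amen
import Vale.Agent.P188.Base
import Vale.Agent.P188.BdExt
import Vale.Agent.P188.ChainEx
import Vale.Agent.P188.Cob
import Vale.Agent.P188.Cpl
import Vale.Agent.P188.Eig
import Vale.Agent.P188.FK
import Vale.Agent.P188.FibM
import Vale.Agent.P188.FibP
import Vale.Agent.P188.Fin
import Vale.Agent.P188.Flag
import Vale.Agent.P188.GoodM
import Vale.Agent.P188.Gromov
import Vale.Agent.P188.HST
import Vale.Agent.P188.Hit
import Vale.Agent.P188.Inv
import Vale.Agent.P188.Iso
import Vale.Agent.P188.MainPf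
import Vale.Agent.P188.MaxErg
import Vale.Agent.P188.Op
import Vale.Agent.P188.PairExt
import Vale.Agent.P188.Path
import Vale.Agent.P188.Phi
import Vale.Agent.P188.Reg
import Vale.Agent.P188.ST
import Vale.Agent.P188.Scale
import Vale.Agent.P188.SzBasic
import Vale.Agent.P188.SzExt
import Vale.Agent.P188.TTExt
import Vale.Agent.P188.Tail
import Vale.Agent.P188.Tower
import Vale.Agent.P188.TowerBasic
import Vale.Agent.P188.UL
import Vale.Agent.P188.V

/-! P188: assembly of the modules. -/

namespace Vale.Agent.P188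

theorem chainEx_all : ChainEx_stmt :=
  chainEx_pf szBasic_pf (szExt_pf szBasic_pf) towerBasic_pf big_pf
    (bdExt_pf szBasic_pf (szExt_pf szBasic_pf)) path_pf ul_pf
    (ttExt_pf (fibP_pf flag_pf) fibM_pf) pairExt_pf (base_pf szBasic_pf)

theorem goodM_all : GoodM_stmt := goodM_pf (reg_pf maxErg_pf) szBasic_pf

theorem iso_all : Iso_stmt :=
  iso_pf chainEx_all (v_pf szBasic_pf) (reg_pf maxErg_pf) goodM_all phi_pf towerBasic_pf

theorem tail_all : Tail_stmt :=
  tail_pf chainEx_all (v_pf szBasic_pf) (reg_pf maxErg_pf) goodM_all phi_pf towerBasic_pf hit_pf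
    (cob_pf hit_pf) fk_pf scale_pf inv_pf (op_pf inv_pf)

theorem st_all : ST_stmt :=
  st_pf (hst_pf flag_pf towerBasic_pf) (eig_pf flag_pf) count_pf towerBasic_pf

universe u v

theorem main_all : Main_stmt.{u, v} :=
  main_pf tower_pf towerBasic_pf
    (cpl_pf st_all iso_all tail_all amen_pf phi_pf count_pf towerBasic_pf) (fin_pf gromov_pf)

theorem main_iff {H : Type u} {G : Type v} [Group H] [Group G] (S : Finset H) (T : Finset G)
    (hS : Subgroup.closure (S : Set H) = ⊤) (hT : Subgroup.closure (T : Set G) = ⊤)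
    (K C : ℝ) (F : H → G) (hF : IsQuasiIsometry S T K C F) :
    IsVirtuallyPolycyclic H ↔ IsVirtuallyPolycyclic G := by
  refine ⟨fun h => ?_, main_all H G S T hS hT K C F hF⟩
  obtain ⟨F', h', -⟩ := (MainPf.ce_of_qi hS hT hF).inv
  obtain ⟨K', C', h''⟩ := h'.qi hT hS
  exact main_all G H T S hT hS K' C' F' h'' h

end Vale.Agent.P188
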