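import Vale.Agent.P188.Stmts

namespace Vale.Agent.P188

open MeasureTheory Filter Topology Finset BoundedContinuousFunction

section
variable {Γ : Type} [Group Γ] {Z : Type} [TopologicalSpace Z] [MeasurableSpace Z] [BorelSpace Z]
  [MulAction Γ Z] [ContinuousConstSMul Γ Z]

lemma am_meas (g : Γ) : Measurable fun z : Z => g • z := (continuous_const_smul g).measurable

/-- the elements preserving a measure -/
def amStab (Γ : Type) [Group Γ] {Z : Type} [TopologicalSpace Z] [MeasurableSpace Z]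
    [BorelSpace Z] [MulAction Γ Z] [ContinuousConstSMul Γ Z] (ν : Measure Z) : Subgroup Γ where
  carrier := {g | MeasurePreserving (fun z : Z => g • z) ν ν}
  one_mem' := by
    have : (fun z : Z => (1 : Γ) • z) = id := funext fun z => one_smul _ z
    change MeasurePreserving _ ν ν
    rw [this]
    exact MeasurePreserving.id ν
  mul_mem' := by
    intro a b ha hb
    have : (fun z : Z => (a * b) • z) = (fun z : Z => a • z) ∘ fun z : Z => b • z :=
      funext fun z => mul_smul a b z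
    change MeasurePreserving _ ν ν
    rw [this]
    exact MeasurePreserving.comp ha hb
  inv_mem' := by
    intro a ha
    refine ⟨am_meas _, ?_⟩
    have h1 : MeasurePreserving (fun z : Z => a • z) ν ν := ha
    have : ((fun z : Z => a⁻¹ • z) ∘ fun z : Z => a • z) = id :=
      funext fun z => inv_smul_smul a z
    conv_lhs => rw [← h1.map_eq]
    rw [Measure.map_map (am_meas _) (am_meas _), this, Measure.map_id]

/-- a bounded continuous function composed with the action -/
noncomputable def amF (g : Γ) (f : Z →ᵇ ℝ) : Z →ᵇ ℝ :=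
  f.compContinuous ⟨fun z => g • z, continuous_const_smul g⟩

omit [MeasurableSpace Z] [BorelSpace Z] in
lemma amF_apply (g : Γ) (f : Z →ᵇ ℝ) (z : Z) : amF g f z = f (g • z) := rfl

lemma am_int_map (g : Γ) (f : Z →ᵇ ℝ) (ν : Measure Z) :
    ∫ z, f z ∂(ν.map fun z => g • z) = ∫ z, f (g • z) ∂ν :=
  integral_map (am_meas g).aemeasurable f.continuous.measurable.aestronglyMeasurable

/-- Cesaro averages of translates -/
noncomputable def amAvg (t : Γ) (ν : Measure Z) (N : ℕ) : Measure Z :=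
  ((N + 1 : ℕ) : ENNReal)⁻¹ • ∑ j ∈ range (N + 1), ν.map fun z => t ^ j • z

lemma amAvg_prob (t : Γ) (ν : Measure Z) [IsProbabilityMeasure ν] (N : ℕ) :
    IsProbabilityMeasure (amAvg t ν N) := by
  constructor
  have : ∀ j : ℕ, (ν.map fun z => t ^ j • z) Set.univ = 1 := fun j => by
    rw [Measure.map_apply (am_meas _) MeasurableSet.univ]
    simp
  rw [amAvg, Measure.smul_apply, Measure.finset_sum_apply]
  simp only [this, sum_const, card_range, nsmul_eq_mul, mul_one, smul_eq_mul]
  exact ENNReal.inv_mul_cancel (by simp) (by simp)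

lemma amAvg_int (t : Γ) (ν : Measure Z) [IsProbabilityMeasure ν] (N : ℕ) (f : Z →ᵇ ℝ) :
    ∫ z, f z ∂(amAvg t ν N) =
      ((N : ℝ) + 1)⁻¹ * ∑ j ∈ range (N + 1), ∫ z, f (t ^ j • z) ∂ν := by
  rw [amAvg, integral_smul_measure, integral_finset_sum_measure]
  · simp only [am_int_map, smul_eq_mul]
    congr 1
    rw [ENNReal.toReal_inv, ENNReal.toReal_natCast]
    push_cast
    rfl
  · intro j _
    exact f.integrable _

end

lemma am_step {Γ : Type} [Group Γ] (ψ : Γ →* Multiplicative ℤ) (hψ : Function.Surjective ψ)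
    {Z : Type} [TopologicalSpace Z] [CompactSpace Z] [TopologicalSpace.MetrizableSpace Z]
    [MeasurableSpace Z] [BorelSpace Z] [MulAction Γ Z] [ContinuousConstSMul Γ Z]
    (ν0 : Measure Z) [IsProbabilityMeasure ν0]
    (h0 : ∀ g ∈ ψ.ker, MeasurePreserving (fun z : Z => g • z) ν0 ν0) :
    ∃ ν : Measure Z, IsProbabilityMeasure ν ∧ ∀ g : Γ, MeasurePreserving (g • ·) ν ν := by
  obtain ⟨t, ht⟩ := hψ (Multiplicative.ofAdd 1)
  let P : ℕ → ProbabilityMeasure Z := fun N => ⟨amAvg t ν0 N, amAvg_prob t ν0 N⟩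
  obtain ⟨ν, -, hν⟩ := (isCompact_univ (X := ProbabilityMeasure Z)).ultrafilter_le_nhds
    ((hyperfilter ℕ).map P) (by simp)
  have hT : Tendsto P (hyperfilter ℕ) (𝓝 ν) := hν
  rw [ProbabilityMeasure.tendsto_iff_forall_integral_tendsto] at hT
  have key : ∀ g : Γ, (∀ f : Z →ᵇ ℝ, Tendsto (fun N => ∫ z, amF g f z ∂(amAvg t ν0 N) -
      ∫ z, f z ∂(amAvg t ν0 N)) atTop (𝓝 0)) → g ∈ amStab Γ (ν : Measure Z) := by
    intro g hg
    refine ⟨am_meas g, ?_⟩
    refine ext_of_forall_integral_eq_of_IsFiniteMeasure fun f => ?_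
    rw [am_int_map]
    have h1 := (hT (amF g f)).sub (hT f)
    have h2 := (hg f).mono_left Nat.hyperfilter_le_atTop
    have h3 := tendsto_nhds_unique h1 h2
    exact sub_eq_zero.1 h3
  have hk : ∀ g ∈ ψ.ker, g ∈ amStab Γ (ν : Measure Z) := by
    intro g hg
    refine key g fun f => ?_
    have : ∀ N, ∫ z, amF g f z ∂(amAvg t ν0 N) - ∫ z, f z ∂(amAvg t ν0 N) = 0 := by
      intro N
      rw [amAvg_int, amAvg_int, sub_eq_zero]
      congr 1
      refine sum_congr rfl fun j _ => ?_
      have hm : (t ^ j)⁻¹ * g * t ^ j ∈ ψ.ker := by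
        rw [MonoidHom.mem_ker] at hg ⊢
        rw [map_mul, map_mul, hg, map_inv, mul_one, inv_mul_cancel]
      have h1 := am_int_map ((t ^ j)⁻¹ * g * t ^ j) (amF (t ^ j) f) ν0
      rw [(h0 _ hm).map_eq] at h1
      simp only [amF_apply] at h1 ⊢
      rw [h1]
      congr 1
      funext z
      simp only [mul_smul, smul_inv_smul]
    simp only [this]
    exact tendsto_const_nhds
  have htt : t ∈ amStab Γ (ν : Measure Z) := by
    refine key t fun f => ?_
    have hb : ∀ g : Γ, |∫ z, f (g • z) ∂ν0| ≤ ‖f‖ := fun g => by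
      have := norm_integral_le_of_norm_le_const (μ := ν0) (f := fun z => f (g • z)) (C := ‖f‖)
        (Eventually.of_forall fun z => f.norm_coe_le_norm _)
      simpa using this
    have hlim : Tendsto (fun N : ℕ => (2 * ‖f‖) * (1 / ((N : ℝ) + 1))) atTop (𝓝 0) := by
      simpa using tendsto_one_div_add_atTop_nhds_zero_nat.const_mul (2 * ‖f‖)
    refine squeeze_zero_norm (fun N => ?_) hlim
    rw [amAvg_int, amAvg_int, ← mul_sub, ← sum_sub_distrib]
    have e : ∀ j, ∫ z, amF t f (t ^ j • z) ∂ν0 = ∫ z, f (t ^ (j + 1) • z) ∂ν0 := fun j => by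
      simp only [amF_apply, pow_succ', mul_smul]
    simp only [e]
    rw [sum_range_sub (fun j => ∫ z, f (t ^ j • z) ∂ν0), norm_mul, Real.norm_eq_abs,
      Real.norm_eq_abs, abs_of_pos (by positivity), mul_comm, one_div]
    refine mul_le_mul_of_nonneg_right ?_ (by positivity)
    have h1 := hb (t ^ (N + 1))
    have h2 := hb (t ^ 0)
    have h3 := abs_sub (∫ z, f (t ^ (N + 1) • z) ∂ν0) (∫ z, f (t ^ 0 • z) ∂ν0)
    linarith
  refine ⟨ν, inferInstance, fun g => ?_⟩
  have hm : (t ^ Multiplicative.toAdd (ψ g))⁻¹ * g ∈ ψ.ker := by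
    rw [MonoidHom.mem_ker, map_mul, map_inv, map_zpow, ht, ← ofAdd_zsmul]
    simp
  have h1 := (amStab Γ (ν : Measure Z)).mul_mem
    ((amStab Γ (ν : Measure Z)).zpow_mem htt (Multiplicative.toAdd (ψ g))) (hk _ hm)
  rw [mul_inv_cancel_left] at h1
  exact h1

theorem amen_pf : Amen_stmt := by
  intro n
  induction n with
  | zero =>
    intro Γ _ h Z _ _ _ _ _ _ _ _
    have : Subsingleton Γ := h
    refine ⟨Measure.dirac (Classical.arbitrary Z), inferInstance, fun g => ?_⟩
    rw [Subsingleton.elim g 1]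
    exact (amStab Γ _).one_mem
  | succ n ih =>
    intro Γ _ h Z _ _ _ _ _ _ _ _
    obtain ⟨ψ, hψ, hk⟩ := h
    have : ContinuousConstSMul ψ.ker Z := ⟨fun g => continuous_const_smul (g : Γ)⟩
    obtain ⟨ν0, hp, h0⟩ := ih ψ.ker hk Z
    exact am_step ψ hψ ν0 fun g hg => h0 ⟨g, hg⟩

end Vale.Agent.P188
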