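import Vale.Agent.P188.Defs

/-! Shared internal definitions for P188. -/

namespace Vale.Agent.P188

open Function

/-- `PolyZ n G`: `G` is built from the trivial group by `n` extensions by `ℤ`. -/
def PolyZ : ℕ → (G : Type) → [Group G] → Prop
  | 0, G, _ => Subsingleton G
  | n + 1, G, _ => ∃ ψ : G →* Multiplicative ℤ, Surjective ψ ∧ PolyZ n ψ.ker

/-- `l` is a word in `S ∪ S⁻¹`. -/
def IsWord {G : Type*} [Group G] (S : Finset G) (l : List G) : Prop :=
  ∀ x ∈ l, x ∈ S ∨ x⁻¹ ∈ S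

/-- Products of words of length at most `r`. -/
def wBall {G : Type*} [Group G] (S : Finset G) (r : ℕ) : Set G :=
  {g | ∃ l : List G, IsWord S l ∧ l.length ≤ r ∧ l.prod = g}

/-- Products of words of length at most `r` all of whose initial segments have height `≤ ρ`. -/
def hBall {G E : Type*} [Group G] [Norm E] (S : Finset G) (φ : G → E) (r : ℕ) (ρ : ℝ) : Set G :=
  {g | ∃ l : List G, IsWord S l ∧ l.length ≤ r ∧ l.prod = g ∧ ∀ i, ‖φ (l.take i).prod‖ ≤ ρ}

/-- The lattice `ℤ^k`, written multiplicatively. -/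
abbrev Zk (k : ℕ) : Type := Multiplicative (Fin k → ℤ)

/-- The height space `ℝ^k` with the sup norm. -/
abbrev Rk (k : ℕ) : Type := Fin k → ℝ

/-- Linear functionals on the height space. -/
abbrev Wt (k : ℕ) : Type := Rk k →L[ℝ] ℝ

/-- A lattice point as a real vector. -/
def toR {k : ℕ} (a : Zk k) : Rk k := fun i => ((Multiplicative.toAdd a i : ℤ) : ℝ)

/-- The real height of a group element. -/
def ht {G : Type*} [Group G] {k : ℕ} (π : G →* Zk k) (g : G) : Rk k := toR (π g)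

/-- Logarithmic size: least `n` such that `g` is a word of length `≤ 2 ^ n` with heights `≤ n`. -/
noncomputable def sz {G : Type*} [Group G] {k : ℕ} (S : Finset G) (π : G →* Zk k) (g : G) : ℕ :=
  sInf {n : ℕ | g ∈ hBall S (ht π) (2 ^ n) n}

/-- An integral representation of `ℤ^k` with a real weight basis. -/
structure Layer (k : ℕ) where
  m : ℕ
  ρ : Zk k →* Matrix (Fin m) (Fin m) ℤ
  Q : Matrix (Fin m) (Fin m) ℝ
  Qi : Matrix (Fin m) (Fin m) ℝ
  Q_mul : Q * Qi = 1
  wt : Fin m → Wt k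
  block : ∀ b i j, wt i ≠ wt j → (Qi * (ρ b).map (Int.cast : ℤ → ℝ) * Q) i j = 0
  bound : ∃ (C : ℝ) (d : ℕ), ∀ b i j, |(Qi * (ρ b).map (Int.cast : ℤ → ℝ) * Q) i j| ≤
    C * (1 + ‖toR b‖) ^ d * Real.exp (wt i (toR b))
  det : ∀ b (p : Fin m → Prop) [DecidablePred p], (∀ i j, wt i = wt j → (p i ↔ p j)) →
    |((Qi * (ρ b).map (Int.cast : ℤ → ℝ) * Q).toSquareBlockProp p).det| =
      Real.exp (∑ i with p i, wt i (toR b))
  sum_wt : ∑ i, wt i = 0

/-- The action in the weight basis. -/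
noncomputable def Layer.B {k : ℕ} (L : Layer k) (b : Zk k) : Matrix (Fin L.m) (Fin L.m) ℝ :=
  L.Qi * (L.ρ b).map (Int.cast : ℤ → ℝ) * L.Q

/-- The action on the lattice `ℤ^m`. -/
def Layer.act {k : ℕ} (L : Layer k) (b : Zk k) (v : Zk L.m) : Zk L.m :=
  Multiplicative.ofAdd ((L.ρ b).mulVec (Multiplicative.toAdd v))

/-- An extension of `Γ'` by the lattice of a layer, acted on through the height. -/
structure Ext {k : ℕ} (L : Layer k) (Γ Γ' : Type) [Group Γ] [Group Γ'] (π' : Γ' →* Zk k) where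
  p : Γ →* Γ'
  p_surj : Surjective p
  ι : Zk L.m →* Γ
  ι_inj : Injective ι
  range_eq : ι.range = p.ker
  conj : ∀ g v, g * ι v * g⁻¹ = ι (L.act (π' (p g)) v)

/-- Towers of lattice extensions over `ℤ^k`, with the list of all weights. -/
inductive Tower {k : ℕ} : (Γ : Type) → [Group Γ] → (Γ →* Zk k) → List (Wt k) → Prop
  | base {Γ : Type} [Group Γ] (π : Γ →* Zk k) (h : Bijective π) : Tower Γ π []
  | ext {Γ Γ' : Type} [Group Γ] [Group Γ'] {π' : Γ' →* Zk k} {w : List (Wt k)}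
      (T : Tower Γ' π' w) (L : Layer k) (E : Ext L Γ Γ' π') :
      Tower Γ (π'.comp E.p) (List.ofFn L.wt ++ w)

/-- The weights separate points. -/
def Definite {k : ℕ} (w : List (Wt k)) : Prop := ∀ b : Rk k, b ≠ 0 → ∃ χ ∈ w, χ b ≠ 0

/-- `a` lies on no wall. -/
def Generic {k : ℕ} (w : List (Wt k)) (a : Rk k) : Prop := ∀ χ ∈ w, χ ≠ 0 → χ a ≠ 0

/-- The entropy norm: the sum of the negative parts of the weights. -/
noncomputable def enorm' {k : ℕ} (w : List (Wt k)) (b : Rk k) : ℝ :=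
  (w.map fun χ => max (-(χ b)) 0).sum

open Classical in
/-- The sum of the weights that are negative at `a`. -/
noncomputable def kap {k : ℕ} (w : List (Wt k)) (a : Rk k) : Wt k :=
  (w.filter fun χ => χ a < 0).sum

/-- A cocycle for an orthogonal representation. -/
def IsCocycle {G V : Type*} [Group G] [NormedAddCommGroup V] [InnerProductSpace ℝ V]
    (U : G →* (V ≃ₗᵢ[ℝ] V)) (b : G → V) : Prop :=
  ∀ g h, b (g * h) = b g + U g (b h)

/-- Almost coboundaries in a Hilbert space. -/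
def HACob {G V : Type*} [Group G] [NormedAddCommGroup V] [InnerProductSpace ℝ V]
    (U : G →* (V ≃ₗᵢ[ℝ] V)) (b : G → V) : Prop :=
  ∀ (F : Finset G) (ε : ℝ), 0 < ε → ∃ ξ : V, ∀ g ∈ F, ‖b g - (U g ξ - ξ)‖ ≤ ε

/-- Almost coboundaries in `L²` of a measure on a `G`-space. -/
def ACob {G Z E : Type*} [Group G] [MulAction G Z] [MeasurableSpace Z] [NormedAddCommGroup E]
    [MeasurableSpace E] (ν : MeasureTheory.Measure Z) (θ : G → Z → E) : Prop :=
  ∀ (F : Finset G) (ε : ℝ), 0 < ε → ∃ β : Z → E, Measurable β ∧ MeasureTheory.MemLp β 2 ν ∧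
    ∀ g ∈ F, MeasureTheory.eLpNorm (fun z => θ g z - (β (g⁻¹ • z) - β z)) 2 ν ≤ ENNReal.ofReal ε

end Vale.Agent.P188
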