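import Vale.Agent.P188.LayerB

/-! P188: ladder estimates for one extension. -/

namespace Vale.Agent.P188

open Function Filter Matrix
open scoped Topology

namespace Layer
variable {k : ℕ} (L : Layer k)

theorem norm_emb_le (a : Rk k) (y : L.Neg a → ℝ) : ‖L.emb a y‖ ≤ ‖y‖ :=
  (pi_norm_le_iff_of_nonneg (norm_nonneg _)).2 fun i => by
    unfold emb; split_ifs
    · exact norm_le_pi_norm y _
    · simp

theorem mulVec_le {m n : Type} [Fintype m] [Fintype n] (M : Matrix m n ℝ) :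
    ∃ c : ℝ, 0 ≤ c ∧ ∀ x, ‖M.mulVec x‖ ≤ c * ‖x‖ := by
  classical
  exact ⟨‖LinearMap.toContinuousLinearMap (Matrix.toLin' M)‖, norm_nonneg _, fun x =>
    (LinearMap.toContinuousLinearMap (Matrix.toLin' M)).le_opNorm x⟩

/-- Coordinatewise growth bound. -/
theorem coord_le : ∃ (c W : ℝ) (d : ℕ), 0 ≤ c ∧ 0 ≤ W ∧ (∀ i, ‖L.wt i‖ ≤ W) ∧ ∀ b x i,
    |(L.B b).mulVec x i| ≤ c * (1 + ‖toR b‖) ^ d * Real.exp (L.wt i (toR b)) * ‖x‖ := by
  obtain ⟨C, d, h⟩ := L.bound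
  refine ⟨L.m * |C|, ∑ i, ‖L.wt i‖, d, by positivity, by positivity, fun i =>
    Finset.single_le_sum (f := fun i => ‖L.wt i‖) (fun _ _ => norm_nonneg _)
      (Finset.mem_univ i), fun b x i => ?_⟩
  simp only [mulVec, dotProduct]
  refine (Finset.abs_sum_le_sum_abs _ _).trans ?_
  refine (Finset.sum_le_card_nsmul _ _
    (|C| * (1 + ‖toR b‖) ^ d * Real.exp (L.wt i (toR b)) * ‖x‖) fun j _ => ?_).trans ?_
  · rw [abs_mul]
    refine mul_le_mul ((h b i j).trans ?_) (norm_le_pi_norm x j) (abs_nonneg _) (by positivity)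
    gcongr; exact le_abs_self C
  · simp only [Finset.card_univ, Fintype.card_fin, nsmul_eq_mul]; apply le_of_eq; ring

theorem poly_le (d : ℕ) {x n A T : ℝ} (hn : 0 ≤ n) (hA : 0 ≤ A) (hT : 0 ≤ T)
    (hx0 : 0 ≤ x) (hx : x ≤ n * A + T) : (1 + x) ^ d ≤ Real.exp (d * (n + A + T)) := by
  rw [Real.exp_nat_mul]
  refine pow_le_pow_left₀ (by positivity) ?_ d
  rw [Real.exp_add, Real.exp_add]
  have h1 := Real.add_one_le_exp n
  have h2 := Real.add_one_le_exp A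
  have h3 := Real.add_one_le_exp T
  have h4 : 1 + x ≤ (n + 1) * (A + 1) * (T + 1) := by
    have := mul_nonneg hn hT
    have := mul_nonneg hA hT
    have := mul_nonneg (mul_nonneg hn hA) hT
    linarith
  refine h4.trans ?_
  gcongr

/-- The two term estimates. -/
theorem term_le (A : ℝ) (hA : 0 ≤ A) : ∃ C A' : ℝ, 1 ≤ C ∧ 0 ≤ A' ∧
    ∀ (a : Rk k) (κ Λ : ℝ) (b : ℕ → Zk k), 1 ≤ κ → 1 + ‖a‖ ≤ Λ →
    (∀ j : ℕ, ‖toR (b j) - toR (b 0) - (j : ℝ) • a‖ ≤ κ * j + Λ) →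
    ∀ (j l : ℕ) (x : Fin L.m → ℝ) (i : Fin L.m), ‖x‖ ≤ Real.exp (A * (κ * (l + 1) + Λ)) →
    (j ≤ l → C * κ ≤ -L.wt i a → |(L.B ((b j)⁻¹ * b l)).mulVec x i| ≤
      Real.exp (A' * (κ * j + Λ)) * (1 / 2) ^ (l - j)) ∧
    (l < j → 0 ≤ L.wt i a → |(L.B ((b j)⁻¹ * b l)).mulVec x i| ≤
      Real.exp (A' * (κ * j + Λ))) := by
  obtain ⟨c, W, d, hc, hW, hWi, h⟩ := L.coord_le
  refine ⟨2 * d + W + A + 1, 4 * d + 2 * W + A + A * W + c, by
    have : (0 : ℝ) ≤ d := Nat.cast_nonneg d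
    linarith, by positivity, fun a κ Λ b hκ hΛ hb j l x i hx => ?_⟩
  have hd : (0 : ℝ) ≤ d := Nat.cast_nonneg d
  have ha := norm_nonneg a
  have hj : (0 : ℝ) ≤ j := Nat.cast_nonneg j
  have hl : (0 : ℝ) ≤ l := Nat.cast_nonneg l
  set e : Rk k := toR ((b j)⁻¹ * b l) - ((l : ℝ) - j) • a with he
  have he' : ‖e‖ ≤ κ * l + Λ + (κ * j + Λ) := by
    have : e = (toR (b l) - toR (b 0) - (l : ℝ) • a) - (toR (b j) - toR (b 0) - (j : ℝ) • a) := by
      rw [he, toR_mul, toR_inv, sub_smul]; abel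
    rw [this]; exact (norm_sub_le _ _).trans (add_le_add (hb l) (hb j))
  have hv : toR ((b j)⁻¹ * b l) = ((l : ℝ) - j) • a + e := by rw [he]; abel
  have hwe : L.wt i e ≤ W * (κ * l + Λ + (κ * j + Λ)) :=
    (le_abs_self _).trans (((L.wt i).le_opNorm e).trans
      (mul_le_mul (hWi i) he' (norm_nonneg _) hW))
  have hw : L.wt i (toR ((b j)⁻¹ * b l)) = ((l : ℝ) - j) * L.wt i a + L.wt i e := by
    rw [hv, map_add, map_smul, smul_eq_mul]
  have hn : ‖toR ((b j)⁻¹ * b l)‖ ≤ |(l : ℝ) - j| * ‖a‖ + (κ * l + Λ + (κ * j + Λ)) := by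
    rw [hv]; refine (norm_add_le _ _).trans (add_le_add ?_ he')
    rw [norm_smul, Real.norm_eq_abs]
  have ht1 : 1 ≤ κ * j + Λ := by nlinarith
  have hκj : 0 ≤ κ * j := by positivity
  have hκl : 0 ≤ κ * l := by positivity
  have hp := poly_le d (abs_nonneg ((l : ℝ) - j)) ha (by linarith) (norm_nonneg _) hn
  have hc' : c ≤ Real.exp (c * (κ * j + Λ)) := by
    have := Real.add_one_le_exp (c * (κ * j + Λ)); nlinarith
  have key : |(L.B ((b j)⁻¹ * b l)).mulVec x i| ≤ Real.exp (c * (κ * j + Λ) +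
      d * (|(l : ℝ) - j| + ‖a‖ + (κ * l + Λ + (κ * j + Λ))) +
      (((l : ℝ) - j) * L.wt i a + W * (κ * l + Λ + (κ * j + Λ))) + A * (κ * (l + 1) + Λ)) := by
    refine (h _ x i).trans ?_
    rw [Real.exp_add, Real.exp_add, Real.exp_add]
    gcongr
    rw [hw]; linarith
  constructor
  · intro hjl hneg
    obtain ⟨n, rfl⟩ := Nat.exists_eq_add_of_le hjl
    have hn0 : (0 : ℝ) ≤ n := Nat.cast_nonneg n
    have h1 : ((j + n : ℕ) : ℝ) - j = n := by push_cast; ring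
    rw [h1, abs_of_nonneg hn0] at key
    have hκW : κ ≤ W * (κ * j + Λ) := by
      have h2 : -L.wt i a ≤ W * ‖a‖ := (neg_le_abs _).trans (((L.wt i).le_opNorm a).trans
        (mul_le_mul_of_nonneg_right (hWi i) ha))
      have h3 : κ ≤ (2 * d + W + A + 1) * κ := by nlinarith
      nlinarith
    have h2 : Real.exp (-(n : ℝ)) ≤ (1 / 2) ^ n := by
      rw [show -(n : ℝ) = n * (-1) by ring, Real.exp_nat_mul]
      refine pow_le_pow_left₀ (Real.exp_pos _).le ?_ n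
      rw [Real.exp_neg, one_div]
      exact inv_anti₀ (by norm_num) (by linarith [Real.add_one_le_exp (1 : ℝ)])
    rw [Nat.add_sub_cancel_left]
    refine key.trans (le_trans ?_ (mul_le_mul_of_nonneg_left h2 (Real.exp_pos _).le))
    rw [← Real.exp_add, Real.exp_le_exp]
    push_cast
    have h3 : (n : ℝ) * L.wt i a ≤ -(n * ((2 * d + W + A + 1) * κ)) := by nlinarith
    have h4 : (n : ℝ) ≤ κ * n := by nlinarith
    have h5 : A * κ ≤ A * (W * (κ * j + Λ)) := mul_le_mul_of_nonneg_left hκW hA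
    have h6 : (d : ℝ) * n ≤ d * (κ * n) := mul_le_mul_of_nonneg_left h4 hd
    have h7 : (d : ℝ) * ‖a‖ ≤ d * (κ * j + Λ) := mul_le_mul_of_nonneg_left (by linarith) hd
    have h8 : 0 ≤ (d : ℝ) * (κ * j + Λ) := mul_nonneg hd (by linarith)
    linarith
  · intro hlj hpos
    have h0 : (l : ℝ) + 1 ≤ j := by exact_mod_cast hlj
    rw [abs_of_nonpos (show (l : ℝ) - j ≤ 0 by linarith)] at key
    refine key.trans (Real.exp_le_exp.2 ?_)
    have h3 : ((l : ℝ) - j) * L.wt i a ≤ 0 := mul_nonpos_of_nonpos_of_nonneg (by linarith) hpos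
    have h4 : κ * (l + 1) ≤ κ * j := mul_le_mul_of_nonneg_left h0 (by linarith)
    have h4' : (j : ℝ) ≤ κ * j := le_mul_of_one_le_left hj hκ
    have h5 : -((l : ℝ) - j) + ‖a‖ + (κ * l + Λ + (κ * j + Λ)) ≤ 4 * (κ * j + Λ) := by
      linarith
    have h6 := mul_le_mul_of_nonneg_left h5 hd
    have h7 : W * (κ * l + Λ + (κ * j + Λ)) ≤ W * (2 * (κ * j + Λ)) :=
      mul_le_mul_of_nonneg_left (by linarith) hW
    have h8 : A * (κ * (l + 1) + Λ) ≤ A * (κ * j + Λ) :=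
      mul_le_mul_of_nonneg_left (by linarith) hA
    have h9 : 0 ≤ A * W * (κ * j + Λ) := mul_nonneg (mul_nonneg hA hW) (by linarith)
    linarith

/-- The ladder estimates for sequences of real vectors. -/
def Lad (A C A' : ℝ) : Prop :=
    ∀ (a : Rk k) (κ Λ : ℝ) (b : ℕ → Zk k), 1 ≤ κ → 1 + ‖a‖ ≤ Λ →
    (∀ i, L.wt i a < 0 → C * κ ≤ -L.wt i a) →
    (∀ j : ℕ, ‖toR (b j) - toR (b 0) - (j : ℝ) • a‖ ≤ κ * j + Λ) →
    ∀ x : ℕ → Fin L.m → ℝ,
    ((∀ l : ℕ, ‖(L.B (b l)⁻¹).mulVec (x l)‖ ≤ Real.exp (A * (κ * (l + 1) + Λ))) →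
      Tendsto (fun l => L.pr a (x l)) atTop (𝓝 0)) ∧
    ((∀ l : ℕ, ‖(L.B (b l)⁻¹).mulVec (x (l + 1) - x l)‖ ≤ Real.exp (A * (κ * (l + 1) + Λ))) →
      (∃ z, Tendsto (fun l => L.pr a (x l)) atTop (𝓝 z)) ∧
      (∀ z, Tendsto (fun l => L.pr a (x l)) atTop (𝓝 z) → ∀ j : ℕ,
        ‖(L.Bm a (b j)⁻¹).mulVec (z - L.pr a (x j))‖ ≤ 2 * Real.exp (A' * (κ * j + Λ))) ∧
      (‖(L.B (b 0)⁻¹).mulVec (x 0)‖ ≤ Real.exp (A * (κ + Λ)) →
        Tendsto (fun l => L.pr a (x l)) atTop (𝓝 0) → ∀ j : ℕ, 1 ≤ j →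
        ‖(L.B (b j)⁻¹).mulVec (x j)‖ ≤ Real.exp ((A' + 1) * (κ * j + Λ))))

theorem ladder (A : ℝ) (hA : 0 ≤ A) : ∃ C A' : ℝ, 1 ≤ C ∧ 0 ≤ A' ∧ L.Lad A C A' := by
  obtain ⟨C, A', hC, hA', h⟩ := L.term_le A hA
  refine ⟨C, A', hC, hA', fun a κ Λ b hκ hΛ hneg hb x => ?_⟩
  have hB : ∀ j l (y : Fin L.m → ℝ), (L.B ((b j)⁻¹ * b l)).mulVec ((L.B (b l)⁻¹).mulVec y) =
      (L.B (b j)⁻¹).mulVec y := fun j l y => by
    rw [mulVec_mulVec, ← L.B_mul, mul_inv_cancel_right]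
  have hc : ∀ b', Continuous fun y : L.Neg a → ℝ => (L.Bm a b').mulVec y := fun b' =>
    (Matrix.mulVecLin (L.Bm a b')).continuous_of_finiteDimensional
  have hinv : ∀ y : L.Neg a → ℝ, (L.Bm a (b 0)).mulVec ((L.Bm a (b 0)⁻¹).mulVec y) = y :=
    fun y => by rw [← L.Bm_mulVec_mul, mul_inv_cancel, L.Bm_one, one_mulVec]
  have hn : ∀ j n (y : Fin L.m → ℝ), ‖(L.B (b (j + n))⁻¹).mulVec y‖ ≤
      Real.exp (A * (κ * ((j + n : ℕ) + 1) + Λ)) → ‖(L.Bm a (b j)⁻¹).mulVec (L.pr a y)‖ ≤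
      Real.exp (A' * (κ * j + Λ)) * (1 / 2) ^ n := fun j n y hy => by
    rw [← L.pr_B]
    refine (pi_norm_le_iff_of_nonneg (by positivity)).2 fun i => ?_
    have := (h a κ Λ b hκ hΛ hb j (j + n) _ i.1 hy).1 (Nat.le_add_right _ _) (hneg _ i.2)
    rwa [hB, Nat.add_sub_cancel_left] at this
  refine ⟨fun hx => ?_, fun hx => ?_⟩
  · have h1 : Tendsto (fun l => (L.Bm a (b 0)⁻¹).mulVec (L.pr a (x l))) atTop (𝓝 0) := by
      refine squeeze_zero_norm (fun l => hn 0 l (x l) (by simpa using hx l)) ?_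
      simpa using (tendsto_pow_atTop_nhds_zero_of_lt_one (r := (1 / 2 : ℝ)) (by norm_num)
        (by norm_num)).const_mul (Real.exp (A' * (κ * (0 : ℕ) + Λ)))
    have h2 := ((hc (b 0)).tendsto 0).comp h1
    simpa [Function.comp_def, hinv] using h2
  have hd : ∀ j n, dist ((L.Bm a (b j)⁻¹).mulVec (L.pr a (x (j + n))))
      ((L.Bm a (b j)⁻¹).mulVec (L.pr a (x (j + (n + 1))))) ≤
      Real.exp (A' * (κ * j + Λ)) * (1 / 2) ^ n := fun j n => by
    rw [dist_comm, dist_eq_norm, ← mulVec_sub, ← L.pr_sub]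
    exact hn j n _ (hx (j + n))
  have htail : ∀ z, Tendsto (fun l => L.pr a (x l)) atTop (𝓝 z) → ∀ j : ℕ,
      ‖(L.Bm a (b j)⁻¹).mulVec (z - L.pr a (x j))‖ ≤ 2 * Real.exp (A' * (κ * j + Λ)) := by
    intro z hz j
    have h1 : Tendsto (fun n => (L.Bm a (b j)⁻¹).mulVec (L.pr a (x (j + n)))) atTop
        (𝓝 ((L.Bm a (b j)⁻¹).mulVec z)) :=
      ((hc _).tendsto z).comp (hz.comp (tendsto_atTop_mono (fun n => Nat.le_add_left n j)
        tendsto_id))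
    have h2 := dist_le_of_le_geometric_of_tendsto₀ (1 / 2) _ (by norm_num) (hd j) h1
    rw [dist_comm, dist_eq_norm, ← mulVec_sub] at h2
    exact h2.trans (le_of_eq (by ring))
  refine ⟨?_, htail, fun h0 hz j hj => ?_⟩
  · obtain ⟨z, hz⟩ := cauchySeq_tendsto_of_complete
      (cauchySeq_of_le_geometric (1 / 2) _ (by norm_num) (hd 0))
    exact ⟨_, by simpa [Function.comp_def, hinv] using ((hc (b 0)).tendsto z).comp hz⟩
  have hj1 : (1 : ℝ) ≤ j := by exact_mod_cast hj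
  have hjt : (j : ℝ) + 1 ≤ Real.exp (κ * j + Λ) := by
    have := Real.add_one_le_exp (κ * j + Λ)
    have := le_mul_of_one_le_left (by linarith : (0 : ℝ) ≤ j) hκ
    have := norm_nonneg a
    linarith
  have he : ((j : ℝ) + 1) * Real.exp (A' * (κ * j + Λ)) ≤ Real.exp ((A' + 1) * (κ * j + Λ)) := by
    rw [add_mul A', one_mul, Real.exp_add, mul_comm]; gcongr
  refine (pi_norm_le_iff_of_nonneg (Real.exp_pos _).le).2 fun i => le_trans ?_ he
  by_cases hi : L.wt i a < 0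
  · have h1 := htail 0 hz j
    rw [zero_sub, mulVec_neg, norm_neg, ← L.pr_B] at h1
    refine ((norm_le_pi_norm _ (⟨i, hi⟩ : L.Neg a)).trans h1).trans ?_
    gcongr; linarith
  · have h1 : ∀ n ≤ j, |(L.B (b j)⁻¹).mulVec (x n) i| ≤
        ((n : ℝ) + 1) * Real.exp (A' * (κ * j + Λ)) := by
      intro n hn
      induction n with
      | zero =>
        have := (h a κ Λ b hκ hΛ hb j 0 _ i (by simpa using h0)).2 hj (not_lt.1 hi)
        rw [hB] at this; simpa using this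
      | succ n ih =>
        have h2 := (h a κ Λ b hκ hΛ hb j n _ i (hx n)).2 hn (not_lt.1 hi)
        rw [hB, mulVec_sub, Pi.sub_apply] at h2
        have h3 := ih (Nat.le_of_succ_le hn)
        have h4 := abs_sub_abs_le_abs_sub ((L.B (b j)⁻¹).mulVec (x (n + 1)) i)
          ((L.B (b j)⁻¹).mulVec (x n) i)
        push_cast; linarith
    exact h1 j le_rfl

end Layer

namespace Ext
variable {k : ℕ} {L : Layer k} {Γ Γ' : Type} [Group Γ] [Group Γ'] {π' : Γ' →* Zk k}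
  (E : Ext L Γ Γ' π')

/-- Local coordinates at `g` of a global lattice vector. -/
noncomputable def loc (g : Γ) (v : Fin L.m → ℤ) : Fin L.m → ℝ :=
  (L.B (π' (E.p g))⁻¹).mulVec (L.co v)

theorem conj_inv (g : Γ) (v : Fin L.m → ℤ) : g⁻¹ * E.ι (Multiplicative.ofAdd v) * g =
    E.ι (Multiplicative.ofAdd ((L.ρ (π' (E.p g))⁻¹).mulVec v)) := by
  have := E.conj g⁻¹ (Multiplicative.ofAdd v)
  rw [inv_inv, map_inv, map_inv] at this
  exact this

theorem loc_eq (g : Γ) (v : Fin L.m → ℤ) :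
    E.loc g v = L.co ((L.ρ (π' (E.p g))⁻¹).mulVec v) := (L.co_rho _ _).symm

theorem B_loc (b : Zk k) (g : Γ) (v : Fin L.m → ℤ) :
    (L.B (b * π' (E.p g))).mulVec (E.loc g v) = (L.B b).mulVec (L.co v) := by
  rw [loc, mulVec_mulVec, ← L.B_mul, mul_inv_cancel_right]

variable {s : Γ' → Γ} (hs : ∀ g, E.p (s g) = g)
include hs

theorem ι_disc (g g' : Γ) : E.ι (Multiplicative.ofAdd (E.disc s g g')) =
    g' * (s ((E.p g)⁻¹ * E.p g'))⁻¹ * g⁻¹ := by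
  conv_rhs => rw [← E.disc_spec hs g g']
  rw [map_mul, map_mul, p_ι, hs]; group

theorem D1 (g g' : Γ) : g⁻¹ * E.ι (Multiplicative.ofAdd (E.disc s g g')) * g =
    g⁻¹ * g' * (s ((E.p g)⁻¹ * E.p g'))⁻¹ := by
  rw [E.ι_disc hs]; group

theorem D2 (g g' h h' : Γ) :
    g⁻¹ * E.ι (Multiplicative.ofAdd (E.disc s h h' - E.disc s g g')) * g =
      s ((E.p g)⁻¹ * E.p g') * (g'⁻¹ * h') * (s ((E.p h)⁻¹ * E.p h'))⁻¹ * (g⁻¹ * h)⁻¹ := by
  rw [sub_eq_neg_add, ofAdd_add, ofAdd_neg, map_mul, map_inv, E.ι_disc hs, E.ι_disc hs]; group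

theorem D3 (r y y' : Γ) :
    r⁻¹ * E.ι (Multiplicative.ofAdd (E.disc s r y - E.disc s r y' - E.disc s y' y)) * r =
      s ((E.p r)⁻¹ * E.p y') * s ((E.p y')⁻¹ * E.p y) * (s ((E.p r)⁻¹ * E.p y))⁻¹ := by
  rw [show E.disc s r y - E.disc s r y' - E.disc s y' y =
    -E.disc s r y' + (-E.disc s y' y + E.disc s r y) by abel, ofAdd_add, ofAdd_add, ofAdd_neg,
    ofAdd_neg, map_mul, map_mul, map_inv, map_inv, E.ι_disc hs, E.ι_disc hs, E.ι_disc hs]
  group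

omit hs in
theorem disc_self (h1 : s 1 = 1) (g : Γ) : E.disc s g g = 0 := by
  have := E.vOf_ι 1
  rw [map_one] at this
  simp [disc, h1, this]

theorem p_ref0 (y : ℕ → Γ') (j : ℕ) : E.p (E.ref0 s y j) = y j := by
  induction j with
  | zero => exact hs _
  | succ j ih => rw [ref0, map_mul, ih, hs]; group

end Ext

end Vale.Agent.P188
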