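import Vale.Agent.P188.BdA

/-! P188: convergence and consistency of the new boundary coordinate. -/

namespace Vale.Agent.P188

open Function Filter Matrix
open scoped Topology

variable {k : ℕ} {L : Layer k} {Γ Γ' : Type} [Group Γ] [Group Γ'] {π' : Γ' →* Zk k}

/-- The size facts used for one extension. -/
structure Ctx (E : Ext L Γ Γ' π') (S : Finset Γ) (S' : Finset Γ') (s : Γ' → Γ) (c₃ c₄ : ℝ) :
    Prop where
  mul : ∀ g h, (sz S (π'.comp E.p) (g * h) : ℝ) ≤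
    sz S (π'.comp E.p) g + sz S (π'.comp E.p) h + 1
  inv : ∀ g, (sz S (π'.comp E.p) g⁻¹ : ℝ) ≤ 2 * sz S (π'.comp E.p) g
  ht' : ∀ g, ‖ht π' g‖ ≤ sz S' π' g
  one' : sz S' π' 1 = 0
  proj : ∀ g, (sz S' π' (E.p g) : ℝ) ≤ sz S (π'.comp E.p) g
  sec : ∀ g, (sz S (π'.comp E.p) (s g) : ℝ) ≤ sz S' π' g
  hs : ∀ g, E.p (s g) = g
  s1 : s 1 = 1
  c3 : 0 ≤ c₃
  c4 : 0 ≤ c₄
  e3 : ∀ g v (x : ℝ), (sz S (π'.comp E.p) (g⁻¹ * E.ι (Multiplicative.ofAdd v) * g) : ℝ) ≤ x →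
    ‖E.loc g v‖ ≤ Real.exp (c₃ * (x + 1))
  e4 : ∀ g v (x : ℝ), 0 ≤ x → ‖E.loc g v‖ ≤ Real.exp x →
    (sz S (π'.comp E.p) (g⁻¹ * E.ι (Multiplicative.ofAdd v) * g) : ℝ) ≤ c₄ * (x + 1)

theorem two_pow_le_exp (n : ℕ) : (2 : ℝ) ^ n ≤ Real.exp n := by
  rw [← mul_one (n : ℝ), Real.exp_nat_mul]
  exact pow_le_pow_left₀ (by norm_num) (by linarith [Real.add_one_le_exp (1 : ℝ)]) n

theorem exp_le_two_pow {y : ℝ} {n : ℕ} (h : 2 * y ≤ n) : Real.exp y ≤ 2 ^ n := by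
  have h1 : Real.exp (1 / 2 : ℝ) ≤ 2 := by
    have h2 := Real.add_one_le_exp (-(1 / 2) : ℝ)
    have h3 : Real.exp (1 / 2 : ℝ) * Real.exp (-(1 / 2)) = 1 := by rw [← Real.exp_add]; simp
    nlinarith [Real.exp_pos (1 / 2 : ℝ)]
  calc Real.exp y ≤ Real.exp (n * (1 / 2)) := Real.exp_le_exp.2 (by linarith)
    _ = Real.exp (1 / 2) ^ n := Real.exp_nat_mul _ _
    _ ≤ _ := pow_le_pow_left₀ (Real.exp_pos _).le h1 n

open Classical in
theorem exists_ctx (h1 : SzBasic_stmt) (h2 : SzExt_stmt) {w : List (Wt k)} (T : Tower Γ' π' w)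
    (E : Ext L Γ Γ' π') (S : Finset Γ) (hS : Subgroup.closure (S : Set Γ) = ⊤) (s : Γ' → Γ)
    (hs : SecProp E S s) : ∃ c₃ c₄, Ctx E S (S.image E.p) s c₃ c₄ := by
  have hS' : Subgroup.closure ((S.image E.p : Finset Γ') : Set Γ') = ⊤ := by
    rw [Finset.coe_image, ← MonoidHom.map_closure, hS, ← MonoidHom.range_eq_map,
      MonoidHom.range_eq_top.2 E.p_surj]
  obtain ⟨-, -, hm, hi, -, -, -⟩ := h1 k Γ (π'.comp E.p) S hS
  obtain ⟨-, ho', -, -, hh', -, -⟩ := h1 k Γ' π' _ hS'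
  obtain ⟨hp, -, ⟨C4, h4⟩, ⟨C3, h3⟩⟩ := h2 k Γ Γ' π' w T L E S hS
  obtain ⟨q, hq, hQ⟩ := Layer.mulVec_le L.Q
  obtain ⟨qi, hqi, hQi⟩ := Layer.mulVec_le L.Qi
  refine ⟨qi + C3, 2 * q + C4 + 3, fun g h => by exact_mod_cast hm g h,
    fun g => by exact_mod_cast hi g, hh', ho', fun g => by exact_mod_cast hp g,
    fun g => by exact_mod_cast hs.size g, hs.proj, hs.one, by positivity, by positivity,
    fun g v x hx => ?_, fun g v x hx hv => ?_⟩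
  · rw [E.conj_inv] at hx
    rw [E.loc_eq]
    set v' := (L.ρ (π' (E.p g))⁻¹).mulVec v
    have hx0 : 0 ≤ x := (Nat.cast_nonneg _).trans hx
    have h5 : ‖fun i => (v' i : ℝ)‖ ≤ Real.exp (C3 * (x + 1)) := by
      refine (pi_norm_le_iff_of_nonneg (Real.exp_pos _).le).2 fun i => ?_
      have h6 : |(v' i : ℝ)| ≤ 2 ^ (C3 * (sz S (π'.comp E.p) (E.ι (Multiplicative.ofAdd v')) + 1)) := by
        exact_mod_cast h3 (Multiplicative.ofAdd v') i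
      refine h6.trans ((two_pow_le_exp _).trans (Real.exp_le_exp.2 ?_))
      push_cast; gcongr
    refine (hQi _).trans ?_
    rw [add_mul, Real.exp_add]
    refine mul_le_mul ?_ h5 (norm_nonneg _) (Real.exp_pos _).le
    have := Real.add_one_le_exp (qi * (x + 1))
    nlinarith
  · rw [E.conj_inv]
    rw [E.loc_eq] at hv
    set v' := (L.ρ (π' (E.p g))⁻¹).mulVec v
    have h5 : ∀ i, |Multiplicative.toAdd (Multiplicative.ofAdd v') i| ≤ 2 ^ ⌈2 * (q + x)⌉₊ := by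
      intro i
      have h6 : |(v' i : ℝ)| ≤ 2 ^ ⌈2 * (q + x)⌉₊ := by
        have h7 := (norm_le_pi_norm (fun i => (v' i : ℝ)) i).trans (L.Q_co v' ▸ hQ (L.co v'))
        refine h7.trans (le_trans ?_ (exp_le_two_pow (Nat.le_ceil _)))
        rw [Real.exp_add]
        exact mul_le_mul (by linarith [Real.add_one_le_exp q]) hv (norm_nonneg _)
          (Real.exp_pos _).le
      exact_mod_cast h6
    have h6 : (sz S (π'.comp E.p) (E.ι (Multiplicative.ofAdd v')) : ℝ) ≤ ⌈2 * (q + x)⌉₊ + C4 := by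
      exact_mod_cast h4 _ _ h5
    have h7 := (Nat.ceil_lt_add_one (by positivity : 0 ≤ 2 * (q + x))).le
    have h8 : (0 : ℝ) ≤ C4 := Nat.cast_nonneg _
    nlinarith [mul_nonneg hq hx, mul_nonneg h8 hx]

theorem Tr.nonneg {G : Type} [Group G] {S : Finset G} {π : G →* Zk k} {a : Rk k} {κ Λ : ℝ}
    {y : ℕ → G} (h : Tr S π a κ Λ y) : 0 ≤ Λ := by
  simpa using (Nat.cast_nonneg _).trans (h 0).1

theorem Tr.shift {G : Type} [Group G] {S : Finset G} {π : G →* Zk k} {a : Rk k} {κ Λ : ℝ}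
    {y : ℕ → G} (h : Tr S π a κ Λ y) (hκ : 0 ≤ κ) :
    Tr S π a κ (2 * κ + 2 * Λ) fun j => y (j + 1) := fun j => by
  have h0 := h.nonneg
  have h1 := (h (j + 1)).1
  have h2 := (h (j + 1)).2
  have h3 := (h 1).2
  push_cast at h1 h2 h3
  refine ⟨by linarith, ?_⟩
  have : ht π (y (j + 1)) - ht π (y (0 + 1)) - (j : ℝ) • a =
      (ht π (y (j + 1)) - ht π (y 0) - ((j : ℝ) + 1) • a) - (ht π (y 1) - ht π (y 0) - (1 : ℝ) • a) := by
    rw [add_smul]; abel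
  rw [this]
  exact (norm_sub_le _ _).trans (by linarith)

namespace Ctx
variable {E : Ext L Γ Γ' π'} {S : Finset Γ} {S' : Finset Γ'} {s : Γ' → Γ} {c₃ c₄ : ℝ}
  (H : Ctx E S S' s c₃ c₄) {a : Rk k} {κ Λ C' : ℝ}
include H

theorem tr_proj {y : ℕ → Γ} (h : Tr S (π'.comp E.p) a κ Λ y) : Tr S' π' a κ Λ (E.p ∘ y) :=
  fun j => ⟨le_trans (by simpa using H.proj ((y j)⁻¹ * y (j + 1))) (h j).1, (h j).2⟩

theorem tr_ref0 {y : ℕ → Γ'} (h : Tr S' π' a κ Λ y) :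
    Tr S (π'.comp E.p) a κ Λ (E.ref0 s y) := fun j => by
  refine ⟨le_trans ?_ (h j).1, ?_⟩
  · rw [Ext.ref0, inv_mul_cancel_left]; exact H.sec _
  · simpa [ht, E.p_ref0 H.hs] using (h j).2

theorem small {g : Γ} {v : Fin L.m → ℤ} {t : ℝ} (ht : 1 ≤ t)
    (h : (sz S (π'.comp E.p) (g⁻¹ * E.ι (Multiplicative.ofAdd v) * g) : ℝ) ≤ (4 * C' + 6) * t) :
    ‖(L.B (π' (E.p g))⁻¹).mulVec (L.co v)‖ ≤ Real.exp ((c₃ * (4 * C' + 7) + 1) * t) := by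
  refine (H.e3 g v _ h).trans (Real.exp_le_exp.2 ?_)
  have := H.c3
  nlinarith

theorem incr (hC : 1 ≤ C') (hκ : 1 ≤ κ) (hΛ : 1 ≤ Λ) {y y' : ℕ → Γ}
    (h : Tr S (π'.comp E.p) a κ Λ y) (h' : Tr S (π'.comp E.p) a κ Λ y')
    (hc : ∀ j : ℕ, (sz S' π' ((E.p (y j))⁻¹ * E.p (y' j)) : ℝ) ≤ C' * (κ * j + Λ)) (l : ℕ) :
    ‖(L.B (π' (E.p (y l)))⁻¹).mulVec
      (L.co (E.disc s (y (l + 1)) (y' (l + 1))) - L.co (E.disc s (y l) (y' l)))‖ ≤
      Real.exp ((c₃ * (4 * C' + 7) + 1) * (κ * (l + 1) + Λ)) := by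
  have hl : (0 : ℝ) ≤ l := Nat.cast_nonneg l
  have hκl : 0 ≤ κ * l := by positivity
  rw [← L.co_sub]
  refine H.small (by nlinarith) ?_
  rw [E.D2 H.hs]
  have h1 := (H.sec _).trans (hc l)
  have h2 := (H.sec _).trans (hc (l + 1))
  have h3 := (h l).1
  have h4 := (h' l).1
  have h5 := H.inv (s ((E.p (y (l + 1)))⁻¹ * E.p (y' (l + 1))))
  have h6 := H.inv ((y l)⁻¹ * y (l + 1))
  have h7 := H.mul (s ((E.p (y l))⁻¹ * E.p (y' l))) ((y' l)⁻¹ * y' (l + 1))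
  have h8 := H.mul (s ((E.p (y l))⁻¹ * E.p (y' l)) * ((y' l)⁻¹ * y' (l + 1)))
    (s ((E.p (y (l + 1)))⁻¹ * E.p (y' (l + 1))))⁻¹
  refine (H.mul _ _).trans ?_
  push_cast at h2
  have h9 : 0 ≤ C' * κ := by positivity
  have h10 : 0 ≤ C' * (κ * l + Λ) := by positivity
  linarith

end Ctx

end Vale.Agent.P188
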