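import Vale.Agent.P188.BdB

/-! P188: the new boundary coordinate. -/

namespace Vale.Agent.P188

open Function Filter Matrix
open scoped Topology

variable {k : ℕ} {L : Layer k} {Γ Γ' : Type} [Group Γ] [Group Γ'] {π' : Γ' →* Zk k}

theorem Layer.co_zero (L : Layer k) : L.co 0 = 0 := by simpa using L.co_sub 0 0

theorem Tr.ev {G : Type} [Group G] {S : Finset G} {π : G →* Zk k} {a : Rk k} {κ Λ κ' : ℝ}
    {y : ℕ → G} (h : Tr S π a κ Λ y) (hκ : κ ≤ κ') : ∀ᶠ Λ' in atTop, Tr S π a κ' Λ' y :=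
  (eventually_ge_atTop Λ).mono fun _ h' => h.mono hκ h'

theorem BdProp.ev_close [MeasurableSpace Γ'] {S' : Finset Γ'} {a : Rk k} {C' κ₂ Λ Λ₂ : ℝ}
    {B : Type} [MeasurableSpace B] {Θ' : (ℕ → Γ') → B} {ref' : B → ℕ → Γ'}
    (D : BdProp S' π' a C' κ₂ Θ' ref') (hκ : 1 ≤ κ₂) {z z' : ℕ → Γ'} (h : Tr S' π' a κ₂ Λ z)
    (h' : Tr S' π' a κ₂ Λ₂ z') (e : Θ' z = Θ' z') :
    ∀ᶠ Λ' in atTop, ∀ j : ℕ, (sz S' π' ((z j)⁻¹ * z' j) : ℝ) ≤ C' * (κ₂ * j + Λ') := by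
  filter_upwards [h.ev le_rfl, h'.ev le_rfl, eventually_ge_atTop (1 + ‖a‖),
    eventually_ge_atTop (sz S' π' ((z 0)⁻¹ * z' 0) : ℝ)] with Λ' h1 h2 h3 h4
  exact D.close κ₂ Λ' z z' hκ le_rfl h3 h1 h2 h4 e

/-- All standing hypotheses for one extension. -/
structure Ctx2 [MeasurableSpace Γ'] (E : Ext L Γ Γ' π') (S : Finset Γ) (S' : Finset Γ')
    (s : Γ' → Γ) (c₃ c₄ C' C₁ A' : ℝ) (a : Rk k) (κ₂ : ℝ) {B : Type} [MeasurableSpace B]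
    (Θ' : (ℕ → Γ') → B) (ref' : B → ℕ → Γ') : Prop extends Ctx E S S' s c₃ c₄ where
  hC : 1 ≤ C'
  hC₁ : 1 ≤ C₁
  hA : 0 ≤ A'
  lad : L.Lad (c₃ * (4 * C' + 7) + 1) C₁ A'
  hκ : 1 ≤ κ₂
  neg : ∀ i, L.wt i a < 0 → C₁ * κ₂ ≤ -L.wt i a
  bd : BdProp S' π' a C' κ₂ Θ' ref'

namespace Ctx2
variable [MeasurableSpace Γ'] {E : Ext L Γ Γ' π'} {S : Finset Γ} {S' : Finset Γ'} {s : Γ' → Γ}
  {c₃ c₄ C' C₁ A' : ℝ} {a : Rk k} {κ₂ : ℝ} {B : Type} [MeasurableSpace B]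
  {Θ' : (ℕ → Γ') → B} {ref' : B → ℕ → Γ'} (H : Ctx2 E S S' s c₃ c₄ C' C₁ A' a κ₂ Θ' ref')
include H

theorem tr_r (ξ : B) : ∃ Λ, Tr S (π'.comp E.p) a κ₂ Λ (E.ref0 s (ref' ξ)) := by
  obtain ⟨Λ, h⟩ := H.bd.ref_tr
  exact ⟨Λ, (H.tr_ref0 (h ξ)).mono H.hκ le_rfl⟩

theorem p_r (ξ : B) : E.p ∘ E.ref0 s (ref' ξ) = ref' ξ := funext (E.p_ref0 H.hs _)

theorem lad1 {Λ : ℝ} (hΛ : 1 + ‖a‖ ≤ Λ) {y : ℕ → Γ} (h : Tr S (π'.comp E.p) a κ₂ Λ y)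
    (x : ℕ → Fin L.m → ℝ) (hx : ∀ l : ℕ, ‖(L.B (π' (E.p (y l)))⁻¹).mulVec (x l)‖ ≤
      Real.exp ((c₃ * (4 * C' + 7) + 1) * (κ₂ * (l + 1) + Λ))) :
    Tendsto (fun l => L.pr a (x l)) atTop (𝓝 0) :=
  (H.lad a κ₂ Λ (fun j => π' (E.p (y j))) H.hκ hΛ H.neg (fun j => (h j).2) x).1 hx

theorem lad2 {κ Λ : ℝ} (hκ : 1 ≤ κ) (hκ₂ : κ ≤ κ₂) (hΛ : 1 + ‖a‖ ≤ Λ) {y y' : ℕ → Γ}
    (h : Tr S (π'.comp E.p) a κ Λ y) (h' : Tr S (π'.comp E.p) a κ Λ y')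
    (hc : ∀ j : ℕ, (sz S' π' ((E.p (y j))⁻¹ * E.p (y' j)) : ℝ) ≤ C' * (κ * j + Λ)) :
    (∃ z, Tendsto (fun l => L.pr a (L.co (E.disc s (y l) (y' l)))) atTop (𝓝 z)) ∧
    (∀ z, Tendsto (fun l => L.pr a (L.co (E.disc s (y l) (y' l)))) atTop (𝓝 z) → ∀ j : ℕ,
      ‖(L.Bm a (π' (E.p (y j)))⁻¹).mulVec (z - L.pr a (L.co (E.disc s (y j) (y' j))))‖ ≤
        2 * Real.exp (A' * (κ * j + Λ))) ∧
    (‖(L.B (π' (E.p (y 0)))⁻¹).mulVec (L.co (E.disc s (y 0) (y' 0)))‖ ≤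
        Real.exp ((c₃ * (4 * C' + 7) + 1) * (κ + Λ)) →
      Tendsto (fun l => L.pr a (L.co (E.disc s (y l) (y' l)))) atTop (𝓝 0) → ∀ j : ℕ, 1 ≤ j →
      ‖E.loc (y j) (E.disc s (y j) (y' j))‖ ≤ Real.exp ((A' + 1) * (κ * j + Λ))) :=
  (H.lad a κ Λ (fun j => π' (E.p (y j))) hκ hΛ (fun i hi =>
    (mul_le_mul_of_nonneg_left hκ₂ (by linarith [H.hC₁])).trans (H.neg i hi))
    (fun j => (h j).2) fun j => L.co (E.disc s (y j) (y' j))).2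
    (H.incr H.hC hκ (by linarith [norm_nonneg a]) h h' hc)

theorem conv {Λ : ℝ} {y : ℕ → Γ} (h : Tr S (π'.comp E.p) a κ₂ Λ y) :
    Tendsto (fun j => L.pr a (L.co (E.disc s (E.ref0 s (ref' (Θ' (E.p ∘ y))) j) (y j)))) atTop
      (𝓝 (E.tau s a Θ' ref' y)) := by
  obtain ⟨Λr, hr⟩ := H.tr_r (Θ' (E.p ∘ y))
  obtain ⟨Λ', h1, h2, h3, h4⟩ := ((hr.ev le_rfl).and ((h.ev le_rfl).and
    ((eventually_ge_atTop (1 + ‖a‖)).and (H.bd.ev_close H.hκ (H.tr_proj hr) (H.tr_proj h)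
      (by rw [H.p_r, H.bd.ref_Θ]))))).exists
  exact tendsto_nhds_limUnder (H.lad2 H.hκ le_rfl h3 h1 h2 h4).1

theorem cons {Λ Λ₂ : ℝ} {y y' : ℕ → Γ} (h : Tr S (π'.comp E.p) a κ₂ Λ y)
    (h' : Tr S (π'.comp E.p) a κ₂ Λ₂ y') (e : Θ' (E.p ∘ y) = Θ' (E.p ∘ y')) :
    Tendsto (fun j => L.pr a (L.co (E.disc s (y' j) (y j)))) atTop
      (𝓝 (E.tau s a Θ' ref' y - E.tau s a Θ' ref' y')) := by
  obtain ⟨Λr, hr⟩ := H.tr_r (Θ' (E.p ∘ y))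
  have c1 := H.conv h
  have c2 := H.conv h'
  rw [← e] at c2
  set r := E.ref0 s (ref' (Θ' (E.p ∘ y)))
  have er : Θ' (E.p ∘ r) = Θ' (E.p ∘ y) := by rw [H.p_r, H.bd.ref_Θ]
  obtain ⟨Λ', h1, h3, h4, h5, h6⟩ := ((hr.ev le_rfl).and ((eventually_ge_atTop (1 + ‖a‖)).and
    ((H.bd.ev_close H.hκ (H.tr_proj hr) (H.tr_proj h) er).and
    ((H.bd.ev_close H.hκ (H.tr_proj hr) (H.tr_proj h') (er.trans e)).and
    (H.bd.ev_close H.hκ (H.tr_proj h') (H.tr_proj h) e.symm))))).exists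
  have c3 := H.lad1 h3 h1 (fun j => L.co
    (E.disc s (r j) (y j) - E.disc s (r j) (y' j) - E.disc s (y' j) (y j))) fun l => by
    have hl : (0 : ℝ) ≤ l := Nat.cast_nonneg l
    have hκ := H.hκ
    have hC := H.hC
    have ha := norm_nonneg a
    have hκl : 0 ≤ κ₂ * l := by positivity
    refine H.small (by nlinarith) ?_
    rw [E.D3 H.hs]
    have h7 := (H.sec _).trans (h4 l)
    have h8 := (H.sec _).trans (h5 l)
    have h9 := (H.sec _).trans (h6 l)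
    have h10 := H.inv (s ((E.p (r l))⁻¹ * E.p (y l)))
    have h11 := H.mul (s ((E.p (r l))⁻¹ * E.p (y' l))) (s ((E.p (y' l))⁻¹ * E.p (y l)))
    refine (H.mul _ _).trans ?_
    simp only [Function.comp_apply] at h7 h8 h9
    have h12 : 0 ≤ C' * κ₂ := by positivity
    linarith
  have c4 := (c1.sub c2).sub c3
  rw [sub_zero] at c4
  refine c4.congr fun j => ?_
  rw [L.co_sub, L.co_sub, L.pr_sub, L.pr_sub]; abel

theorem transl {Λ : ℝ} {y : ℕ → Γ} (v : ℕ → Fin L.m → ℤ) (l : L.Neg a → ℝ)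
    (h : Tr S (π'.comp E.p) a κ₂ Λ y) (hv : Tendsto (fun j => L.pr a (L.co (v j))) atTop (𝓝 l)) :
    E.tau s a Θ' ref' (fun j => E.ι (Multiplicative.ofAdd (v j)) * y j) =
      E.tau s a Θ' ref' y + l := by
  have hp : E.p ∘ (fun j => E.ι (Multiplicative.ofAdd (v j)) * y j) = E.p ∘ y := by
    funext j; simp [E.p_ι]
  rw [Ext.tau, hp]
  refine Tendsto.limUnder_eq (((H.conv h).add hv).congr fun j => ?_)
  rw [E.disc_ι_mul H.hs, L.co_add, L.pr_add, add_comm]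

theorem tauProp : TauProp E S s a κ₂ Θ' ref' := by
  refine ⟨fun Λ y v l => H.transl v l, fun Λ => ?_⟩
  refine ⟨2 * Real.exp (A' * (κ₂ * (0 : ℕ) + max Λ (1 + ‖a‖))), fun y y' h h' e0 e => ?_⟩
  have h1 := h.mono le_rfl (le_max_left Λ (1 + ‖a‖))
  have h2 := h'.mono le_rfl (le_max_left Λ (1 + ‖a‖))
  have h3 := le_max_right Λ (1 + ‖a‖)
  have h0 : 1 ≤ max Λ (1 + ‖a‖) := by linarith [norm_nonneg a]
  have h4 := H.bd.close κ₂ _ _ _ H.hκ le_rfl h3 (H.tr_proj h2) (H.tr_proj h1)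
    (by simp only [Function.comp_apply, e0, inv_mul_cancel, H.one']; simp; exact Or.inr (by positivity))
    e.symm
  have h5 := (H.lad2 H.hκ le_rfl h3 h2 h1 h4).2.1 _ (H.cons h h' e) 0
  rw [e0] at h5 ⊢
  rwa [E.disc_self H.s1, L.co_zero, show L.pr a 0 = 0 from rfl, sub_zero] at h5

theorem shift {Λ : ℝ} {y : ℕ → Γ} (h : Tr S (π'.comp E.p) a κ₂ Λ y) :
    E.theta s a Θ' ref' (fun j => y (j + 1)) = E.theta s a Θ' ref' y := by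
  have hκ := H.hκ
  have e : Θ' (E.p ∘ fun j => y (j + 1)) = Θ' (E.p ∘ y) := H.bd.shift Λ _ (H.tr_proj h)
  refine Prod.ext e (sub_eq_zero.1 ?_)
  have c1 := H.cons (h.shift (by linarith)) h e
  have h1 := h.mono le_rfl (le_max_left Λ (1 + ‖a‖))
  have h3 := le_max_right Λ (1 + ‖a‖)
  refine tendsto_nhds_unique c1 (H.lad1 h3 h1 (fun j => L.co (E.disc s (y j) (y (j + 1))))
    fun l => ?_)
  have hl : (0 : ℝ) ≤ l := Nat.cast_nonneg l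
  have hC := H.hC
  have ha := norm_nonneg a
  have hκl : 0 ≤ κ₂ * l := by positivity
  refine H.small (by nlinarith) ?_
  rw [E.D1 H.hs]
  have h7 := (H.sec _).trans (H.tr_proj h1 l).1
  have h8 := (h1 l).1
  have h10 := H.inv (s ((E.p (y l))⁻¹ * E.p (y (l + 1))))
  refine (H.mul _ _).trans ?_
  simp only [Function.comp_apply] at h7
  have h12 : 0 ≤ C' * (κ₂ * (l + 1) + max Λ (1 + ‖a‖)) := by positivity
  linarith

theorem close {κ Λ : ℝ} {y y' : ℕ → Γ} (hκ : 1 ≤ κ) (hκ₂ : κ ≤ κ₂) (hΛ : 1 + ‖a‖ ≤ Λ)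
    (h : Tr S (π'.comp E.p) a κ Λ y) (h' : Tr S (π'.comp E.p) a κ Λ y')
    (h0 : (sz S (π'.comp E.p) ((y 0)⁻¹ * y' 0) : ℝ) ≤ Λ)
    (e : E.theta s a Θ' ref' y = E.theta s a Θ' ref' y') (j : ℕ) :
    (sz S (π'.comp E.p) ((y j)⁻¹ * y' j) : ℝ) ≤ (c₄ * (A' + 2) + C' + 1) * (κ * j + Λ) := by
  have ha := norm_nonneg a
  have hC := H.hC
  have hc := H.c4
  have hA := H.hA
  have hκj : 0 ≤ κ * j := by positivity
  have hcA : 0 ≤ c₄ * (A' + 2) := by positivity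
  rcases Nat.eq_zero_or_pos j with rfl | hj
  · refine h0.trans ?_
    rw [Nat.cast_zero, mul_zero, zero_add]
    exact le_mul_of_one_le_left (by linarith) (by linarith)
  have e1 : Θ' (E.p ∘ y) = Θ' (E.p ∘ y') := congrArg Prod.fst e
  have e2 : E.tau s a Θ' ref' y = E.tau s a Θ' ref' y' := congrArg Prod.snd e
  have c1 := H.cons (h'.mono hκ₂ le_rfl) (h.mono hκ₂ le_rfl) e1.symm
  rw [e2, sub_self] at c1
  have h00 : (sz S' π' ((E.p (y 0))⁻¹ * E.p (y' 0)) : ℝ) ≤ Λ :=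
    le_trans (by simpa using H.proj ((y 0)⁻¹ * y' 0)) h0
  have h4 := H.bd.close κ _ _ _ hκ hκ₂ hΛ (H.tr_proj h) (H.tr_proj h') h00 e1
  have h5 := (H.lad2 hκ hκ₂ hΛ h h' h4).2.2 (by
      refine H.small (by linarith) ?_
      rw [E.D1 H.hs]
      have h7 := (H.sec _).trans h00
      have h10 := H.inv (s ((E.p (y 0))⁻¹ * E.p (y' 0)))
      refine (H.mul _ _).trans ?_
      have h12 : 0 ≤ C' * (κ + Λ) := mul_nonneg (by linarith) (by linarith)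
      linarith) c1 j hj
  have h6 := H.e4 _ _ _ (mul_nonneg (by linarith) (by linarith)) h5
  have h7 : (y j)⁻¹ * y' j = (y j)⁻¹ * E.ι (Multiplicative.ofAdd (E.disc s (y j) (y' j))) * y j *
      s ((E.p (y j))⁻¹ * E.p (y' j)) := by rw [E.D1 H.hs]; group
  rw [h7]
  refine (H.mul _ _).trans ?_
  have h8 := (H.sec _).trans (h4 j)
  simp only [Function.comp_apply] at h8
  have h9 : c₄ * 1 ≤ c₄ * (κ * j + Λ) := mul_le_mul_of_nonneg_left (by linarith) hc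
  linarith

end Ctx2

end Vale.Agent.P188
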