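import Vale.Agent.P188.LayerB

/-! P188: strong contraction far out in a generic direction. -/

namespace Vale.Agent.P188

open Function Filter Matrix
open scoped Topology

theorem big_norm {k : ℕ} (L : Layer k) (a : Rk k) (b : Zk k) {K : ℝ} (hK : 0 ≤ K)
    (h : ∀ i j, L.wt i a < 0 → |L.B b i j| ≤ K) (x : L.Neg a → ℝ) :
    ‖(L.Bm a b).mulVec x‖ ≤ L.m * K * ‖x‖ := by
  refine (pi_norm_le_iff_of_nonneg (by positivity)).2 fun i => ?_
  have h1 : ∀ j : L.Neg a, ‖L.Bm a b i j * x j‖ ≤ K * ‖x‖ := fun j => by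
    rw [norm_mul]
    exact mul_le_mul (h i.1 j.1 i.2) (norm_le_pi_norm x j) (norm_nonneg _) hK
  have h2 : (Fintype.card (L.Neg a) : ℝ) ≤ L.m := by
    have h3 := Fintype.card_subtype_le fun i : Fin L.m => L.wt i a < 0
    rw [Fintype.card_fin] at h3
    exact_mod_cast h3
  calc ‖(L.Bm a b).mulVec x i‖ ≤ ∑ j, ‖L.Bm a b i j * x j‖ :=
        norm_sum_le Finset.univ fun j => L.Bm a b i j * x j
    _ ≤ ∑ _j : L.Neg a, K * ‖x‖ := Finset.sum_le_sum fun j _ => h1 j
    _ = Fintype.card (L.Neg a) * (K * ‖x‖) := by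
        rw [Finset.sum_const, Finset.card_univ, nsmul_eq_mul]
    _ ≤ L.m * (K * ‖x‖) := mul_le_mul_of_nonneg_right h2 (by positivity)
    _ = L.m * K * ‖x‖ := (mul_assoc _ _ _).symm

theorem big_small (d : ℕ) {α : ℝ} (hα : 0 < α) (A β : ℝ) {ε : ℝ} (hε : 0 < ε) :
    ∀ᶠ M : ℝ in atTop, (A * M) ^ d * Real.exp (β - α * M) ≤ ε := by
  have h1 := ((Real.tendsto_pow_mul_exp_neg_atTop_nhds_zero d).comp
    (tendsto_id.const_mul_atTop hα)).const_mul ((A / α) ^ d * Real.exp β)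
  rw [mul_zero] at h1
  refine (h1.eventually (eventually_le_nhds hε)).mono fun M hM => le_of_eq_of_le ?_ hM
  have h2 : A * M = A / α * (α * M) := by field_simp
  rw [h2, mul_pow, sub_eq_add_neg, Real.exp_add, Function.comp_apply, id]
  ring

theorem big_pow {K q : ℝ} (hK : 1 ≤ K) (hq : 0 ≤ q) (h : q ≤ 1 / (8 * K)) {l : ℕ} (hl : 1 ≤ l) :
    K * q ^ l ≤ 1 / 4 * (1 / 2) ^ l := by
  obtain ⟨n, rfl⟩ := Nat.exists_eq_add_of_le' hl
  have h1 : K * q ≤ 1 / 8 := by
    rw [le_div_iff₀ (by positivity)] at h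
    linarith
  have h2 : q ≤ 1 / 2 := by nlinarith
  have h3 : q ^ n ≤ (1 / 2) ^ n := pow_le_pow_left₀ hq h2 n
  calc K * q ^ (n + 1) = K * q * q ^ n := by ring
    _ ≤ 1 / 8 * (1 / 2) ^ n := mul_le_mul h1 h3 (by positivity) (by norm_num)
    _ = 1 / 4 * (1 / 2) ^ (n + 1) := by ring

theorem big_pf : Big_stmt := by
  intro k L a Cs hgen
  obtain ⟨C, d, hC⟩ := L.bound
  obtain ⟨K, hK⟩ : ∃ K : ℝ, K = L.m * |C| + 1 := ⟨_, rfl⟩
  have hK1 : 1 ≤ K := by
    rw [hK]
    exact le_add_of_nonneg_left (by positivity)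
  have h1 : ∀ i, ∀ᶠ M : ℝ in atTop, L.wt i a < 0 →
      ((1 + |Cs| + ‖a‖) * M) ^ d * Real.exp (‖L.wt i‖ * Cs - -L.wt i a * M) ≤ 1 / (8 * K) := by
    intro i
    by_cases hi : L.wt i a < 0
    · exact (big_small d (neg_pos.2 hi) _ _ (by positivity)).mono fun M hM _ => hM
    · exact Eventually.of_forall fun M h => absurd h hi
  have h2 : ∀ i, ∀ᶠ M : ℝ in atTop, L.wt i = 0 ∨ ‖L.wt i‖ * Cs ≤ |L.wt i (M • a)| := by
    intro i
    by_cases hi : L.wt i = 0
    · exact Eventually.of_forall fun M => Or.inl hi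
    · have h3 : 0 < |L.wt i a| := abs_pos.2 (hgen i hi)
      refine ((tendsto_id.atTop_mul_const h3).eventually_ge_atTop (‖L.wt i‖ * Cs)).mono
        fun M hM => Or.inr (hM.trans ?_)
      rw [map_smul, smul_eq_mul, abs_mul]
      exact mul_le_mul_of_nonneg_right (le_abs_self M) h3.le
  filter_upwards [eventually_all.2 h1, eventually_all.2 h2, eventually_ge_atTop (1 : ℝ)]
    with M e1 e2 hM
  refine ⟨fun l hl b hb x => ?_, e2⟩
  have hl0 : (0 : ℝ) ≤ l := Nat.cast_nonneg l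
  have hz : 0 ≤ |Cs| + M * ‖a‖ := by positivity
  have h4 : 1 + ‖toR b‖ ≤ ((1 + |Cs| + ‖a‖) * M) ^ l := by
    have h5 : ‖toR b‖ ≤ l * (|Cs| + M * ‖a‖) := by
      have h6 := norm_add_le (toR b - (l : ℝ) • M • a) ((l : ℝ) • M • a)
      rw [sub_add_cancel, norm_smul, norm_smul, Real.norm_natCast,
        Real.norm_of_nonneg (by linarith)] at h6
      have h7 := mul_le_mul_of_nonneg_left (le_abs_self Cs) hl0
      linarith
    have h8 := one_add_mul_le_pow (a := |Cs| + M * ‖a‖) (by linarith) l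
    refine (add_le_add_right h5 1).trans (h8.trans (pow_le_pow_left₀ (by linarith) ?_ l))
    nlinarith [abs_nonneg Cs]
  have h9 : ∀ i j, L.wt i (M • a) < 0 → |L.B b i j| ≤ |C| * (1 / (8 * K)) ^ l := by
    intro i j hi
    have hi' : L.wt i a < 0 := by
      rw [map_smul, smul_eq_mul] at hi
      exact neg_of_mul_neg_right hi (by linarith)
    have h10 : L.wt i (toR b) ≤ l * (‖L.wt i‖ * Cs - -L.wt i a * M) := by
      have h11 := (L.wt i).le_opNorm (toR b - (l : ℝ) • M • a)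
      rw [map_sub, map_smul, map_smul, smul_eq_mul, smul_eq_mul, Real.norm_eq_abs] at h11
      have h12 := mul_le_mul_of_nonneg_left hb (norm_nonneg (L.wt i))
      have h13 := le_abs_self (L.wt i (toR b) - l * (M * L.wt i a))
      linarith
    have h14 : (1 + ‖toR b‖) ^ d * Real.exp (L.wt i (toR b)) ≤ (1 / (8 * K)) ^ l := by
      calc (1 + ‖toR b‖) ^ d * Real.exp (L.wt i (toR b))
          ≤ (((1 + |Cs| + ‖a‖) * M) ^ l) ^ d *
              Real.exp (l * (‖L.wt i‖ * Cs - -L.wt i a * M)) :=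
            mul_le_mul (pow_le_pow_left₀ (by positivity) h4 d) (Real.exp_le_exp.2 h10)
              (Real.exp_pos _).le (by positivity)
        _ = (((1 + |Cs| + ‖a‖) * M) ^ d * Real.exp (‖L.wt i‖ * Cs - -L.wt i a * M)) ^ l := by
            rw [mul_pow _ (Real.exp _) l, Real.exp_nat_mul, ← pow_mul, ← pow_mul, mul_comm l d]
        _ ≤ (1 / (8 * K)) ^ l := pow_le_pow_left₀ (by positivity) (e1 i hi') l
    refine (hC b i j).trans ?_
    rw [mul_assoc]
    exact mul_le_mul (le_abs_self C) h14 (by positivity) (abs_nonneg C)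
  refine (big_norm L (M • a) b (by positivity) h9 x).trans
    (mul_le_mul_of_nonneg_right ?_ (norm_nonneg x))
  refine le_trans ?_ (big_pow hK1 (by positivity) le_rfl hl)
  rw [← mul_assoc]
  exact mul_le_mul_of_nonneg_right (by linarith) (by positivity)

end Vale.Agent.P188
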