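import Vale.Agent.P188.Stmts

/-! P188, part 2: the noisy ray chain, abstract interface. -/

namespace Vale.Agent.P188

open Function MeasureTheory
open scoped ENNReal NNReal

/-- Paths that follow the direction `a` with slope `κ` and constant `Λ`. -/
def Tr {Γ : Type} [Group Γ] {k : ℕ} (S : Finset Γ) (π : Γ →* Zk k) (a : Rk k) (κ Λ : ℝ)
    (y : ℕ → Γ) : Prop :=
  ∀ j : ℕ, (sz S π ((y j)⁻¹ * y (j + 1)) : ℝ) ≤ κ * j + Λ ∧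
    ‖ht π (y j) - ht π (y 0) - (j : ℝ) • a‖ ≤ κ * j + Λ

/-- One move of the chain on `Γ × σ`. -/
def mv {Γ σ N : Type} [Group Γ] (step : σ → N → Γ × σ) (x : Γ × σ) (g : N) : Γ × σ :=
  (x.1 * (step x.2 g).1, (step x.2 g).2)

/-- The path of the chain driven by the noise `ω`. -/
def cpath {Γ σ N : Type} [Group Γ] (step : σ → N → Γ × σ) (x : Γ × σ) (ω : ℕ → N) : ℕ → Γ × σ
  | 0 => x
  | n + 1 => mv step (cpath step x ω n) (ω n)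

/-- The group component of the path. -/
def lp {Γ σ N : Type} [Group Γ] (step : σ → N → Γ × σ) (x : Γ × σ) (ω : ℕ → N) (n : ℕ) : Γ :=
  (cpath step x ω n).1

/-- The law of an i.i.d. noise sequence. -/
noncomputable def iid {N : Type} [MeasurableSpace N] (μ : Measure N) : Measure (ℕ → N) :=
  Measure.infinitePi fun _ : ℕ => μ

/-- Chain data. -/
structure Chain (Γ : Type) : Type 1 where
  σ : Type
  N : Type
  B : Type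
  [mσ : MeasurableSpace σ]
  [mN : MeasurableSpace N]
  [mB : MeasurableSpace B]
  [sσ : StandardBorelSpace σ]
  [sN : StandardBorelSpace N]
  [sB : StandardBorelSpace B]
  μσ : Measure σ
  μN : Measure N
  [pσ : IsProbabilityMeasure μσ]
  [pN : IsProbabilityMeasure μN]
  m : Measure B
  step : σ → N → Γ × σ
  Θ : (ℕ → Γ) → B
  r : Γ

attribute [instance] Chain.mσ Chain.mN Chain.mB Chain.sσ Chain.sN Chain.sB Chain.pσ Chain.pN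

/-- The properties of a chain in direction `a`. -/
structure ChainProp {Γ : Type} [Group Γ] [MeasurableSpace Γ] {k : ℕ} (S : Finset Γ)
    (π : Γ →* Zk k) (w : List (Wt k)) (a : Rk k) (Cs κ₁ κ₂ C₀ : ℝ) (c : Chain Γ) : Prop where
  one_le : 1 ≤ Cs
  le₁ : Cs + 1 ≤ κ₁
  le₂ : κ₁ + 1 ≤ κ₂
  meas_step : Measurable fun p : c.σ × c.N => c.step p.1 p.2
  meas_Θ : Measurable c.Θ
  fin : ∃ F : Finset Γ, ∀ u g, (c.step u g).1 ∈ F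
  dir : ∀ u g, ‖ht π (c.step u g).1 - a‖ ≤ Cs
  r_dir : ‖ht π c.r - a‖ ≤ Cs
  r_sz : (sz S π c.r : ℝ) ≤ C₀
  mp : ∀ g, MeasurePreserving (fun u => (c.step u g).2) c.μσ c.μσ
  shift : ∀ Λ y, Tr S π a κ₂ Λ y → c.Θ (fun j => y (j + 1)) = c.Θ y
  close : ∀ Λ y y', Tr S π a κ₁ Λ y → Tr S π a κ₁ Λ y' → c.Θ y = c.Θ y' →
    ∃ Λ' : ℝ, ∀ j : ℕ, (sz S π ((y j)⁻¹ * y' (j + 1)) : ℝ) ≤ (κ₂ - 1) * j + Λ'
  ub : ∃ C : ℝ, ∀ (x : Γ × c.σ) (D : Set c.B), MeasurableSet D →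
    iid c.μN {ω | c.Θ (lp c.step x ω) ∈ D} ≤
      ENNReal.ofReal (C * Real.exp (-kap w a (ht π x.1))) * c.m D
  lb : ∃ e : ℝ, 0 < e ∧ ∀ (x : Γ × c.σ) (D : Set c.B), MeasurableSet D →
    (∀ ξ ∈ D, ∃ y, y 0 = x.1 ∧ Tr S π a κ₂ C₀ y ∧ c.Θ y = ξ) →
    ENNReal.ofReal (e * Real.exp (-kap w a (ht π x.1))) * c.m D ≤
      iid c.μN {ω | c.Θ (lp c.step x ω) ∈ D}
  tt : ∀ E : Set ((Γ × c.σ) × (ℕ → c.N)), MeasurableSet E →
    (∀ x ω, (x, ω) ∈ E ↔ (mv c.step x (ω 0), fun j => ω (j + 1)) ∈ E) →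
    ∃ E' : Set c.B, MeasurableSet E' ∧ ∀ γ : Γ, ∀ᵐ p ∂(c.μσ.prod (iid c.μN)),
      (((γ, p.1), p.2) ∈ E ↔ c.Θ (lp c.step (γ, p.1) p.2) ∈ E')

/-- A forward chain together with its time reversal. -/
structure Pair (Γ : Type) (k : ℕ) : Type 1 extends Chain Γ where
  B' : Type
  [mB' : MeasurableSpace B']
  [sB' : StandardBorelSpace B']
  m' : Measure B'
  step' : σ → N → Γ × σ
  Θ' : (ℕ → Γ) → B'
  r' : Γ
  act : Zk k → σ → σ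

attribute [instance] Pair.mB' Pair.sB'

/-- The reversed chain. -/
abbrev Pair.bwd {Γ : Type} {k : ℕ} (P : Pair Γ k) : Chain Γ :=
  { σ := P.σ, N := P.N, B := P.B', μσ := P.μσ, μN := P.μN, m := P.m', step := P.step',
    Θ := P.Θ', r := P.r' }

/-- The properties linking the two chains. -/
structure PairProp {Γ : Type} [Group Γ] [MeasurableSpace Γ] {k : ℕ} (S : Finset Γ)
    (π : Γ →* Zk k) (P : Pair Γ k) : Prop where
  inv₁ : ∀ u g, P.step' (P.step u g).2 g = ((P.step u g).1⁻¹, u)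
  inv₂ : ∀ u g, P.step (P.step' u g).2 g = ((P.step' u g).1⁻¹, u)
  act_one : ∀ u, P.act 1 u = u
  act_mul : ∀ a b u, P.act (a * b) u = P.act a (P.act b u)
  act_mp : ∀ a, MeasurePreserving (P.act a) P.μσ P.μσ
  dom : ∃ (C : ℝ≥0) (F : Finset Γ), ∀ (u : P.σ) (f : Γ × P.σ → ℝ≥0∞), Measurable f →
    ∫⁻ g, f (P.step u g) ∂P.μN ≤ C * ∑ γ ∈ F, ∫⁻ u', f (γ, u') ∂P.μσ
  ext : ∀ s ∈ S, ∃ (i i' : P.N → P.N) (C : ℝ≥0) (F : Finset Γ), Measurable i ∧ Measurable i' ∧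
    P.μN.map i ≤ C • P.μN ∧ P.μN.map i' ≤ C • P.μN ∧ (∀ n ∈ F, π n = 1) ∧
    (π s = 1 → F = {1}) ∧ ∀ u g, (P.step u (i g)).2 = (P.step (P.act (π s) u) (i' g)).2 ∧
      ∃ n ∈ F, (P.step u (i g)).1 = s * n * (P.step (P.act (π s) u) (i' g)).1

/-- Existence of the chains. -/
def ChainEx_stmt : Prop :=
  ∀ (k : ℕ) (Γ : Type) [Group Γ] [Countable Γ] [MeasurableSpace Γ] [DiscreteMeasurableSpace Γ]
    (π : Γ →* Zk k) (w : List (Wt k)), Tower Γ π w →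
    ∀ S : Finset Γ, Subgroup.closure (S : Set Γ) = ⊤ → ∃ Cs : ℝ, 1 ≤ Cs ∧
    ∀ κ₁ κ₂' : ℝ, Cs + 1 ≤ κ₁ → ∀ a : Rk k, Generic w a → ∃ κ₂ : ℝ, κ₂' ≤ κ₂ ∧
    ∀ᶠ M : ℝ in Filter.atTop, ∃ (C₀ : ℝ) (P : Pair Γ k), PairProp S π P ∧
      ChainProp S π w (M • a) Cs κ₁ κ₂ C₀ P.toChain ∧
      ChainProp S π w (-(M • a)) Cs κ₁ κ₂ C₀ P.bwd

/-- `L` reference steps followed by the path `y`. -/
def pre {Γ : Type} [Group Γ] (p r : Γ) (L : ℕ) (y : ℕ → Γ) : ℕ → Γ :=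
  fun j => if j < L then p * r ^ j else y (j - L)

/-- Good points: most target rays pull back into the core of the shadow of `p`. -/
def Good {Γ : Type} [Group Γ] {k : ℕ} (S : Finset Γ) (π : Γ →* Zk k) (a : Rk k) (κ₁ C₀ : ℝ)
    (r : Γ) (c' : Chain Γ) (q q' : Γ → Γ) (L : ℕ) (p : Γ) : Prop :=
  (1 / 2 : ℝ) ≤ (c'.μσ.prod (iid c'.μN)).real
    {x | Tr S π a κ₁ C₀ (pre p r L (q' ∘ lp c'.step (q (p * r ^ L), x.1) x.2))}

/-- The Ville-type inequality for a fixed pair of maps. -/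
def V_stmt : Prop :=
  ∀ (k : ℕ) (Γ : Type) [Group Γ] [Countable Γ] [MeasurableSpace Γ] [DiscreteMeasurableSpace Γ]
    (π : Γ →* Zk k) (w : List (Wt k)) (S : Finset Γ), Subgroup.closure (S : Set Γ) = ⊤ →
    ∀ (a a' : Rk k) (Cs κ₁ κ₂ C₀ Cs' κ₁' κ₂' C₀' : ℝ) (c c' : Chain Γ),
    ChainProp S π w a Cs κ₁ κ₂ C₀ c → ChainProp S π w a' Cs' κ₁' κ₂' C₀' c' →
    ∀ K L : ℕ, 1 ≤ L → ∃ C : ℝ, 0 < C ∧ ∀ q q' : Γ → Γ,
    (∀ p, ∀ s ∈ S, wordLength S ((q p)⁻¹ * q (p * s)) ≤ K) →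
    (∀ y, ∀ᵐ x ∂(c'.μσ.prod (iid c'.μN)), ∃ Λ : ℕ,
      Tr S π a κ₁ Λ (q' ∘ lp c'.step (y, x.1) x.2)) →
    ∀ (Λ h : ℝ) (x₀ : Γ × c.σ), 0 ≤ Λ →
    (iid c.μN).real {ω | ∃ n, Good S π a κ₁ C₀ c.r c' q q' L (lp c.step x₀ ω n) ∧
      h ≤ kap w a' (ht π (q (lp c.step x₀ ω n)) - ht π (q x₀.1)) -
        kap w a (ht π (lp c.step x₀ ω n) - ht π x₀.1) ∧
      ∀ j ≤ n, ‖ht π (q (lp c.step x₀ ω j)) - ht π (q x₀.1) - (j : ℝ) • a'‖ ≤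
        (κ₂' - 1) * j + Λ} ≤ C * Real.exp (C * Λ - h)

/-- An equivariant family of quasi-isometries with quasi-inverses. -/
structure QP {Γ : Type} [Group Γ] (S : Finset Γ) (K : ℕ) (Z : Type) [MulAction Γ Z]
    [MeasurableSpace Z] extends QS S K Z where
  q' : Z → Γ → Γ
  t : Z → Z
  sig : Z → Γ
  q'_eq : ∀ z y, q' z y = sig z * q (t z) y
  sig_le : ∀ z, wordLength S (sig z) ≤ K
  t_meas : Measurable t
  sig_meas : ∀ y, MeasurableSet {z | sig z = y}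
  q'_equiv : ∀ z p y, q' (p⁻¹ • z) y = p⁻¹ * q' z (q z p * y)

/-- `D` is the drift matrix of the height cocycle for the invariant probability `ν`. -/
structure Drift {Γ : Type} [Group Γ] {k : ℕ} (π : Γ →* Zk k) {Z : Type} [MulAction Γ Z]
    [MeasurableSpace Z] (q : Z → Γ → Γ) (K' : ℝ) (ν : Measure Z)
    (D : Z → Matrix (Fin k) (Fin k) ℝ) : Prop where
  prob : IsProbabilityMeasure ν
  mp : ∀ g : Γ, MeasurePreserving (g • ·) ν ν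
  meas : ∀ i j, Measurable fun z => D z i j
  inv : ∀ (g : Γ) z, D (g • z) = D z
  bdd : ∀ z b, ‖(D z).mulVec b‖ ≤ K' * ‖b‖
  acob : ACob ν fun g z => ht π (q z g) - (D z).mulVec (ht π g)

/-- Sublinearity of almost coboundaries along the chain. -/
def Reg_stmt : Prop :=
  ∀ (k : ℕ) (Γ : Type) [Group Γ] [Countable Γ] [MeasurableSpace Γ] [DiscreteMeasurableSpace Γ]
    (π : Γ →* Zk k) (S : Finset Γ) (K : ℕ) (Z : Type) [MulAction Γ Z] [MeasurableSpace Z]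
    (Q : QS S K Z) (K' : ℝ) (ν : Measure Z) (D : Z → Matrix (Fin k) (Fin k) ℝ),
    Drift π Q.q K' ν D → ∀ c : Chain Γ, (Measurable fun p : c.σ × c.N => c.step p.1 p.2) →
    (∃ F : Finset Γ, ∀ u g, (c.step u g).1 ∈ F) →
    (∀ g, MeasurePreserving (fun u => (c.step u g).2) c.μσ c.μσ) →
    ∀ ε : ℝ, 0 < ε → ∀ᵐ z ∂ν, ∀ y : Γ, ∀ᵐ x ∂(c.μσ.prod (iid c.μN)), ∃ Λ : ℕ, ∀ j : ℕ,
      ‖ht π (Q.q z (lp c.step (y, x.1) x.2 j)) - ht π (Q.q z y) -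
        (D z).mulVec (ht π (lp c.step (y, x.1) x.2 j) - ht π y)‖ ≤ ε * j + Λ

/-- Target rays pull back to tracking paths, and good states have measure tending to one. -/
def GoodM_stmt : Prop :=
  ∀ (k : ℕ) (Γ : Type) [Group Γ] [Countable Γ] [MeasurableSpace Γ] [DiscreteMeasurableSpace Γ]
    (π : Γ →* Zk k) (w : List (Wt k)) (S : Finset Γ), Subgroup.closure (S : Set Γ) = ⊤ →
    ∀ (K : ℕ) (Z : Type) [MulAction Γ Z] [MeasurableSpace Z] (Q : QP S K Z) (K' : ℝ)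
    (ν ν' : Measure Z) (D D' : Z → Matrix (Fin k) (Fin k) ℝ),
    Drift π Q.q K' ν D → Drift π Q.q K' ν' D' → Measure.QuasiMeasurePreserving Q.t ν ν' →
    ∀ (a a' : Rk k) (Cs κ₁ κ₂ C₀ Cs' κ₁' κ₂' C₀' : ℝ) (c c' : Chain Γ),
    ChainProp S π w a Cs κ₁ κ₂ C₀ c → ChainProp S π w a' Cs' κ₁' κ₂' C₀' c' →
    (∀ᵐ z ∂ν', ‖(D' z).mulVec a' - a‖ ≤ 1) → |K'| * Cs' + 3 ≤ κ₁ →
    (∀ᵐ z ∂ν, ∀ y, ∀ᵐ x ∂(c'.μσ.prod (iid c'.μN)), ∃ Λ : ℕ,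
      Tr S π a κ₁ Λ (Q.q' z ∘ lp c'.step (y, x.1) x.2)) ∧
    (∀ L, MeasurableSet {z | Good S π a κ₁ C₀ c.r c' (Q.q z) (Q.q' z) L 1}) ∧
    (∀ L z p, Good S π a κ₁ C₀ c.r c' (Q.q z) (Q.q' z) L p ↔
      Good S π a κ₁ C₀ c.r c' (Q.q (p⁻¹ • z)) (Q.q' (p⁻¹ • z)) L 1) ∧
    Filter.Tendsto (fun L => ν.real {z | Good S π a κ₁ C₀ c.r c' (Q.q z) (Q.q' z) L 1})
      Filter.atTop (nhds 1)

/-- Duality between source and target measures. -/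
def Dual {Γ : Type} [Group Γ] {k : ℕ} (π : Γ →* Zk k) {S : Finset Γ} {K : ℕ} {Z : Type}
    [MulAction Γ Z] [MeasurableSpace Z] (Q : QP S K Z) (K' : ℝ) : Prop :=
  ∀ ν D, Drift π Q.q K' ν D → ∃ ν' D', Drift π Q.q K' ν' D' ∧
    Measure.QuasiMeasurePreserving Q.t ν ν' ∧ (∀ᵐ z ∂ν, D' (Q.t z) * D z = 1) ∧
    ∀ P : Matrix (Fin k) (Fin k) ℝ → Prop, (∀ᵐ z ∂ν, P (D z)) →
      ∀ᵐ z' ∂ν', ∃ D₀, P D₀ ∧ D' z' * D₀ = 1

/-- The drift matrix is an isometry of the entropy norm. -/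
def Iso_stmt : Prop :=
  ∀ (k : ℕ) (Γ : Type) [Group Γ] [Countable Γ] (π : Γ →* Zk k) (w : List (Wt k)),
    Tower Γ π w → Definite w → ∀ S : Finset Γ, Subgroup.closure (S : Set Γ) = ⊤ →
    ∀ (K : ℕ) (Z : Type) [MulAction Γ Z] [MeasurableSpace Z] (Q : QP S K Z) (K' : ℝ),
    Dual π Q K' → ∀ ν D, Drift π Q.q K' ν D → ∀ᵐ z ∂ν, D z ∈ Phi w

/-- Exponential tails of the height defect. -/
def Tail_stmt : Prop :=
  ∀ (k : ℕ) (Γ : Type) [Group Γ] [Countable Γ] (π : Γ →* Zk k) (w : List (Wt k)),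
    Tower Γ π w → Definite w → ∀ S : Finset Γ, Subgroup.closure (S : Set Γ) = ⊤ →
    Subgroup.closure ((S : Set Γ) ∩ π.ker) = π.ker →
    ∀ (K : ℕ) (Z : Type) [TopologicalSpace Z] [CompactSpace Z]
    [TopologicalSpace.MetrizableSpace Z] [MeasurableSpace Z] [BorelSpace Z] [MulAction Γ Z]
    [ContinuousConstSMul Γ Z] (Q : QP S K Z), (∀ p y, IsClopen {z | Q.q z p = y}) →
    ∀ K' : ℝ, (∀ μ : Measure Z, IsProbabilityMeasure μ →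
      (∀ g : Γ, MeasurePreserving (g • ·) μ μ) →
      ∃ D, Drift π Q.q K' μ D ∧ ∀ᵐ z ∂μ, D z ∈ Phi w) →
    ∀ ν ν' : Measure Z, Drift π Q.q 1 ν (fun _ => 1) → Drift π Q.q 1 ν' (fun _ => 1) →
    Measure.QuasiMeasurePreserving Q.t ν ν' → ∀ δ : ℝ, 0 < δ →
    ∃ (E : Set Z) (β : Z → ℝ) (η : ℝ), MeasurableSet E ∧ (∀ (g : Γ) z, g • z ∈ E ↔ z ∈ E) ∧
      1 - δ ≤ ν.real E ∧ Measurable β ∧ 0 < η ∧
      IntegrableOn (fun z => Real.exp (η * β z)) E ν ∧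
      ∀ g : Γ, ∀ᵐ z ∂ν, z ∈ E → ‖ht π (Q.q z g) - ht π g‖ ≤ β z + β (g⁻¹ • z)

/-- The coupling: a finite-index subgroup with a height satisfying the counting bound. -/
def Cpl_stmt : Prop :=
  ∀ (k : ℕ) (Γ : Type) [Group Γ] (π : Γ →* Zk k) (w : List (Wt k)), Tower Γ π w → Definite w →
    ∀ (H : Type) [Group H] (SH : Finset H) (S : Finset Γ),
    Subgroup.closure (SH : Set H) = ⊤ → Subgroup.closure (S : Set Γ) = ⊤ →
    Subgroup.closure ((S : Set Γ) ∩ π.ker) = π.ker →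
    ∀ (K C : ℝ) (F : H → Γ), IsQuasiIsometry SH S K C F → Injective F →
    ∃ H₀ : Subgroup H, H₀.FiniteIndex ∧ ∃ (S₀ : Finset H₀) (φ : H₀ →* Multiplicative (Rk k))
      (D : ℕ), Subgroup.closure (S₀ : Set H₀) = ⊤ ∧ ∀ r ρ : ℕ,
      (hBall S₀ (fun h => Multiplicative.toAdd (φ h)) r ρ).ncard ≤ (D * (r + 1) * 2 ^ ρ) ^ D

end Vale.Agent.P188
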