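import Vale.Agent.P188.Iid

/-! P188, part 4: construction of the chain along a tower. Definitions. -/

namespace Vale.Agent.P188

open Function MeasureTheory Filter
open scoped ENNReal NNReal Topology

/-- The torus. -/
abbrev Tor (m : ℕ) : Type := Fin m → UnitAddCircle

/-- Haar measure on the torus. -/
noncomputable def torM (m : ℕ) : Measure (Tor m) :=
  Measure.pi fun _ => (AddCircle.haarAddCircle : Measure UnitAddCircle)

instance (m : ℕ) : IsProbabilityMeasure (torM m) := by unfold torM; infer_instance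

/-- The representative of a torus point in the unit cube. -/
noncomputable def lift {m : ℕ} (u : Tor m) : Fin m → ℝ :=
  fun i => (AddCircle.equivIco 1 0 (u i)).1

/-- The projection to the torus. -/
def prj {m : ℕ} (x : Fin m → ℝ) : Tor m := fun i => (x i : UnitAddCircle)

/-- The integer part, as a lattice point. -/
noncomputable def flo {m : ℕ} (x : Fin m → ℝ) : Zk m := Multiplicative.ofAdd fun i => ⌊x i⌋

/-- Clamp the noise to the cube. -/
def clamp {m : ℕ} (t : Fin m → ℝ) : Fin m → ℝ := fun i => max (-1) (min 1 (t i))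

/-- The one-dimensional noise density. -/
noncomputable def dens (s : ℝ) : ℝ := 3 / 2 * (max (1 - |s|) 0) ^ 2

theorem continuous_dens : Continuous dens := by unfold dens; fun_prop

theorem dens_nonneg (s : ℝ) : 0 ≤ dens s := by unfold dens; positivity

theorem dens_eq_zero {s : ℝ} (h : 1 ≤ |s|) : dens s = 0 := by
  simp [dens, max_eq_right (sub_nonpos.2 h)]

theorem integrable_dens : Integrable dens := by
  refine continuous_dens.integrable_of_hasCompactSupport ?_
  refine HasCompactSupport.intro (isCompact_Icc (a := -1) (b := 1)) fun x hx => dens_eq_zero ?_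
  by_contra h
  exact hx ⟨by linarith [neg_abs_le x], by linarith [le_abs_self x]⟩

theorem integral_dens : ∫ s, dens s = 1 := by
  have h1 : ∫ s, dens s = ∫ s in (-1 : ℝ)..1, dens s := by
    rw [intervalIntegral.integral_of_le (by norm_num)]
    refine (setIntegral_eq_integral_of_forall_compl_eq_zero fun x hx => dens_eq_zero ?_).symm
    by_contra h
    exact hx ⟨by linarith [neg_abs_le x], by linarith [le_abs_self x]⟩
  have h2 : ∫ s in (-1 : ℝ)..0, dens s = ∫ s in (-1 : ℝ)..0, 3 / 2 * (1 + 2 * s + s ^ 2) := by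
    refine intervalIntegral.integral_congr fun x hx => ?_
    rw [Set.uIcc_of_le (by norm_num)] at hx
    simp only [dens, abs_of_nonpos hx.2]
    rw [max_eq_left (by linarith [hx.1])]; ring
  have h3 : ∫ s in (0 : ℝ)..1, dens s = ∫ s in (0 : ℝ)..1, 3 / 2 * (1 - 2 * s + s ^ 2) := by
    refine intervalIntegral.integral_congr fun x hx => ?_
    rw [Set.uIcc_of_le (by norm_num)] at hx
    simp only [dens, abs_of_nonneg hx.1]
    rw [max_eq_left (by linarith [hx.2])]; ring
  rw [h1, ← intervalIntegral.integral_add_adjacent_intervals (b := 0)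
    (continuous_dens.intervalIntegrable _ _) (continuous_dens.intervalIntegrable _ _), h2, h3]
  rw [intervalIntegral.integral_const_mul, intervalIntegral.integral_const_mul,
    intervalIntegral.integral_add, intervalIntegral.integral_add, intervalIntegral.integral_add,
    intervalIntegral.integral_sub]
  · rw [intervalIntegral.integral_const_mul, intervalIntegral.integral_const_mul,
      integral_id, integral_id, integral_pow, integral_pow]
    norm_num
  all_goals exact Continuous.intervalIntegrable (by fun_prop) _ _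

/-- The one-dimensional noise law. -/
noncomputable def rho1 : Measure ℝ := volume.withDensity fun s => ENNReal.ofReal (dens s)

instance : IsProbabilityMeasure rho1 := ⟨by
  rw [rho1, withDensity_apply _ MeasurableSet.univ, Measure.restrict_univ,
    ← ofReal_integral_eq_lintegral_ofReal integrable_dens (ae_of_all _ dens_nonneg),
    integral_dens, ENNReal.ofReal_one]⟩

/-- The noise law of a layer. -/
noncomputable def noiseM (m : ℕ) : Measure (Fin m → ℝ) := Measure.pi fun _ => rho1

instance (m : ℕ) : IsProbabilityMeasure (noiseM m) := by unfold noiseM; infer_instance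

namespace Layer
variable {k : ℕ} (L : Layer k)

/-- The real matrix of the action. -/
def R (b : Zk k) : Matrix (Fin L.m) (Fin L.m) ℝ := (L.ρ b).map (Int.cast : ℤ → ℝ)

/-- Coordinates of a lattice vector in the weight basis. -/
def co (v : Fin L.m → ℤ) : Fin L.m → ℝ := L.Qi.mulVec fun i => (v i : ℝ)

/-- Indices of the weights that are negative at `a`. -/
abbrev Neg (a : Rk k) : Type := {i : Fin L.m // L.wt i a < 0}

/-- Projection to the contracted part. -/
def pr (a : Rk k) (x : Fin L.m → ℝ) : L.Neg a → ℝ := fun i => x i.1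

/-- Embedding of the contracted part. -/
noncomputable def emb (a : Rk k) (y : L.Neg a → ℝ) : Fin L.m → ℝ :=
  fun i => if h : L.wt i a < 0 then y ⟨i, h⟩ else 0

/-- The contracted block of the action. -/
noncomputable def Bm (a : Rk k) (b : Zk k) : Matrix (L.Neg a) (L.Neg a) ℝ :=
  (L.B b).toSquareBlockProp fun i => L.wt i a < 0

/-- Strong contraction in the direction `a`. -/
def Big (a : Rk k) (Cs : ℝ) : Prop :=
  (∀ l : ℕ, 1 ≤ l → ∀ b : Zk k, ‖toR b - (l : ℝ) • a‖ ≤ l * Cs →
    ∀ x, ‖(L.Bm a b).mulVec x‖ ≤ 1 / 4 * (1 / 2) ^ l * ‖x‖) ∧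
  ∀ i, L.wt i = 0 ∨ ‖L.wt i‖ * Cs ≤ |L.wt i a|

end Layer

namespace Ext
variable {k : ℕ} {L : Layer k} {Γ Γ' : Type} [Group Γ] [Group Γ'] {π' : Γ' →* Zk k}
  (E : Ext L Γ Γ' π') (s : Γ' → Γ)

/-- The lattice vector of an element of the kernel. -/
noncomputable def vOf (g : Γ) : Fin L.m → ℤ := Multiplicative.toAdd (Function.invFun E.ι g)

/-- The discrepancy: `g' = ι (disc g g') * g * s (p g⁻¹ * p g')`. -/
noncomputable def disc (g g' : Γ) : Fin L.m → ℤ :=
  E.vOf (g' * (g * s ((E.p g)⁻¹ * E.p g'))⁻¹)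

/-- The lift of a path along the section. -/
def ref0 (_E : Ext L Γ Γ' π') (s : Γ' → Γ) (y : ℕ → Γ') : ℕ → Γ
  | 0 => s (y 0)
  | j + 1 => ref0 _E s y j * s ((y j)⁻¹ * y (j + 1))

/-- The new boundary coordinate. -/
noncomputable def tau (a : Rk k) {B : Type} (Θ' : (ℕ → Γ') → B) (ref' : B → ℕ → Γ')
    (y : ℕ → Γ) : L.Neg a → ℝ :=
  limUnder atTop fun j =>
    L.pr a (L.co (E.disc s (E.ref0 s (ref' (Θ' (E.p ∘ y))) j) (y j)))

/-- The point with real coordinate `X` over `g`. -/
noncomputable def place (g : Γ) (X : Fin L.m → ℝ) : Γ × Tor L.m :=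
  (g * E.ι (flo ((L.R (π' (E.p g))⁻¹).mulVec (L.Q.mulVec X))),
    prj ((L.R (π' (E.p g))⁻¹).mulVec (L.Q.mulVec X)))

/-- The new boundary map. -/
noncomputable def theta (a : Rk k) {B : Type} (Θ' : (ℕ → Γ') → B) (ref' : B → ℕ → Γ')
    (y : ℕ → Γ) : B × (L.Neg a → ℝ) :=
  (Θ' (E.p ∘ y), E.tau s a Θ' ref' y)

/-- The new reference paths. -/
noncomputable def ref (a : Rk k) {B : Type} (ref' : B → ℕ → Γ') (ξ : B × (L.Neg a → ℝ))
    (j : ℕ) : Γ :=
  (E.place (E.ref0 s (ref' ξ.1) j) (L.emb a ξ.2)).1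

/-- The real coordinate after one step. -/
noncomputable def stepX (_E : Ext L Γ Γ' π') (post : Bool) (R : ℝ) (b : Zk k) (u : Tor L.m)
    (t : Fin L.m → ℝ) : Fin L.m → ℝ :=
  (L.R b⁻¹).mulVec (lift u) + (L.R (if post then 1 else b⁻¹)).mulVec (L.Q.mulVec (R • clamp t))

/-- The extended chain. -/
noncomputable abbrev chain (a : Rk k) (c : Chain Γ') (ref' : c.B → ℕ → Γ') (post : Bool) (R : ℝ)
    (lft : c.σ → c.N → Γ) (r : Γ) : Chain Γ where
  σ := c.σ × Tor L.m
  N := c.N × (Fin L.m → ℝ)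
  B := c.B × (L.Neg a → ℝ)
  μσ := c.μσ.prod (torM L.m)
  μN := c.μN.prod (noiseM L.m)
  m := c.m.prod volume
  step := fun u g =>
    (lft u.1 g.1 * E.ι (flo (E.stepX post R (π' (c.step u.1 g.1).1) u.2 g.2)),
      ((c.step u.1 g.1).2, prj (E.stepX post R (π' (c.step u.1 g.1).1) u.2 g.2)))
  Θ := E.theta s a c.Θ ref'
  r := r

/-- The forward lift of a step. -/
def lftF {𝒮 : Type} (e : 𝒮 → Γ) (P : Pair Γ' k) (lab : P.N → 𝒮) (u : P.σ) (g : P.N) : Γ :=
  e (lab g) * s ((E.p (e (lab g)))⁻¹ * (P.step u g).1)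

/-- The backward lift of a step. -/
def lftB {𝒮 : Type} (e : 𝒮 → Γ) (P : Pair Γ' k) (lab : P.N → 𝒮) (u : P.σ) (g : P.N) : Γ :=
  (E.lftF s e P lab (P.step' u g).2 g)⁻¹

/-- The extended pair. -/
noncomputable abbrev pair (a : Rk k) {𝒮 : Type} (e : 𝒮 → Γ) (P : Pair Γ' k) (lab : P.N → 𝒮)
    (ref₁ : P.B → ℕ → Γ') (ref₂ : P.B' → ℕ → Γ') (R : ℝ) (r r' : Γ) : Pair Γ k where
  toChain := E.chain s a P.toChain ref₁ true R (E.lftF s e P lab) r
  B' := P.B' × (L.Neg (-a) → ℝ)
  m' := P.m'.prod volume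
  step' := (E.chain s (-a) P.bwd ref₂ false (-R) (E.lftB s e P lab) r').step
  Θ' := E.theta s (-a) P.Θ' ref₂
  r' := r'
  act := fun b u => (P.act b u.1, prj ((L.R b⁻¹).mulVec (lift u.2)))

theorem pair_bwd (a : Rk k) {𝒮 : Type} (e : 𝒮 → Γ) (P : Pair Γ' k) (lab : P.N → 𝒮)
    (ref₁ : P.B → ℕ → Γ') (ref₂ : P.B' → ℕ → Γ') (R : ℝ) (r r' : Γ) :
    (E.pair s a e P lab ref₁ ref₂ R r r').bwd =
      E.chain s (-a) P.bwd ref₂ false (-R) (E.lftB s e P lab) r' := rfl

end Ext

end Vale.Agent.P188
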