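import Vale.Agent.P188.ChainC

/-! P188, part 4: construction of the chain along a tower. Statements. -/

namespace Vale.Agent.P188

open Function MeasureTheory Filter
open scoped ENNReal NNReal Topology

section
variable {k : ℕ} {Γ : Type} [Group Γ] [MeasurableSpace Γ]

/-- Properties of a boundary map with reference paths. -/
structure BdProp (S : Finset Γ) (π : Γ →* Zk k) (a : Rk k) (C κ₂ : ℝ) {B : Type}
    [MeasurableSpace B] (Θ : (ℕ → Γ) → B) (ref : B → ℕ → Γ) : Prop where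
  meas_Θ : Measurable Θ
  meas_ref : Measurable ref
  ref_tr : ∃ Λ : ℝ, ∀ ξ, Tr S π a 1 Λ (ref ξ)
  ref_step : ∃ Λ : ℕ, ∀ ξ j, sz S π ((ref ξ j)⁻¹ * ref ξ (j + 1)) ≤ Λ
  ref_Θ : ∀ ξ, Θ (ref ξ) = ξ
  shift : ∀ Λ y, Tr S π a κ₂ Λ y → Θ (fun j => y (j + 1)) = Θ y
  close : ∀ (κ Λ : ℝ) (y y' : ℕ → Γ), 1 ≤ κ → κ ≤ κ₂ → 1 + ‖a‖ ≤ Λ → Tr S π a κ Λ y →
    Tr S π a κ Λ y' → (sz S π ((y 0)⁻¹ * y' 0) : ℝ) ≤ Λ → Θ y = Θ y' →
    ∀ j : ℕ, (sz S π ((y j)⁻¹ * y' j) : ℝ) ≤ C * (κ * j + Λ)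

/-- Upper density bound. -/
def UB (π : Γ →* Zk k) (w : List (Wt k)) (a : Rk k) (c : Chain Γ) : Prop :=
  ∃ C : ℝ, ∀ (x : Γ × c.σ) (D : Set c.B), MeasurableSet D →
    iid c.μN {ω | c.Θ (lp c.step x ω) ∈ D} ≤
      ENNReal.ofReal (C * Real.exp (-kap w a (ht π x.1))) * c.m D

/-- Lower density bound on the core. -/
def LB (S : Finset Γ) (π : Γ →* Zk k) (w : List (Wt k)) (a : Rk k) (κ₂ C₀ : ℝ) (c : Chain Γ) :
    Prop :=
  ∃ e : ℝ, 0 < e ∧ ∀ (x : Γ × c.σ) (D : Set c.B), MeasurableSet D →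
    (∀ ξ ∈ D, ∃ y, y 0 = x.1 ∧ Tr S π a κ₂ C₀ y ∧ c.Θ y = ξ) →
    ENNReal.ofReal (e * Real.exp (-kap w a (ht π x.1))) * c.m D ≤
      iid c.μN {ω | c.Θ (lp c.step x ω) ∈ D}

/-- Tail triviality with a parameter. -/
def TTp (c : Chain Γ) : Prop :=
  ∀ (X : Type) [MeasurableSpace X] (μ : Measure X) [IsFiniteMeasure μ]
    (E : Set (((Γ × c.σ) × (ℕ → c.N)) × X)), MeasurableSet E →
    (∀ x ω s, ((x, ω), s) ∈ E ↔ ((mv c.step x (ω 0), fun j => ω (j + 1)), s) ∈ E) →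
    ∃ E' : Set (c.B × X), MeasurableSet E' ∧ ∀ γ : Γ, ∀ᵐ p ∂((c.μσ.prod (iid c.μN)).prod μ),
      ((((γ, p.1.1), p.1.2), p.2) ∈ E ↔ (c.Θ (lp c.step (γ, p.1.1) p.1.2), p.2) ∈ E')

/-- Elementary properties of the steps. -/
structure StepProp (π : Γ →* Zk k) (a : Rk k) (Cs : ℝ) (c : Chain Γ) : Prop where
  meas_step : Measurable fun p : c.σ × c.N => c.step p.1 p.2
  fin : ∃ F : Finset Γ, ∀ u g, (c.step u g).1 ∈ F
  dir : ∀ u g, ‖ht π (c.step u g).1 - a‖ ≤ Cs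
  mp : ∀ g, MeasurePreserving (fun u => (c.step u g).2) c.μσ c.μσ

/-- The inductive invariant of one chain. -/
structure CP (S : Finset Γ) (π : Γ →* Zk k) (w : List (Wt k)) (a : Rk k) (Cs κ₂ C₀ C : ℝ)
    (c : Chain Γ) (ref : c.B → ℕ → Γ) : Prop where
  bd : BdProp S π a C κ₂ c.Θ ref
  st : StepProp π a Cs c
  ub : UB π w a c
  lb : LB S π w a κ₂ C₀ c
  tt : TTp c

/-- The inductive invariant of a pair of chains. -/
structure PairInv (π : Γ →* Zk k) {𝒮 : Type} [MeasurableSpace 𝒮] (e : 𝒮 → Γ) (P : Pair Γ k)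
    (lab : P.N → 𝒮) (rel : 𝒮 → P.N → P.N) : Prop where
  inv₁ : ∀ u g, P.step' (P.step u g).2 g = ((P.step u g).1⁻¹, u)
  inv₂ : ∀ u g, P.step (P.step' u g).2 g = ((P.step' u g).1⁻¹, u)
  act_one : ∀ u, P.act 1 u = u
  act_mul : ∀ a b u, P.act (a * b) u = P.act a (P.act b u)
  act_mp : ∀ a, MeasurePreserving (P.act a) P.μσ P.μσ
  dom : ∃ (C : ℝ≥0) (F : Finset Γ), ∀ (u : P.σ) (f : Γ × P.σ → ℝ≥0∞), Measurable f →
    ∫⁻ g, f (P.step u g) ∂P.μN ≤ C * ∑ γ ∈ F, ∫⁻ u', f (γ, u') ∂P.μσ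
  lab_meas : Measurable lab
  rel_meas : ∀ ς, Measurable (rel ς)
  rel_le : ∃ C : ℝ≥0, ∀ ς, P.μN.map (rel ς) ≤ C • P.μN
  lab_rel : ∀ ς g, lab (rel ς g) = ς
  ht_eq : ∀ u g, π (P.step u g).1 = π (e (lab g))
  e₁ : ∀ ς ς', π (e ς) = π (e ς') → ∀ u g,
    (e ς)⁻¹ * (P.step u (rel ς g)).1 = (e ς')⁻¹ * (P.step u (rel ς' g)).1
  e₂ : ∀ ς ς' u g, (P.step u (rel ς' g)).2 =
    (P.step (P.act (π (e ς') * (π (e ς))⁻¹) u) (rel ς g)).2

end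

section
variable {k : ℕ} {L : Layer k} {Γ Γ' : Type} [Group Γ] [Group Γ'] {π' : Γ' →* Zk k}

open Classical in
/-- A section that does not increase the size. -/
structure SecProp (E : Ext L Γ Γ' π') (S : Finset Γ) (s : Γ' → Γ) : Prop where
  one : s 1 = 1
  proj : ∀ g, E.p (s g) = g
  size : ∀ g, sz S (π'.comp E.p) (s g) ≤ sz (S.image E.p) π' g

/-- Properties of the new boundary coordinate used by the chain. -/
structure TauProp (E : Ext L Γ Γ' π') (S : Finset Γ) (s : Γ' → Γ) (a : Rk k) (κ₂ : ℝ) {B : Type}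
    (Θ' : (ℕ → Γ') → B) (ref' : B → ℕ → Γ') : Prop where
  transl : ∀ (Λ : ℝ) (y : ℕ → Γ) (v : ℕ → Fin L.m → ℤ) (l : L.Neg a → ℝ),
    Tr S (π'.comp E.p) a κ₂ Λ y → Tendsto (fun j => L.pr a (L.co (v j))) atTop (𝓝 l) →
    E.tau s a Θ' ref' (fun j => E.ι (Multiplicative.ofAdd (v j)) * y j) = E.tau s a Θ' ref' y + l
  bound : ∀ Λ : ℝ, ∃ Bd : ℝ, ∀ y y' : ℕ → Γ, Tr S (π'.comp E.p) a κ₂ Λ y →
    Tr S (π'.comp E.p) a κ₂ Λ y' → y 0 = y' 0 → Θ' (E.p ∘ y) = Θ' (E.p ∘ y') →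
    ‖(L.Bm a (π' (E.p (y 0)))⁻¹).mulVec (E.tau s a Θ' ref' y - E.tau s a Θ' ref' y')‖ ≤ Bd

/-- A measurable lift of the steps with finitely many values. -/
structure LftProp [MeasurableSpace Γ] (E : Ext L Γ Γ' π') (c : Chain Γ')
    (lft : c.σ → c.N → Γ) : Prop where
  meas : Measurable fun p : c.σ × c.N => lft p.1 p.2
  fin : ∃ F : Finset Γ, ∀ u g, lft u g ∈ F
  proj : ∀ u g, E.p (lft u g) = (c.step u g).1

/-- The chain without noise in the new layer. -/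
def stepL (c : Chain Γ') (lft : c.σ → c.N → Γ) (u : c.σ) (g : c.N) : Γ × c.σ :=
  (lft u g, (c.step u g).2)

/-- The height at which the noise of step `j` is applied. -/
def beta (E : Ext L Γ Γ' π') (c : Chain Γ') (lft : c.σ → c.N → Γ) (post : Bool) (x : Γ × c.σ)
    (ω : ℕ → c.N) (j : ℕ) : Zk k :=
  π' (E.p (lp (stepL c lft) x ω (if post then j + 1 else j)))

/-- Explicit formulas for the paths of the extended chain. -/
structure PathProp (E : Ext L Γ Γ' π') (S : Finset Γ) (s : Γ' → Γ) (a : Rk k) (Cs : ℝ)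
    (c : Chain Γ') (ref' : c.B → ℕ → Γ') (post : Bool) (R : ℝ) (lft : c.σ → c.N → Γ) (r : Γ) :
    Prop where
  tr : ∃ Λ : ℝ, ∀ x ω, Tr S (π'.comp E.p) a Cs Λ (lp (stepL c lft) x ω)
  proj : ∀ γ u ω j, (E.p (lp (stepL c lft) (γ, u) ω j), (cpath (stepL c lft) (γ, u) ω j).2) =
    cpath c.step (E.p γ, u) ω j
  start : ∀ (γ : Γ) (v : Tor L.m),
    E.place γ ((L.B (π' (E.p γ))).mulVec (L.Qi.mulVec (lift v))) = (γ, v)
  one : ∀ (γ : Γ) (u : c.σ) (X : Fin L.m → ℝ) (g : c.N) (t : Fin L.m → ℝ),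
    mv (E.chain s a c ref' post R lft r).step ((E.place γ X).1, (u, (E.place γ X).2)) (g, t) =
      ((E.place (γ * lft u g) (X + (L.B (π' (E.p (if post then γ * lft u g else γ)))).mulVec
          (R • clamp t))).1, ((c.step u g).2,
        (E.place (γ * lft u g) (X + (L.B (π' (E.p (if post then γ * lft u g else γ)))).mulVec
          (R • clamp t))).2))
  geom : ∀ x ω, ∃ C : ℝ, ∀ l y,
    ‖(L.Bm a (beta E c lft post x ω l)).mulVec y‖ ≤ C * (1 / 2) ^ l * ‖y‖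
  theta : ∀ (γ : Γ) (u : c.σ) (X : Fin L.m → ℝ) (ω : ℕ → c.N) (t : ℕ → Fin L.m → ℝ),
    E.theta s a c.Θ ref' (lp (E.chain s a c ref' post R lft r).step
      ((E.place γ X).1, (u, (E.place γ X).2)) fun l => (ω l, t l)) =
      (c.Θ (lp c.step (E.p γ, u) ω),
        E.tau s a c.Θ ref' (lp (stepL c lft) (γ, u) ω) + L.pr a X +
          ∑' l, (L.Bm a (beta E c lft post (γ, u) ω l)).mulVec (L.pr a (R • clamp (t l))))

end

/-- Strong contraction holds far out in a generic direction. -/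
def Big_stmt : Prop :=
  ∀ (k : ℕ) (L : Layer k) (a : Rk k) (Cs : ℝ), (∀ i, L.wt i ≠ 0 → L.wt i a ≠ 0) →
    ∀ᶠ M : ℝ in atTop, L.Big (M • a) Cs

open Classical in
/-- The boundary along one extension. -/
def BdExt_stmt : Prop :=
  ∀ (k : ℕ) (Γ Γ' : Type) [Group Γ] [Group Γ'] [Countable Γ] [MeasurableSpace Γ]
    [DiscreteMeasurableSpace Γ] [Countable Γ'] [MeasurableSpace Γ'] [DiscreteMeasurableSpace Γ']
    (π' : Γ' →* Zk k) (w : List (Wt k)), Tower Γ' π' w → ∀ (L : Layer k) (E : Ext L Γ Γ' π')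
    (S : Finset Γ), Subgroup.closure (S : Set Γ) = ⊤ → ∀ s, SecProp E S s →
    ∀ C' : ℝ, 1 ≤ C' → ∃ C : ℝ, C' ≤ C ∧ ∀ (a : Rk k) (κ₂ : ℝ) (B : Type) [MeasurableSpace B]
    (Θ' : (ℕ → Γ') → B) (ref' : B → ℕ → Γ'), 1 ≤ κ₂ →
    (∀ i, L.wt i = 0 ∨ C * κ₂ ≤ |L.wt i a|) → BdProp (S.image E.p) π' a C' κ₂ Θ' ref' →
    BdProp S (π'.comp E.p) a C κ₂ (E.theta s a Θ' ref') (E.ref s a ref') ∧
      TauProp E S s a κ₂ Θ' ref'

/-- Steps and path formulas along one extension. -/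
def Path_stmt : Prop :=
  ∀ (k : ℕ) (Γ Γ' : Type) [Group Γ] [Group Γ'] [Countable Γ] [MeasurableSpace Γ]
    [DiscreteMeasurableSpace Γ] [Countable Γ'] [MeasurableSpace Γ'] [DiscreteMeasurableSpace Γ']
    (π' : Γ' →* Zk k) (L : Layer k) (E : Ext L Γ Γ' π') (S : Finset Γ) (s : Γ' → Γ) (a : Rk k)
    (Cs κ₂ : ℝ) (c : Chain Γ') (ref' : c.B → ℕ → Γ') (post : Bool) (R : ℝ)
    (lft : c.σ → c.N → Γ) (r : Γ), 0 ≤ Cs → Cs ≤ κ₂ → L.Big a Cs → StepProp π' a Cs c →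
    LftProp E c lft → TauProp E S s a κ₂ c.Θ ref' →
    StepProp (π'.comp E.p) a Cs (E.chain s a c ref' post R lft r) ∧
      PathProp E S s a Cs c ref' post R lft r

open Classical in
/-- Density bounds along one extension. -/
def UL_stmt : Prop :=
  ∀ (k : ℕ) (Γ Γ' : Type) [Group Γ] [Group Γ'] [Countable Γ] [MeasurableSpace Γ]
    [DiscreteMeasurableSpace Γ] [Countable Γ'] [MeasurableSpace Γ'] [DiscreteMeasurableSpace Γ']
    (π' : Γ' →* Zk k) (w : List (Wt k)) (L : Layer k) (E : Ext L Γ Γ' π') (S : Finset Γ)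
    (s : Γ' → Γ) (a : Rk k) (Cs κ₂ C₀ C C' : ℝ) (c : Chain Γ') (ref' : c.B → ℕ → Γ')
    (post : Bool) (lft : c.σ → c.N → Γ) (r : Γ), 0 ≤ Cs → Cs ≤ κ₂ → L.Big a Cs →
    (∀ g, sz (S.image E.p) π' (E.p g) ≤ sz S (π'.comp E.p) g) →
    CP (S.image E.p) π' w a Cs κ₂ C₀ C' c ref' → LftProp E c lft →
    BdProp S (π'.comp E.p) a C κ₂ (E.theta s a c.Θ ref') (E.ref s a ref') →
    TauProp E S s a κ₂ c.Θ ref' → (∀ R, PathProp E S s a Cs c ref' post R lft r) →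
    ∃ R₀ : ℝ, 0 < R₀ ∧ ∀ R, R₀ ≤ |R| →
      UB (π'.comp E.p) (List.ofFn L.wt ++ w) a (E.chain s a c ref' post R lft r) ∧
      LB S (π'.comp E.p) (List.ofFn L.wt ++ w) a κ₂ C₀ (E.chain s a c ref' post R lft r)

/-- A time-inhomogeneous family of events closed under one step of the layer noise. -/
def FibSys {k : ℕ} (L : Layer k) (β : ℕ → Zk k) (R : ℝ)
    (F : ℕ → Set ((Fin L.m → ℝ) × (ℕ → Fin L.m → ℝ))) : Prop :=
  (∀ j, MeasurableSet (F j)) ∧ ∀ j X t, (X, t) ∈ F j ↔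
    (X + (L.B (β j)).mulVec (R • clamp (t 0)), fun l => t (l + 1)) ∈ F (j + 1)

/-- The probability of the event started at `X`. -/
noncomputable def fibG {m : ℕ} (A : Set ((Fin m → ℝ) × (ℕ → Fin m → ℝ))) (X : Fin m → ℝ) : ℝ :=
  (iid (noiseM m)).real {t | (X, t) ∈ A}

/-- Merging in the non-contracted directions. -/
def FibP_stmt : Prop :=
  ∀ (k : ℕ) (L : Layer k) (a : Rk k) (β : ℕ → Zk k) (R : ℝ), R ≠ 0 →
    (∃ C : ℝ, ∀ j i, ¬ L.wt i a < 0 → -C ≤ L.wt i (toR (β j))) →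
    ∀ F, FibSys L β R F → ∀ j X v, L.pr a v = 0 → fibG (F j) (X + v) = fibG (F j) X

/-- Identification of the fibre event through the limit in the contracted directions. -/
def FibM_stmt : Prop :=
  ∀ (k : ℕ) (L : Layer k) (a : Rk k) (β : ℕ → Zk k) (R : ℝ), R ≠ 0 →
    (∃ C : ℝ, ∀ l y, ‖(L.Bm a (β l)).mulVec y‖ ≤ C * (1 / 2) ^ l * ‖y‖) →
    ∀ F, FibSys L β R F → (∀ j X v, L.pr a v = 0 → fibG (F j) (X + v) = fibG (F j) X) →
    ∀ X, Tendsto (fun n : ℕ => (iid (noiseM L.m)).real {t | ¬ ((X, t) ∈ F 0 ↔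
      1 / 2 < limsup (fun j => ⨍ y in Metric.ball (L.pr a X +
        ∑' l, (L.Bm a (β l)).mulVec (L.pr a (R • clamp (t l)))) (1 / ((n : ℝ) + 1)),
          fibG (F j) (L.emb a y)) atTop)}) atTop (𝓝 0)

/-- Tail triviality along one extension. -/
def TTExt_stmt : Prop :=
  ∀ (k : ℕ) (Γ Γ' : Type) [Group Γ] [Group Γ'] [Countable Γ] [MeasurableSpace Γ]
    [DiscreteMeasurableSpace Γ] [Countable Γ'] [MeasurableSpace Γ'] [DiscreteMeasurableSpace Γ']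
    (π' : Γ' →* Zk k) (L : Layer k) (E : Ext L Γ Γ' π') (S : Finset Γ) (s : Γ' → Γ) (a : Rk k)
    (Cs κ₂ C : ℝ) (c : Chain Γ') (ref' : c.B → ℕ → Γ') (post : Bool) (R : ℝ)
    (lft : c.σ → c.N → Γ) (r : Γ), R ≠ 0 → 0 ≤ Cs → Cs ≤ κ₂ → L.Big a Cs →
    (∀ g, E.p (s g) = g) → StepProp π' a Cs c → TTp c → Measurable c.Θ → LftProp E c lft →
    StepProp (π'.comp E.p) a Cs (E.chain s a c ref' post R lft r) →
    BdProp S (π'.comp E.p) a C κ₂ (E.theta s a c.Θ ref') (E.ref s a ref') →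
    TauProp E S s a κ₂ c.Θ ref' → PathProp E S s a Cs c ref' post R lft r →
    TTp (E.chain s a c ref' post R lft r)

/-- The pair invariant along one extension. -/
def PairExt_stmt : Prop :=
  ∀ (k : ℕ) (Γ Γ' : Type) [Group Γ] [Group Γ'] [Countable Γ] [MeasurableSpace Γ]
    [DiscreteMeasurableSpace Γ] [Countable Γ'] [MeasurableSpace Γ'] [DiscreteMeasurableSpace Γ']
    (π' : Γ' →* Zk k) (L : Layer k) (E : Ext L Γ Γ' π') (s : Γ' → Γ), (∀ g, E.p (s g) = g) →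
    ∀ (a a' : Rk k) (Cs : ℝ) (𝒮 : Type) [Fintype 𝒮] [MeasurableSpace 𝒮]
    [DiscreteMeasurableSpace 𝒮] (e : 𝒮 → Γ) (P : Pair Γ' k) (lab : P.N → 𝒮)
    (rel : 𝒮 → P.N → P.N), PairInv π' (E.p ∘ e) P lab rel →
    StepProp π' a Cs P.toChain → StepProp π' a' Cs P.bwd →
    LftProp E P.toChain (E.lftF s e P lab) ∧ LftProp E P.bwd (E.lftB s e P lab) ∧
    ∀ (ref₁ : P.B → ℕ → Γ') (ref₂ : P.B' → ℕ → Γ') (R : ℝ) (r r' : Γ), R ≠ 0 →
      PairInv (π'.comp E.p) e (E.pair s a e P lab ref₁ ref₂ R r r') (fun g => lab g.1)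
        (fun ς g => (rel ς g.1, g.2))

/-- The conclusion of the induction on towers. -/
def IndC {k : ℕ} {Γ : Type} [Group Γ] [MeasurableSpace Γ] (S : Finset Γ) (π : Γ →* Zk k)
    (w : List (Wt k)) (a : Rk k) (Cs κ₂ C : ℝ) : Prop :=
  ∀ (𝒮 : Type) [Fintype 𝒮] [Nonempty 𝒮] [MeasurableSpace 𝒮] [DiscreteMeasurableSpace 𝒮]
    (e : 𝒮 → Γ), (∀ ς, ‖ht π (e ς) - a‖ ≤ Cs) →
    Subgroup.closure (Set.range fun ς => π (e ς)) = ⊤ → ∀ (C₀ : ℝ) (r r' : Γ),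
    ∃ (P : Pair Γ k) (ref₁ : P.B → ℕ → Γ) (ref₂ : P.B' → ℕ → Γ) (lab : P.N → 𝒮)
      (rel : 𝒮 → P.N → P.N), P.r = r ∧ P.r' = r' ∧ CP S π w a Cs κ₂ C₀ C P.toChain ref₁ ∧
      CP S π w (-a) Cs κ₂ C₀ C P.bwd ref₂ ∧ PairInv π e P lab rel

/-- The base of the induction. -/
def Base_stmt : Prop :=
  ∀ (k : ℕ) (Γ : Type) [Group Γ] [Countable Γ] [MeasurableSpace Γ] [DiscreteMeasurableSpace Γ]
    (π : Γ →* Zk k), Bijective π → ∀ S : Finset Γ, Subgroup.closure (S : Set Γ) = ⊤ →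
    ∃ C : ℝ, 1 ≤ C ∧ ∀ (a : Rk k) (Cs κ₂ : ℝ), IndC S π [] a Cs κ₂ C

end Vale.Agent.P188
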