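import Vale.Agent.P188.Chain

/-! Coupling, part 1: domination of measures, piecewise translations, almost coboundaries. -/

namespace Vale.Agent.P188.Cpl

open Function MeasureTheory Filter Matrix
open scoped ENNReal NNReal

section Dom

variable {X Y Z : Type} [MeasurableSpace X] [MeasurableSpace Y] [MeasurableSpace Z]

/-- `φ` pushes `μ` below a multiple of `ν`. -/
def Dom (φ : Y → Z) (μ : Measure Y) (ν : Measure Z) : Prop :=
  Measurable φ ∧ ∃ C : ℝ≥0∞, C ≠ ∞ ∧ μ.map φ ≤ C • ν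

variable {φ : Y → Z} {μ : Measure Y} {ν : Measure Z}

theorem Dom.qmp (h : Dom φ μ ν) : Measure.QuasiMeasurePreserving φ μ ν :=
  let ⟨_, _, hC⟩ := h.2
  ⟨h.1, Measure.absolutelyContinuous_of_le_smul hC⟩

theorem Dom.of_mp (h : MeasurePreserving φ μ ν) : Dom φ μ ν :=
  ⟨h.measurable, 1, ENNReal.one_ne_top, by rw [h.map_eq, one_smul]⟩

theorem Dom.smul_left (h : Dom φ μ ν) {c : ℝ≥0∞} (hc : c ≠ ∞) : Dom φ (c • μ) ν := by
  obtain ⟨h, C, h1, h2⟩ := h
  refine ⟨h, c * C, ENNReal.mul_ne_top hc h1, ?_⟩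
  rw [Measure.map_smul, mul_smul]
  gcongr

theorem Dom.smul_right (h : Dom φ μ ν) {c : ℝ≥0∞} (h0 : c ≠ 0) (hc : c ≠ ∞) : Dom φ μ (c • ν) := by
  obtain ⟨h, C, h1, h2⟩ := h
  refine ⟨h, C * c⁻¹, ENNReal.mul_ne_top h1 (ENNReal.inv_ne_top.2 h0), ?_⟩
  rwa [smul_smul, mul_assoc, ENNReal.inv_mul_cancel h0 hc, mul_one]

theorem Dom.ne_zero (h : Dom φ μ ν) (h0 : μ ≠ 0) : ν ≠ 0 := by
  rintro rfl
  exact h0 ((Measure.map_eq_zero_iff h.1.aemeasurable).1
    (Measure.absolutelyContinuous_zero_iff.1 h.qmp.2))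

theorem Dom.cond [IsFiniteMeasure μ] {R : Set Y} (h0 : μ R ≠ 0) :
    Dom id (ProbabilityTheory.cond μ R) μ :=
  Dom.smul_left ⟨measurable_id, 1, ENNReal.one_ne_top, by
    rw [Measure.map_id, one_smul]
    exact Measure.restrict_le_self⟩ (ENNReal.inv_ne_top.2 h0)

theorem Dom.eLp (h : Dom φ μ ν) : ∃ C : ℝ≥0, ∀ {k : ℕ} (f : Z → Rk k), Measurable f →
    eLpNorm (fun y => f (φ y)) 2 μ ≤ C * eLpNorm f 2 ν := by
  obtain ⟨h, C, h1, h2⟩ := h
  refine ⟨(C ^ (1 / 2 : ℝ≥0∞).toReal).toNNReal, fun f hf => ?_⟩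
  rw [ENNReal.coe_toNNReal (ENNReal.rpow_ne_top_of_nonneg ENNReal.toReal_nonneg h1)]
  exact (eLpNorm_map_measure hf.aestronglyMeasurable h.aemeasurable).symm.trans_le
    (eLpNorm_le_of_measure_le_smul h2)

/-- A bijective piecewise translation preserves the induced measure. -/
theorem pw {G : Type} [Countable G] (m : Measure Z) {e : Y → Z} (he : MeasurableEmbedding e)
    {T : Y → Y} (hT : MeasurableEmbedding T) (hs : Surjective T) {τ : G → Z → Z}
    (hτ : ∀ g, MeasurePreserving (τ g) m m) (hi : ∀ g, Injective (τ g)) {c : Y → G}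
    (hc : ∀ g, MeasurableSet {y | c y = g}) (h : ∀ y, e (T y) = τ (c y) (e y)) :
    MeasurePreserving T (m.comap e) (m.comap e) := by
  refine ⟨hT.measurable, Measure.ext fun A hA => ?_⟩
  have hB : ∀ g, MeasurableSet (T ⁻¹' A ∩ {y | c y = g}) := fun g => (hT.measurable hA).inter (hc g)
  have hd : Pairwise (Disjoint on fun g => T ⁻¹' A ∩ {y | c y = g}) := fun g g' hg =>
    Set.disjoint_left.2 fun y h1 h2 => hg (h1.2.symm.trans h2.2)
  have e1 : T ⁻¹' A = ⋃ g, T ⁻¹' A ∩ {y | c y = g} := by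
    ext y
    simp
  have e2 : A = ⋃ g, T '' (T ⁻¹' A ∩ {y | c y = g}) := by
    rw [← Set.image_iUnion, ← e1, Set.image_preimage_eq _ hs]
  rw [Measure.map_apply hT.measurable hA, e1, measure_iUnion hd hB]
  conv_rhs => rw [e2, measure_iUnion (fun g g' hg => Set.disjoint_image_of_injective hT.injective
    (hd hg)) fun g => hT.measurableSet_image' (hB g)]
  refine tsum_congr fun g => ?_
  rw [he.comap_apply, he.comap_apply, ← (hτ g).measure_preimage
    (he.measurableSet_image' (hT.measurableSet_image' (hB g))).nullMeasurableSet]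
  refine congrArg m (Set.ext fun z => ⟨?_, ?_⟩)
  · rintro ⟨y, hy, rfl⟩
    exact ⟨_, ⟨y, hy, rfl⟩, (h y).trans (congrArg (τ · _) hy.2)⟩
  · rintro ⟨_, ⟨y, hy, rfl⟩, h1⟩
    exact ⟨y, hy, hi g ((congrArg (τ · _) hy.2).symm.trans ((h y).symm.trans h1))⟩

end Dom

section ACob

variable {G G' Y Z : Type} [Group G] [Group G'] [MulAction G Z] [MulAction G' Y]
  [MeasurableSpace Y] [MeasurableSpace Z] {k : ℕ} {μ : Measure Y} {ν : Measure Z}
  {θ θ' : G → Z → Rk k}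

/-- Bounded measurable invariant matrix functions. -/
structure MF (G : Type) [Group G] [MulAction G Z] (A : Z → Matrix (Fin k) (Fin k) ℝ) : Prop where
  meas : ∀ i j, Measurable fun z => A z i j
  inv : ∀ (g : G) z, A (g • z) = A z
  bdd : ∃ C : ℝ≥0, ∀ z b, ‖A z *ᵥ b‖ ≤ C * ‖b‖

variable {A A' : Z → Matrix (Fin k) (Fin k) ℝ}

theorem MF.mv (h : MF G A) {v : Z → Rk k} (hv : Measurable v) : Measurable fun z => A z *ᵥ v z :=
  measurable_pi_lambda _ fun i => Finset.measurable_fun_sum Finset.univ fun j _ =>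
    (h.meas i j).mul ((measurable_pi_apply j).comp hv)

theorem MF.set (h : MF G A) (M : Matrix (Fin k) (Fin k) ℝ) : MeasurableSet {z | A z = M} := by
  simp only [← Matrix.ext_iff, Set.ofPred_forall]
  exact .iInter fun i => .iInter fun j => h.meas i j (measurableSet_singleton _)

theorem MF.one : MF G fun _ : Z => (1 : Matrix (Fin k) (Fin k) ℝ) :=
  ⟨fun _ _ => measurable_const, fun _ _ => rfl, 1, fun _ _ => by simp⟩

theorem MF.mul (h : MF G A) (h' : MF G A') : MF G fun z => A z * A' z := by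
  obtain ⟨C, hC⟩ := h.bdd
  obtain ⟨C', hC'⟩ := h'.bdd
  refine ⟨fun i j => Finset.measurable_fun_sum Finset.univ fun l _ =>
    (h.meas i l).mul (h'.meas l j),
    fun g z => by rw [h.inv, h'.inv], C * C', fun z b => ?_⟩
  rw [← mulVec_mulVec, NNReal.coe_mul, mul_assoc]
  exact (hC _ _).trans (mul_le_mul_of_nonneg_left (hC' _ _) C.2)

theorem MF.sub (h : MF G A) (h' : MF G A') : MF G fun z => A z - A' z := by
  obtain ⟨C, hC⟩ := h.bdd
  obtain ⟨C', hC'⟩ := h'.bdd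
  refine ⟨fun i j => (h.meas i j).sub (h'.meas i j), fun g z => by rw [h.inv, h'.inv], C + C',
    fun z b => ?_⟩
  rw [sub_mulVec, NNReal.coe_add, add_mul]
  exact norm_sub_le_of_le (hC _ _) (hC' _ _)

theorem MF.comp (h : MF G A) {φ : Y → Z} (hφ : Measurable φ)
    (he : ∀ (g : G') y, ∃ g' : G, φ (g • y) = g' • φ y) : MF G' fun y => A (φ y) :=
  ⟨fun i j => (h.meas i j).comp hφ, fun g y => by
    obtain ⟨g', e⟩ := he g y
    rw [e, h.inv], h.bdd.imp fun _ hC _ => hC _⟩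

theorem drift_mf {π : G →* Zk k} {q : Z → G → G} {K : ℝ} (h : Drift π q K ν A) : MF G A :=
  ⟨h.meas, h.inv, K.toNNReal, fun z b => (h.bdd z b).trans
    (mul_le_mul_of_nonneg_right K.le_coe_toNNReal (norm_nonneg _))⟩

theorem small (C : ℝ≥0) {ε : ℝ} (hε : 0 < ε) :
    ∃ δ : ℝ, 0 < δ ∧ C * ENNReal.ofReal δ ≤ ENNReal.ofReal ε := by
  refine ⟨ε / (C + 1), by positivity, ?_⟩
  rw [← ENNReal.ofReal_coe_nnreal, ← ENNReal.ofReal_mul C.coe_nonneg]
  refine ENNReal.ofReal_le_ofReal ?_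
  rw [← mul_div_assoc, div_le_iff₀ (by positivity)]
  linarith

theorem ac_congr (h : ACob ν θ) (e : ∀ g, θ' g =ᵐ[ν] θ g) : ACob ν θ' := fun F ε hε =>
  (h F ε hε).imp fun _ hβ => ⟨hβ.1, hβ.2.1, fun g hg => (eLpNorm_congr_ae
    ((e g).mono fun z hz => by simp only [hz])).trans_le (hβ.2.2 g hg)⟩

theorem ac_exact [IsFiniteMeasure ν] {s : Z → Rk k} (hs : Measurable s) {C : ℝ}
    (hC : ∀ z, ‖s z‖ ≤ C) : ACob ν fun (g : G) z => s (g⁻¹ • z) - s z := fun _ _ _ =>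
  ⟨s, hs, .of_bound hs.aestronglyMeasurable C (.of_forall hC), fun g _ => by simp⟩

theorem ac_mul (h : ACob ν θ) (hA : MF G A) : ACob ν fun g z => A z *ᵥ θ g z := by
  intro F ε hε
  obtain ⟨C, hC⟩ := hA.bdd
  obtain ⟨δ, d0, d1⟩ := small C hε
  obtain ⟨β, b1, b2, b3⟩ := h F δ d0
  refine ⟨_, hA.mv b1, b2.of_le_mul (hA.mv b1).aestronglyMeasurable (.of_forall fun z => hC _ _),
    fun g hg => ?_⟩
  simp only [hA.inv, ← mulVec_sub]
  exact (eLpNorm_le_nnreal_smul_eLpNorm_of_ae_le_mul (.of_forall fun z => hC _ _) 2).trans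
    ((mul_le_mul_right (b3 g hg) _).trans d1)

variable [MeasurableConstSMul G Z]

theorem ac_meas (hθ : ∀ g, Measurable (θ g)) {β : Z → Rk k} (hβ : Measurable β) (g : G) :
    Measurable fun z => θ g z - (β (g⁻¹ • z) - β z) :=
  (hθ g).sub ((hβ.comp (measurable_const_smul _)).sub hβ)

theorem ac_sub (h : ACob ν θ) (h' : ACob ν θ') (hθ : ∀ g, Measurable (θ g))
    (hθ' : ∀ g, Measurable (θ' g)) : ACob ν fun g z => θ g z - θ' g z := by
  intro F ε hε
  obtain ⟨β, b1, b2, b3⟩ := h F _ (half_pos hε)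
  obtain ⟨β', c1, c2, c3⟩ := h' F _ (half_pos hε)
  refine ⟨β - β', b1.sub c1, b2.sub c2, fun g hg => le_trans (le_of_eq (congrArg (eLpNorm · 2 ν)
    (funext fun z => ?_))) (((eLpNorm_sub_le (ac_meas hθ b1 g).aestronglyMeasurable
    (ac_meas hθ' c1 g).aestronglyMeasurable one_le_two).trans
    (add_le_add (b3 g hg) (c3 g hg))).trans_eq ?_)⟩
  · simp only [Pi.sub_apply]
    abel
  · rw [← ENNReal.ofReal_add (half_pos hε).le (half_pos hε).le, add_halves]

theorem ac_pull (h : ACob ν θ) (hθ : ∀ g, Measurable (θ g)) {φ : Y → Z} (hφ : Dom φ μ ν)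
    {κ : G' → Y → G} (hκ : ∀ g, (Set.range (κ g)).Finite)
    (he : ∀ g y, φ (g⁻¹ • y) = (κ g y)⁻¹ • φ y) : ACob μ fun g y => θ (κ g y) (φ y) := by
  classical
  intro F ε hε
  obtain ⟨C, hC⟩ := hφ.eLp
  obtain ⟨δ, d0, d1⟩ := small ((F.biUnion fun g => (hκ g).toFinset).card * C) hε
  obtain ⟨β, b1, b2, b3⟩ := h (F.biUnion fun g => (hκ g).toFinset) δ d0
  refine ⟨β ∘ φ, b1.comp hφ.1, ⟨(b1.comp hφ.1).aestronglyMeasurable,
    (hC β b1).trans_lt (ENNReal.mul_lt_top ENNReal.coe_lt_top b2.2)⟩, fun g hg => ?_⟩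
  refine (eLpNorm_mono_real (g := ∑ p ∈ F.biUnion fun g => (hκ g).toFinset,
    fun y => ‖θ p (φ y) - (β (p⁻¹ • φ y) - β (φ y))‖) fun y => ?_).trans ((eLpNorm_sum_le
    (fun p _ => ((ac_meas hθ b1 p).comp hφ.1).norm.aestronglyMeasurable) one_le_two).trans
    ((Finset.sum_le_card_nsmul _ _ (C * ENNReal.ofReal δ) fun p hp => ?_).trans ?_))
  · rw [Finset.sum_apply, Function.comp_apply, Function.comp_apply, he]
    exact Finset.single_le_sum (f := fun p => ‖θ p (φ y) - (β (p⁻¹ • φ y) - β (φ y))‖)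
      (fun _ _ => norm_nonneg _) (Finset.mem_biUnion.2 ⟨g, hg, (hκ g).mem_toFinset.2 ⟨y, rfl⟩⟩)
  · rw [eLpNorm_norm]
    exact (hC _ (ac_meas hθ b1 p)).trans (mul_le_mul_right (b3 p hp) _)
  · rwa [nsmul_eq_mul, ← mul_assoc, ← ENNReal.coe_natCast, ← ENNReal.coe_mul]

/-- An invariant almost coboundary vanishes. -/
theorem ac_zero (h : ACob ν θ) (hθ : ∀ g, Measurable (θ g)) (g : G)
    (hm : MeasurePreserving (g⁻¹ • ·) ν ν) (hi : ∀ z, θ g (g⁻¹ • z) = θ g z) : θ g =ᵐ[ν] 0 := by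
  refine (eLpNorm_eq_zero_iff (hθ g).aestronglyMeasurable two_ne_zero).1 (le_zero_iff.1
    (ENNReal.le_of_forall_pos_le_add fun ε hε _ => ?_))
  obtain ⟨β, b1, b2, b3⟩ := h {g} ε hε
  have b4 := b3 g (Finset.mem_singleton_self g)
  have m1 : ∀ n : ℕ, Measurable fun z => (n : ℝ) • θ g z - (β ((g⁻¹ • ·)^[n] z) - β z) := fun n =>
    ((hθ g).const_smul (n : ℝ)).sub ((b1.comp (hm.iterate n).measurable).sub b1)
  have h1 : ∀ n : ℕ, eLpNorm (fun z => (n : ℝ) • θ g z - (β ((g⁻¹ • ·)^[n] z) - β z)) 2 ν ≤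
      n * ENNReal.ofReal ε := fun n => by
    induction n with
    | zero => simp
    | succ n ih =>
      rw [← eLpNorm_comp_measurePreserving (m1 n).aestronglyMeasurable hm] at ih
      refine le_trans (le_of_eq (congrArg (eLpNorm · 2 ν) (funext fun z => ?_)))
        (((eLpNorm_add_le ((m1 n).comp hm.measurable).aestronglyMeasurable
        (ac_meas hθ b1 g).aestronglyMeasurable one_le_two).trans (add_le_add ih b4)).trans_eq ?_)
      · simp only [Pi.add_apply, Function.comp_apply, hi, iterate_succ_apply, Nat.cast_succ,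
          add_smul, one_smul]
        abel
      · rw [Nat.cast_succ, add_mul, one_mul]
  have h2 : ∀ n : ℕ, n * eLpNorm (θ g) 2 ν ≤
      n * ENNReal.ofReal ε + (eLpNorm β 2 ν + eLpNorm β 2 ν) := fun n => by
    have m2 := (b1.comp (hm.iterate n).measurable).aestronglyMeasurable (μ := ν)
    refine le_trans (le_of_eq ?_) ((eLpNorm_add_le (m1 n).aestronglyMeasurable (m2.sub b2.1)
      one_le_two).trans (add_le_add (h1 n) ((eLpNorm_sub_le m2 b2.1 one_le_two).trans_eq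
      (by rw [eLpNorm_comp_measurePreserving b2.1 (hm.iterate n)]))))
    rw [← Real.enorm_natCast, ← eLpNorm_const_smul]
    exact congrArg (eLpNorm · 2 ν) (funext fun z => by simp)
  rw [zero_add, ← ENNReal.ofReal_coe_nnreal]
  by_contra! h3
  obtain ⟨n, hn⟩ := ENNReal.exists_nat_mul_gt (tsub_pos_of_lt h3).ne'
    (ENNReal.add_ne_top.2 ⟨b2.2.ne, b2.2.ne⟩)
  refine (h2 n).not_gt ((ENNReal.add_lt_add_left (by finiteness) hn).trans_eq ?_)
  rw [← mul_add, add_tsub_cancel_of_le h3.le]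

end ACob

end Vale.Agent.P188.Cpl
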