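import Vale.Agent.P188.Cpl1

/-! Coupling, part 2: the coupling spaces. -/

set_option linter.unusedSectionVars false

namespace Vale.Agent.P188.Cpl

open Function MeasureTheory

/-- Control data for coarse equivalences. -/
structure Ctl (H Γ : Type) [Group Γ] where
  u : H → Set Γ
  v : Γ → Set H
  B : Set Γ
  rk : Γ → ℕ
  u_fin : ∀ k, (u k).Finite
  v_fin : ∀ γ, (v γ).Finite
  B_fin : B.Finite
  rk_inj : Injective rk
  rk_one : rk 1 = 0

variable {H Γ : Type} [Group H] [Group Γ] (c : Ctl H Γ)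

/-- Controlled injective maps with dense image. -/
structure Om (f : H → Γ) : Prop where
  inj : Injective f
  lip : ∀ h k, (f h)⁻¹ * f (h * k) ∈ c.u k
  col : ∀ h k, k ∈ c.v ((f h)⁻¹ * f (h * k))
  den : ∀ γ, ∃ h, γ⁻¹ * f h ∈ c.B

/-- Two-sided shift. -/
def sh (p : Γ) (k : H) (f : H → Γ) : H → Γ := fun h => p⁻¹ * f (k * h)

theorem sh_sh (p p' : Γ) (k k' : H) (f : H → Γ) :
    sh p' k' (sh p k f) = sh (p * p') (k * k') f := funext fun h => by simp [sh, mul_assoc]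

theorem sh_one (f : H → Γ) : sh 1 1 f = f := funext fun h => by simp [sh]

variable {c} in
theorem Om.sh {f : H → Γ} (h : Om c f) (p : Γ) (k : H) : Om c (sh p k f) where
  inj a b e := mul_left_cancel (h.inj (mul_left_cancel e))
  lip a b := by simpa [Cpl.sh, mul_assoc] using h.lip (k * a) b
  col a b := by simpa [Cpl.sh, mul_assoc] using h.col (k * a) b
  den γ := (h.den (p * γ)).elim fun a ha => ⟨k⁻¹ * a, by simpa [Cpl.sh, mul_assoc] using ha⟩

/-- The preferred point of `H` whose image is near `p`. -/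
noncomputable def loc (f : H → Γ) (p : Γ) : H := argmin fun k => c.rk (p⁻¹ * f k)

theorem loc_eq {f : H → Γ} (hf : Injective f) {p : Γ} {k : H} :
    loc c f p = k ↔ ∀ k', c.rk (p⁻¹ * f k) ≤ c.rk (p⁻¹ * f k') :=
  ⟨fun e k' => e ▸ argmin_le (fun k => c.rk (p⁻¹ * f k)) k', fun h => hf (mul_left_cancel
    (c.rk_inj ((argmin_le (fun k => c.rk (p⁻¹ * f k)) k).antisymm (h _))))⟩

theorem loc_sh {f : H → Γ} (hf : Om c f) (p p' : Γ) (k : H) :
    loc c (sh p k f) p' = k⁻¹ * loc c f (p * p') :=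
  (loc_eq c (hf.sh p k).inj).2 fun k' => by
    simpa [sh, mul_assoc] using (loc_eq c hf.inj (p := p * p')).1 rfl (k * k')

theorem loc_self {f : H → Γ} (hf : Om c f) (k : H) : loc c f (f k) = k :=
  (loc_eq c hf.inj).2 fun k' => by simp [c.rk_one]

/-- The possible displacements. -/
def Ctl.B' : Set Γ := ⋃ b ∈ c.B, c.rk ⁻¹' Set.Iic (c.rk b)

theorem Ctl.B'_fin : c.B'.Finite :=
  c.B_fin.biUnion fun _ _ => (Set.finite_Iic _).preimage c.rk_inj.injOn

theorem loc_mem {f : H → Γ} (hf : Om c f) (p : Γ) : p⁻¹ * f (loc c f p) ∈ c.B' :=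
  (hf.den p).elim fun h hh => Set.mem_biUnion hh ((loc_eq c hf.inj).1 rfl h)

theorem near_fin {A B : Set Γ} (hA : A.Finite) (hB : B.Finite) (p : Γ) :
    {k | ∃ f, Om c f ∧ f 1 ∈ A ∧ p⁻¹ * f k ∈ B}.Finite :=
  (hA.biUnion fun a _ => hB.biUnion fun b _ => c.v_fin (a⁻¹ * (p * b))).subset
    fun k ⟨f, h1, h2, h3⟩ => Set.mem_biUnion h2 (Set.mem_biUnion h3 (by simpa using h1.col 1 k))

/-- Pointed maps. -/
def X : Type := {f : H → Γ // Om c f ∧ f 1 = 1}

/-- Maps normalized in the source. -/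
def Zo : Type := {f : H → Γ // Om c f ∧ loc c f 1 = 1}

/-- The induced `Γ`-space. -/
def ZW (W : Type) : Type := Zo c × W

instance : MulAction H (X c) where
  smul h x := ⟨sh (x.1 h⁻¹) h⁻¹ x.1, x.2.1.sh _ _, by simp [sh]⟩
  one_smul x := Subtype.ext (by
    change sh (x.1 1⁻¹) 1⁻¹ x.1 = x.1
    rw [inv_one, x.2.2, sh_one])
  mul_smul h h' x := Subtype.ext (by
    change sh _ _ _ = sh (sh (x.1 h'⁻¹) h'⁻¹ x.1 h⁻¹) h⁻¹ (sh (x.1 h'⁻¹) h'⁻¹ x.1)
    simp [sh_sh, sh])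

theorem X_smul (h : H) (x : X c) : (h⁻¹ • x).1 = sh (x.1 h) h x.1 := by
  change sh (x.1 h⁻¹⁻¹) h⁻¹⁻¹ x.1 = _
  rw [inv_inv]

theorem ev_mul (x : X c) (h k : H) : x.1 (h * k) = x.1 h * (h⁻¹ • x).1 k := by simp [X_smul, sh]

theorem ev_mem (x : X c) (h : H) : x.1 h ∈ c.u h := by simpa [x.2.2] using x.2.1.lip 1 h

variable {c} {W : Type}

/-- The source point attached to `p`. -/
noncomputable def lc (z : ZW c W) (p : Γ) : H := loc c z.1.1 p

/-- The base point. -/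
def sig (z : ZW c W) : Γ := z.1.1 1

theorem sig_mem (z : ZW c W) : sig z ∈ c.B' := by simpa [z.1.2.2, sig] using loc_mem c z.1.2.1 1

theorem lc_fin (p : Γ) : (Set.range fun z : ZW c W => lc z p).Finite :=
  (near_fin c c.B'_fin c.B'_fin p).subset (by
    rintro _ ⟨z, rfl⟩
    exact ⟨_, z.1.2.1, sig_mem z, loc_mem c z.1.2.1 p⟩)

/-- The inclusion of the pointed maps. -/
def ii (y : X c × W) : ZW c W :=
  (⟨y.1.1, y.1.2.1, by simpa only [y.1.2.2] using loc_self c y.1.2.1 1⟩, y.2)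

/-- The retraction to the pointed maps. -/
def jj (z : ZW c W) : X c × W := (⟨sh (sig z) 1 z.1.1, z.1.2.1.sh _ _, by simp [sh, sig]⟩, z.2)

theorem jj_ii (y : X c × W) : jj (ii y) = y :=
  Prod.ext (Subtype.ext (by
    change sh (y.1.1 1) 1 y.1.1 = y.1.1
    rw [y.1.2.2, sh_one])) rfl

theorem lc_ii (y : X c × W) (h : H) : lc (ii y) (y.1.1 h) = h := loc_self c y.1.2.1 h

theorem sig_ii (y : X c × W) : sig (ii y) = 1 := y.1.2.2

theorem jj_inj {z z' : ZW c W} (h : jj z = jj z') (h' : sig z = sig z') : z = z' :=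
  Prod.ext (Subtype.ext (funext fun k => by
    simpa [jj, sh, h'] using congrArg (fun y : X c × W => y.1.1 k) h))
    (congrArg (fun y : X c × W => y.2) h)

variable [MulAction H W]

noncomputable instance : MulAction Γ (ZW c W) where
  smul γ z := (⟨sh γ⁻¹ (lc z γ⁻¹) z.1.1, z.1.2.1.sh _ _, by simp [loc_sh c z.1.2.1, lc]⟩,
    (lc z γ⁻¹)⁻¹ • z.2)
  one_smul z := by
    have e : lc z 1⁻¹ = 1 := by rw [inv_one]; exact z.1.2.2
    refine Prod.ext (Subtype.ext ?_) ?_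
    · change sh 1⁻¹ (lc z 1⁻¹) z.1.1 = _
      rw [e, inv_one, sh_one]
    · change (lc z 1⁻¹)⁻¹ • z.2 = _
      rw [e, inv_one, one_smul]
  mul_smul γ γ' z := by
    refine Prod.ext (Subtype.ext ?_) ?_
    · change sh _ (lc z _) _ = sh γ⁻¹ (loc c (sh γ'⁻¹ (lc z γ'⁻¹) z.1.1) γ⁻¹) (sh _ (lc z _) _)
      simp [sh_sh, loc_sh c z.1.2.1, lc]
    · change (lc z _)⁻¹ • z.2 = (loc c (sh γ'⁻¹ (lc z γ'⁻¹) z.1.1) γ⁻¹)⁻¹ • (lc z γ'⁻¹)⁻¹ • z.2
      simp [smul_smul, loc_sh c z.1.2.1, lc]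

theorem Z_smul₁ (p : Γ) (z : ZW c W) : (p⁻¹ • z).1.1 = sh p (lc z p) z.1.1 := by
  change sh p⁻¹⁻¹ (lc z p⁻¹⁻¹) z.1.1 = _
  rw [inv_inv]

theorem Z_smul₂ (p : Γ) (z : ZW c W) : (p⁻¹ • z).2 = (lc z p)⁻¹ • z.2 := by
  change (lc z p⁻¹⁻¹)⁻¹ • z.2 = _
  rw [inv_inv]

theorem lc_mul (z : ZW c W) (p p' : Γ) : lc z (p * p') = lc z p * lc (p⁻¹ • z) p' := by
  simp [lc, Z_smul₁, loc_sh c z.1.2.1]

theorem ii_smul (h : H) (y : X c × W) : ii (h⁻¹ • y) = (y.1.1 h)⁻¹ • ii y :=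
  Prod.ext (Subtype.ext (by rw [Z_smul₁, lc_ii]; exact X_smul c h y.1)) (by rw [Z_smul₂, lc_ii]; rfl)

theorem jj_smul (p : Γ) (z : ZW c W) : jj (p⁻¹ • z) = (lc z p)⁻¹ • jj z :=
  Prod.ext (Subtype.ext (by
    rw [Prod.smul_fst, X_smul]
    funext k
    simp [jj, sh, sig, Z_smul₁, mul_assoc])) (Z_smul₂ p z)

theorem sig_smul (p : Γ) (z : ZW c W) : sig (p⁻¹ • z) = p⁻¹ * sig z * (jj z).1.1 (lc z p) := by
  simp [jj, sh, sig, Z_smul₁, mul_assoc]

theorem ii_jj (z : ZW c W) : ii (jj z) = (sig z)⁻¹ • z := by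
  have e : lc z (sig z) = 1 := loc_self c z.1.2.1 1
  exact Prod.ext (Subtype.ext (by rw [Z_smul₁, e]; rfl)) (by rw [Z_smul₂, e, inv_one, one_smul]; rfl)

section Top

variable [TopologicalSpace H] [DiscreteTopology H] [TopologicalSpace Γ] [DiscreteTopology Γ]

theorem closed_of (P : Γ → Γ → Prop) (a b : H) : IsClosed {f : H → Γ | P (f a) (f b)} :=
  (isClosed_discrete {p : Γ × Γ | P p.1 p.2}).preimage (f := fun f : H → Γ => (f a, f b))
    (by fun_prop)

theorem compact_Om {A : Set Γ} (hA : A.Finite) : IsCompact {f | Om c f ∧ f 1 ∈ A} := by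
  have h1 : {f | Om c f ∧ f 1 ∈ A} = {f | f 1 ∈ A} ∩ (⋂ a, ⋂ b, {f | (f a = f b → a = b) ∧
      (f a)⁻¹ * f b ∈ c.u (a⁻¹ * b) ∧ a⁻¹ * b ∈ c.v ((f a)⁻¹ * f b)}) ∩
      ⋂ γ, ⋃ k ∈ {k | ∃ f, Om c f ∧ f 1 ∈ A ∧ γ⁻¹ * f k ∈ c.B}, {f | γ⁻¹ * f k ∈ c.B} := by
    ext f
    simp only [Set.mem_inter_iff, Set.mem_iInter, Set.mem_iUnion, Set.mem_ofPred_eq]
    exact ⟨fun h => ⟨⟨h.2, fun a b => ⟨@h.1.inj a b, by simpa using h.1.lip a (a⁻¹ * b),
      by simpa using h.1.col a (a⁻¹ * b)⟩⟩, fun γ => (h.1.den γ).imp fun k hk =>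
        ⟨⟨f, h.1, h.2, hk⟩, hk⟩⟩, fun h => ⟨⟨fun a b => (h.1.2 a b).1,
      fun a b => by simpa using (h.1.2 a (a * b)).2.1, fun a b => by simpa using (h.1.2 a (a * b)).2.2,
      fun γ => (h.2 γ).imp fun k hk => hk.2⟩, h.1.1⟩⟩
  refine (isCompact_univ_pi fun k => (hA.image2 (· * ·) (c.u_fin k)).isCompact).of_isClosed_subset
    ?_ fun f hf k _ => ⟨f 1, hf.2, _, hf.1.lip 1 k, by simp⟩
  rw [h1]
  exact (((isClosed_discrete A).preimage (continuous_apply 1)).inter (isClosed_iInter fun a =>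
    isClosed_iInter fun b => closed_of (fun x y =>
      (x = y → a = b) ∧ x⁻¹ * y ∈ c.u (a⁻¹ * b) ∧ a⁻¹ * b ∈ c.v (x⁻¹ * y)) a b)).inter
    (isClosed_iInter fun γ => (near_fin c hA c.B_fin γ).isClosed_biUnion fun k _ =>
      closed_of (fun x _ => γ⁻¹ * x ∈ c.B) k k)

instance : TopologicalSpace (X c) := instTopologicalSpaceSubtype
instance : TopologicalSpace (Zo c) := instTopologicalSpaceSubtype
instance : CompactSpace (X c) := isCompact_iff_compactSpace.1 (compact_Om (Set.finite_singleton 1))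
instance [Countable H] : TopologicalSpace.MetrizableSpace (X c) :=
  TopologicalSpace.MetrizableSpace.subtype _
instance [Countable H] : TopologicalSpace.MetrizableSpace (Zo c) :=
  TopologicalSpace.MetrizableSpace.subtype _
instance [Countable H] [Countable Γ] : SecondCountableTopology (X c) :=
  TopologicalSpace.Subtype.secondCountableTopology _
instance : MeasurableSpace (X c) := borel _
instance : BorelSpace (X c) := ⟨rfl⟩

instance : CompactSpace (Zo c) := by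
  refine isCompact_iff_compactSpace.1 (?_ : IsCompact {f | Om c f ∧ loc c f 1 = 1})
  have h1 : {f | Om c f ∧ loc c f 1 = 1} = {f | Om c f ∧ f 1 ∈ c.B'} ∩
      ⋂ k, {f | c.rk (1⁻¹ * f 1) ≤ c.rk (1⁻¹ * f k)} := Set.ext fun f =>
    ⟨fun h => ⟨⟨h.1, sig_mem (W := Unit) (⟨f, h⟩, ())⟩, Set.mem_iInter.2 ((loc_eq c h.1.inj).1 h.2)⟩,
      fun h => ⟨h.1.1, (loc_eq c h.1.1.inj).2 (Set.mem_iInter.1 h.2)⟩⟩
  rw [h1]
  exact (compact_Om c.B'_fin).inter_right (isClosed_iInter fun k =>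
    closed_of (fun x y => c.rk (1⁻¹ * x) ≤ c.rk (1⁻¹ * y)) 1 k)

theorem cont_ev {T : Type} [TopologicalSpace T] {f : T → H → Γ} {k : T → H} (hf : Continuous f)
    (hk : Continuous k) : Continuous fun t => f t (k t) :=
  (continuous_prod_of_discrete_right (f := fun p : (H → Γ) × H => p.1 p.2) |>.2
    fun a => continuous_apply a).comp (hf.prodMk hk)

theorem cont_sh {T : Type} [TopologicalSpace T] {f : T → H → Γ} {k : T → H} {p : T → Γ}
    (hf : Continuous f) (hk : Continuous k) (hp : Continuous p) :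
    Continuous fun t => sh (p t) (k t) (f t) :=
  continuous_pi fun h => (continuous_of_discreteTopology (f := fun q : Γ × Γ => q.1⁻¹ * q.2)).comp
    (hp.prodMk (cont_ev hf ((continuous_of_discreteTopology (f := (· * h))).comp hk)))

theorem cont_x (h : H) : Continuous fun x : X c => x.1 h :=
  (continuous_apply h).comp continuous_subtype_val

instance : ContinuousSMul H (X c) :=
  ⟨continuous_prod_of_discrete_left.2 fun h => (cont_sh continuous_subtype_val
    (continuous_const (y := h⁻¹)) (cont_x h⁻¹)).subtype_mk _⟩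

variable [TopologicalSpace W]

instance : TopologicalSpace (ZW c W) := instTopologicalSpaceProd
instance : MeasurableSpace (ZW c W) := borel _
instance : BorelSpace (ZW c W) := ⟨rfl⟩
instance [CompactSpace W] : CompactSpace (ZW c W) := inferInstanceAs (CompactSpace (Zo c × W))
instance [Countable H] [TopologicalSpace.MetrizableSpace W] :
    TopologicalSpace.MetrizableSpace (ZW c W) :=
  inferInstanceAs (TopologicalSpace.MetrizableSpace (Zo c × W))

theorem cont_z : Continuous fun z : ZW c W => z.1.1 := continuous_subtype_val.comp continuous_fst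

theorem cont_sig : Continuous (sig : ZW c W → Γ) := (continuous_apply 1).comp cont_z

theorem cont_lc (p : Γ) : Continuous fun z : ZW c W => lc z p := by
  refine continuous_iff_isClosed.2 fun s _ => ?_
  have e : (fun z : ZW c W => lc z p) ⁻¹' s = ⋃ k ∈ s ∩ Set.range fun z : ZW c W => lc z p,
      ⋂ k', {z | c.rk (p⁻¹ * z.1.1 k) ≤ c.rk (p⁻¹ * z.1.1 k')} := Set.ext fun z => by
    simp only [Set.mem_iUnion, Set.mem_iInter, Set.mem_ofPred_eq, ← loc_eq c z.1.2.1.inj]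
    exact ⟨fun h => ⟨_, ⟨h, z, rfl⟩, rfl⟩, fun ⟨k, h1, h2⟩ => show loc c _ _ ∈ s from h2 ▸ h1.1⟩
  rw [e]
  exact ((lc_fin p).inter_of_right s).isClosed_biUnion fun k _ => isClosed_iInter fun k' =>
    (closed_of (fun x y => c.rk (p⁻¹ * x) ≤ c.rk (p⁻¹ * y)) k k').preimage cont_z

theorem cont_ii : Continuous (ii : X c × W → ZW c W) :=
  ((continuous_subtype_val.comp continuous_fst).subtype_mk _).prodMk continuous_snd

theorem cont_jj : Continuous (jj : ZW c W → X c × W) :=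
  ((cont_sh cont_z continuous_const cont_sig).subtype_mk _).prodMk continuous_snd

instance [ContinuousSMul H W] : ContinuousConstSMul Γ (ZW c W) :=
  ⟨fun _ => ((cont_sh cont_z (cont_lc _) continuous_const).subtype_mk _).prodMk
    (((continuous_of_discreteTopology (f := (·⁻¹))).comp (cont_lc _)).smul continuous_snd)⟩

theorem exists_qp (S : Finset Γ) : ∃ (K : ℕ) (Q : QP S K (ZW c (X c))),
    (∀ z p, Q.q z p = z.2.1 (lc z p)) ∧ (∀ z, Q.t z = ii (jj z).swap) ∧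
      ∀ p y, IsClopen {z | Q.q z p = y} := by
  obtain ⟨K, hK⟩ := ((c.B'_fin.union (S.finite_toSet.biUnion fun s _ =>
    (lc_fin (c := c) (W := X c) s).biUnion fun k _ => c.u_fin k)).image (wordLength S)).bddAbove
  have h1 : ∀ p y, IsClopen {z : ZW c (X c) | z.2.1 (lc z p) = y} := fun p y =>
    (isClopen_discrete {y}).preimage
      (cont_ev (continuous_subtype_val.comp continuous_snd) (cont_lc p))
  refine ⟨max K c.B'.ncard, {
    q z p := z.2.1 (lc z p)
    q_one z := (congrArg z.2.1 z.1.2.2).trans z.2.2.2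
    q_mul z p p' := by rw [lc_mul, ev_mul, Z_smul₂]
    q_lip z s hs := le_max_of_le_left (hK ⟨_, .inr (Set.mem_biUnion hs
      (Set.mem_biUnion ⟨z, rfl⟩ (ev_mem c _ _))), rfl⟩)
    q_fib z y := ?_
    q_meas p y := (h1 p y).isOpen.measurableSet
    q' z y := z.1.1 (loc c z.2.1 y)
    t z := ii (jj z).swap
    sig := sig
    q'_eq z y := by simp [ii, jj, lc, sh]
    sig_le z := le_max_of_le_left (hK ⟨_, .inl (sig_mem z), rfl⟩)
    t_meas := (cont_ii.comp (continuous_swap.comp cont_jj)).measurable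
    sig_meas y := ((isOpen_discrete {y}).preimage cont_sig).measurableSet
    q'_equiv z p y := by simp [Z_smul₁, Z_smul₂, X_smul, loc_sh c z.2.2.1, sh] },
    fun _ _ => rfl, fun _ => rfl, h1⟩
  have h2 : Set.InjOn (fun p => p⁻¹ * z.1.1 (lc z p)) ((fun p => z.2.1 (lc z p)) ⁻¹' {y}) :=
    fun p hp p' hp' e => by
      have e1 : lc z p = lc z p' := z.2.2.1.inj (hp.trans hp'.symm)
      simpa [e1] using e
  have h3 : Set.MapsTo (fun p => p⁻¹ * z.1.1 (lc z p)) ((fun p => z.2.1 (lc z p)) ⁻¹' {y}) c.B' :=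
    fun p _ => loc_mem c z.1.2.1 p
  exact ⟨.of_injOn h3 h2 c.B'_fin,
    le_max_of_le_right (Set.ncard_le_ncard_of_injOn _ h3 h2 c.B'_fin)⟩

end Top

end Vale.Agent.P188.Cpl
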