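import Vale.Agent.P188.Cpl2

/-! Coupling, part 3: correspondence of invariant measures, transfer, uniqueness, duality. -/

set_option linter.unusedSectionVars false

namespace Vale.Agent.P188.Cpl

open Function MeasureTheory Matrix
open scoped ENNReal

/-- Invariant probability measures. -/
structure IP (G : Type) [Group G] {Z : Type} [MulAction G Z] [MeasurableSpace Z] (μ : Measure Z) :
    Prop where
  prob : IsProbabilityMeasure μ
  mp : ∀ g : G, MeasurePreserving (g • ·) μ μ

theorem IP.norm {G Z : Type} [Group G] [MulAction G Z] [MeasurableSpace Z] {μ : Measure Z}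
    [IsFiniteMeasure μ] (h0 : μ ≠ 0) (h : ∀ g : G, MeasurePreserving (g • ·) μ μ) :
    IP G ((μ Set.univ)⁻¹ • μ) :=
  haveI : NeZero μ := ⟨h0⟩
  ⟨inferInstance, fun g => (h g).smul_measure _⟩

theorem ht_mul {G : Type} [Group G] {k : ℕ} (π : G →* Zk k) (a b : G) :
    ht π (a * b) = ht π a + ht π b := funext fun i => by simp [ht, toR]

theorem ht_inv {G : Type} [Group G] {k : ℕ} (π : G →* Zk k) (a : G) : ht π a⁻¹ = -ht π a :=
  funext fun i => by simp [ht, toR]

variable {H Γ : Type} [Group H] [Group Γ] {c : Ctl H Γ} [Countable H] [Countable Γ]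
  [TopologicalSpace H] [DiscreteTopology H] [TopologicalSpace Γ] [DiscreteTopology Γ]
  {W : Type} [TopologicalSpace W] [CompactSpace W] [TopologicalSpace.MetrizableSpace W]
  [SecondCountableTopology W] [MeasurableSpace W] [BorelSpace W] [MulAction H W]
  [ContinuousSMul H W] {ν : Measure (ZW c W)} {l : Measure (X c × W)}

/-- Corresponding measures. -/
structure Rel (ν : Measure (ZW c W)) (l : Measure (X c × W)) : Prop where
  i : Dom ii l ν
  j : Dom jj ν l

theorem emb_ii : MeasurableEmbedding (ii : X c × W → ZW c W) :=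
  (cont_ii.isClosedEmbedding (LeftInverse.injective jj_ii)).measurableEmbedding

theorem rel_comap (h : ∀ g : Γ, MeasurePreserving (g • ·) ν ν) : Rel ν (ν.comap ii) := by
  refine ⟨⟨cont_ii.measurable, 1, ENNReal.one_ne_top, ?_⟩, cont_jj.measurable,
    c.B'_fin.toFinset.card, ENNReal.natCast_ne_top _, Measure.le_iff.2 fun A hA => ?_⟩
  · rw [emb_ii.map_comap, one_smul]
    exact Measure.restrict_le_self
  rw [Measure.map_apply cont_jj.measurable hA, Measure.smul_apply, emb_ii.comap_apply, smul_eq_mul,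
    ← nsmul_eq_mul, ← Finset.sum_const]
  refine (measure_mono fun z hz => ?_).trans ((measure_biUnion_finset_le _
    fun g : Γ => (g⁻¹ • ·) ⁻¹' (ii '' A)).trans_eq (Finset.sum_congr rfl fun g _ =>
      (h _).measure_preimage (emb_ii.measurableSet_image' hA).nullMeasurableSet))
  exact Set.mem_biUnion (c.B'_fin.mem_toFinset.2 (sig_mem z)) ⟨_, hz, ii_jj z⟩

theorem relA (h : IP Γ ν) : ∃ l, IP H l ∧ Rel ν l := by
  have := h.prob
  have r := rel_comap h.mp
  have h0 := r.j.ne_zero (NeZero.ne ν)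
  have h1 := ENNReal.inv_ne_top.2 (Measure.measure_univ_ne_zero.2 h0)
  refine ⟨_, IP.norm h0 fun g => pw ν emb_ii (measurableEmbedding_const_smul g)
    (MulAction.surjective g) (fun p : Γ => h.mp p⁻¹) (fun p => MulAction.injective _)
    (c := fun y => y.1.1 g⁻¹) (fun p => ((isOpen_discrete {p}).preimage
      ((cont_x _).comp continuous_fst)).measurableSet) fun y => ?_,
    r.i.smul_left h1, r.j.smul_right (ENNReal.inv_ne_zero.2 (measure_ne_top _ _)) h1⟩
  simpa only [inv_inv] using ii_smul g⁻¹ y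

theorem relB (h : IP H l) : ∃ ν, IP Γ ν ∧ Rel ν l := by
  have := h.prob
  borelize Γ
  have he : MeasurableEmbedding fun z : ZW c W => (jj z, sig z) :=
    ((cont_jj.prodMk cont_sig).isClosedEmbedding fun z z' e =>
      jj_inj (congrArg Prod.fst e) (congrArg Prod.snd e)).measurableEmbedding
  have h1 : ∀ g : Γ, MeasurePreserving (g • ·) ((l.prod .count).comap fun z => (jj z, sig z))
      ((l.prod .count).comap fun z : ZW c W => (jj z, sig z)) := fun g => by
    refine pw _ he (measurableEmbedding_const_smul g) (MulAction.surjective g)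
      (τ := fun (k : H) y => (k⁻¹ • y.1, g * y.2 * y.1.1.1 k)) (fun k => (h.mp k⁻¹).skew_product
        (g := fun y γ => g * γ * y.1.1 k) ?_ (.of_forall fun y => ((measurePreserving_mul_right _
          (y.1.1 k)).comp (measurePreserving_mul_left _ g)).map_eq)) (fun k y y' e => ?_)
      (c := fun z => lc z g⁻¹) (fun p => ((isOpen_discrete {p}).preimage (cont_lc _)).measurableSet)
      fun z => ?_
    · exact (measurable_snd.const_mul g).mul
        (((cont_x k).comp continuous_fst).measurable.comp measurable_fst)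
    · have e1 : y.1 = y'.1 := MulAction.injective _ (congrArg Prod.fst e)
      exact Prod.ext e1 (by simpa [e1] using congrArg Prod.snd e)
    · simpa only [inv_inv] using congrArg₂ Prod.mk (jj_smul g⁻¹ z) (sig_smul g⁻¹ z)
  have h2 : ((l.prod .count).comap fun z : ZW c W => (jj z, sig z)).comap ii = l := by
    ext A hA
    rw [emb_ii.comap_apply, he.comap_apply, Set.image_image]
    simp only [jj_ii, sig_ii]
    rw [← Set.prod_singleton, Measure.prod_prod, Measure.count_singleton, mul_one]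
  have : IsFiniteMeasure ((l.prod .count).comap fun z : ZW c W => (jj z, sig z)) := ⟨by
    rw [he.comap_apply]
    refine (measure_mono (t := Set.univ ×ˢ c.B') ?_).trans_lt ?_
    · rintro _ ⟨z, -, rfl⟩
      exact ⟨trivial, sig_mem z⟩
    · rw [Measure.prod_prod, measure_univ, one_mul]
      exact Measure.count_apply_lt_top.2 c.B'_fin⟩
  have r := rel_comap h1
  rw [h2] at r
  have h0 := r.i.ne_zero (NeZero.ne l)
  have h3 := ENNReal.inv_ne_top.2 (Measure.measure_univ_ne_zero.2 h0)
  exact ⟨_, IP.norm h0 h1, r.i.smul_right (ENNReal.inv_ne_zero.2 (measure_ne_top _ _)) h3,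
    r.j.smul_left h3⟩

variable {k : ℕ} (π : Γ →* Zk k)

theorem meas_c {T : Type} [TopologicalSpace T] [MeasurableSpace T] [OpensMeasurableSpace T]
    {f : T → Γ} (hf : Continuous f) : Measurable fun t => ht π (f t) :=
  ((continuous_of_discreteTopology (f := ht π)).comp hf).measurable

theorem meas_c₁ (h : H) : Measurable fun y : X c × W => ht π (y.1.1 h) :=
  meas_c π ((cont_x h).comp continuous_fst)

theorem mf_jj {A : X c × W → Matrix (Fin k) (Fin k) ℝ} (hA : MF H A) :
    MF Γ fun z : ZW c W => A (jj z) :=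
  hA.comp cont_jj.measurable fun g z => ⟨_, by simpa only [inv_inv] using jj_smul g⁻¹ z⟩

theorem mf_ii {A : ZW c W → Matrix (Fin k) (Fin k) ℝ} (hA : MF Γ A) :
    MF H fun y : X c × W => A (ii y) :=
  hA.comp cont_ii.measurable fun g z => ⟨_, by simpa only [inv_inv] using ii_smul g⁻¹ z⟩

theorem toG [IsFiniteMeasure ν] (r : Rel ν l) {b : H → X c × W → Rk k} (hb : ∀ h, Measurable (b h))
    {A : X c × W → Matrix (Fin k) (Fin k) ℝ} (hA : MF H A)
    (h : ACob l fun h y => b h y - A y *ᵥ ht π (y.1.1 h)) :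
    ACob ν fun p z => b (lc z p) (jj z) - A (jj z) *ᵥ ht π p := by
  obtain ⟨C, hC⟩ := (c.B'_fin.image fun g => ‖-ht π g‖).bddAbove
  have m1 : Measurable fun z : ZW c W => -ht π (sig z) := (meas_c π cont_sig).neg
  have m2 := fun h => (hb h).sub (hA.mv (meas_c₁ π h))
  borelize H
  refine ac_congr (ac_sub (ac_pull h m2 r.j lc_fin jj_smul) (ac_mul (ac_exact m1 fun z =>
    hC ⟨_, sig_mem z, rfl⟩) (mf_jj hA)) (fun p => (measurable_from_prod_countable_left
      (f := fun y : (X c × W) × H => b y.2 y.1 - A y.1 *ᵥ ht π (y.1.1.1 y.2)) m2).comp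
      (cont_jj.measurable.prodMk (cont_lc p).measurable)) fun p => (mf_jj hA).mv
      ((m1.comp (measurable_const_smul _)).sub m1)) fun p => .of_forall fun z => ?_
  simp only [sig_smul, ht_mul, ht_inv, sub_sub, ← mulVec_add]
  congr 2
  abel

theorem uq (hπ : Surjective π) (hl : IP H l) {A : X c × W → Matrix (Fin k) (Fin k) ℝ} (hA : MF H A)
    (h : ACob l fun h y => 0 - A y *ᵥ ht π (y.1.1 h)) : ∀ᵐ y ∂l, A y = 0 := by
  obtain ⟨ν, hν, r⟩ := relB hl
  have := hν.prob
  have h1 := toG π r (b := fun _ _ => 0) (fun _ => measurable_const) hA h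
  filter_upwards [r.i.qmp.ae (ae_all_iff.2 fun p => ac_zero h1 (fun p => measurable_const.sub
    ((mf_jj hA).mv measurable_const)) p (hν.mp _) fun z => by rw [(mf_jj hA).inv])] with y hy
  ext i j
  obtain ⟨p, hp⟩ := hπ (Multiplicative.ofAdd (Pi.single j 1))
  have e : ht π p = Pi.single j 1 := funext fun i => by simp [ht, toR, hp, Pi.single_apply]
  simpa [e, jj_ii] using congrFun (hy p) i

theorem uq3 (hπ : Surjective π) (hl : IP H l) {A A' A'' : X c × W → Matrix (Fin k) (Fin k) ℝ}
    (hA : MF H A) (hA' : MF H A') (hA'' : MF H A'') {b d : H → X c × W → Rk k}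
    (hb : ∀ h, Measurable (b h)) (hd : ∀ h, Measurable (d h))
    (h : ACob l fun h y => b h y - A y *ᵥ ht π (y.1.1 h))
    (h' : ACob l fun h y => d h y - A' y *ᵥ b h y)
    (h'' : ACob l fun h y => d h y - A'' y *ᵥ ht π (y.1.1 h)) : ∀ᵐ y ∂l, A' y * A y = A'' y := by
  have m1 := fun h => (hd h).sub (hA''.mv (meas_c₁ π h))
  have m2 := fun h => (hd h).sub (hA'.mv (hb h))
  refine (uq π hπ hl (hA''.sub (hA'.mul hA)) (ac_congr (ac_sub (ac_sub h'' h' m1 m2) (ac_mul h hA')
    (fun h => (m1 h).sub (m2 h)) fun h => hA'.mv ((hb h).sub (hA.mv (meas_c₁ π h))))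
    fun h => .of_forall fun y => ?_)).mono fun y hy => (sub_eq_zero.1 hy).symm
  simp only [sub_mulVec, mulVec_sub, mulVec_mulVec]
  abel

section Dual

variable {ν : Measure (ZW c (X c))} {l : Measure (X c × X c)} {q : ZW c (X c) → Γ → Γ}
  {D : ZW c (X c) → Matrix (Fin k) (Fin k) ℝ} {K' : ℝ}

theorem meas_c₂ (h : H) : Measurable fun y : X c × X c => ht π (y.2.1 h) :=
  meas_c π ((cont_x h).comp continuous_snd)

theorem toH (hq : ∀ z p, q z p = z.2.1 (lc z p)) (r : Rel ν l) (h : Drift π q K' ν D) :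
    ACob l fun h y => ht π (y.2.1 h) - D (ii y) *ᵥ ht π (y.1.1 h) := by
  refine ac_congr (ac_pull h.acob (fun p => ?_) r.i (κ := fun h y => y.1.1 h)
    (fun h => (c.u_fin h).subset ?_) ii_smul) fun h => .of_forall fun y => ?_
  · simp only [hq]
    exact (meas_c π (show Continuous fun z : ZW c (X c) => z.2.1 (lc z p) from
      cont_ev (continuous_subtype_val.comp continuous_snd) (cont_lc p))).sub
      ((drift_mf h).mv measurable_const)
  · rintro _ ⟨y, rfl⟩
    exact ev_mem c _ _
  · simp only [hq, lc_ii]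
    rfl

theorem dual (hπ : Surjective π) {S : Finset Γ} {K : ℕ} (Q : QP S K (ZW c (X c)))
    (hq : ∀ z p, Q.q z p = z.2.1 (lc z p)) (ht' : ∀ z, Q.t z = ii (jj z).swap)
    (hST : ∀ ν, IP Γ ν → ∃ D, Drift π Q.q K' ν D) : Dual π Q K' := by
  intro ν D hD
  obtain ⟨l, hl, r⟩ := relA ⟨hD.prob, hD.mp⟩
  have := hl.prob
  have s1 : MeasurePreserving Prod.swap l (l.map Prod.swap) := ⟨measurable_swap, rfl⟩
  have s2 : MeasurePreserving Prod.swap (l.map Prod.swap) l :=
    s1.symm MeasurableEquiv.prodComm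
  obtain ⟨ν', hν', r'⟩ := relB (l := l.map Prod.swap) ⟨Measure.isProbabilityMeasure_map
    measurable_swap.aemeasurable, fun g => s1.comp ((hl.mp g).comp s2)⟩
  obtain ⟨D', hD'⟩ := hST ν' hν'
  have h1 : ∀ᵐ y ∂l, D' (ii y.swap) * D (ii y) = 1 := uq3 π hπ hl (mf_ii (drift_mf hD))
    ((mf_ii (drift_mf hD')).comp measurable_swap fun g y => ⟨g, rfl⟩) MF.one (meas_c₂ π) (meas_c₁ π)
    (toH π hq r hD) (ac_pull (toH π hq r' hD') (fun h => (meas_c₂ π h).sub
      ((mf_ii (drift_mf hD')).mv (meas_c₁ π h))) (Dom.of_mp s1) (κ := fun h _ => h)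
      (fun h => Set.finite_range_const) fun _ _ => rfl)
    (ac_congr (ac_exact (s := 0) measurable_const fun _ => norm_zero.le)
      fun h => .of_forall fun y => by simp)
  refine ⟨ν', D', hD', funext ht' ▸ r'.i.qmp.comp (s1.quasiMeasurePreserving.comp r.j.qmp),
    (r.j.qmp.ae h1).mono fun z hz => ?_, fun P hP => (r'.j.qmp.ae (s2.quasiMeasurePreserving.ae
      ((r.i.qmp.ae hP).and h1))).mono fun z hz => ⟨_, hz.1, ?_⟩⟩
  · rwa [ht', ← hD.inv (sig z)⁻¹ z, ← ii_jj]
  · rw [← hD'.inv (sig z)⁻¹ z, ← ii_jj]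
    exact hz.2

end Dual

end Vale.Agent.P188.Cpl
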