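import Vale.Agent.P188.Cpl3

/-! Coupling, part 4: the finite-index subgroup and the averaged height. -/

namespace Vale.Agent.P188.Cpl

open Function MeasureTheory Matrix Filter
open scoped ENNReal NNReal

variable {G X : Type} [Group G] [MulAction G X] [MeasurableSpace X] {μ : Measure X} {k : ℕ}

theorem IP.prod {Y : Type} [MulAction G Y] [MeasurableSpace Y] {ν : Measure Y} (h : IP G μ)
    (h' : IP G ν) : IP G (μ.prod ν) :=
  haveI := h.prob
  haveI := h'.prob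
  ⟨inferInstance, fun g => (h.mp g).prod (h'.mp g)⟩

theorem mp_cond {T : X → X} (hT : MeasurePreserving T μ μ) {A : Set X} (hA : MeasurableSet A)
    (h : ∀ᵐ x ∂μ, T x ∈ A ↔ x ∈ A) :
    MeasurePreserving T (ProbabilityTheory.cond μ A) (ProbabilityTheory.cond μ A) := by
  have h1 := hT.restrict_preimage hA
  rw [Measure.restrict_congr_set (s := T ⁻¹' A) (t := A) (h.mono fun x hx => propext hx)] at h1
  exact h1.smul_measure _

theorem struct (hμ : IP G μ) {D : X × X → Matrix (Fin k) (Fin k) ℝ} (hD : MF G D)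
    {Φ : Set (Matrix (Fin k) (Fin k) ℝ)} (hΦ : Φ.Finite) (hu : ∀ A ∈ Φ, IsUnit A.det)
    (h1 : ∀ᵐ y ∂μ.prod μ, D y ∈ Φ)
    (h2 : ∀ᵐ y ∂μ.prod (μ.prod μ), D y.2 * D (y.1, y.2.1) = D (y.1, y.2.2)) :
    ∃ (X₁ : Set X) (G₀ : Subgroup G), MeasurableSet X₁ ∧ μ X₁ ≠ 0 ∧ G₀.FiniteIndex ∧
      (∀ h ∈ G₀, ∀ᵐ x ∂μ, h • x ∈ X₁ ↔ x ∈ X₁) ∧
      (∀ᵐ y ∂μ.prod μ, y.1 ∈ X₁ → (D y = 1 ↔ y.2 ∈ X₁)) ∧
      ∀ᵐ y ∂μ.prod μ, D y = 1 ↔ D y.swap = 1 := by
  have := hμ.prob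
  obtain ⟨x₀, h1, h2⟩ :=
    ((Measure.ae_ae_of_ae_prod h1).and (Measure.ae_ae_of_ae_prod h2)).exists
  have key : ∀ᵐ y ∂μ.prod μ, D y = 1 ↔ D (x₀, y.1) = D (x₀, y.2) := by
    filter_upwards [h2, Measure.quasiMeasurePreserving_fst.ae h1] with y k1 k2
    refine ⟨fun e => by rwa [e, one_mul] at k1, fun e => ?_⟩
    rw [← mul_nonsing_inv_cancel_right _ (D y) (hu _ k2), k1, ← e, mul_nonsing_inv _ (hu _ k2)]
  obtain ⟨A, -, hA⟩ : ∃ A ∈ Φ, μ {x | D (x₀, x) = A} ≠ 0 := by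
    by_contra! h
    obtain ⟨x, k1, k2⟩ := (h1.and ((ae_ball_iff hΦ.countable).2 fun A hA =>
      measure_eq_zero_iff_ae_notMem.1 (h A hA))).exists
    exact k2 _ k1 rfl
  have h3 : ∀ h : G, ∃ B ∈ Φ, ∀ᵐ x ∂μ, D (x₀, h • x) = B ↔ D (x₀, x) = A := fun h => by
    obtain ⟨x, k1, k2, k3⟩ := Measure.exists_mem_of_measure_ne_zero_of_ae hA (ae_restrict_of_ae
      (((hμ.mp h).quasiMeasurePreserving.ae h1).and (Measure.ae_ae_of_ae_prod
        ((((hμ.prod hμ).mp h).quasiMeasurePreserving.ae key).and key))))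
    refine ⟨_, k2, k3.mono fun x' hx => ?_⟩
    rw [hD.inv] at hx
    rw [eq_comm, ← k1, eq_comm (b := D (x₀, x))]
    exact hx.1.symm.trans hx.2
  choose B hB h3 using h3
  let G₀ : Subgroup G :=
    { carrier := {h | ∀ᵐ x ∂μ, D (x₀, h • x) = A ↔ D (x₀, x) = A}
      mul_mem' := fun {a b} ha hb => (((hμ.mp b).quasiMeasurePreserving.ae ha).and hb).mono
        fun x hx => mul_smul a b x ▸ hx.1.trans hx.2
      one_mem' := by simp
      inv_mem' := fun {a} ha => ((hμ.mp a⁻¹).quasiMeasurePreserving.ae ha).mono fun x hx => by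
        simpa only [smul_inv_smul] using hx.symm }
  have : Finite (G ⧸ G₀) := Set.finite_univ_iff.1 (.of_injOn (f := fun q => B q.out)
    (fun q _ => hB _) (fun q _ q' _ e => by
      rw [← q.out_eq', ← q'.out_eq', QuotientGroup.eq]
      filter_upwards [h3 q'.out, (hμ.mp (q.out⁻¹ * q'.out)).quasiMeasurePreserving.ae (h3 q.out)]
        with x k1 k2
      rw [smul_smul, mul_inv_cancel_left, show B q.out = B q'.out from e] at k2
      exact k2.symm.trans k1) hΦ)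
  refine ⟨{x | D (x₀, x) = A}, G₀, measurable_prodMk_left (hD.set A), hA,
    Subgroup.finiteIndex_of_finite_quotient, fun h hh => hh, key.mono fun y k1 k2 => ?_,
    (key.and (Measure.measurePreserving_swap.quasiMeasurePreserving.ae key)).mono
      fun y hy => hy.1.trans (eq_comm.trans hy.2.symm)⟩
  rw [k1, show D (x₀, y.1) = A from k2, eq_comm]
  rfl

theorem trunc {η : ℝ} (η0 : 0 < η) (b : ℝ) (t : ℝ≥0) : ENNReal.ofReal b ≤
    t + ENNReal.ofReal (Real.exp (-(η * t)) / η) * ENNReal.ofReal (Real.exp (η * b)) := by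
  rw [← ENNReal.ofReal_mul (by positivity), ← ENNReal.ofReal_coe_nnreal,
    ← ENNReal.ofReal_add t.coe_nonneg (by positivity), div_mul_eq_mul_div, ← Real.exp_add]
  refine ENNReal.ofReal_le_ofReal ?_
  rw [← sub_le_iff_le_add', le_div_iff₀ η0]
  linarith [Real.add_one_le_exp (-(η * t) + η * b)]

/-- From an exponential moment to a union bound. -/
theorem tail [IsProbabilityMeasure μ] {B F : X → ℝ≥0∞} (hF : Measurable F)
    (hi : ∫⁻ x, F x ∂μ ≠ ∞) {η : ℝ} (η0 : 0 < η)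
    (h : ∀ x (t : ℝ≥0), B x ≤ t + ENNReal.ofReal (Real.exp (-(η * t)) / η) * F x)
    {m : ℝ≥0∞} (m0 : m ≠ 0) :
    ∃ a : ℝ≥0, ∀ n : ℕ, 2 ^ (n + 1) * μ {x | (a * (n + 1) + 1 : ℝ≥0) < B x} ≤ m := by
  obtain ⟨r, r0, r1⟩ := ENNReal.exists_nnreal_pos_mul_lt
    (ENNReal.mul_ne_top hi (ENNReal.ofReal_ne_top (r := 1 / η))) m0
  obtain ⟨s, s0, s1, s2⟩ : ∃ s : ℝ, 0 < s ∧ 2 * s ≤ 1 ∧ 2 * s ≤ r :=
    ⟨min 1 (r : ℝ) / 2, by positivity, by linarith [min_le_left (1 : ℝ) r],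
      by linarith [min_le_right (1 : ℝ) r]⟩
  obtain ⟨a, ha⟩ : ∃ a : ℝ≥0, (a : ℝ) = -Real.log s / η :=
    ⟨⟨_, div_nonneg (neg_nonneg.2 (Real.log_nonpos s0.le (by linarith))) η0.le⟩, rfl⟩
  refine ⟨a, fun n => ?_⟩
  have e : Real.exp (-(η * (a * (n + 1) : ℝ≥0))) = s ^ (n + 1) := by
    rw [← Real.exp_log (pow_pos s0 _), Real.log_pow]
    push_cast
    rw [ha]
    congr 1
    field_simp
  have h1 : μ {x | (a * (n + 1) + 1 : ℝ≥0) < B x} ≤
      ENNReal.ofReal (s ^ (n + 1) / η) * ∫⁻ x, F x ∂μ := by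
    rw [← lintegral_const_mul _ hF]
    refine (measure_mono fun x hx => ?_).trans ((one_mul _).symm.trans_le
      (mul_meas_ge_le_lintegral (hF.const_mul _) 1))
    have h2 := lt_of_lt_of_le hx (h x (a * (n + 1)))
    rw [e, ENNReal.coe_add] at h2
    exact ((ENNReal.add_lt_add_iff_left ENNReal.coe_ne_top).1 h2).le
  refine (mul_le_mul_right h1 _).trans (le_trans ?_ r1.le)
  rw [← mul_assoc, mul_comm (∫⁻ x, F x ∂μ), ← mul_assoc, ← ENNReal.ofReal_coe_nnreal,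
    ← ENNReal.ofReal_mul r.coe_nonneg, ← ENNReal.ofReal_ofNat, ← ENNReal.ofReal_pow zero_le_two,
    ← ENNReal.ofReal_mul (by positivity), ← mul_div_assoc, ← mul_pow, mul_one_div]
  gcongr
  exact (pow_le_of_le_one (by positivity) s1 n.succ_ne_zero).trans s2

theorem avg [Countable G] [MeasurableConstSMul G X] (hμ : IP G μ) {c : G → X → Rk k}
    (cm : ∀ h, Measurable (c h)) (cb : ∀ h, ∃ C, ∀ x, ‖c h x‖ ≤ C)
    (cc : ∀ h h' x, c (h * h') x = c h x + c h' (h⁻¹ • x)) {X₁ : Set X} (m1 : MeasurableSet X₁)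
    (i1 : ∀ h : G, ∀ᵐ x ∂μ, h • x ∈ X₁ ↔ x ∈ X₁) {E : Set (X × X)} (mE : MeasurableSet E)
    (iE : ∀ (h : G) y, h • y ∈ E ↔ y ∈ E) (hE : ∀ᵐ y ∂μ.prod μ, y ∈ E → y.1 ∈ X₁ → y.2 ∈ X₁)
    (big : 2 * μ X₁ * μ X₁ < 3 * μ.prod μ (E ∩ X₁ ×ˢ Set.univ)) {β : X × X → ℝ}
    (mβ : Measurable β) {η : ℝ} (η0 : 0 < η)
    (hi : ∫⁻ y in E, ENNReal.ofReal (Real.exp (η * β y)) ∂μ.prod μ ≠ ∞)
    (hb : ∀ᵐ y ∂μ.prod μ, y ∈ E → ∀ h, ‖c h y.2 - c h y.1‖ ≤ β y + β (h⁻¹ • y)) :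
    ∃ (φ : G →* Multiplicative (Rk k)) (C : ℕ) (m : ℝ≥0∞), m ≠ 0 ∧ ∀ (n : ℕ) (T : Finset G),
      T.card ≤ 2 ^ n → m ≤ μ {x | ∀ h ∈ T, ‖c h x - (φ h).toAdd‖ ≤ C * (n + 1)} := by
  classical
  have := hμ.prob
  obtain ⟨b, hb0⟩ : ∃ b, b = E.indicator fun y => ENNReal.ofReal (β y) := ⟨_, rfl⟩
  have mb : Measurable b := hb0 ▸ mβ.ennreal_ofReal.indicator mE
  have mx : ∀ x, Measurable fun x' => b (x, x') := fun x => mb.comp measurable_prodMk_left
  have mB : Measurable fun x => ∫⁻ x', b (x, x') ∂μ := mb.lintegral_prod_right'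
  have mf := (mβ.const_mul η).exp.ennreal_ofReal.indicator mE
  rw [← lintegral_indicator mE, lintegral_prod _ mf.aemeasurable] at hi
  have h1 : ∀ x (t : ℝ≥0), ∫⁻ x', b (x, x') ∂μ ≤ t + ENNReal.ofReal (Real.exp (-(η * t)) / η) *
      ∫⁻ x', E.indicator (fun y => ENNReal.ofReal (Real.exp (η * β y))) (x, x') ∂μ := fun x t => by
    rw [← lintegral_const_mul' _ _ ENNReal.ofReal_ne_top, ← mul_one (t : ℝ≥0∞),
      ← measure_univ (μ := μ), ← lintegral_const, ← lintegral_add_left measurable_const]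
    refine lintegral_mono fun x' => ?_
    by_cases hx : (x, x') ∈ E
    · simp only [hb0, Set.indicator_of_mem hx, trunc η0]
    · simp [hb0, hx]
  have mE' : ∀ x, MeasurableSet (Prod.mk x ⁻¹' E) := fun x => measurable_prodMk_left mE
  obtain ⟨X₂, hX⟩ : ∃ X₂, X₂ = X₁ ∩ {x | 2 * μ X₁ ≤ 3 * μ (Prod.mk x ⁻¹' E)} := ⟨_, rfl⟩
  have m2 : MeasurableSet X₂ := hX ▸ m1.inter
    (measurableSet_le measurable_const ((measurable_measure_prodMk_left mE).const_mul _))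
  have n2 : μ X₂ ≠ 0 := fun h => big.not_ge (by
    rw [Measure.prod_apply (mE.inter (m1.prod .univ)), ← lintegral_const_mul' _ _ (by simp),
      ← setLIntegral_const, ← lintegral_indicator m1]
    refine lintegral_mono_ae ((measure_eq_zero_iff_ae_notMem.1 h).mono fun x hx => ?_)
    by_cases h1 : x ∈ X₁
    · simpa [h1] using (not_le.1 fun h2 => hx (hX ▸ ⟨h1, h2⟩)).le
    · simp [h1])
  have i2 : ∀ h : G, ∀ᵐ x ∂μ, h • x ∈ X₂ ↔ x ∈ X₂ := fun h => (i1 h).mono fun x hx => by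
    have e : μ (Prod.mk (h • x) ⁻¹' E) = μ (Prod.mk x ⁻¹' E) :=
      ((hμ.mp h).measure_preimage (mE' _).nullMeasurableSet).symm.trans
        (congrArg μ (Set.ext fun x' => iE h (x, x')))
    simp only [hX, Set.mem_inter_iff, Set.mem_ofPred_eq, e, hx]
  have good := Measure.ae_ae_of_ae_prod (hE.and hb)
  generalize hP : (fun x => ∀ᵐ x' ∂μ, ((x, x') ∈ E → x ∈ X₁ → x' ∈ X₁) ∧
    ((x, x') ∈ E → ∀ h, ‖c h x' - c h x‖ ≤ β (x, x') + β (h⁻¹ • (x, x')))) = P at good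
  have pair : ∀ x₁ ∈ X₂, P x₁ → ∀ x₂ ∈ X₂, P x₂ → ∀ h, μ X₁ * ‖c h x₁ - c h x₂‖ₑ ≤
      3 * (∫⁻ x', b (x₁, x') ∂μ + ∫⁻ x', b (h⁻¹ • x₁, x') ∂μ +
        (∫⁻ x', b (x₂, x') ∂μ + ∫⁻ x', b (h⁻¹ • x₂, x') ∂μ)) := fun x₁ k1 p1 x₂ k2 p2 h => by
    subst hP hX
    have k3 : μ (Prod.mk x₁ ⁻¹' E ∪ Prod.mk x₂ ⁻¹' E) ≤ μ X₁ := measure_mono_ae
      ((p1.and p2).mono fun x hx hx' => hx'.elim (hx.1.1 · k1.1) (hx.2.1 · k2.1))
    have k4 : μ X₁ ≤ 3 * μ (Prod.mk x₁ ⁻¹' E ∩ Prod.mk x₂ ⁻¹' E) := by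
      have k5 := add_le_add (Set.mem_ofPred.1 k1.2) (Set.mem_ofPred.1 k2.2)
      rw [← mul_add 3, ← measure_union_add_inter _ (mE' x₂), mul_add] at k5
      refine ENNReal.le_of_add_le_add_left (a := 3 * μ X₁) (by finiteness)
        (le_trans (le_of_eq (by ring)) (k5.trans (by gcongr)))
    refine (mul_le_mul_left k4 _).trans ?_
    rw [mul_assoc, mul_comm (μ _), ← setLIntegral_const,
      ← lintegral_indicator ((mE' x₁).inter (mE' x₂)), ← (hμ.mp h⁻¹).lintegral_comp (mx (h⁻¹ • x₁)),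
      ← (hμ.mp h⁻¹).lintegral_comp (mx (h⁻¹ • x₂)), ← lintegral_add_left (mx x₁),
      ← lintegral_add_left (mx x₂), ← lintegral_add_left
        ((mx x₁).fun_add ((mx (h⁻¹ • x₁)).fun_comp (measurable_const_smul h⁻¹)))]
    refine mul_le_mul_right (lintegral_mono_ae ((p1.and p2).mono fun x hx => ?_)) _
    refine Set.indicator_apply_le' (fun hx' => ?_) fun _ => zero_le
    have e : ∀ y ∈ E, b y = ENNReal.ofReal (β y) := fun y hy => by rw [hb0, Set.indicator_of_mem hy]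
    rw [e (x₁, x) hx'.1, e (x₂, x) hx'.2, e (h⁻¹ • x₁, h⁻¹ • x) ((iE h⁻¹ (x₁, x)).2 hx'.1),
      e (h⁻¹ • x₂, h⁻¹ • x) ((iE h⁻¹ (x₂, x)).2 hx'.2), ← ofReal_norm]
    refine (ENNReal.ofReal_le_ofReal ((norm_sub_le_norm_sub_add_norm_sub _ (c h x) _).trans
      (add_le_add ((norm_sub_rev _ _).trans_le (hx.1.2 hx'.1 h)) (hx.2.2 hx'.2 h)))).trans
      (ENNReal.ofReal_add_le.trans (add_le_add ENNReal.ofReal_add_le ENNReal.ofReal_add_le))
  have := ProbabilityTheory.cond_isProbabilityMeasure (μ := μ) n2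
  have mp := fun h : G => mp_cond (hμ.mp h) m2 (i2 h)
  have ci : ∀ h, Integrable (c h) (ProbabilityTheory.cond μ X₂) := fun h =>
    (cb h).elim fun C hC => .of_bound (cm h).aestronglyMeasurable C (.of_forall hC)
  obtain ⟨J, hJ⟩ : ∃ J : ℝ≥0, ∫⁻ x, ∫⁻ x', b (x, x') ∂μ ∂ProbabilityTheory.cond μ X₂ = J := by
    refine ⟨_, (ENNReal.coe_toNNReal (ne_top_of_le_ne_top ?_ (lintegral_mono' (f := fun x => _)
      (smul_le_smul_left _ Measure.restrict_le_self) fun x => h1 x 0))).symm⟩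
    rw [lintegral_smul_measure]
    simp only [ENNReal.coe_zero, zero_add, lintegral_const_mul' _ _ ENNReal.ofReal_ne_top]
    exact ENNReal.mul_ne_top (ENNReal.inv_ne_top.2 n2) (ENNReal.mul_ne_top ENNReal.ofReal_ne_top hi)
  obtain ⟨a, ha⟩ := tail mf.lintegral_prod_right' hi η0 h1 (ENNReal.half_pos n2).ne'
  obtain ⟨m, hm⟩ : ∃ m : ℝ≥0, μ X₁ = m := ⟨_, (ENNReal.coe_toNNReal (measure_ne_top _ _)).symm⟩
  have m0 : (0 : ℝ) < m := NNReal.coe_pos.2 (ENNReal.coe_pos.1 (hm ▸ (pos_iff_ne_zero.2 n2).trans_le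
    (measure_mono (hX ▸ Set.inter_subset_left))))
  obtain ⟨C, hC⟩ := exists_nat_ge (6 * (a + 1 + J) / m : ℝ)
  refine ⟨.mk' (fun h => .ofAdd (∫ x, c h x ∂ProbabilityTheory.cond μ X₂)) fun h h' => ?_, C,
    μ X₂ / 2, (ENNReal.half_pos n2).ne', fun n T hT => ?_⟩
  · simp only [cc, ← ofAdd_add]
    exact congrArg _ ((integral_add (ci h) ((mp h⁻¹).integrable_comp_of_integrable (ci h'))).trans
      (congrArg _ ((mp h⁻¹).integral_comp (measurableEmbedding_const_smul _) _)))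
  refine ENNReal.le_of_add_le_add_right (a := μ X₂ / 2) (by finiteness) ((ENNReal.add_halves _).trans_le
    ((measure_mono_ae (t := _ ∪ ⋃ h ∈ insert 1 T, (h⁻¹ • ·) ⁻¹'
      {x | (a * (n + 1) + 1 : ℝ≥0) < ∫⁻ x', b (x, x') ∂μ}) (good.mono fun x p1 k1 => ?_)).trans
    ((measure_union_le _ _).trans (add_le_add le_rfl (((measure_biUnion_finset_le _ _).trans
      ?_).trans (ha n))))))
  · refine or_iff_not_imp_right.2 fun k2 h hh => ?_
    simp only [Set.mem_iUnion, not_exists, Set.mem_preimage, Set.mem_ofPred_eq, not_lt] at k2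
    have k3 := k2 1 (Finset.mem_insert_self _ _)
    rw [inv_one, one_smul] at k3
    have k4 : μ X₁ * ‖c h x - ∫ x, c h x ∂ProbabilityTheory.cond μ X₂‖ₑ ≤
        3 * ((a * (n + 1) + 1 : ℝ≥0) + (a * (n + 1) + 1 : ℝ≥0) + (J + J)) := by
      rw [← one_smul ℝ (c h x), ← probReal_univ (μ := ProbabilityTheory.cond μ X₂), ← integral_const,
        ← integral_sub (integrable_const _) (ci h)]
      refine (mul_le_mul_right (enorm_integral_le_lintegral_enorm _) _).trans ?_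
      rw [← lintegral_const_mul' _ _ (measure_ne_top _ _)]
      refine (lintegral_mono_ae (((ProbabilityTheory.ae_cond_mem m2).and
        (ProbabilityTheory.cond_absolutelyContinuous.ae_le good)).mono fun x₂ hx =>
        (pair x k1 p1 x₂ hx.1 hx.2 h).trans (mul_le_mul_right (add_le_add_left
          (add_le_add k3 (k2 h (Finset.mem_insert_of_mem hh))) _) _))).trans_eq ?_
      rw [lintegral_const_mul' _ _ (by simp), lintegral_add_left measurable_const,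
        lintegral_add_left mB, (mp h⁻¹).lintegral_comp mB, hJ, lintegral_const, measure_univ,
        mul_one]
    rw [hm, enorm_eq_nnnorm] at k4
    have k5 : (m : ℝ) * ‖c h x - ∫ x, c h x ∂ProbabilityTheory.cond μ X₂‖ ≤
        3 * ((a * (n + 1) + 1) + (a * (n + 1) + 1) + (J + J)) := by exact_mod_cast k4
    rw [div_le_iff₀ m0] at hC
    refine le_of_mul_le_mul_left (k5.trans ?_) m0
    nlinarith [mul_le_mul_of_nonneg_right hC (by positivity : (0 : ℝ) ≤ n + 1),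
      mul_nonneg J.coe_nonneg n.cast_nonneg, n.cast_nonneg (α := ℝ)]
  · rw [Finset.sum_congr rfl fun h _ => (hμ.mp h⁻¹).measure_preimage
      (measurableSet_lt measurable_const mB).nullMeasurableSet, Finset.sum_const, nsmul_eq_mul]
    gcongr
    exact_mod_cast (Finset.card_insert_le _ _).trans (by
      have := Nat.one_le_two_pow (n := n)
      omega)

end Vale.Agent.P188.Cpl
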