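import Mathlib

namespace Vale.Agent.P188

universe u v

/-- `G` has a subnormal series from the trivial subgroup to `G` with cyclic quotients. -/
def IsPolycyclicGroup (G : Type u) [Group G] : Prop :=
  ∃ (m : ℕ) (s : ℕ → Subgroup G), s 0 = ⊥ ∧ s m = ⊤ ∧
    ∀ i < m, s i ≤ s (i + 1) ∧
      ∃ _ : ((s i).subgroupOf (s (i + 1))).Normal,
        IsCyclic (s (i + 1) ⧸ (s i).subgroupOf (s (i + 1)))

/-- `G` has a polycyclic subgroup of finite index. -/
def IsVirtuallyPolycyclic (G : Type u) [Group G] : Prop :=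
  ∃ L : Subgroup G, L.FiniteIndex ∧ IsPolycyclicGroup L

/-- Word length of `g` with respect to `S`: the least length of a word in `S ∪ S⁻¹` with
product `g`. -/
noncomputable def wordLength {G : Type u} [Group G] (S : Finset G) (g : G) : ℕ :=
  sInf {n | ∃ l : List G, l.length = n ∧ (∀ x ∈ l, x ∈ S ∨ x⁻¹ ∈ S) ∧ l.prod = g}

/-- The left-invariant word metric of `S`. -/
noncomputable def wordDist {G : Type u} [Group G] (S : Finset G) (g h : G) : ℝ :=
  (wordLength S (g⁻¹ * h) : ℝ)

/-- `F` is a `(K, C)`-quasi-isometry for the word metrics of `S` and `T`. -/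
def IsQuasiIsometry {H : Type u} {G : Type v} [Group H] [Group G] (S : Finset H) (T : Finset G)
    (K C : ℝ) (F : H → G) : Prop :=
  1 ≤ K ∧ 0 ≤ C ∧
    (∀ x x', K⁻¹ * wordDist S x x' - C ≤ wordDist T (F x) (F x') ∧
      wordDist T (F x) (F x') ≤ K * wordDist S x x' + C) ∧
    ∀ y, ∃ x, wordDist T y (F x) ≤ C

end Vale.Agent.P188
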