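import Vale.Agent.P188.Iid

/-! P188: the abstract Feynman-Kac estimates. -/

namespace Vale.Agent.P188

open Function MeasureTheory
open scoped ENNReal NNReal

theorem fk_amgm (x y : ℝ≥0∞) (t : ℝ) (ht : 0 < t) :
    2 * (x * y) ≤ ENNReal.ofReal t * x ^ 2 + ENNReal.ofReal t⁻¹ * y ^ 2 := by
  have h1 : ENNReal.ofReal t ≠ 0 := by simpa using ht
  have h2 : ENNReal.ofReal t⁻¹ ≠ 0 := by simpa using ht
  by_cases hx : x = ⊤
  · subst hx
    have : ENNReal.ofReal t * ⊤ ^ 2 = ⊤ := by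
      rw [ENNReal.top_pow (by norm_num), ENNReal.mul_top h1]
    rw [this, top_add]; exact le_top
  by_cases hy : y = ⊤
  · subst hy
    have : ENNReal.ofReal t⁻¹ * ⊤ ^ 2 = ⊤ := by
      rw [ENNReal.top_pow (by norm_num), ENNReal.mul_top h2]
    rw [this, add_top]; exact le_top
  have hx0 : 0 ≤ x.toReal := ENNReal.toReal_nonneg
  have hy0 : 0 ≤ y.toReal := ENNReal.toReal_nonneg
  rw [← ENNReal.ofReal_toReal hx, ← ENNReal.ofReal_toReal hy]
  generalize x.toReal = a at hx0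
  generalize y.toReal = b at hy0
  have hti : 0 < t⁻¹ := inv_pos.2 ht
  rw [← ENNReal.ofReal_pow hx0, ← ENNReal.ofReal_pow hy0, ← ENNReal.ofReal_mul ht.le,
    ← ENNReal.ofReal_mul hti.le, ← ENNReal.ofReal_add (by positivity) (by positivity),
    ← ENNReal.ofReal_mul hx0, ← ENNReal.ofReal_ofNat 2, ← ENNReal.ofReal_mul (by norm_num)]
  refine ENNReal.ofReal_le_ofReal ?_
  have h3 : t * a ^ 2 + t⁻¹ * b ^ 2 - 2 * (a * b) = t⁻¹ * (t * a - b) ^ 2 := by
    field_simp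
    ring
  have h4 : 0 ≤ t⁻¹ * (t * a - b) ^ 2 := by positivity
  linarith

theorem fk_exp_le (x : ℝ) (h0 : 0 ≤ x) (h1 : x ≤ 1) : Real.exp x ≤ 1 + 2 * x := by
  have h := Real.abs_exp_sub_one_le (x := x) (by rw [abs_of_nonneg h0]; exact h1)
  rw [abs_of_nonneg h0] at h
  have := le_abs_self (Real.exp x - 1)
  linarith

/-- The bilinear bound. -/
theorem fk_bilin {Ω : Type} [MeasurableSpace Ω] (Q : Measure Ω) (G F : Ω → ℝ≥0∞)
    (hG : Measurable G) (hF : Measurable F) (hG1 : ∫⁻ p, G p ^ 2 ∂Q ≤ 1)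
    (hF1 : ∫⁻ p, F p ^ 2 ∂Q ≤ 1) (ψ : Ω → ℝ) (hψ : Measurable ψ) (M β δ e t : ℝ)
    (h0 : ∀ p, 0 ≤ ψ p) (hM : ∀ p, ψ p ≤ M) (hM0 : 0 ≤ M) (hβ : 0 ≤ β) (hβδ : β * M ≤ δ)
    (hβ1 : β * M ≤ 1) (he : 0 ≤ e) (ht : 0 < t)
    (H : ENNReal.ofReal (1 - δ) ≤ ∫⁻ p, G p * F p ∂Q →
      ∫⁻ p, G p ^ 2 * ENNReal.ofReal (ψ p) ∂Q ≤ ENNReal.ofReal e) :
    ∫⁻ p, G p * (ENNReal.ofReal (Real.exp (β * ψ p)) * F p) ∂Q ≤
      ENNReal.ofReal (1 + β * (t * e + t⁻¹ * M)) := by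
  have hti : 0 < t⁻¹ := inv_pos.2 ht
  have hrest : 0 ≤ β * (t * e + t⁻¹ * M) := by positivity
  have hGFm : Measurable fun p => G p * F p := hG.mul hF
  by_cases hc : ENNReal.ofReal (1 - δ) ≤ ∫⁻ p, G p * F p ∂Q
  · have H1 := H hc
    have hGF : ∫⁻ p, G p * F p ∂Q ≤ 1 := by
      have h2 : 2 * ∫⁻ p, G p * F p ∂Q ≤ 2 * 1 := by
        rw [← lintegral_const_mul _ hGFm]
        calc ∫⁻ p, 2 * (G p * F p) ∂Q ≤ ∫⁻ p, (G p ^ 2 + F p ^ 2) ∂Q := by
              refine lintegral_mono fun p => ?_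
              simpa using fk_amgm (G p) (F p) 1 one_pos
          _ = ∫⁻ p, G p ^ 2 ∂Q + ∫⁻ p, F p ^ 2 ∂Q := lintegral_add_left (hG.pow_const 2) _
          _ ≤ 1 + 1 := add_le_add hG1 hF1
          _ = 2 * 1 := by norm_num
      exact (ENNReal.mul_le_mul_iff_right (by norm_num) (by norm_num)).1 h2
    have hψm : Measurable fun p => ENNReal.ofReal (ψ p) := hψ.ennreal_ofReal
    calc ∫⁻ p, G p * (ENNReal.ofReal (Real.exp (β * ψ p)) * F p) ∂Q
        ≤ ∫⁻ p, (G p * F p + (ENNReal.ofReal (β * t) * (G p ^ 2 * ENNReal.ofReal (ψ p)) +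
            ENNReal.ofReal (β * (t⁻¹ * M)) * F p ^ 2)) ∂Q := by
          refine lintegral_mono fun p => ?_
          have h1 : Real.exp (β * ψ p) ≤ 1 + 2 * (β * ψ p) :=
            fk_exp_le _ (mul_nonneg hβ (h0 p))
              ((mul_le_mul_of_nonneg_left (hM p) hβ).trans hβ1)
          have h2 : ENNReal.ofReal (Real.exp (β * ψ p)) ≤
              1 + 2 * (ENNReal.ofReal β * ENNReal.ofReal (ψ p)) := by
            refine (ENNReal.ofReal_le_ofReal h1).trans (le_of_eq ?_)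
            rw [ENNReal.ofReal_add zero_le_one (by have := h0 p; positivity),
              ENNReal.ofReal_mul (by norm_num), ENNReal.ofReal_mul hβ]
            simp
          have h3 := fk_amgm (G p) (F p) t ht
          have h4 : ENNReal.ofReal (ψ p) ≤ ENNReal.ofReal M := ENNReal.ofReal_le_ofReal (hM p)
          calc G p * (ENNReal.ofReal (Real.exp (β * ψ p)) * F p)
              ≤ G p * ((1 + 2 * (ENNReal.ofReal β * ENNReal.ofReal (ψ p))) * F p) := by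
                gcongr
            _ = G p * F p + (ENNReal.ofReal β * ENNReal.ofReal (ψ p)) * (2 * (G p * F p)) := by
                ring
            _ ≤ G p * F p + (ENNReal.ofReal β * ENNReal.ofReal (ψ p)) *
                (ENNReal.ofReal t * G p ^ 2 + ENNReal.ofReal t⁻¹ * F p ^ 2) := by gcongr
            _ = G p * F p + (ENNReal.ofReal β * ENNReal.ofReal t *
                (G p ^ 2 * ENNReal.ofReal (ψ p)) + ENNReal.ofReal β *
                  (ENNReal.ofReal t⁻¹ * ENNReal.ofReal (ψ p)) * F p ^ 2) := by ring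
            _ ≤ G p * F p + (ENNReal.ofReal β * ENNReal.ofReal t *
                (G p ^ 2 * ENNReal.ofReal (ψ p)) + ENNReal.ofReal β *
                  (ENNReal.ofReal t⁻¹ * ENNReal.ofReal M) * F p ^ 2) := by gcongr
            _ = _ := by
                rw [ENNReal.ofReal_mul hβ, ENNReal.ofReal_mul hβ, ENNReal.ofReal_mul hti.le]
      _ = ∫⁻ p, G p * F p ∂Q + (ENNReal.ofReal (β * t) *
            ∫⁻ p, G p ^ 2 * ENNReal.ofReal (ψ p) ∂Q +
            ENNReal.ofReal (β * (t⁻¹ * M)) * ∫⁻ p, F p ^ 2 ∂Q) := by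
          have hm2 : Measurable fun p => G p ^ 2 * ENNReal.ofReal (ψ p) :=
            (hG.pow_const 2).mul hψm
          rw [lintegral_add_left hGFm, lintegral_add_left (hm2.const_mul _),
            lintegral_const_mul _ hm2, lintegral_const_mul _ (hF.pow_const 2)]
      _ ≤ 1 + (ENNReal.ofReal (β * t) * ENNReal.ofReal e +
            ENNReal.ofReal (β * (t⁻¹ * M)) * 1) := by gcongr
      _ = _ := by
          rw [mul_one, ← ENNReal.ofReal_mul (by positivity),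
            ← ENNReal.ofReal_add (by positivity) (by positivity),
            ENNReal.ofReal_add zero_le_one hrest, ENNReal.ofReal_one]
          congr 2
          ring
  · push Not at hc
    calc ∫⁻ p, G p * (ENNReal.ofReal (Real.exp (β * ψ p)) * F p) ∂Q
        ≤ ∫⁻ p, ENNReal.ofReal (Real.exp δ) * (G p * F p) ∂Q := by
          refine lintegral_mono fun p => ?_
          have h1 : ENNReal.ofReal (Real.exp (β * ψ p)) ≤ ENNReal.ofReal (Real.exp δ) :=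
            ENNReal.ofReal_le_ofReal (Real.exp_le_exp.2
              ((mul_le_mul_of_nonneg_left (hM p) hβ).trans hβδ))
          calc G p * (ENNReal.ofReal (Real.exp (β * ψ p)) * F p)
              ≤ G p * (ENNReal.ofReal (Real.exp δ) * F p) := by gcongr
            _ = _ := by ring
      _ = ENNReal.ofReal (Real.exp δ) * ∫⁻ p, G p * F p ∂Q := lintegral_const_mul _ (hG.mul hF)
      _ ≤ ENNReal.ofReal (Real.exp δ) * ENNReal.ofReal (1 - δ) := by gcongr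
      _ = ENNReal.ofReal (Real.exp δ * (1 - δ)) := (ENNReal.ofReal_mul (Real.exp_pos _).le).symm
      _ ≤ _ := by
          refine ENNReal.ofReal_le_ofReal ?_
          have h1 : 1 - δ ≤ Real.exp (-δ) := by linarith [Real.add_one_le_exp (-δ)]
          have h2 : Real.exp δ * (1 - δ) ≤ Real.exp δ * Real.exp (-δ) :=
            mul_le_mul_of_nonneg_left h1 (Real.exp_pos _).le
          rw [← Real.exp_add, add_neg_cancel, Real.exp_zero] at h2
          linarith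

theorem fk_exists_sqrt (I : ℝ≥0∞) (h0 : I ≠ 0) (h1 : I ≠ ⊤) :
    ∃ a : ℝ≥0∞, a ≠ 0 ∧ a ≠ ⊤ ∧ a ^ 2 = I := by
  refine ⟨ENNReal.ofReal (Real.sqrt I.toReal), ?_, ENNReal.ofReal_ne_top, ?_⟩
  · have : 0 < I.toReal := ENNReal.toReal_pos h0 h1
    simpa using this
  · rw [← ENNReal.ofReal_pow (Real.sqrt_nonneg _), Real.sq_sqrt ENNReal.toReal_nonneg,
      ENNReal.ofReal_toReal h1]

/-- From the bilinear bound to the operator norm bound. -/
theorem fk_norm {Y W : Type} [MeasurableSpace Y] [MeasurableSpace W] (μ : Measure Y)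
    (ν : Measure W) [SFinite ν] (w : Y × W → ℝ≥0∞) (hw : Measurable w) (Z : Y × W → Y)
    (hZ : Measurable Z) (L : ℝ≥0∞)
    (H : ∀ f g : Y → ℝ≥0∞, Measurable f → Measurable g → ∫⁻ y, f y ^ 2 ∂μ ≤ 1 →
      ∫⁻ y, g y ^ 2 ∂μ ≤ 1 → ∫⁻ p, g p.1 * (w p * f (Z p)) ∂(μ.prod ν) ≤ L)
    (h h' : Y → ℝ≥0∞) (hh : Measurable h) (hh' : Measurable h')
    (he : ∀ y, h' y = ∫⁻ ω, w (y, ω) * h (Z (y, ω)) ∂ν)
    (h0 : ∫⁻ y, h y ^ 2 ∂μ ≠ 0) (h1 : ∫⁻ y, h y ^ 2 ∂μ ≠ ⊤)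
    (h0' : ∫⁻ y, h' y ^ 2 ∂μ ≠ 0) (h1' : ∫⁻ y, h' y ^ 2 ∂μ ≠ ⊤) :
    ∫⁻ y, h' y ^ 2 ∂μ ≤ L ^ 2 * ∫⁻ y, h y ^ 2 ∂μ := by
  obtain ⟨a, ha0, ha1, ha⟩ := fk_exists_sqrt _ h0 h1
  obtain ⟨b, hb0, hb1, hb⟩ := fk_exists_sqrt _ h0' h1'
  have hn : ∀ (u : Y → ℝ≥0∞) (s : ℝ≥0∞), Measurable u → s ≠ 0 → s ≠ ⊤ →
      s ^ 2 = ∫⁻ y, u y ^ 2 ∂μ → ∫⁻ y, (s⁻¹ * u y) ^ 2 ∂μ ≤ 1 := by
    intro u s hu hs0 hs1 hs
    simp_rw [mul_pow]
    rw [lintegral_const_mul _ (hu.pow_const 2), ← hs, ← mul_pow, ENNReal.inv_mul_cancel hs0 hs1,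
      one_pow]
  have H1 := H (fun y => a⁻¹ * h y) (fun y => b⁻¹ * h' y) (hh.const_mul _) (hh'.const_mul _)
    (hn h a hh ha0 ha1 ha) (hn h' b hh' hb0 hb1 hb)
  have hm : Measurable fun p : Y × W => w p * h (Z p) := hw.mul (hh.comp hZ)
  have H2 : ∫⁻ p, (b⁻¹ * h' p.1) * (w p * (a⁻¹ * h (Z p))) ∂(μ.prod ν) = a⁻¹ * b := by
    have e1 : ∀ p : Y × W, (b⁻¹ * h' p.1) * (w p * (a⁻¹ * h (Z p))) =
        (a⁻¹ * b⁻¹) * (h' p.1 * (w p * h (Z p))) := fun p => by ring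
    simp_rw [e1]
    have hm2 : Measurable fun p : Y × W => h' p.1 * (w p * h (Z p)) :=
      (hh'.comp measurable_fst).mul hm
    rw [lintegral_const_mul _ hm2, lintegral_prod _ hm2.aemeasurable]
    have e2 : ∀ y, ∫⁻ ω, h' (y, ω).1 * (w (y, ω) * h (Z (y, ω))) ∂ν = h' y ^ 2 := by
      intro y
      have hm3 : Measurable fun ω => w (y, ω) * h (Z (y, ω)) := hm.comp measurable_prodMk_left
      rw [lintegral_const_mul (h' y) hm3, ← he y, sq]
    simp_rw [e2]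
    rw [← hb, sq, mul_assoc, ← mul_assoc b⁻¹, ENNReal.inv_mul_cancel hb0 hb1, one_mul]
  have H3 : a⁻¹ * b ≤ L := H2 ▸ H1
  have H4 : b ≤ L * a := by
    calc b = a * (a⁻¹ * b) := by rw [← mul_assoc, ENNReal.mul_inv_cancel ha0 ha1, one_mul]
      _ ≤ a * L := by gcongr
      _ = L * a := mul_comm _ _
  rw [← ha, ← hb, ← mul_pow]
  gcongr

end Vale.Agent.P188
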