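import Vale.Agent.P188.LayerB

/-! P188: the Hellinger affinity of the layer noise. -/

namespace Vale.Agent.P188

open Function MeasureTheory Filter
open scoped Topology

/-- Variational form of a lower bound for the affinity of two Bernoulli laws. -/
def Aff (η p q : ℝ) : Prop :=
  ∀ l μ : ℝ, 0 < l → 0 < μ → 2 * η ≤ l * p + μ * (1 - p) + (q / l + (1 - q) / μ)

theorem Aff.mono {η η' p q : ℝ} (h : Aff η p q) (h' : η' ≤ η) : Aff η' p q :=
  fun l μ h1 h2 => le_trans (by linarith) (h l μ h1 h2)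

theorem aff_self {p : ℝ} (h0 : 0 ≤ p) (h1 : p ≤ 1) : Aff 1 p p := by
  have h : ∀ l : ℝ, 0 < l → 2 ≤ l + l⁻¹ := fun l hl => by
    rw [← sub_nonneg, show l + l⁻¹ - 2 = (l - 1) ^ 2 / l by field_simp; ring]
    positivity
  intro l μ h2 h3
  rw [div_eq_mul_inv, div_eq_mul_inv]
  nlinarith [mul_le_mul_of_nonneg_left (h l h2) h0,
    mul_le_mul_of_nonneg_left (h μ h3) (sub_nonneg.2 h1)]

theorem aff_eq {p q : ℝ} (h0 : 0 ≤ p) (h1 : p ≤ 1) (h2 : 0 ≤ q) (h3 : q ≤ 1)
    (h : ∀ ε > 0, Aff (1 - ε) p q) : p = q := by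
  have h4 : ∀ x : ℝ, -1 / 2 ≤ x → (1 + x)⁻¹ ≤ 1 - x + 2 * x ^ 2 := fun x hx => by
    rw [inv_le_iff_one_le_mul₀ (by linarith)]
    nlinarith [mul_nonneg (sq_nonneg x) (show 0 ≤ 1 + 2 * x by linarith)]
  have h5 : Aff 1 p q := fun l μ h5 h6 => le_of_forall_pos_le_add fun ε hε => by
    linarith [h (ε / 2) (by positivity) l μ h5 h6]
  have h6 := h5 (1 + (q - p) / 2) (1 + -((q - p) / 2)) (by linarith) (by linarith)
  rw [div_eq_mul_inv q, div_eq_mul_inv (1 - q)] at h6
  have h7 := mul_le_mul_of_nonneg_left (h4 ((q - p) / 2) (by linarith)) h2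
  have h8 := mul_le_mul_of_nonneg_left (h4 (-((q - p) / 2)) (by linarith)) (sub_nonneg.2 h3)
  nlinarith [sq_nonneg (p - q)]

theorem Aff.scale {η p q u v l μ : ℝ} (h : Aff η p q) (h0 : 0 ≤ p) (h1 : p ≤ 1) (h2 : 0 ≤ q)
    (h3 : q ≤ 1) (hu : 0 ≤ u) (hv : 0 ≤ v) (hl : 0 < l) (hμ : 0 < μ) :
    2 * η * (u * v) ≤ (l * p + μ * (1 - p)) * u ^ 2 + (q / l + (1 - q) / μ) * v ^ 2 := by
  have h4 := sub_nonneg.2 h1
  have h5 := sub_nonneg.2 h3
  rcases hu.eq_or_lt with rfl | hu
  · rw [zero_mul, mul_zero]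
    positivity
  rcases hv.eq_or_lt with rfl | hv
  · rw [mul_zero, mul_zero]
    positivity
  refine (mul_le_mul_of_nonneg_right (h (l * u / v) (μ * u / v) (by positivity) (by positivity))
    (by positivity)).trans_eq ?_
  field_simp

theorem noiseM_eq (m : ℕ) :
    noiseM m = volume.withDensity fun t => ENNReal.ofReal (∏ i, dens (t i)) := by
  refine Measure.pi_eq fun s hs => ?_
  have hms : MeasurableSet (Set.univ.pi s) := MeasurableSet.univ_pi hs
  have hint : Integrable fun x : Fin m → ℝ => ∏ i, dens (x i) :=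
    Integrable.fintype_prod fun _ => integrable_dens
  rw [withDensity_apply _ hms, ← ofReal_integral_eq_lintegral_ofReal hint.integrableOn
    (Eventually.of_forall fun x => Finset.prod_nonneg fun i _ => dens_nonneg _),
    ← integral_indicator hms]
  have : (Set.univ.pi s).indicator (fun x : Fin m → ℝ => ∏ i, dens (x i))
      = fun x => ∏ i, (s i).indicator dens (x i) := by
    ext x
    by_cases hx : x ∈ Set.univ.pi s
    · rw [Set.indicator_of_mem hx]
      exact Finset.prod_congr rfl fun i _ => (Set.indicator_of_mem (hx i trivial) _).symm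
    · rw [Set.indicator_of_notMem hx]
      simp only [Set.mem_pi, Set.mem_univ, true_imp_iff, not_forall] at hx
      obtain ⟨i, hi⟩ := hx
      exact (Finset.prod_eq_zero (Finset.mem_univ i) (Set.indicator_of_notMem hi _)).symm
  rw [this, volume_pi, integral_fintype_prod_eq_prod (fun i => (s i).indicator dens),
    ENNReal.ofReal_prod_of_nonneg (fun i _ => integral_nonneg
      (Set.indicator_nonneg fun x _ => dens_nonneg x))]
  refine Finset.prod_congr rfl fun i _ => ?_
  rw [rho1, withDensity_apply _ (hs i), integral_indicator (hs i),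
    ofReal_integral_eq_lintegral_ofReal integrable_dens.integrableOn
      (ae_of_all _ fun x => dens_nonneg x)]

theorem integral_noiseM {m : ℕ} (f : (Fin m → ℝ) → ℝ) :
    ∫ t, f t ∂noiseM m = ∫ t, f t * ∏ i, dens (t i) := by
  rw [noiseM_eq, integral_withDensity_eq_integral_toReal_smul (by
    have := continuous_dens
    fun_prop) (ae_of_all _ fun _ => ENNReal.ofReal_lt_top)]
  refine integral_congr_ae (ae_of_all _ fun t => ?_)
  simp only [ENNReal.toReal_ofReal (Finset.prod_nonneg fun i _ => dens_nonneg (t i)), smul_eq_mul,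
    mul_comm]

theorem fp_mix (δ : ℝ) :
    Integrable fun s : ℝ => 3 / 2 * (max (1 - |s|) 0 * max (1 - |s - δ|) 0) := by
  refine (integrable_dens.add (integrable_dens.comp_sub_right δ)).mono'
    (Continuous.aestronglyMeasurable (by fun_prop)) (ae_of_all _ fun s => ?_)
  rw [Real.norm_of_nonneg (by positivity)]
  simp only [Pi.add_apply, dens]
  nlinarith [sq_nonneg (max (1 - |s|) 0 - max (1 - |s - δ|) 0), sq_nonneg (max (1 - |s|) 0),
    sq_nonneg (max (1 - |s - δ|) 0)]

theorem fp_alpha {δ : ℝ} (h : |δ| ≤ 1) :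
    1 - 3 * δ ^ 2 ≤ ∫ s : ℝ, 3 / 2 * (max (1 - |s|) 0 * max (1 - |s - δ|) 0) := by
  have h1 : Integrable ((Set.Icc (-2 : ℝ) 2).indicator fun _ => 3 / 4 * δ ^ 2) :=
    (integrable_indicator_iff measurableSet_Icc).2 (integrableOn_const (by simp))
  have h2 := integrable_dens.comp_sub_right δ
  have h0 : Integrable fun s => 1 / 2 * (dens s + dens (s - δ)) :=
    (integrable_dens.add h2).const_mul _
  refine le_trans (le_of_eq ?_) (integral_mono (h0.sub h1) (fp_mix δ) fun s => ?_)
  · simp only [Pi.sub_apply]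
    rw [integral_sub h0 h1, integral_const_mul,
      integral_add integrable_dens h2, integral_sub_right_eq_self dens δ, integral_dens,
      integral_indicator measurableSet_Icc]
    simp
    ring
  · simp only [Pi.sub_apply, dens]
    by_cases hs : s ∈ Set.Icc (-2 : ℝ) 2
    · rw [Set.indicator_of_mem hs]
      have h3 : |max (1 - |s|) 0 - max (1 - |s - δ|) 0| ≤ |δ| := by
        refine (abs_max_sub_max_le_abs _ _ _).trans ?_
        rw [sub_sub_sub_cancel_left]
        simpa using abs_abs_sub_abs_le_abs_sub (s - δ) s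
      nlinarith [sq_le_sq.2 h3]
    · have h3 : 2 < |s| := by
        by_contra h3
        exact hs (abs_le.1 (not_lt.1 h3))
      have h4 : 1 ≤ |s - δ| := by linarith [abs_sub_abs_le_abs_sub s δ]
      simp [Set.indicator_of_notMem hs, max_eq_right (sub_nonpos.2 h4),
        max_eq_right (show 1 - |s| ≤ 0 by linarith)]

theorem fp_step {m : ℕ} {a b : (Fin m → ℝ) → ℝ} (ha : Measurable a) (hb : Measurable b)
    (ha' : ∀ t, 0 ≤ a t ∧ a t ≤ 1) (hb' : ∀ t, 0 ≤ b t ∧ b t ≤ 1) {δ : Fin m → ℝ} {ε η : ℝ}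
    (hε : ε ≤ 1 / 2) (hδ : ‖δ‖ ≤ ε) (hη : 0 ≤ η) (h : ∀ t, Aff η (a t) (b (t - δ))) :
    Aff (η * (1 - 3 * ε ^ 2) ^ m) (∫ t, a t ∂noiseM m) (∫ t, b t ∂noiseM m) := by
  intro l μ hl hμ
  have hi : ∀ {a : (Fin m → ℝ) → ℝ}, Measurable a → (∀ t, 0 ≤ a t ∧ a t ≤ 1) → ∀ l μ : ℝ,
      l * ∫ t, a t ∂noiseM m + μ * (1 - ∫ t, a t ∂noiseM m) =
        ∫ t, (l * a t + μ * (1 - a t)) * ∏ i, dens (t i) ∧
      Integrable fun t => (l * a t + μ * (1 - a t)) * ∏ i, dens (t i) := by
    intro a ha ha' l μ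
    have h1 : Integrable a (noiseM m) := Integrable.of_bound ha.aestronglyMeasurable 1
      (ae_of_all _ fun t => by rw [Real.norm_of_nonneg (ha' t).1]; exact (ha' t).2)
    constructor
    · have h2 : Integrable (fun t => μ * (1 - a t)) (noiseM m) :=
        ((integrable_const _).sub h1).const_mul _
      rw [← integral_noiseM, integral_add (h1.const_mul _) h2, integral_const_mul,
        integral_const_mul, integral_sub (integrable_const _) h1]
      simp
    · refine (Integrable.fintype_prod fun _ => integrable_dens).bdd_mul (c := |l| + |μ|)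
        (Measurable.aestronglyMeasurable (by fun_prop)) (ae_of_all _ fun t => ?_)
      refine (norm_add_le _ _).trans (add_le_add ?_ ?_) <;> rw [norm_mul] <;>
        refine mul_le_of_le_one_right (norm_nonneg _) (abs_le.2 ⟨?_, ?_⟩) <;>
        linarith [(ha' t).1, (ha' t).2]
  obtain ⟨h1, h2⟩ := hi ha ha' l μ
  obtain ⟨h3, h4⟩ := hi hb hb' l⁻¹ μ⁻¹
  rw [← integral_sub_right_eq_self (μ := volume) _ δ] at h3
  rw [div_eq_inv_mul, div_eq_inv_mul, h3, h1, ← integral_add h2 (h4.comp_sub_right δ)]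
  have h0 : 0 ≤ ε := (norm_nonneg _).trans hδ
  have h5 : (1 - 3 * ε ^ 2) ^ m ≤
      ∫ t : Fin m → ℝ, ∏ i, 3 / 2 * (max (1 - |t i|) 0 * max (1 - |t i - δ i|) 0) := by
    rw [integral_fintype_prod_volume_eq_prod
      fun i (s : ℝ) => 3 / 2 * (max (1 - |s|) 0 * max (1 - |s - δ i|) 0)]
    refine le_of_eq_of_le (by simp) (Finset.prod_le_prod (f := fun _ => 1 - 3 * ε ^ 2)
      (fun _ _ => by nlinarith) fun i _ => ?_)
    have h6 : |δ i| ≤ ε := (norm_le_pi_norm δ i).trans hδ
    refine le_trans ?_ (fp_alpha (by linarith))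
    nlinarith [sq_abs (δ i), abs_nonneg (δ i)]
  rw [← mul_assoc]
  refine (mul_le_mul_of_nonneg_left h5 (by positivity)).trans ?_
  rw [← integral_const_mul]
  refine integral_mono ((Integrable.fintype_prod fun i => fp_mix (δ i)).const_mul _)
    (h2.add (h4.comp_sub_right δ)) fun t => ?_
  have h6 := mul_le_mul_of_nonneg_left ((h t).scale (ha' t).1 (ha' t).2 (hb' _).1 (hb' _).2
    (u := ∏ i, max (1 - |t i|) 0) (v := ∏ i, max (1 - |t i - δ i|) 0) (by positivity)
    (by positivity) hl hμ) (show (0 : ℝ) ≤ (3 / 2) ^ m by positivity)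
  simp only [dens, Finset.prod_mul_distrib, Finset.prod_const, Finset.card_univ, Fintype.card_fin,
    Finset.prod_pow, Pi.sub_apply]
  rw [div_eq_inv_mul (b _), div_eq_inv_mul (1 - b _)] at h6
  linarith

end Vale.Agent.P188
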