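import Vale.Agent.P188.Stmts

/-! Controlled chains on a group with labels in a `G`-set, and their homology. -/

namespace Vale.Agent.P188.Fn

open Function Finsupp

noncomputable section

section Ker

variable {α β γ M N : Type} [AddCommGroup M] [Module ℚ M] [AddCommGroup N] [Module ℚ N]

/-- the augmented boundary of a list -/
def bd : List α → (List α →₀ ℚ)
  | [] => 0
  | x :: l => single l 1 - mapDomain (x :: ·) (bd l)

/-- the boundary of a list -/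
def bd1 (l : List α) : List α →₀ ℚ := if l.length ≤ 1 then 0 else bd l

/-- a kernel applied to a locally finite chain -/
def app (D : α → β →₀ ℚ) (c : α → M) : β → M := fun τ => ∑ᶠ σ, D σ τ • c σ

/-- the boundary of a chain -/
def dd (c : List α → M) : List α → M := app bd1 c

theorem bd_supp {σ τ : List α} (h : bd σ τ ≠ 0) : τ.length + 1 = σ.length ∧ ∀ y ∈ τ, y ∈ σ := by
  classical
  induction σ generalizing τ with
  | nil => simp [bd] at h
  | cons x l ih =>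
    by_cases e : l = τ
    · subst e; exact ⟨rfl, fun y hy => List.mem_cons_of_mem _ hy⟩
    · have h2 : mapDomain (x :: ·) (bd l) τ ≠ 0 := by simpa [bd, e] using h
      obtain ⟨τ', h3, rfl⟩ := Finset.mem_image.1 (mapDomain_support (mem_support_iff.2 h2))
      obtain ⟨h4, h5⟩ := ih (mem_support_iff.1 h3)
      refine ⟨by simp [h4], fun y hy => ?_⟩
      rcases List.mem_cons.1 hy with rfl | hy
      exacts [List.mem_cons_self, List.mem_cons_of_mem _ (h5 y hy)]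

theorem bd1_supp {σ τ : List α} (h : bd1 σ τ ≠ 0) :
    τ ≠ [] ∧ τ.length + 1 = σ.length ∧ ∀ y ∈ τ, y ∈ σ := by
  unfold bd1 at h
  split_ifs at h with h1
  · simp at h
  · obtain ⟨h2, h3⟩ := bd_supp h
    refine ⟨?_, h2, h3⟩
    rintro rfl
    simp at h2; omega

theorem lc_bd_cons (x : α) (v : List α →₀ ℚ) : linearCombination ℚ bd (mapDomain (x :: ·) v) =
    v - mapDomain (x :: ·) (linearCombination ℚ bd v) := by
  induction v using Finsupp.induction_linear with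
  | zero => simp
  | add u v hu hv => simp only [mapDomain_add, map_add, hu, hv]; abel
  | single l a => simp [bd, smul_sub, mapDomain_smul]

theorem bd_bd (σ : List α) : linearCombination ℚ bd (bd σ) = 0 := by
  induction σ with
  | nil => simp [bd]
  | cons x l ih => rw [bd, map_sub, lc_bd_cons, ih]; simp

theorem lc_congr {D D' : α → β →₀ ℚ} {v : α →₀ ℚ} (h : ∀ a, v a ≠ 0 → D a = D' a) :
    linearCombination ℚ D v = linearCombination ℚ D' v := by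
  simp only [linearCombination_apply]
  exact Finsupp.sum_congr fun a ha => by rw [h a (mem_support_iff.1 ha)]

theorem bd1_bd1 (σ : List α) : linearCombination ℚ bd1 (bd1 σ) = 0 := by
  by_cases h : σ.length ≤ 2
  · rw [lc_congr (D := bd1) (D' := fun _ => 0) (v := bd1 σ) fun τ hτ =>
      if_pos (by have := (bd1_supp hτ).2.1; omega)]
    simp [linearCombination_apply, Finsupp.sum]
  · rw [lc_congr (D := bd1) (D' := bd) (v := bd1 σ) fun τ hτ =>
      if_neg (by have := (bd1_supp hτ).2.1; omega), bd1, if_neg (by omega), bd_bd]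

theorem app_congr {D D' : α → β →₀ ℚ} {c : α → M} (h : ∀ σ, c σ ≠ 0 → D σ = D' σ) :
    app D c = app D' c := by
  funext τ
  refine finsum_congr fun σ => ?_
  by_cases hc : c σ = 0
  · simp [hc]
  · rw [h σ hc]

theorem app_zero (D : α → β →₀ ℚ) : app D (0 : α → M) = 0 := by funext τ; simp [app]

theorem app_zero_left (c : α → M) : app (fun _ => (0 : β →₀ ℚ)) c = 0 := by funext τ; simp [app]

theorem app_one (c : α → M) : app (fun σ => single σ 1) c = c := by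
  classical
  funext τ
  rw [app, finsum_eq_single _ τ fun σ h => by simp [single_apply, h]]
  simp

theorem app_ne {D : α → β →₀ ℚ} {c : α → γ →₀ ℚ} {τ : β} {p : γ} (h : app D c τ p ≠ 0) :
    ∃ σ, D σ τ ≠ 0 ∧ c σ p ≠ 0 := by
  by_contra hc
  push Not at hc
  refine h (finsum_induction (fun v : γ →₀ ℚ => v p = 0) rfl (fun u v hu hv => by simp [hu, hv])
    fun σ => ?_)
  by_cases h1 : D σ τ = 0
  · simp [h1]
  · simp [hc σ h1]

/-- local finiteness of a kernel on a chain -/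
def Loc (D : α → β →₀ ℚ) (c : α → M) : Prop := ∀ τ, {σ | c σ ≠ 0 ∧ D σ τ ≠ 0}.Finite

theorem Loc.fin {D : α → β →₀ ℚ} {c : α → M} (h : Loc D c) (τ : β) :
    HasFiniteSupport fun σ => D σ τ • c σ :=
  (h τ).subset fun σ hσ => ⟨fun e => hσ (by simp [e]), fun e => hσ (by simp [e])⟩

theorem app_add {D : α → β →₀ ℚ} {c c' : α → M} (h : Loc D c) (h' : Loc D c') :
    app D (c + c') = app D c + app D c' := by
  funext τ
  simp only [app, Pi.add_apply, smul_add]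
  exact finsum_add_distrib (h.fin τ) (h'.fin τ)

theorem app_map {D : α → β →₀ ℚ} {c : α → M} (h : Loc D c) (φ : M →ₗ[ℚ] N) :
    app D (fun σ => φ (c σ)) = fun τ => φ (app D c τ) := by
  funext τ
  simp only [app, map_finsum φ (h.fin τ), map_smul]

theorem app_smul {D : α → β →₀ ℚ} {c : α → M} (h : Loc D c) (a : ℚ) :
    app D (a • c) = a • app D c := app_map h (a • LinearMap.id)

theorem app_add_left {D D' : α → β →₀ ℚ} {c : α → M} (h : Loc D c) (h' : Loc D' c) :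
    app (fun σ => D σ + D' σ) c = app D c + app D' c := by
  funext τ
  simp only [app, Pi.add_apply, Finsupp.add_apply, add_smul]
  exact finsum_add_distrib (h.fin τ) (h'.fin τ)

theorem app_sub_left {D D' : α → β →₀ ℚ} {c : α → M} (h : Loc D c) (h' : Loc D' c) :
    app (fun σ => D σ - D' σ) c = app D c - app D' c := by
  funext τ
  simp only [app, Pi.sub_apply, Finsupp.sub_apply, sub_smul]
  exact finsum_sub_distrib (h.fin τ) (h'.fin τ)

theorem app_comp {D : α → β →₀ ℚ} {D' : β → γ →₀ ℚ} {c : α → M}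
    (h : ∀ υ, {σ | c σ ≠ 0 ∧ ∃ τ, D σ τ ≠ 0 ∧ D' τ υ ≠ 0}.Finite) :
    app D' (app D c) = app (fun σ => linearCombination ℚ D' (D σ)) c := by
  funext υ
  have e1 : ∀ τ, D' τ υ • app D c τ = ∑ σ ∈ (h υ).toFinset, (D σ τ * D' τ υ) • c σ := fun τ => by
    by_cases h1 : D' τ υ = 0
    · simp [h1]
    · rw [app, finsum_eq_sum_of_support_subset (s := (h υ).toFinset), Finset.smul_sum]
      · exact Finset.sum_congr rfl fun σ _ => by rw [mul_comm, mul_smul]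
      · intro σ hσ
        simp only [Set.Finite.coe_toFinset]
        exact ⟨fun e => hσ (by simp [e]), τ, fun e => hσ (by simp [e]), h1⟩
  have e2 : ∀ σ, ∑ᶠ τ, (D σ τ * D' τ υ) • c σ = linearCombination ℚ D' (D σ) υ • c σ := fun σ => by
    rw [finsum_eq_sum_of_support_subset (s := (D σ).support), linearCombination_apply, Finsupp.sum,
      Finsupp.finsetSum_apply, Finset.sum_smul]
    · rfl
    · intro τ hτ
      exact mem_support_iff.2 fun e => hτ (by simp [e])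
  rw [app, app, finsum_congr e1, finsum_sum_comm, Finset.sum_congr rfl fun σ _ => e2 σ,
    finsum_eq_sum_of_support_subset]
  · intro σ hσ
    simp only [Set.Finite.coe_toFinset]
    refine ⟨fun e => hσ (by simp [e]), ?_⟩
    by_contra hc
    push Not at hc
    refine hσ ?_
    simp only [← e2]
    refine finsum_eq_zero_of_forall_eq_zero fun τ => ?_
    by_cases h1 : D σ τ = 0
    · simp [h1]
    · simp [hc τ h1]
  · intro σ _
    exact (D σ).support.finite_toSet.subset fun τ hτ => mem_support_iff.2 fun e => hτ (by simp [e])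

end Ker

variable {G X X' X'' : Type} [Group G] [MulAction G X] [MulAction G X'] [MulAction G X'']

/-- controlled chains of degree `m` -/
def Ctl (m : ℕ) (c : List G → X →₀ ℚ) : Prop :=
  ∃ (A : Set G) (E : Set X), A.Finite ∧ E.Finite ∧ ∀ l p, c l p ≠ 0 →
    l.length = m + 1 ∧ (∀ x ∈ l, ∀ y ∈ l, x⁻¹ * y ∈ A) ∧ ∀ x ∈ l, x⁻¹ • p ∈ E

variable {m : ℕ} {c c' : List G → X →₀ ℚ}

theorem Ctl.zero : Ctl m (0 : List G → X →₀ ℚ) :=
  ⟨∅, ∅, Set.finite_empty, Set.finite_empty, fun l p h => by simp at h⟩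

theorem Ctl.mono (h : Ctl m c) (e : ∀ l p, c' l p ≠ 0 → c l p ≠ 0) : Ctl m c' := by
  obtain ⟨A, E, hA, hE, h⟩ := h
  exact ⟨A, E, hA, hE, fun l p hp => h l p (e l p hp)⟩

theorem Ctl.add (h : Ctl m c) (h' : Ctl m c') : Ctl m (c + c') := by
  obtain ⟨A, E, hA, hE, h⟩ := h
  obtain ⟨A', E', hA', hE', h'⟩ := h'
  refine ⟨A ∪ A', E ∪ E', hA.union hA', hE.union hE', fun l p hp => ?_⟩
  by_cases h1 : c l p = 0
  · obtain ⟨a, b, d⟩ := h' l p (by simpa [h1] using hp)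
    exact ⟨a, fun x hx y hy => Or.inr (b x hx y hy), fun x hx => Or.inr (d x hx)⟩
  · obtain ⟨a, b, d⟩ := h l p h1
    exact ⟨a, fun x hx y hy => Or.inl (b x hx y hy), fun x hx => Or.inl (d x hx)⟩

theorem Ctl.smul (h : Ctl m c) (a : ℚ) : Ctl m (a • c) :=
  h.mono fun l p hp e => hp (by simp [e])

theorem Ctl.sub (h : Ctl m c) (h' : Ctl m c') : Ctl m (c - c') := by
  rw [sub_eq_add_neg, ← neg_one_smul ℚ c']; exact h.add (h'.smul _)

theorem Ctl.len (h : Ctl m c) {l : List G} (hl : c l ≠ 0) : l.length = m + 1 := by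
  obtain ⟨A, E, -, -, h⟩ := h
  obtain ⟨p, hp⟩ := DFunLike.ne_iff.1 hl
  exact (h l p hp).1

theorem finite_lists {α : Type} {P : Set α} (hP : P.Finite) (n : ℕ) :
    {l : List α | l.length = n ∧ ∀ x ∈ l, x ∈ P}.Finite := by
  haveI := hP.to_subtype
  refine ((List.finite_length_eq P n).image (List.map Subtype.val)).subset ?_
  rintro l ⟨h1, h2⟩
  exact ⟨l.attachWith (· ∈ P) h2, by simpa using h1, by simp⟩

theorem Ctl.fin (h : Ctl m c) {P : Set G} (hP : P.Finite) :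
    {σ | c σ ≠ 0 ∧ ∃ x ∈ σ, x ∈ P}.Finite := by
  obtain ⟨A, E, hA, -, h⟩ := h
  refine (finite_lists (hP.mul hA) (m + 1)).subset ?_
  rintro σ ⟨h1, x, hx, hxP⟩
  obtain ⟨p, hp⟩ := DFunLike.ne_iff.1 h1
  obtain ⟨a, b, -⟩ := h σ p hp
  exact ⟨a, fun y hy => ⟨x, hxP, _, b x hx y hy, by simp⟩⟩

theorem Ctl.loc (h : Ctl m c) : Loc bd1 c := fun τ => by
  refine (h.fin τ.finite_toSet).subset ?_
  rintro σ ⟨h1, h2⟩
  obtain ⟨a, -, b⟩ := bd1_supp h2
  obtain ⟨x, hx⟩ := List.exists_mem_of_ne_nil _ a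
  exact ⟨h1, x, b x hx, hx⟩

theorem Ctl.dd (h : Ctl (m + 1) c) : Ctl m (dd c) := by
  obtain ⟨A, E, hA, hE, h⟩ := h
  refine ⟨A, E, hA, hE, fun l p hp => ?_⟩
  obtain ⟨σ, h1, h2⟩ := app_ne hp
  obtain ⟨-, a, b⟩ := bd1_supp h1
  obtain ⟨d, e, f⟩ := h σ p h2
  exact ⟨by omega, fun x hx y hy => e x (b x hx) y (b y hy), fun x hx => f x (b x hx)⟩

theorem Ctl.dd_zero (h : Ctl 0 c) : Fn.dd c = 0 := by
  rw [Fn.dd, app_congr (D := bd1) (D' := fun _ => 0) (c := c) fun σ hσ => if_pos (h.len hσ).le,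
    app_zero_left]

theorem Ctl.dd_dd (h : Ctl m c) : Fn.dd (Fn.dd c) = 0 := by
  unfold Fn.dd
  rw [app_comp, ← app_zero_left c]
  · simp only [bd1_bd1]
  · intro υ
    refine (h.fin υ.finite_toSet).subset ?_
    rintro σ ⟨h1, τ, h2, h3⟩
    obtain ⟨a, -, b⟩ := bd1_supp h3
    obtain ⟨x, hx⟩ := List.exists_mem_of_ne_nil _ a
    exact ⟨h1, x, (bd1_supp h2).2.2 x (b x hx), hx⟩

theorem Ctl.dd_add {m' : ℕ} (h : Ctl m c) (h' : Ctl m' c') :
    Fn.dd (c + c') = Fn.dd c + Fn.dd c' := app_add h.loc h'.loc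

theorem Ctl.dd_smul (h : Ctl m c) (a : ℚ) : Fn.dd (a • c) = a • Fn.dd c := app_smul h.loc a

theorem Ctl.dd_sub {m' : ℕ} (h : Ctl m c) (h' : Ctl m' c') :
    Fn.dd (c - c') = Fn.dd c - Fn.dd c' := by
  rw [sub_eq_add_neg, ← neg_one_smul ℚ c', h.dd_add (h'.smul _), h'.dd_smul, neg_one_smul,
    sub_eq_add_neg]

theorem Ctl.dd_map {Y : Type} (h : Ctl m c) (φ : (X →₀ ℚ) →ₗ[ℚ] (Y →₀ ℚ)) :
    Fn.dd (fun l => φ (c l)) = fun l => φ (Fn.dd c l) := app_map h.loc φ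

variable (G X) in
/-- cycles -/
def Zc (m : ℕ) : Submodule ℚ (List G → X →₀ ℚ) where
  carrier := {c | Ctl m c ∧ dd c = 0}
  zero_mem' := ⟨Ctl.zero, app_zero _⟩
  add_mem' := fun h h' => ⟨h.1.add h'.1, by rw [h.1.dd_add h'.1, h.2, h'.2, add_zero]⟩
  smul_mem' := fun a _ h => ⟨h.1.smul a, by rw [h.1.dd_smul, h.2, smul_zero]⟩

variable (G X) in
/-- boundaries -/
def Bc (m : ℕ) : Submodule ℚ (List G → X →₀ ℚ) where
  carrier := {c | ∃ b, Ctl (m + 1) b ∧ dd b = c}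
  zero_mem' := ⟨0, Ctl.zero, app_zero _⟩
  add_mem' := by
    rintro _ _ ⟨b, hb, rfl⟩ ⟨b', hb', rfl⟩
    exact ⟨b + b', hb.add hb', hb.dd_add hb'⟩
  smul_mem' := by
    rintro a _ ⟨b, hb, rfl⟩
    exact ⟨a • b, hb.smul a, hb.dd_smul a⟩

variable (G X) in
/-- homology of controlled chains -/
def Hm (m : ℕ) : Type := Zc G X m ⧸ (Bc G X m).submoduleOf (Zc G X m)

instance : AddCommGroup (Hm G X m) := inferInstanceAs (AddCommGroup (_ ⧸ _))

instance : Module ℚ (Hm G X m) := inferInstanceAs (Module ℚ (_ ⧸ _))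

/-- the class of a cycle -/
def cls : Zc G X m →ₗ[ℚ] Hm G X m := Submodule.mkQ _

theorem cls_surj (z : Hm G X m) : ∃ c, cls c = z := Submodule.mkQ_surjective _ z

theorem cls_eq_zero {c : Zc G X m} : cls c = 0 ↔ ∃ b, Ctl (m + 1) b ∧ dd b = c.1 :=
  Submodule.Quotient.mk_eq_zero _

theorem cls_eq {c c' : Zc G X m} : cls c = cls c' ↔ ∃ b, Ctl (m + 1) b ∧ dd b = c.1 - c'.1 := by
  rw [← sub_eq_zero, ← map_sub, cls_eq_zero]; rfl

variable (G) in
/-- label maps that preserve control -/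
def Adm (φ : (X →₀ ℚ) →ₗ[ℚ] (X' →₀ ℚ)) : Prop :=
  ∀ E : Set X, E.Finite → ∃ E' : Set X', E'.Finite ∧
    ∀ (g : G) (v : X →₀ ℚ), (∀ p, v p ≠ 0 → g⁻¹ • p ∈ E) → ∀ q, φ v q ≠ 0 → g⁻¹ • q ∈ E'

theorem Ctl.map (h : Ctl m c) {φ : (X →₀ ℚ) →ₗ[ℚ] (X' →₀ ℚ)} (hφ : Adm G φ) :
    Ctl m fun l => φ (c l) := by
  obtain ⟨A, E, hA, hE, h⟩ := h
  obtain ⟨E', hE', h'⟩ := hφ E hE
  refine ⟨A, E', hA, hE', fun l q hq => ?_⟩
  obtain ⟨p, hp⟩ : ∃ p, c l p ≠ 0 := DFunLike.ne_iff.1 fun e : c l = 0 => hq (by simp [e])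
  exact ⟨(h l p hp).1, (h l p hp).2.1, fun x hx => h' x _ (fun p hp => (h l p hp).2.2 x hx) q hq⟩

/-- the map on cycles -/
def zm {φ : (X →₀ ℚ) →ₗ[ℚ] (X' →₀ ℚ)} (h : Adm G φ) : Zc G X m →ₗ[ℚ] Zc G X' m where
  toFun c := ⟨fun l => φ (c.1 l), c.2.1.map h, by rw [c.2.1.dd_map, c.2.2]; funext l; simp⟩
  map_add' c c' := by ext1; funext l; simp
  map_smul' a c := by ext1; funext l; simp

/-- the map on homology, for an admissible map -/
def hm0 (m : ℕ) {φ : (X →₀ ℚ) →ₗ[ℚ] (X' →₀ ℚ)} (h : Adm G φ) : Hm G X m →ₗ[ℚ] Hm G X' m :=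
  Submodule.mapQ _ _ (zm h) (by
    rintro c ⟨b, hb, e⟩
    exact ⟨fun l => φ (b l), hb.map h, by rw [hb.dd_map, e]; rfl⟩)

variable (G) in
open Classical in
/-- the map on homology -/
def hm (m : ℕ) (φ : (X →₀ ℚ) →ₗ[ℚ] (X' →₀ ℚ)) : Hm G X m →ₗ[ℚ] Hm G X' m :=
  if h : Adm G φ then hm0 m h else 0

theorem hm_cls {φ : (X →₀ ℚ) →ₗ[ℚ] (X' →₀ ℚ)} (h : Adm G φ) (c : Zc G X m) :
    hm G m φ (cls c) = cls (zm h c) := by
  rw [hm, dif_pos h]; rfl

theorem zm_val {φ : (X →₀ ℚ) →ₗ[ℚ] (X' →₀ ℚ)} (h : Adm G φ) (c : Zc G X m) :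
    (zm h c).1 = fun l => φ (c.1 l) := rfl

theorem Adm.id : Adm G (LinearMap.id : (X →₀ ℚ) →ₗ[ℚ] (X →₀ ℚ)) :=
  fun E hE => ⟨E, hE, fun _ _ h => h⟩

theorem Adm.comp {φ : (X →₀ ℚ) →ₗ[ℚ] (X' →₀ ℚ)} {ψ : (X' →₀ ℚ) →ₗ[ℚ] (X'' →₀ ℚ)}
    (hψ : Adm G ψ) (hφ : Adm G φ) : Adm G (ψ ∘ₗ φ) := fun E hE => by
  obtain ⟨E', hE', h⟩ := hφ E hE
  obtain ⟨E'', hE'', h'⟩ := hψ E' hE'
  exact ⟨E'', hE'', fun g v hv => h' g _ (h g v hv)⟩

theorem Adm.add {φ ψ : (X →₀ ℚ) →ₗ[ℚ] (X' →₀ ℚ)} (hφ : Adm G φ) (hψ : Adm G ψ) :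
    Adm G (φ + ψ) := fun E hE => by
  obtain ⟨E', hE', h⟩ := hφ E hE
  obtain ⟨E'', hE'', h'⟩ := hψ E hE
  refine ⟨E' ∪ E'', hE'.union hE'', fun g v hv q hq => ?_⟩
  by_cases h1 : φ v q = 0
  · exact Or.inr (h' g v hv q (by simpa [h1] using hq))
  · exact Or.inl (h g v hv q h1)

theorem Adm.smul {φ : (X →₀ ℚ) →ₗ[ℚ] (X' →₀ ℚ)} (hφ : Adm G φ) (a : ℚ) : Adm G (a • φ) :=
  fun E hE => by
    obtain ⟨E', hE', h⟩ := hφ E hE
    exact ⟨E', hE', fun g v hv q hq => h g v hv q fun e => hq (by simp [e])⟩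

theorem Adm.zero : Adm G (0 : (X →₀ ℚ) →ₗ[ℚ] (X' →₀ ℚ)) :=
  fun _ _ => ⟨∅, Set.finite_empty, fun g v _ q hq => by simp at hq⟩

theorem Adm.sub {φ ψ : (X →₀ ℚ) →ₗ[ℚ] (X' →₀ ℚ)} (hφ : Adm G φ) (hψ : Adm G ψ) :
    Adm G (φ - ψ) := by
  rw [sub_eq_add_neg, ← neg_one_smul ℚ ψ]; exact hφ.add (hψ.smul _)

theorem Adm.sum {ι : Type} {s : Finset ι} {φ : ι → (X →₀ ℚ) →ₗ[ℚ] (X' →₀ ℚ)}
    (h : ∀ i ∈ s, Adm G (φ i)) : Adm G (∑ i ∈ s, φ i) :=
  Finset.sum_induction _ _ (fun _ _ => Adm.add) Adm.zero h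

theorem hm_id (z : Hm G X m) : hm G m LinearMap.id z = z := by
  obtain ⟨c, rfl⟩ := cls_surj z
  rw [hm_cls Adm.id]; rfl

theorem hm_comp {φ : (X →₀ ℚ) →ₗ[ℚ] (X' →₀ ℚ)} {ψ : (X' →₀ ℚ) →ₗ[ℚ] (X'' →₀ ℚ)}
    (hψ : Adm G ψ) (hφ : Adm G φ) (z : Hm G X m) :
    hm G m ψ (hm G m φ z) = hm G m (ψ ∘ₗ φ) z := by
  obtain ⟨c, rfl⟩ := cls_surj z
  rw [hm_cls hφ, hm_cls hψ, hm_cls (hψ.comp hφ)]; rfl

theorem hm_add {φ ψ : (X →₀ ℚ) →ₗ[ℚ] (X' →₀ ℚ)} (hφ : Adm G φ) (hψ : Adm G ψ) (z : Hm G X m) :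
    hm G m (φ + ψ) z = hm G m φ z + hm G m ψ z := by
  obtain ⟨c, rfl⟩ := cls_surj z
  rw [hm_cls hφ, hm_cls hψ, hm_cls (hφ.add hψ), ← map_add]; rfl

theorem hm_smul {φ : (X →₀ ℚ) →ₗ[ℚ] (X' →₀ ℚ)} (hφ : Adm G φ) (a : ℚ) (z : Hm G X m) :
    hm G m (a • φ) z = a • hm G m φ z := by
  obtain ⟨c, rfl⟩ := cls_surj z
  rw [hm_cls hφ, hm_cls (hφ.smul a), ← map_smul]; rfl

theorem hm_sub {φ ψ : (X →₀ ℚ) →ₗ[ℚ] (X' →₀ ℚ)} (hφ : Adm G φ) (hψ : Adm G ψ) (z : Hm G X m) :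
    hm G m (φ - ψ) z = hm G m φ z - hm G m ψ z := by
  rw [sub_eq_add_neg, ← neg_one_smul ℚ ψ, hm_add hφ (hψ.smul _), hm_smul hψ, neg_one_smul,
    sub_eq_add_neg]

theorem hm_zero (z : Hm G X m) : hm G m (0 : (X →₀ ℚ) →ₗ[ℚ] (X' →₀ ℚ)) z = 0 := by
  rw [← zero_smul ℚ (0 : (X →₀ ℚ) →ₗ[ℚ] (X' →₀ ℚ)), hm_smul Adm.zero, zero_smul]

theorem hm_sum {ι : Type} {s : Finset ι} {φ : ι → (X →₀ ℚ) →ₗ[ℚ] (X' →₀ ℚ)}
    (h : ∀ i ∈ s, Adm G (φ i)) (z : Hm G X m) :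
    hm G m (∑ i ∈ s, φ i) z = ∑ i ∈ s, hm G m (φ i) z := by
  classical
  induction s using Finset.induction_on with
  | empty => simp [hm_zero]
  | insert i s hi ih =>
    have h' := fun j hj => h j (Finset.mem_insert_of_mem hj)
    rw [Finset.sum_insert hi, Finset.sum_insert hi,
      hm_add (h i (Finset.mem_insert_self _ _)) (Adm.sum h'), ih h']

/-- push-forward of labels -/
abbrev pf {Y Y' : Type} (f : Y → Y') : (Y →₀ ℚ) →ₗ[ℚ] (Y' →₀ ℚ) := lmapDomain ℚ ℚ f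

/-- multiplication of labels by a function -/
def ml {Y : Type} (a : Y → ℚ) : (Y →₀ ℚ) →ₗ[ℚ] (Y →₀ ℚ) :=
  linearCombination ℚ fun p => single p (a p)

theorem ml_single {Y : Type} (a : Y → ℚ) (p : Y) (b : ℚ) :
    ml a (single p b) = single p (a p * b) := by simp [ml, mul_comm]

theorem ml_apply {Y : Type} (a : Y → ℚ) (v : Y →₀ ℚ) (p : Y) : ml a v p = a p * v p := by
  classical
  induction v using Finsupp.induction_linear with
  | zero => simp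
  | add u v hu hv => simp [hu, hv, mul_add]
  | single q b => rw [ml_single, single_apply, single_apply]; split_ifs with h <;> simp [h]

theorem ml_ml {Y : Type} (a b : Y → ℚ) : ml a ∘ₗ ml b = ml (a * b) := by
  ext1; ext1; ext; simp [ml_apply, mul_assoc]

theorem ml_add {Y : Type} (a b : Y → ℚ) : ml (a + b) = ml a + ml b := by
  ext1; ext1; ext; simp [ml_apply, add_mul]

theorem ml_smul {Y : Type} (r : ℚ) (a : Y → ℚ) : ml (r • a) = r • ml a := by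
  ext1; ext1; ext; simp [ml_apply, mul_assoc]

theorem ml_one {Y : Type} : ml (1 : Y → ℚ) = LinearMap.id := by
  ext1; ext1; ext; simp [ml_apply]

theorem ml_pf {Y Y' : Type} (f : Y → Y') (a : Y' → ℚ) : ml a ∘ₗ pf f = pf f ∘ₗ ml (a ∘ f) := by
  ext1; ext1; simp [ml_single]

theorem pf_pf {Y Y' Y'' : Type} (f : Y → Y') (g : Y' → Y'') : pf g ∘ₗ pf f = pf (g ∘ f) :=
  (lmapDomain_comp ℚ ℚ f g).symm

theorem adm_ml (a : X → ℚ) : Adm G (ml a) :=
  fun E hE => ⟨E, hE, fun g v hv q hq => hv q fun e => hq (by simp [ml_apply, e])⟩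

variable (G) in
/-- equivariant label maps -/
def Eqv (φ : (X →₀ ℚ) →ₗ[ℚ] (X' →₀ ℚ)) : Prop :=
  ∀ g : G, φ ∘ₗ pf (g • ·) = pf (g • ·) ∘ₗ φ

theorem pf_smul_apply (g : G) (v : X →₀ ℚ) (p : X) : pf (g • ·) v p = v (g⁻¹ • p) := by
  conv_lhs => rw [← smul_inv_smul g p]
  exact mapDomain_apply (MulAction.injective g) _ _

theorem map_ne {Y Y' : Type} {φ : (Y →₀ ℚ) →ₗ[ℚ] (Y' →₀ ℚ)} {v : Y →₀ ℚ} {q : Y'}
    (h : φ v q ≠ 0) : ∃ p, v p ≠ 0 ∧ φ (single p 1) q ≠ 0 := by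
  by_contra hc
  push Not at hc
  refine h ?_
  rw [← v.sum_single, Finsupp.sum, map_sum, Finsupp.finsetSum_apply]
  refine Finset.sum_eq_zero fun p hp => ?_
  rw [← smul_single_one, map_smul, Finsupp.smul_apply, hc p (mem_support_iff.1 hp), smul_zero]

theorem Eqv.adm {φ : (X →₀ ℚ) →ₗ[ℚ] (X' →₀ ℚ)} (h : Eqv G φ) : Adm G φ := fun E hE => by
  refine ⟨⋃ p ∈ E, (φ (single p 1)).support, hE.biUnion fun p _ => Finset.finite_toSet _,
    fun g v hv q hq => ?_⟩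
  obtain ⟨p, h1, h2⟩ := map_ne hq
  refine Set.mem_biUnion (hv p h1) (mem_support_iff.2 ?_)
  have := LinearMap.congr_fun (h g) (single (g⁻¹ • p) 1)
  simp only [LinearMap.comp_apply, lmapDomain_apply, mapDomain_single, smul_inv_smul] at this
  rwa [this, ← lmapDomain_apply ℚ ℚ, pf_smul_apply] at h2

theorem eqv_pf {f : X → X'} (h : ∀ (g : G) x, f (g • x) = g • f x) : Eqv G (pf f) := fun g => by
  rw [pf_pf, pf_pf]; congr 1; funext x; exact h g x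

theorem adm_pf {f : X → X'} (h : ∀ (g : G) x, f (g • x) = g • f x) : Adm G (pf f) :=
  (eqv_pf h).adm

theorem Eqv.sub {φ ψ : (X →₀ ℚ) →ₗ[ℚ] (X' →₀ ℚ)} (hφ : Eqv G φ) (hψ : Eqv G ψ) :
    Eqv G (φ - ψ) := fun g => by rw [LinearMap.sub_comp, LinearMap.comp_sub, hφ g, hψ g]

theorem Eqv.id : Eqv G (LinearMap.id : (X →₀ ℚ) →ₗ[ℚ] (X →₀ ℚ)) := fun _ => rfl

/-- the action of functions of the label on homology -/
def act (a : X → ℚ) (z : Hm G X m) : Hm G X m := hm G m (ml a) z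

theorem act_act (a b : X → ℚ) (z : Hm G X m) : act a (act b z) = act (a * b) z := by
  rw [act, act, hm_comp (adm_ml _) (adm_ml _), ml_ml, act]

theorem act_one (z : Hm G X m) : act 1 z = z := by rw [act, ml_one, hm_id]

theorem add_act (a b : X → ℚ) (z : Hm G X m) : act (a + b) z = act a z + act b z := by
  rw [act, ml_add, hm_add (adm_ml _) (adm_ml _), act, act]

theorem smul_act (r : ℚ) (a : X → ℚ) (z : Hm G X m) : act (r • a) z = r • act a z := by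
  rw [act, ml_smul, hm_smul (adm_ml _), act]

theorem zero_act (z : Hm G X m) : act 0 z = 0 := by
  rw [← zero_smul ℚ (0 : X → ℚ), smul_act, zero_smul]

theorem sub_act (a b : X → ℚ) (z : Hm G X m) : act (a - b) z = act a z - act b z := by
  rw [eq_sub_iff_add_eq, ← add_act, sub_add_cancel]

theorem act_pf {f : X → X'} (h : ∀ (g : G) x, f (g • x) = g • f x) (a : X' → ℚ) (z : Hm G X m) :
    act a (hm G m (pf f) z) = hm G m (pf f) (act (a ∘ f) z) := by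
  rw [act, act, hm_comp (adm_ml _) (adm_pf h), hm_comp (adm_pf h) (adm_ml _), ml_pf]

variable (G X) in
/-- the homology is free of rank one over the functions of the label -/
def FR (m : ℕ) : Prop := ∃ ζ : Hm G X m, Bijective fun a : X → ℚ => act a ζ

/-- right translation between coset spaces -/
def rt (L L' : Subgroup G) (g : G) (p : G ⧸ L) : G ⧸ L' := ((p.out * g : G) : G ⧸ L')

theorem rt_mk {L L' : Subgroup G} {g : G} (h : ∀ x ∈ L, g⁻¹ * x * g ∈ L') (x : G) :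
    rt L L' g (x : G ⧸ L) = ((x * g : G) : G ⧸ L') := by
  obtain ⟨y, hy⟩ := QuotientGroup.mk_out_eq_mul L x
  rw [rt, hy, QuotientGroup.eq]
  simpa [mul_assoc] using h _ (inv_mem y.2)

theorem rt_smul {L L' : Subgroup G} {g : G} (h : ∀ x ∈ L, g⁻¹ * x * g ∈ L') (a : G) (p : G ⧸ L) :
    rt L L' g (a • p) = a • rt L L' g p := by
  obtain ⟨x, rfl⟩ := QuotientGroup.mk_surjective p
  rw [MulAction.Quotient.smul_mk, rt_mk h, rt_mk h, MulAction.Quotient.smul_mk, smul_eq_mul,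
    smul_eq_mul, mul_assoc]

/-- right translation on homology -/
def tr (m : ℕ) (L L' : Subgroup G) (g : G) : Hm G (G ⧸ L) m →ₗ[ℚ] Hm G (G ⧸ L') m :=
  hm G m (pf (rt L L' g))

theorem tr_tr {L L' L'' : Subgroup G} {g g' : G} (h : ∀ x ∈ L, g⁻¹ * x * g ∈ L')
    (h' : ∀ x ∈ L', g'⁻¹ * x * g' ∈ L'') (z : Hm G (G ⧸ L) m) :
    tr m L' L'' g' (tr m L L' g z) = tr m L L'' (g * g') z := by
  rw [tr, tr, hm_comp (adm_pf (rt_smul h')) (adm_pf (rt_smul h)), pf_pf, tr]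
  congr 3
  funext p
  obtain ⟨x, rfl⟩ := QuotientGroup.mk_surjective p
  rw [comp_apply, rt_mk h, rt_mk h', rt_mk, mul_assoc]
  intro y hy
  simpa [mul_assoc] using h' _ (h y hy)

theorem tr_congr {L L' : Subgroup G} {g u : G} (hu : u ∈ L') :
    tr m L L' (g * u) = tr m L L' g := by
  unfold tr
  congr 2
  funext p
  rw [rt, rt, QuotientGroup.eq]
  simpa [mul_assoc] using hu

theorem tr_one (L : Subgroup G) (z : Hm G (G ⧸ L) m) : tr m L L 1 z = z := by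
  have : rt L L 1 = id := by funext p; simp [rt]
  rw [tr, this, pf, lmapDomain_id, hm_id]

theorem act_tr {L L' : Subgroup G} {g : G} (h : ∀ x ∈ L, g⁻¹ * x * g ∈ L') (a : G ⧸ L' → ℚ)
    (z : Hm G (G ⧸ L) m) : act a (tr m L L' g z) = tr m L L' g (act (a ∘ rt L L' g) z) :=
  act_pf (rt_smul h) a z

/-- `N'` is an extension of `N` by the infinite cyclic group generated by `t` -/
structure Step (N N' : Subgroup G) (t : G) : Prop where
  le : N ≤ N'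
  mem : t ∈ N'
  conj : ∀ x ∈ N, t⁻¹ * x * t ∈ N
  conj' : ∀ x ∈ N, t * x * t⁻¹ ∈ N
  gen : ∀ x ∈ N', ∃ k : ℤ, x * t ^ k ∈ N
  free : ∀ k : ℤ, t ^ k ∈ N → k = 0

/-- poly-`ℤ` subgroups -/
inductive PZ : ℕ → Subgroup G → Prop
  | zero : PZ 0 ⊥
  | succ {n : ℕ} {N N' : Subgroup G} {t : G} (h : Step N N' t) (hN : PZ n N) : PZ (n + 1) N'

end

end Vale.Agent.P188.Fn
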