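import Vale.Agent.P188.FinStmts

/-! Lifting of controlled chains and the long exact sequence. -/

namespace Vale.Agent.P188.Fn

open Function Finsupp Pointwise

variable {G X X' : Type} [Group G] [MulAction G X] [MulAction G X'] {m : ℕ}

theorem pf_smul_inv (g : G) (v : X →₀ ℚ) : pf (g • ·) (pf (g⁻¹ • ·) v) = v := by
  ext p; rw [pf_smul_apply, pf_smul_apply]; simp

theorem Eqv.apply {φ : (X →₀ ℚ) →ₗ[ℚ] (X' →₀ ℚ)} (h : Eqv G φ) (g : G) (v : X →₀ ℚ) :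
    φ (pf (g • ·) v) = pf (g • ·) (φ v) := LinearMap.congr_fun (h g) v

/-- controlled chains lift along equivariant maps -/
theorem Ctl.lift {φ : (X →₀ ℚ) →ₗ[ℚ] (X' →₀ ℚ)} (hφ : Eqv G φ) {c' : List G → X' →₀ ℚ}
    (h : Ctl m c') (hr : ∀ l, ∃ v, φ v = c' l) : ∃ c, Ctl m c ∧ ∀ l, φ (c l) = c' l := by
  obtain ⟨s, hs⟩ := φ.rangeRestrict.exists_rightInverse_of_surjective φ.range_rangeRestrict
  obtain ⟨σ, hσ⟩ := LinearMap.exists_extend s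
  have e : ∀ v, φ (σ (φ v)) = φ v := fun v => by
    have h1 := LinearMap.congr_fun hσ ⟨φ v, v, rfl⟩
    have h2 := congrArg Subtype.val (LinearMap.congr_fun hs ⟨φ v, v, rfl⟩)
    simp only [LinearMap.comp_apply, Submodule.subtype_apply] at h1
    rw [h1]; exact h2
  obtain ⟨A, E, hA, hE, h⟩ := h
  refine ⟨fun l => pf (l.headD 1 • ·) (σ (pf ((l.headD 1)⁻¹ • ·) (c' l))),
    ⟨A, A • ⋃ p ∈ E, ((σ (single p 1)).support : Set X), hA,
      hA.smul (hE.biUnion fun p _ => Finset.finite_toSet _), fun l q hq => ?_⟩, fun l => ?_⟩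
  · rw [pf_smul_apply] at hq
    obtain ⟨p, h1, h2⟩ := map_ne hq
    rw [pf_smul_apply, inv_inv] at h1
    obtain ⟨a, b, d⟩ := h l _ h1
    have hl : l.headD 1 ∈ l := by
      cases l with
      | nil => simp at a
      | cons x l => simp
    refine ⟨a, b, fun x hx => ⟨_, b x hx _ hl, _,
      Set.mem_biUnion (by simpa using d _ hl) (mem_support_iff.2 h2), ?_⟩⟩
    simp [smul_smul]
  · obtain ⟨v, hv⟩ := hr l
    rw [hφ.apply, ← hv, ← hφ.apply (l.headD 1)⁻¹, e, hφ.apply, pf_smul_inv]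

section Les

variable {X₁ X₂ X₃ : Type} [MulAction G X₁] [MulAction G X₂] [MulAction G X₃]
  {i : (X₁ →₀ ℚ) →ₗ[ℚ] (X₂ →₀ ℚ)} {π : (X₂ →₀ ℚ) →ₗ[ℚ] (X₃ →₀ ℚ)}

/-- the graph of the connecting map -/
def Rel (i : (X₁ →₀ ℚ) →ₗ[ℚ] (X₂ →₀ ℚ)) (π : (X₂ →₀ ℚ) →ₗ[ℚ] (X₃ →₀ ℚ))
    (z : Hm G X₃ (m + 1)) (w : Hm G X₁ m) : Prop :=
  ∃ (c : Zc G X₃ (m + 1)) (a : Zc G X₁ m) (b : List G → X₂ →₀ ℚ), cls c = z ∧ cls a = w ∧
    Ctl (m + 1) b ∧ (∀ l, π (b l) = c.1 l) ∧ ∀ l, i (a.1 l) = dd b l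

theorem cyc_of_inj (hi : Injective i) {a : List G → X₁ →₀ ℚ} (ha : Ctl m a)
    (h : dd (fun l => i (a l)) = 0) : dd a = 0 := by
  funext l
  apply hi
  rw [← congrFun (ha.dd_map i) l, h]; simp

theorem Rel.ex (ei : Eqv G i) (eπ : Eqv G π) (hi : Injective i) (hπ : Surjective π)
    (hx : Exact i π) (z : Hm G X₃ (m + 1)) : ∃ w, Rel i π z w := by
  obtain ⟨c, rfl⟩ := cls_surj z
  obtain ⟨b, hb, e⟩ := c.2.1.lift eπ fun l => hπ _
  have e1 : ∀ l, π (dd b l) = 0 := fun l => by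
    rw [← congrFun (hb.dd_map π) l, funext e, c.2.2]; rfl
  obtain ⟨a, ha, e2⟩ := hb.dd.lift ei fun l => (hx _).1 (e1 l)
  exact ⟨_, c, ⟨a, ha, cyc_of_inj hi ha (by rw [funext e2, hb.dd_dd])⟩, b, rfl, rfl, hb, e, e2⟩

theorem Rel.add {z z' : Hm G X₃ (m + 1)} {w w' : Hm G X₁ m} (h : Rel i π z w)
    (h' : Rel i π z' w') : Rel i π (z + z') (w + w') := by
  obtain ⟨c, a, b, rfl, rfl, hb, e, f⟩ := h
  obtain ⟨c', a', b', rfl, rfl, hb', e', f'⟩ := h'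
  exact ⟨c + c', a + a', b + b', map_add _ _ _, map_add _ _ _, hb.add hb',
    fun l => by simp [e, e'], fun l => by simp [hb.dd_add hb', f, f']⟩

theorem Rel.smul {z : Hm G X₃ (m + 1)} {w : Hm G X₁ m} (h : Rel i π z w) (r : ℚ) :
    Rel i π (r • z) (r • w) := by
  obtain ⟨c, a, b, rfl, rfl, hb, e, f⟩ := h
  exact ⟨r • c, r • a, r • b, map_smul _ _ _, map_smul _ _ _, hb.smul r,
    fun l => by simp [e], fun l => by simp [hb.dd_smul, f]⟩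

theorem Rel.zero (ei : Eqv G i) (eπ : Eqv G π) (hi : Injective i) (hπ : Surjective π)
    (hx : Exact i π) {w : Hm G X₁ m} (h : Rel i π 0 w) : w = 0 := by
  obtain ⟨c, a, b, h0, rfl, hb, e, f⟩ := h
  obtain ⟨d, hd, e1⟩ := cls_eq_zero.1 h0
  obtain ⟨d', hd', e2⟩ := hd.lift eπ fun l => hπ _
  have e3 : ∀ l, π ((b - dd d') l) = 0 := fun l => by
    rw [Pi.sub_apply, map_sub, ← congrFun (hd'.dd_map π) l, funext e2, e1, e, sub_self]
  obtain ⟨u, hu, e4⟩ := (hb.sub hd'.dd).lift ei fun l => (hx _).1 (e3 l)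
  refine cls_eq_zero.2 ⟨u, hu, funext fun l => hi ?_⟩
  rw [← congrFun (hu.dd_map i) l, funext e4, hb.dd_sub hd'.dd, hd'.dd_dd, sub_zero, f]

theorem Rel.uniq (ei : Eqv G i) (eπ : Eqv G π) (hi : Injective i) (hπ : Surjective π)
    (hx : Exact i π) {z : Hm G X₃ (m + 1)} {w w' : Hm G X₁ m} (h : Rel i π z w)
    (h' : Rel i π z w') : w = w' := by
  have := h.add (h'.smul (-1))
  rw [neg_one_smul, add_neg_cancel, neg_one_smul] at this
  exact add_neg_eq_zero.1 (this.zero ei eπ hi hπ hx)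

end Les

theorem les_pf : S_les := by
  intro G X₁ X₂ X₃ _ _ _ _ i π ei eπ hi hπ hx
  choose δ hδ using fun m => Rel.ex (m := m) ei eπ hi hπ hx
  have U := fun {m} {z : Hm G X₃ (m + 1)} {w : Hm G X₁ m} (h : Rel i π z w) =>
    (hδ m z).uniq ei eπ hi hπ hx h
  refine ⟨fun m => ⟨⟨δ m, fun z z' => U ((hδ m z).add (hδ m z'))⟩,
    fun r z => U ((hδ m z).smul r)⟩, fun m z => ⟨fun h => ?_, ?_⟩, fun m w => ⟨fun h => ?_, ?_⟩,
    fun m y => ⟨fun h => ?_, ?_⟩, fun z => ?_, fun φ₁ φ₂ φ₃ h₁ h₂ h₃ e₁ e₂ m z => U ?_⟩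
  · obtain ⟨c, a, b, rfl, h0, hb, e, f⟩ := hδ m z
    obtain ⟨u, hu, e1⟩ := cls_eq_zero.1 (h0.trans h)
    refine ⟨cls ⟨b - fun l => i (u l), hb.sub (hu.map ei.adm), ?_⟩, ?_⟩
    · rw [hb.dd_sub (hu.map ei.adm), hu.dd_map, e1, funext f, sub_self]
    · rw [hm_cls eπ.adm]
      congr 1
      ext1; funext l
      simp [zm_val, e, hx.apply_apply_eq_zero]
  · rintro ⟨y, rfl⟩
    obtain ⟨b, rfl⟩ := cls_surj y
    exact U ⟨zm eπ.adm b, 0, b, (hm_cls _ _).symm, map_zero _, b.2.1, fun l => rfl,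
      fun l => by simp [b.2.2]⟩
  · obtain ⟨a, rfl⟩ := cls_surj w
    rw [hm_cls ei.adm] at h
    obtain ⟨b, hb, e⟩ := cls_eq_zero.1 h
    refine ⟨cls ⟨fun l => π (b l), hb.map eπ.adm, ?_⟩,
      U ⟨_, a, b, rfl, rfl, hb, fun l => rfl, fun l => (congrFun e l).symm⟩⟩
    rw [hb.dd_map, e]
    funext l
    exact hx.apply_apply_eq_zero _
  · rintro ⟨z, rfl⟩
    obtain ⟨c, a, b, rfl, h0, hb, e, f⟩ := hδ m z
    change hm G m i (δ m _) = 0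
    rw [← h0, hm_cls ei.adm]
    exact cls_eq_zero.2 ⟨b, hb, (funext f).symm⟩
  · obtain ⟨b, rfl⟩ := cls_surj y
    rw [hm_cls eπ.adm] at h
    obtain ⟨d, hd, e1⟩ := cls_eq_zero.1 h
    obtain ⟨d', hd', e2⟩ := hd.lift eπ fun l => hπ _
    have e3 : ∀ l, π ((b.1 - dd d') l) = 0 := fun l => by
      rw [Pi.sub_apply, map_sub, ← congrFun (hd'.dd_map π) l, funext e2, e1, zm_val, sub_self]
    obtain ⟨u, hu, e4⟩ := (b.2.1.sub hd'.dd).lift ei fun l => (hx _).1 (e3 l)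
    refine ⟨cls ⟨u, hu, cyc_of_inj hi hu ?_⟩, ?_⟩
    · rw [funext e4, b.2.1.dd_sub hd'.dd, hd'.dd_dd, b.2.2, sub_zero]
    · rw [hm_cls ei.adm, eq_comm]
      refine cls_eq.2 ⟨d', hd', ?_⟩
      rw [zm_val, funext e4, sub_sub_cancel]
  · rintro ⟨w, rfl⟩
    rw [hm_comp eπ.adm ei.adm, hx.linearMap_comp_eq_zero, hm_zero]
  · obtain ⟨c, rfl⟩ := cls_surj z
    obtain ⟨b, hb, e⟩ := c.2.1.lift eπ fun l => hπ _
    refine ⟨cls ⟨b, hb, hb.dd_zero⟩, ?_⟩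
    rw [hm_cls eπ.adm]
    congr 1
    ext1; exact funext e
  · obtain ⟨c, a, b, rfl, h0, hb, e, f⟩ := hδ m z
    refine ⟨zm h₃ c, zm h₁ a, fun l => φ₂ (b l), (hm_cls _ _).symm, ?_, hb.map h₂,
      fun l => ?_, fun l => ?_⟩
    · rw [← hm_cls, h0]; rfl
    · simp only [zm_val, ← e]; exact (LinearMap.congr_fun e₂ _).symm
    · simp only [zm_val, hb.dd_map, ← f]; exact (LinearMap.congr_fun e₁ _).symm

end Vale.Agent.P188.Fn
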