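import Vale.Agent.P188.FinDefs

/-! Statements of the steps of the final group-theoretic module of P188. -/

namespace Vale.Agent.P188.Fn

open Function

/-- the long exact sequence, with naturality of the connecting map -/
def S_les : Prop :=
  ∀ (G X₁ X₂ X₃ : Type) [Group G] [MulAction G X₁] [MulAction G X₂] [MulAction G X₃]
    (i : (X₁ →₀ ℚ) →ₗ[ℚ] (X₂ →₀ ℚ)) (π : (X₂ →₀ ℚ) →ₗ[ℚ] (X₃ →₀ ℚ)), Eqv G i → Eqv G π →
    Injective i → Surjective π → Exact i π →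
    ∃ δ : ∀ m, Hm G X₃ (m + 1) →ₗ[ℚ] Hm G X₁ m,
      (∀ m, Exact (hm G (m + 1) π) (δ m)) ∧ (∀ m, Exact (δ m) (hm G m i)) ∧
      (∀ m, Exact (hm G m i) (hm G m π)) ∧ Surjective (hm G 0 π) ∧
      ∀ φ₁ φ₂ φ₃, Adm G φ₁ → Adm G φ₂ → Adm G φ₃ → φ₂ ∘ₗ i = i ∘ₗ φ₁ → φ₃ ∘ₗ π = π ∘ₗ φ₂ →
        ∀ m z, δ m (hm G (m + 1) φ₃ z) = hm G m φ₁ (δ m z)

/-- the Wang sequence -/
def S_wang : Prop :=
  ∀ (G : Type) [Group G] (N N' : Subgroup G) (t : G), Step N N' t →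
    ∃ δ : ∀ m, Hm G (G ⧸ N') (m + 1) →ₗ[ℚ] Hm G (G ⧸ N) m,
      (∀ m z, δ m z = 0 ↔ ∃ w, tr (m + 1) N N' 1 w = z) ∧
      (∀ m z, (∃ w, δ m w = z) ↔ tr m N N t z = z) ∧
      (∀ m z, tr m N N' 1 z = 0 ↔ ∃ w, w - tr m N N t w = z) ∧
      Surjective (tr 0 N N' 1) ∧
      (∀ m a z, δ m (act a z) = act (a ∘ rt N N' 1) (δ m z)) ∧
      ∀ g : G, (∀ x ∈ N, g⁻¹ * x * g ∈ N) → (∀ x ∈ N', g⁻¹ * x * g ∈ N') →
        (t * g)⁻¹ * (g * t) ∈ N → ∀ m z, δ m (tr (m + 1) N' N' g z) = tr m N N g (δ m z)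

/-- the free `G`-set -/
def S_base : Prop :=
  ∀ (G : Type) [Group G], FR G (G ⧸ (⊥ : Subgroup G)) 0 ∧
    ∀ m, m ≠ 0 → ∀ z : Hm G (G ⧸ (⊥ : Subgroup G)) m, z = 0

/-- duality for poly-`ℤ` subgroups -/
def S_pd : Prop :=
  ∀ (G : Type) [Group G] (h : ℕ) (L : Subgroup G), PZ h L → FR G (G ⧸ L) h ∧
    ∀ m, m ≠ h → ∀ z : Hm G (G ⧸ L) m, z = 0

/-- homology commutes with directed unions -/
def S_colim : Prop :=
  ∀ (G : Type) [Group G] (m : ℕ) (L K : Subgroup G), L ≤ K →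
    (∀ z, tr m L K 1 z = 0 → ∃ s : Finset G, (s : Set G) ⊆ K ∧
      tr m L (L ⊔ Subgroup.closure s) 1 z = 0) ∧
    ∀ z, ∃ s : Finset G, (s : Set G) ⊆ K ∧ ∃ w, tr m (L ⊔ Subgroup.closure s) K 1 w = z

/-- transfer -/
def S_trans : Prop :=
  ∀ (G : Type) [Group G] (m : ℕ) (L U : Subgroup G), L ≤ U → L.relIndex U ≠ 0 →
    Surjective (tr m L U 1) ∧ ((∀ u ∈ U, ∀ x ∈ L, u⁻¹ * x * u ∈ L) →
      ∃ s : Finset G, (s : Set G) ⊆ U ∧ (∀ u ∈ U, ∃! κ, κ ∈ s ∧ u⁻¹ * κ ∈ L) ∧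
        ∀ z, tr m L U 1 z = 0 ↔ ∑ κ ∈ s, tr m L L κ z = 0)

/-- coarse invariance -/
def S_coarse : Prop :=
  ∀ (H Γ : Type) [Group H] [Group Γ] (S : Finset H) (T : Finset Γ),
    Subgroup.closure (S : Set H) = ⊤ → Subgroup.closure (T : Set Γ) = ⊤ →
    ∀ (K C : ℝ) (F : H → Γ), IsQuasiIsometry S T K C F → ∀ m,
    ∃ f : Hm H (H ⧸ (⊤ : Subgroup H)) m →ₗ[ℚ] Hm Γ (Γ ⧸ (⊤ : Subgroup Γ)) m, Injective f

/-- group theory of poly-`ℤ` subgroups -/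
structure S_pz : Prop where
  iff : ∀ {G : Type} [Group G] (n : ℕ) (L : Subgroup G), PZ n L ↔ PolyZ n L
  top : ∀ {G : Type} [Group G] (n : ℕ), PolyZ n G → PZ n (⊤ : Subgroup G)
  map : ∀ {G G' : Type} [Group G] [Group G'] (f : G →* G') {n : ℕ} {L : Subgroup G},
    Injective f → PZ n L → PZ n (L.map f)
  sub : ∀ {G : Type} [Group G] {n : ℕ} {L A : Subgroup G}, PZ n L → A ≤ L →
    ∃ m ≤ n, PZ m A ∧ (m = n ↔ A.relIndex L ≠ 0)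
  uniq : ∀ {G : Type} [Group G] {n m : ℕ} {L : Subgroup G}, PZ n L → PZ m L → n = m
  fg : ∀ {G : Type} [Group G] {n : ℕ} {L : Subgroup G}, PZ n L → L.FG
  poly : ∀ {G : Type} [Group G] {n : ℕ} {L : Subgroup G}, PZ n L → IsPolycyclicGroup L

/-- `h` is the maximal length of a poly-`ℤ` subgroup of the locally virtually poly-`ℤ` group `K` -/
def Mx {H : Type} [Group H] (K : Subgroup H) (h : ℕ) : Prop :=
  (∃ L ≤ K, PZ h L) ∧ ∀ L ≤ K, PZ h L → ∀ s : Finset H, (s : Set H) ⊆ K →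
    L.relIndex (L ⊔ Subgroup.closure s) ≠ 0

/-- the counting hypothesis -/
def Cnt {H : Type} [Group H] (S : Finset H) {k : ℕ} (φ : H →* Multiplicative (Rk k)) (D : ℕ) :
    Prop :=
  ∀ r ρ : ℕ, (hBall S (fun h => Multiplicative.toAdd (φ h)) r ρ).ncard ≤ (D * (r + 1) * 2 ^ ρ) ^ D

def S_max : Prop :=
  ∀ (H : Type) [Group H] (S : Finset H), Subgroup.closure (S : Set H) = ⊤ →
    ∀ (k : ℕ) (φ : H →* Multiplicative (Rk k)) (D : ℕ), Cnt S φ D → ∃ h, Mx φ.ker h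

/-- a chain of infinite cyclic extensions from `K` to the whole group -/
def Chain {H : Type} [Group H] (K : Subgroup H) (j : ℕ) : Prop :=
  ∃ (N : ℕ → Subgroup H) (t : ℕ → H), N 0 = K ∧ N j = ⊤ ∧ ∀ a < j, Step (N a) (N (a + 1)) (t a)

def S_chain : Prop :=
  ∀ (H : Type) [Group H] (S : Finset H), Subgroup.closure (S : Set H) = ⊤ →
    ∀ (k : ℕ) (φ : H →* Multiplicative (Rk k)), ∃ j, Chain φ.ker j

def S_fg : Prop :=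
  ∀ (H : Type) [Group H] (K : Subgroup H) (h j : ℕ), K.FG → Mx K h → Chain K j →
    IsVirtuallyPolycyclic H

/-- a discrete valuation on `K` -/
structure Val {H : Type} [Group H] (K Q : Subgroup H) (t : H) : Prop where
  le : Q ≤ K
  conj : ∀ x ∈ Q, t * x * t⁻¹ ∈ Q
  ne : ∃ x ∈ K, x ∉ Q
  union : ∀ x ∈ K, ∃ k : ℕ, t ^ k * x * (t ^ k)⁻¹ ∈ Q
  fin : (Q.map (MulAut.conj t).toMonoidHom).relIndex Q ≠ 0
  comm : ∀ g : H, ∃ k : ℕ, ∀ x ∈ Q, t ^ k * (g * x * g⁻¹) * (t ^ k)⁻¹ ∈ Q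

def S_val : Prop :=
  ∀ (H : Type) [Group H] (S : Finset H), Subgroup.closure (S : Set H) = ⊤ →
    ∀ (k : ℕ) (φ : H →* Multiplicative (Rk k)) (D j : ℕ), Cnt S φ D → Chain φ.ker j →
    ¬ φ.ker.FG → ∃ Q t, Val φ.ker Q t

/-- functions invariant under a large subgroup of `K` -/
def Sm {H : Type} [Group H] (K : Subgroup H) (h : ℕ) (F : H → ℚ) : Prop :=
  ∃ L ≤ K, PZ h L ∧ ∀ x, ∀ y ∈ L, F (x * y) = F x

/-- description of the top homology of `K` -/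
def S_theta : Prop :=
  ∀ (H : Type) [Group H] (K : Subgroup H) [K.Normal] (h : ℕ), Mx K h →
    ∃ Θ : (H → ℚ) → Hm H (H ⧸ K) h,
      (∀ F F', Sm K h F → Sm K h F' → Θ (F + F') = Θ F + Θ F') ∧
      (∀ F, Sm K h F → ∀ a : H ⧸ K → ℚ, Θ (fun x => a x * F x) = act a (Θ F)) ∧
      (∀ F, Sm K h F → ∀ κ ∈ K, Θ (fun x => F (x * κ)) = Θ F) ∧
      (∀ F, Sm K h F → ∀ g, ∃ u : H ⧸ K → ℚ, (∀ c, u c ≠ 0) ∧
        tr h K K g (Θ F) = act u (Θ fun x => F (x * g⁻¹))) ∧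
      ∀ F, Sm K h F → Θ F = 0 → ∃ s : Finset H, s.Nonempty ∧ (s : Set H) ⊆ K ∧
        ∀ x, ∑ κ ∈ s, F (x * κ) = 0

/-- two independent vectors -/
def Ind {V : Type} [AddCommGroup V] [Module ℚ V] (z₁ z₂ : V) : Prop :=
  ∀ a b : ℚ, a • z₁ + b • z₂ = 0 → a = 0 ∧ b = 0

def S_two : Prop :=
  ∀ (H : Type) [Group H] (K Q : Subgroup H) (t : H) (h : ℕ),
    (∀ x y : H, x * y * x⁻¹ * y⁻¹ ∈ K) → Mx K h → Val K Q t → ∃ z₁ z₂ : Hm H (H ⧸ K) h, Ind z₁ z₂ ∧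
      (∀ g, tr h K K g z₁ = z₁) ∧ ∀ g, tr h K K g z₂ = z₂

def S_top : Prop :=
  ∀ (H : Type) [Group H] (K : Subgroup H) (h j : ℕ), (∀ x y : H, x * y * x⁻¹ * y⁻¹ ∈ K) →
    Mx K h → Chain K j → ∀ z₁ z₂ : Hm H (H ⧸ K) h, Ind z₁ z₂ → (∀ g, tr h K K g z₁ = z₁) →
    (∀ g, tr h K K g z₂ = z₂) → ∃ w₁ w₂ : Hm H (H ⧸ (⊤ : Subgroup H)) (h + j), Ind w₁ w₂

theorem fin_of (hco : S_coarse) (hpd : S_pd) (hpz : S_pz) (hmax : S_max) (hch : S_chain)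
    (hfg : S_fg) (hval : S_val) (htwo : S_two) (htop : S_top) : Fin_stmt := by
  intro H Γ _ _ S T hS hT n hn K C F hF k φ D hD
  obtain ⟨h, hh⟩ := hmax H S hS k φ D hD
  obtain ⟨j, hj⟩ := hch H S hS k φ
  by_cases hK : φ.ker.FG
  · exact hfg H _ h j hK hh hj
  exfalso
  obtain ⟨Q, t, hQ⟩ := hval H S hS k φ D j hD hj hK
  have hc : ∀ x y : H, x * y * x⁻¹ * y⁻¹ ∈ φ.ker := fun x y => by
    simp [MonoidHom.mem_ker, mul_right_comm (φ x) (φ y)]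
  obtain ⟨z₁, z₂, h1, h2, h3⟩ := htwo H _ Q t h hc hh hQ
  obtain ⟨w₁, w₂, hw⟩ := htop H _ h j hc hh hj z₁ z₂ h1 h2 h3
  obtain ⟨f, hf⟩ := hco H Γ S T hS hT K C F hF (h + j)
  have hw' : Ind (f w₁) (f w₂) := fun a b e => hw a b (hf (by simpa using e))
  obtain ⟨h4, h5⟩ := hpd Γ n ⊤ (hpz.top n hn)
  by_cases e : h + j = n
  · subst e
    obtain ⟨ζ, hζ⟩ := h4
    obtain ⟨a₁, e₁⟩ := hζ.2 (f w₁)
    obtain ⟨a₂, e₂⟩ := hζ.2 (f w₂)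
    have := QuotientGroup.subsingleton_quotient_top (G := Γ)
    have e0 : a₂ (1 : Γ) • a₁ + (-a₁ (1 : Γ)) • a₂ = 0 := by
      funext p; rw [Subsingleton.elim p (1 : Γ)]; simp [mul_comm]
    have e3 := hw' (a₂ (1 : Γ)) (-a₁ (1 : Γ)) (by
      rw [← e₁, ← e₂, ← smul_act, ← smul_act, ← add_act, e0, zero_act])
    have e4 : a₂ = 0 := by funext p; rw [Subsingleton.elim p (1 : Γ)]; exact e3.1
    exact one_ne_zero (hw' 0 1 (by rw [← e₂, e4]; simp [zero_act])).2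
  · exact one_ne_zero (hw' 1 0 (by simpa using h5 _ e _)).1

end Vale.Agent.P188.Fn
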