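import Vale.Agent.P188.FinWang

/-! The top homology of a locally virtually poly-`ℤ` normal subgroup. -/

namespace Vale.Agent.P188.Fn

open Function

namespace ThetaX

variable {H : Type} [Group H] {K L L' U : Subgroup H} {h : ℕ}

open Classical in
noncomputable def ee {X : Type} (p : X) : X → ℚ := fun q => if q = p then 1 else 0

section Gen

variable {X : Type} [MulAction H X] {ζ : Hm H X h}

theorem ee_act (hζ : Bijective fun a : X → ℚ => act a ζ) (p : X) (z : Hm H X h) :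
    ∃ r : ℚ, act (ee p) z = r • act (ee p) ζ := by
  obtain ⟨a, rfl⟩ := hζ.2 z
  refine ⟨a p, ?_⟩
  rw [act_act, ← smul_act]
  congr 1; funext q
  by_cases e : q = p <;> simp [ee, e]

theorem ee_ext (hζ : Bijective fun a : X → ℚ => act a ζ) {z z' : Hm H X h}
    (e : ∀ p, act (ee p) z = act (ee p) z') : z = z' := by
  obtain ⟨a, rfl⟩ := hζ.2 z
  obtain ⟨a', rfl⟩ := hζ.2 z'
  congr 1; funext p
  have := e p
  simp only [act_act] at this
  simpa [ee] using congrFun (hζ.1 this) p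

theorem ee_ne (hζ : Bijective fun a : X → ℚ => act a ζ) (p : X) : act (ee p) ζ ≠ 0 := fun e => by
  simpa [ee] using congrFun (act_faith hζ e) p

theorem act_smul (a : X → ℚ) (r : ℚ) (z : Hm H X h) : act a (r • z) = r • act a z :=
  map_smul _ _ _

theorem sum_act {ι : Type} (s : Finset ι) (a : ι → X → ℚ) (z : Hm H X h) :
    act (∑ i ∈ s, a i) z = ∑ i ∈ s, act (a i) z := by
  classical
  induction s using Finset.induction_on with
  | empty => simp [zero_act]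
  | insert i s hi ih => rw [Finset.sum_insert hi, Finset.sum_insert hi, add_act, ih]

end Gen

def LL (K : Subgroup H) (h : ℕ) (L : Subgroup H) : Prop := L ≤ K ∧ PZ h L

theorem LL.sub (hp : S_pz) (hL : LL K h L) (e : L' ≤ L) (hi : L'.relIndex L ≠ 0) : LL K h L' := by
  obtain ⟨m, -, h1, h2⟩ := hp.sub hL.2 e
  exact ⟨e.trans hL.1, h2.2 hi ▸ h1⟩

theorem LL.rel (hp : S_pz) (hM : Mx K h) (hL : LL K h L) (hL' : LL K h L') :
    L.relIndex L' ≠ 0 := by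
  obtain ⟨s, rfl⟩ := hp.fg hL'.2
  exact fun e => hM.2 L hL.1 hL.2 s (Subgroup.subset_closure.trans hL'.1)
    (Subgroup.relIndex_eq_zero_of_le_right le_sup_right e)

theorem LL.inf (hp : S_pz) (hM : Mx K h) (hL : LL K h L) (hL' : LL K h L') : LL K h (L ⊓ L') :=
  hL'.sub hp inf_le_right (by rw [Subgroup.inf_relIndex_right]; exact hL.rel hp hM hL')

def cj (g : H) (L : Subgroup H) : Subgroup H := L.map (MulAut.conj g⁻¹).toMonoidHom

theorem mem_cj {g x : H} : x ∈ cj g L ↔ g * x * g⁻¹ ∈ L :=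
  ⟨by rintro ⟨y, hy, rfl⟩; simpa [mul_assoc] using hy, fun e => ⟨_, e, by simp [mul_assoc]⟩⟩

theorem LL.cj [hK : K.Normal] (hp : S_pz) (hL : LL K h L) (g : H) : LL K h (cj g L) :=
  ⟨fun x hx => by simpa [mul_assoc] using hK.conj_mem _ (hL.1 (mem_cj.1 hx)) g⁻¹,
    hp.map _ (MulAut.conj g⁻¹).injective hL.2⟩

theorem LL.core (hp : S_pz) (hL : LL K h L) (e : L ≤ U) (hi : L.relIndex U ≠ 0) :
    ∃ L', LL K h L' ∧ L' ≤ L ∧ L'.relIndex U ≠ 0 ∧ ∀ u ∈ U, ∀ x ∈ L', u⁻¹ * x * u ∈ L' := by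
  have : (L.subgroupOf U).FiniteIndex := ⟨hi⟩
  have h1 : ((L.subgroupOf U).normalCore.map U.subtype).relIndex U ≠ 0 := by
    rw [Subgroup.relIndex, Subgroup.subgroupOf,
      Subgroup.comap_map_eq_self_of_injective U.subtype_injective]
    exact Subgroup.FiniteIndex.index_ne_zero
  have h2 : (L.subgroupOf U).normalCore.map U.subtype ≤ L := by
    rintro _ ⟨x, hx, rfl⟩
    exact Subgroup.normalCore_le (L.subgroupOf U) hx
  refine ⟨_, hL.sub hp h2 fun e' => h1 (Subgroup.relIndex_eq_zero_of_le_right e e'), h2, h1, ?_⟩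
  rintro u hu _ ⟨x, hx, rfl⟩
  exact ⟨_, (Subgroup.normalCore_normal _).conj_mem _ hx ⟨u, hu⟩⁻¹, by simp⟩

theorem tr_K {g : H} (hL : L' ≤ K) (e : ∀ x ∈ L, g⁻¹ * x * g ∈ L') (z : Hm H (H ⧸ L) h) :
    tr h L' K 1 (tr h L L' g z) = tr h L K g z := by rw [tr_tr e (le_conj hL), mul_one]

theorem tr_mem {κ : H} (hκ : κ ∈ K) : tr h L K κ = tr h L K 1 := by
  rw [← tr_congr (g := 1) hκ, one_mul]

/-- point masses survive in the limit -/
theorem k1 (hp : S_pz) (hc : S_colim) (ht : S_trans) (hM : Mx K h) (hL : LL K h L) (p : H ⧸ L)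
    (z : Hm H (H ⧸ L) h) (e : tr h L K 1 (act (ee p) z) = 0) : act (ee p) z = 0 := by
  classical
  obtain ⟨s, hs, e1⟩ := (hc H h L K hL.1).1 _ e
  obtain ⟨L', hL', h1, h2, h3⟩ := hL.core hp le_sup_left (hM.2 L hL.1 hL.2 s hs)
  obtain ⟨z, rfl⟩ := (ht H h L' L h1 (hL'.rel hp hM hL)).1 z
  obtain ⟨s', t1, t2, t3⟩ := (ht H h L' _ (h1.trans le_sup_left) h2).2 h3
  rw [act_tr (le_conj h1)] at e1 ⊢
  rw [tr_K le_sup_left (le_conj h1), t3] at e1
  have e2 := congrArg (fun w => tr h L' L 1 (act (ee p ∘ rt L' L 1) w)) e1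
  simp only [act, map_sum, map_zero] at e2
  have e3 : ∀ κ ∈ s', tr h L' L 1 (hm H h (ml (ee p ∘ rt L' L 1))
      (tr h L' L' κ (hm H h (ml (ee p ∘ rt L' L 1)) z))) =
      (if κ ∈ L then 1 else 0 : ℚ) • tr h L' L 1 (act (ee p ∘ rt L' L 1) z) := fun κ hκ => by
    have h4 := h3 κ (t1 hκ)
    rw [← act, ← act, act_tr h4, act_act, tr_K h1 h4]
    split_ifs with hκL
    · rw [tr_mem hκL, one_smul]
      congr 2; funext q
      obtain ⟨x, rfl⟩ := QuotientGroup.mk_surjective q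
      simp only [Pi.mul_apply, comp_apply, rt_mk h4, rt_mk (le_conj h1), mul_one,
        QuotientGroup.mk_mul_of_mem x hκL, ee]
      split_ifs <;> simp
    · rw [zero_smul, ← map_zero (tr h L' L κ), ← zero_act z]
      congr 2; funext q
      obtain ⟨x, rfl⟩ := QuotientGroup.mk_surjective q
      simp only [Pi.mul_apply, comp_apply, rt_mk h4, rt_mk (le_conj h1), mul_one, ee]
      split_ifs with a b
      · exact absurd (by simpa using QuotientGroup.eq.1 (b.trans a.symm)) hκL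
      all_goals simp
  rw [Finset.sum_congr rfl e3, ← Finset.sum_smul, smul_eq_zero] at e2
  refine e2.resolve_left (ne_of_gt ?_)
  obtain ⟨κ, ⟨a, b⟩, -⟩ := t2 1 (one_mem _)
  exact Finset.sum_pos' (fun i _ => by split_ifs <;> simp) ⟨κ, a, by simp [h1 (by simpa using b)]⟩

theorem tr_ee {g : H} {ζ' : Hm H (H ⧸ L') h} (hζ : Bijective fun a : H ⧸ L' → ℚ => act a ζ')
    (e : ∀ x ∈ L, g⁻¹ * x * g ∈ L') (x : H) (z : Hm H (H ⧸ L) h) :
    ∃ r : ℚ, tr h L L' g (act (ee (x : H ⧸ L)) z) = r • act (ee ((x * g : H) : H ⧸ L')) ζ' := by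
  obtain ⟨r, hr⟩ := ee_act hζ ((x * g : H) : H ⧸ L') (tr h L L' g (act (ee (x : H ⧸ L)) z))
  refine ⟨r, ?_⟩
  rw [← hr, act_tr e, act_act]
  congr 2; funext q
  by_cases hq : q = x <;> simp [ee, hq, rt_mk e]

theorem k2 [K.Normal] (hp : S_pz) (hc : S_colim) (ht : S_trans) (hM : Mx K h) (hL : LL K h L)
    (hL' : LL K h L') {ζ : Hm H (H ⧸ L) h} {ζ' : Hm H (H ⧸ L') h}
    (hζ : Bijective fun a : H ⧸ L → ℚ => act a ζ) (hζ' : Bijective fun a : H ⧸ L' → ℚ => act a ζ')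
    (x : H) {κ : H} (hκ : κ ∈ K) : ∃ r : ℚ, r ≠ 0 ∧ tr h L K 1 (act (ee (x : H ⧸ L)) ζ) =
      r • tr h L' K 1 (act (ee ((x * κ : H) : H ⧸ L')) ζ') := by
  have h1 := hL.inf hp hM (hL'.cj hp κ⁻¹)
  obtain ⟨ξ, hξ⟩ := (pd_pf H h _ h1.2).1
  have c1 : ∀ y ∈ L ⊓ cj κ⁻¹ L', κ⁻¹ * y * κ ∈ L' := fun y hy => by simpa using mem_cj.1 hy.2
  obtain ⟨r, hr⟩ := tr_ee hζ (le_conj (inf_le_left : L ⊓ cj κ⁻¹ L' ≤ L)) x ξ
  obtain ⟨r', hr'⟩ := tr_ee hζ' c1 x ξ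
  have e1 := congrArg (tr h L K 1) hr
  have e2 := congrArg (tr h L' K 1) hr'
  rw [tr_K hL.1 (le_conj inf_le_left), map_smul, mul_one] at e1
  rw [tr_K hL'.1 c1, map_smul, tr_mem hκ] at e2
  have h0 := fun e => ee_ne hξ _ (k1 hp hc ht hM h1 x ξ e)
  have r0 : r ≠ 0 := fun e => h0 (by rw [e1, e, zero_smul])
  have r1 : r' ≠ 0 := fun e => h0 (by rw [e2, e, zero_smul])
  exact ⟨r⁻¹ * r', mul_ne_zero (inv_ne_zero r0) r1, by
    rw [mul_smul, ← e2, e1, inv_smul_smul₀ r0]⟩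

/-- normalised generators -/
def Nz (ω : H ⧸ K → Hm H (H ⧸ K) h) (L : Subgroup H) (ζ : Hm H (H ⧸ L) h) : Prop :=
  (Bijective fun a : H ⧸ L → ℚ => act a ζ) ∧ ∀ x : H, tr h L K 1 (act (ee (x : H ⧸ L)) ζ) = ω x

theorem exists_Nz [K.Normal] (hp : S_pz) (hc : S_colim) (ht : S_trans) (hM : Mx K h) :
    ∃ ω : H ⧸ K → Hm H (H ⧸ K) h, (∀ c, ω c ≠ 0) ∧ ∀ L, LL K h L → ∃ ζ, Nz ω L ζ := by
  obtain ⟨L₀, hL₀⟩ := hM.1
  obtain ⟨ζ₀, h₀⟩ := (pd_pf H h _ hL₀.2).1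
  refine ⟨fun c => tr h L₀ K 1 (act (ee (c.out : H ⧸ L₀)) ζ₀),
    fun c e => ee_ne h₀ _ (k1 hp hc ht hM hL₀ _ _ e), fun L hL => ?_⟩
  obtain ⟨ζ, hζ⟩ := (pd_pf H h _ hL.2).1
  have h1 : ∀ p : H ⧸ L, ∃ r : ℚ, r ≠ 0 ∧ tr h L₀ K 1 (act (ee ((p.out : H ⧸ K).out : H ⧸ L₀)) ζ₀) =
      r • tr h L K 1 (act (ee p) ζ) := fun p => by
    have := k2 hp hc ht hM hL₀ hL h₀ hζ (p.out : H ⧸ K).out
      (κ := ((p.out : H ⧸ K).out)⁻¹ * p.out) (QuotientGroup.eq.1 (QuotientGroup.out_eq' _))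
    simpa using this
  choose r hr e using h1
  refine ⟨act r ζ, ?_, fun x => ?_⟩
  · simp only [act_act]
    exact hζ.comp (Equiv.bijective ⟨fun a => a * r, fun a => a / r,
      fun a => funext fun p => mul_div_cancel_right₀ _ (hr p),
      fun a => funext fun p => div_mul_cancel₀ _ (hr p)⟩)
  · have e1 : (((x : H ⧸ L).out : H) : H ⧸ K) = x :=
      QuotientGroup.eq.2 (hL.1 (QuotientGroup.eq.1 (QuotientGroup.out_eq' _)))
    have := e x
    rw [e1] at this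
    simp only [this, act_act, ← map_smul, ← smul_act]
    congr 2; funext q
    by_cases hq : q = x <;> simp [ee, hq]

variable {ω : H ⧸ K → Hm H (H ⧸ K) h} {ζ : Hm H (H ⧸ L) h} {ζ' : Hm H (H ⧸ L') h}

theorem K_conj [hK : K.Normal] (g : H) : ∀ x ∈ K, g⁻¹ * x * g ∈ K :=
  fun x hx => by simpa using hK.conj_mem x hx g⁻¹

theorem Nz.tr_ee [K.Normal] (hω : ∀ c, ω c ≠ 0) (hz : Nz ω L ζ) (hz' : Nz ω L' ζ') (hL : L ≤ K)
    (hL' : L' ≤ K) {g : H} (e : ∀ x ∈ L, g⁻¹ * x * g ∈ L') (x : H) {r : ℚ}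
    (hr : tr h K K g (ω x) = r • ω (x * g : H)) :
    tr h L L' g (act (ee (x : H ⧸ L)) ζ) = r • act (ee ((x * g : H) : H ⧸ L')) ζ' := by
  obtain ⟨r', e1⟩ := ThetaX.tr_ee hz'.1 e x ζ
  have e2 := congrArg (tr h L' K 1) e1
  rw [tr_K hL' e, map_smul, hz'.2, ← one_mul g, ← tr_tr (le_conj hL) (K_conj g), hz.2, hr,
    one_mul] at e2
  rw [e1, smul_left_injective ℚ (hω _) e2]

theorem exists_u [K.Normal] (hp : S_pz) (hM : Mx K h) (hω : ∀ c, ω c ≠ 0)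
    (hN : ∀ L, LL K h L → ∃ ζ, Nz ω L ζ) (g : H) : ∃ u : H ⧸ K → ℚ, (∀ c, u c ≠ 0) ∧
      ∀ x : H, tr h K K g (ω x) = u (x * g : H) • ω (x * g : H) := by
  obtain ⟨L, hL⟩ := hM.1
  obtain ⟨ζ, hz⟩ := hN L hL
  obtain ⟨ζ', hz'⟩ := hN _ (LL.cj hp hL g)
  have e : ∀ x ∈ L, g⁻¹ * x * g ∈ cj g L := fun x hx => mem_cj.2 (by simpa [mul_assoc] using hx)
  have h1 : ∀ x : H, ∃ r : ℚ, tr h K K g (ω x) = r • ω (x * g : H) := fun x => by
    obtain ⟨r, e1⟩ := ThetaX.tr_ee hz'.1 e x ζ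
    have e2 := congrArg (tr h _ K 1) e1
    rw [tr_K (LL.cj hp hL g).1 e, map_smul, hz'.2, ← one_mul g,
      ← tr_tr (le_conj hL.1) (K_conj g), hz.2, one_mul] at e2
    exact ⟨r, e2⟩
  choose r hr using h1
  refine ⟨fun c => r (c.out * g⁻¹), fun c e0 => hω (c.out * g⁻¹ : H) ?_, fun x => ?_⟩
  · have := congrArg (tr h K K g⁻¹) (hr (c.out * g⁻¹))
    rwa [tr_tr (K_conj g) (K_conj _), mul_inv_cancel, tr_one, show r _ = 0 from e0, zero_smul,
      map_zero] at this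
  · have := hr (((x * g : H) : H ⧸ K).out * g⁻¹)
    simpa using this

theorem Nz.tr_iso [K.Normal] (hω : ∀ c, ω c ≠ 0) (hz : Nz ω L ζ) (hz' : Nz ω L' ζ') (hL : L ≤ K)
    (hL' : L' ≤ K) {g : H} (e : ∀ x ∈ L, g⁻¹ * x * g ∈ L') (e' : ∀ x ∈ L', g * x * g⁻¹ ∈ L)
    {u : H ⧸ K → ℚ} (hu : ∀ x : H, tr h K K g (ω x) = u (x * g : H) • ω (x * g : H))
    {F : H → ℚ} (hF : ∀ x, ∀ y ∈ L, F (x * y) = F x) :
    tr h L L' g (act (fun p => F p.out) ζ) =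
      act (u ∘ rt L' K 1) (act (fun p => F (p.out * g⁻¹)) ζ') := by
  refine ee_ext hz'.1 fun q => ?_
  obtain ⟨x, rfl⟩ : ∃ x : H, ((x * g : H) : H ⧸ L') = q := ⟨q.out * g⁻¹, by simp⟩
  have e1 : ee ((x * g : H) : H ⧸ L') ∘ rt L L' g * (fun p => F p.out) = F x • ee (x : H ⧸ L) := by
    funext p
    obtain ⟨y, rfl⟩ := QuotientGroup.mk_surjective p
    obtain ⟨k, hk⟩ := QuotientGroup.mk_out_eq_mul L y
    have : ((y * g : H) : H ⧸ L') = (x * g : H) ↔ (y : H ⧸ L) = x := by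
      simp only [QuotientGroup.eq]
      exact ⟨fun a => by simpa [mul_assoc] using e' _ a, fun a => by simpa [mul_assoc] using e _ a⟩
    simp only [Pi.mul_apply, comp_apply, rt_mk e, hk, hF y k k.2, Pi.smul_apply]
    by_cases a : (y : H ⧸ L) = x
    · rw [ee, ee, if_pos a, if_pos (this.2 a)]
      simpa using (hF y _ (QuotientGroup.eq.1 a)).symm
    · rw [ee, ee, if_neg a, if_neg (mt this.1 a)]
      simp
  rw [act_tr e, act_act, e1, smul_act, map_smul, hz.tr_ee hω hz' hL hL' e x (hu x), act_act,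
    act_act, smul_smul, ← smul_act]
  congr 1; funext p
  by_cases hp : p = (x * g : H)
  · subst hp
    obtain ⟨k, hk⟩ := QuotientGroup.mk_out_eq_mul L' (x * g)
    have := hF x _ (e' k k.2)
    simp only [mul_assoc] at this
    simp [ee, rt_mk (le_conj hL'), hk, mul_assoc, this, mul_comm]
  · simp [ee, hp]

theorem om_K [K.Normal] {κ : H} (hκ : κ ∈ K) (x : H) :
    tr h K K κ (ω x) = (1 : H ⧸ K → ℚ) (x * κ : H) • ω (x * κ : H) := by
  rw [tr_mem hκ, tr_one, QuotientGroup.mk_mul_of_mem x hκ, Pi.one_apply, one_smul]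

theorem Nz.tr_le [K.Normal] (hω : ∀ c, ω c ≠ 0) (hz : Nz ω L ζ) (hz' : Nz ω L' ζ') (e : L ≤ L')
    (hL' : L' ≤ K) (hi : L.relIndex L' ≠ 0) {F : H → ℚ} (hF : ∀ x, ∀ y ∈ L', F (x * y) = F x) :
    tr h L L' 1 (act (fun p => F p.out) ζ) = (L.relIndex L' : ℚ) • act (fun p => F p.out) ζ' := by
  classical
  have e0 : (fun p : H ⧸ L => F p.out) = (fun p : H ⧸ L' => F p.out) ∘ rt L L' 1 := by
    funext p
    obtain ⟨k, hk⟩ := QuotientGroup.mk_out_eq_mul L' (p.out * 1)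
    rw [comp_apply, rt, hk, hF _ k k.2, mul_one]
  rw [e0, ← act_tr (le_conj e), ← act_smul]
  congr 1
  refine ee_ext hz'.1 fun q => ?_
  obtain ⟨y, rfl⟩ := QuotientGroup.mk_surjective q
  have := Subgroup.fintypeOfIndexNeZero hi
  have e1 : ee (y : H ⧸ L') ∘ rt L L' 1 =
      ∑ τ : L' ⧸ L.subgroupOf L', ee ((y * (τ.out : L') : H) : H ⧸ L) := by
    funext p
    obtain ⟨x, rfl⟩ := QuotientGroup.mk_surjective p
    simp only [comp_apply, rt_mk (le_conj e), mul_one, ee, Finset.sum_apply, QuotientGroup.eq]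
    split_ifs with a
    · have a' : y⁻¹ * x ∈ L' := by simpa using inv_mem a
      rw [Finset.sum_eq_single ((⟨_, a'⟩ : L') : L' ⧸ L.subgroupOf L'), if_pos]
      · simpa [mul_assoc] using Subgroup.mem_subgroupOf.1 (QuotientGroup.eq.1
          (QuotientGroup.out_eq' ((⟨_, a'⟩ : L') : L' ⧸ L.subgroupOf L')).symm)
      · intro τ _ hτ
        refine if_neg fun b => hτ ?_
        rw [← QuotientGroup.out_eq' τ, eq_comm, QuotientGroup.eq, Subgroup.mem_subgroupOf]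
        simpa [mul_assoc] using b
      · simp
    · refine (Finset.sum_eq_zero fun τ _ => if_neg fun b => a ?_).symm
      simpa [mul_assoc] using L'.mul_mem (e b) (inv_mem τ.out.2)
  rw [act_tr (le_conj e), e1, sum_act, map_sum, act_smul, Finset.sum_congr rfl fun τ _ =>
    hz.tr_ee hω hz' (e.trans hL') hL' (le_conj e) _ (om_K (one_mem _) _)]
  simp [QuotientGroup.mk_mul_of_mem y (Subtype.property _), Subgroup.relIndex, Subgroup.index,
    Nat.cast_smul_eq_nsmul]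

end ThetaX

open ThetaX

theorem theta_pf (hp : S_pz) (hc : S_colim) (ht : S_trans) : S_theta := by
  classical
  intro H _ K _ h hM
  obtain ⟨ω, hω, hN⟩ := exists_Nz hp hc ht hM
  obtain ⟨L₀, hL₀⟩ := hM.1
  choose! ζ hζ using hN
  let T : Subgroup H → (H → ℚ) → Hm H (H ⧸ K) h := fun L F =>
    (L.relIndex L₀ : ℚ)⁻¹ • tr h L K 1 (act (fun p => F p.out) (ζ L))
  let Gd : Subgroup H → (H → ℚ) → Prop := fun L F =>
    LL K h L ∧ L ≤ L₀ ∧ ∀ x, ∀ y ∈ L, F (x * y) = F x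
  have h0 : ∀ {L L' F}, Gd L' F → LL K h L → L ≤ L' → T L F = T L' F := fun {L L' F} a b e => by
    have hi := b.rel hp hM a.1
    simp only [T]
    rw [← tr_K a.1.1 (le_conj e), (hζ L b).tr_le hω (hζ L' a.1) e a.1.1 hi a.2.2, map_smul,
      smul_smul, ← Subgroup.relIndex_mul_relIndex L L' L₀ e a.2.1]
    congr 1
    have : (L.relIndex L' : ℚ) ≠ 0 := by exact_mod_cast hi
    push_cast; field_simp
  have h1 : ∀ {L L' F}, Gd L F → LL K h L' → Gd (L ⊓ L') F := fun a b =>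
    ⟨a.1.inf hp hM b, inf_le_left.trans a.2.1, fun x y hy => a.2.2 x y hy.1⟩
  have h2 : ∀ F, Sm K h F → ∃ L, Gd L F := by
    rintro F ⟨L, a, b, d⟩
    exact ⟨L ⊓ L₀, LL.inf hp hM ⟨a, b⟩ hL₀, inf_le_right, fun x y hy => d x y hy.1⟩
  obtain ⟨Θ, hΘ⟩ : ∃ Θ : (H → ℚ) → Hm H (H ⧸ K) h, ∀ L F, Gd L F → Θ F = T L F := by
    refine ⟨fun F => if e : ∃ L, Gd L F then T e.choose F else 0, fun L F a => ?_⟩
    have e : ∃ L, Gd L F := ⟨L, a⟩
    simp only [dif_pos e]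
    rw [← h0 e.choose_spec (h1 a e.choose_spec.1).1 inf_le_right,
      h0 a (h1 a e.choose_spec.1).1 inf_le_left]
  refine ⟨Θ, fun F F' a b => ?_, fun F a u => ?_, fun F a κ hκ => ?_, fun F a g => ?_,
    fun F a e => ?_⟩
  · obtain ⟨L, a⟩ := h2 F a
    obtain ⟨L', b⟩ := h2 F' b
    have a' := h1 a b.1
    have b' : Gd (L ⊓ L') F' := ⟨a'.1, a'.2.1, fun x y hy => b.2.2 x y hy.2⟩
    rw [hΘ _ F a', hΘ _ F' b', hΘ (L ⊓ L') (F + F') ⟨a'.1, a'.2.1, fun x y hy => by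
      simp [a'.2.2 x y hy, b'.2.2 x y hy]⟩]
    simp only [T]
    rw [← smul_add, ← map_add, ← add_act]; rfl
  · obtain ⟨L, a⟩ := h2 F a
    rw [hΘ L F a, hΘ L _ ⟨a.1, a.2.1, fun x y hy => by
      simp only [a.2.2 x y hy, QuotientGroup.mk_mul_of_mem x (a.1.1 hy)]⟩]
    simp only [T]
    rw [act_smul, act_tr (le_conj a.1.1), act_act]
    congr 3; funext p; simp [rt]
  · obtain ⟨L, a⟩ := h2 F a
    obtain ⟨L', b, d, -, f⟩ := a.1.core hp le_sup_left (hM.2 L a.1.1 a.1.2 {κ} (by simpa using hκ))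
    have hκU : κ ∈ L ⊔ Subgroup.closure (({κ} : Finset H) : Set H) :=
      Subgroup.mem_sup_right (Subgroup.subset_closure (by simp))
    have a' : Gd L' F := ⟨b, d.trans a.2.1, fun x y hy => a.2.2 x y (d hy)⟩
    rw [hΘ L' F a', hΘ L' _ ⟨b, a'.2.1, fun x y hy => by
      simpa [mul_assoc] using a'.2.2 (x * κ) _ (f κ hκU y hy)⟩]
    have e := (hζ L' b).tr_iso hω (hζ L' b) b.1 b.1 (f κ⁻¹ (inv_mem hκU))
      (by simpa using f κ hκU) (om_K (inv_mem hκ)) a'.2.2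
    have e2 := congrArg (tr h L' K 1) e
    rw [tr_K b.1 (f κ⁻¹ (inv_mem hκU)), tr_mem (inv_mem hκ), Pi.one_comp, act_one, inv_inv] at e2
    simp only [T, e2]
  · obtain ⟨L₁, a⟩ := h2 F a
    obtain ⟨L, a, b⟩ : ∃ L, Gd L F ∧ cj g L ≤ L₀ := ⟨_, h1 a (LL.cj hp hL₀ g⁻¹), fun x hx => by
      simpa [mul_assoc] using mem_cj.1 (mem_cj.1 hx).2⟩
    have d := a.1.cj hp g
    have c1 : ∀ x ∈ L, g⁻¹ * x * g ∈ cj g L := fun x hx => mem_cj.2 (by simpa [mul_assoc] using hx)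
    obtain ⟨u, hu, eu⟩ := exists_u hp hM hω (fun L hL => ⟨_, hζ L hL⟩) g
    have i1 : (L.relIndex L₀ : ℚ) ≠ 0 := by exact_mod_cast a.1.rel hp hM hL₀
    have i2 : ((cj g L).relIndex L₀ : ℚ) ≠ 0 := by exact_mod_cast d.rel hp hM hL₀
    refine ⟨((L.relIndex L₀ : ℚ)⁻¹ * (cj g L).relIndex L₀) • u,
      fun c => mul_ne_zero (mul_ne_zero (inv_ne_zero i1) i2) (hu c), ?_⟩
    rw [hΘ L F a, hΘ (cj g L) _ ⟨d, b, fun x y hy => by
      simpa [mul_assoc] using a.2.2 (x * g⁻¹) _ (mem_cj.1 hy)⟩]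
    have e := (hζ L a.1).tr_iso hω (hζ _ d) a.1.1 d.1 c1 (fun x => mem_cj.1) eu a.2.2
    simp only [T]
    rw [map_smul, tr_tr (le_conj a.1.1) (K_conj g), one_mul, ← tr_K d.1 c1, e, smul_act, act_smul,
      ← act_tr (le_conj d.1), smul_smul, mul_inv_cancel_right₀ i2]
  · obtain ⟨L, a⟩ := h2 F a
    have i1 : (L.relIndex L₀ : ℚ) ≠ 0 := by exact_mod_cast a.1.rel hp hM hL₀
    rw [hΘ L F a, smul_eq_zero, inv_eq_zero] at e
    obtain ⟨s, hs, e1⟩ := (hc H h L K a.1.1).1 _ (e.resolve_left i1)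
    obtain ⟨L', b, d, f, k⟩ := a.1.core hp le_sup_left (hM.2 L a.1.1 a.1.2 s hs)
    obtain ⟨s', t1, t2, t3⟩ := (ht H h L' _ (d.trans le_sup_left) f).2 k
    have hU : L ⊔ Subgroup.closure (s : Set H) ≤ K := sup_le a.1.1 ((Subgroup.closure_le _).2 hs)
    have e2 := (t3 (act (fun p => F p.out) (ζ L'))).1 (by
      rw [← tr_K le_sup_left (le_conj d), (hζ L' b).tr_le hω (hζ L a.1) d a.1.1 (b.rel hp hM a.1)
        a.2.2, map_smul, e1, smul_zero])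
    rw [Finset.sum_congr rfl fun κ hκ => (hζ L' b).tr_iso hω (hζ L' b) b.1 b.1 (k κ (t1 hκ))
      (by simpa using k κ⁻¹ (inv_mem (t1 hκ))) (om_K (hU (t1 hκ))) fun x y hy => a.2.2 x y (d hy)]
      at e2
    simp only [Pi.one_comp, act_one, ← sum_act] at e2
    obtain ⟨κ₀, ⟨hκ₀, -⟩, -⟩ := t2 1 (one_mem _)
    refine ⟨s'.image (·⁻¹), Finset.Nonempty.image ⟨κ₀, hκ₀⟩ _, ?_, fun x => ?_⟩
    · intro y hy
      obtain ⟨κ, hκ, rfl⟩ := Finset.mem_image.1 hy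
      exact inv_mem (hU (t1 hκ))
    · rw [Finset.sum_image fun _ _ _ _ e => inv_injective e]
      refine Eq.trans ?_ (congrFun (act_faith (hζ L' b).1 e2) x)
      rw [Finset.sum_apply]
      refine Finset.sum_congr rfl fun κ hκ => ?_
      obtain ⟨y, hy⟩ := QuotientGroup.mk_out_eq_mul L' x
      rw [hy]
      simpa [mul_assoc] using (a.2.2 (x * κ⁻¹) _ (d (k κ⁻¹ (inv_mem (t1 hκ)) y y.2))).symm

theorem top_pf (hc : S_colim) (ht : S_trans) : S_top := by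
  intro H _ K h j hK hM ⟨N, t, h0, hj, hN⟩ z₁ z₂ a b d
  have key : ∀ i ≤ j, (∀ x y : H, x * y * x⁻¹ * y⁻¹ ∈ N i) ∧
      (∀ m, h + i < m → ∀ z : Hm H (H ⧸ N i) m, z = 0) ∧ ∃ w₁ w₂ : Hm H (H ⧸ N i) (h + i),
      Ind w₁ w₂ ∧ (∀ g, tr _ _ _ g w₁ = w₁) ∧ ∀ g, tr _ _ _ g w₂ = w₂ := by
    intro i hi
    induction i with
    | zero =>
      subst h0
      refine ⟨hK, fun m hm z => ?_, z₁, z₂, a, b, d⟩
      obtain ⟨L, hL, hL'⟩ := hM.1
      obtain ⟨s, hs, w, rfl⟩ := (hc H m L _ hL).2 z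
      obtain ⟨w, rfl⟩ := (ht H m L _ le_sup_left (hM.2 L hL hL' s hs)).1 w
      rw [(pd_pf H h L hL').2 m (by omega) w, map_zero, map_zero]
    | succ i ih =>
      obtain ⟨c1, v, w₁, w₂, e, e₁, e₂⟩ := ih (by omega)
      have hs := hN i (by omega)
      obtain ⟨δ, d1, d2, -, -, -, d6⟩ := wang_pf H _ _ _ hs
      have hδ : ∀ m, h + i ≤ m → ∀ z, δ m z = 0 → z = 0 := fun m hm z e => by
        obtain ⟨w, rfl⟩ := (d1 m z).1 e
        rw [v _ (by omega) w, map_zero]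
      have c2 : ∀ {M : Subgroup H}, N i ≤ M → ∀ g : H, ∀ x ∈ M, g⁻¹ * x * g ∈ M :=
        fun {M} hM g x hx => by simpa using M.mul_mem (hM (c1 g⁻¹ x)) hx
      have inv : ∀ u w, δ (h + i) u = w → (∀ g, tr _ _ _ g w = w) → ∀ g, tr _ _ _ g u = u :=
        fun u w e1 e2 g => sub_eq_zero.1 (hδ _ le_rfl _ (by
          rw [map_sub, d6 g (c2 le_rfl g) (c2 hs.le g)
            (by simpa [mul_assoc] using c1 g⁻¹ (t i)⁻¹), e1, e2, sub_self]))
      obtain ⟨u₁, f₁⟩ := (d2 _ w₁).2 (e₁ _)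
      obtain ⟨u₂, f₂⟩ := (d2 _ w₂).2 (e₂ _)
      refine ⟨fun x y => hs.le (c1 x y), fun m hm z => ?_, u₁, u₂, fun r r' e' => e r r' ?_,
        inv _ _ f₁ e₁, inv _ _ f₂ e₂⟩
      · obtain ⟨m, rfl⟩ : ∃ m', m = m' + 1 := ⟨m - 1, by omega⟩
        exact hδ m (by omega) z (v m (by omega) _)
      · simpa [f₁, f₂] using congrArg (δ (h + i)) e'
  have := key j le_rfl
  rw [hj] at this
  obtain ⟨-, -, w₁, w₂, e, -⟩ := this
  exact ⟨w₁, w₂, e⟩

end Vale.Agent.P188.Fn
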