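import Vale.Agent.P188.FinTheta

/-! Two independent invariant classes from a valuation. -/

namespace Vale.Agent.P188.Fn

open Function Filter ThetaX

namespace TwoX

variable {H : Type} [Group H] {K Q : Subgroup H} {t : H} {h : ℕ}

def Qz (Q : Subgroup H) (t : H) (l : ℤ) : Subgroup H := Q.comap (MulAut.conj (t ^ l)).toMonoidHom

theorem mem_Qz {l : ℤ} {x : H} : x ∈ Qz Q t l ↔ t ^ l * x * (t ^ l)⁻¹ ∈ Q := Iff.rfl

theorem Qz_conj {l k : ℤ} {x : H} : t ^ k * x * (t ^ k)⁻¹ ∈ Qz Q t l ↔ x ∈ Qz Q t (l + k) := by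
  simp [mem_Qz, zpow_add, mul_assoc]

theorem Qz_mono (v : Val K Q t) : Monotone (Qz Q t) := monotone_int_of_le_succ fun l x hx => by
  have := v.conj _ (mem_Qz.1 hx)
  rw [mem_Qz, add_comm, zpow_one_add]
  simpa [mul_assoc] using this

theorem Qz_ev (v : Val K Q t) {x : H} (hx : x ∈ K) : ∃ m : ℕ, x ∈ Qz Q t m := by
  obtain ⟨k, hk⟩ := v.union x hx
  exact ⟨k, by simpa [mem_Qz] using hk⟩

theorem Qz_fin (v : Val K Q t) {s : Finset H} (hs : (s : Set H) ⊆ K) :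
    ∃ m : ℕ, (s : Set H) ⊆ Qz Q t m := by
  choose! m hm using fun x (hx : x ∈ K) => Qz_ev v hx
  exact ⟨s.sup m, fun x hx => Qz_mono v (Int.ofNat_le.2 (Finset.le_sup hx)) (hm x (hs hx))⟩

theorem Qz_idx (v : Val K Q t) (l : ℤ) (n : ℕ) : (Qz Q t l).relIndex (Qz Q t (l + n)) ≠ 0 := by
  induction n with
  | zero => simp
  | succ n ih =>
    rw [← Subgroup.relIndex_mul_relIndex _ (Qz Q t (l + n)) _ (Qz_mono v (by omega))
      (Qz_mono v (by omega))]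
    refine mul_ne_zero ih ?_
    have e : Qz Q t (l + n) = (Q.map (MulAut.conj t).toMonoidHom).comap
        (MulAut.conj (t ^ (l + (n + 1 : ℕ)))).toMonoidHom := by
      ext x
      rw [Subgroup.mem_comap, show l + (n + 1 : ℕ) = 1 + (l + n) by push_cast; ring, zpow_one_add,
        mem_Qz]
      generalize t ^ (l + n) = w
      constructor
      · exact fun hx => ⟨_, hx, by simp [mul_assoc]⟩
      · rintro ⟨y, hy, e⟩
        have : y = w * x * w⁻¹ := mul_right_cancel (b := t⁻¹) (by simpa [mul_assoc] using e)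
        exact this ▸ hy
    rw [e, Qz, Subgroup.relIndex_comap, Subgroup.map_comap_eq_self_of_surjective
      (MulAut.conj _).surjective]
    exact v.fin

theorem Qz_idx' (v : Val K Q t) {l m : ℤ} (e : l ≤ m) : (Qz Q t l).relIndex (Qz Q t m) ≠ 0 := by
  obtain ⟨n, rfl⟩ := Int.le.dest e
  exact Qz_idx v l n

theorem Qz_ev' (v : Val K Q t) {x : H} (hx : x ∈ K) (l : ℤ) :
    ∀ᶠ k : ℕ in atTop, t ^ k * x * (t ^ k)⁻¹ ∈ Qz Q t l := by
  obtain ⟨m, hm⟩ := Qz_ev v hx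
  filter_upwards [eventually_ge_atTop (m - l).toNat] with k hk
  rw [← zpow_natCast, Qz_conj]
  exact Qz_mono v (by omega) hm

def cc (t y : H) (k : ℕ) : H := y * t ^ k * y⁻¹ * (t ^ k)⁻¹

/-- the boundary point attached to `y` lies in the ball `κ Q_l` -/
def BB (Q : Subgroup H) (t : H) (l : ℤ) (κ y : H) : Prop :=
  ∀ᶠ k in atTop, κ⁻¹ * cc t y k ∈ Qz Q t l

variable {l m : ℤ} {κ κ' y u : H}

theorem BB.ex (v : Val K Q t) (hK : ∀ x y : H, x * y * x⁻¹ * y⁻¹ ∈ K) (l : ℤ) (y : H) :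
    ∃ κ ∈ K, BB Q t l κ y := by
  obtain ⟨k₀, hk⟩ := eventually_atTop.1 (Qz_ev' v (hK y t) l)
  refine ⟨cc t y k₀, hK _ _, eventually_atTop.2 ⟨k₀, fun k hk' => ?_⟩⟩
  induction k, hk' using Nat.le_induction with
  | base => simp
  | succ k h1 ih =>
    convert mul_mem ih (hk k h1) using 1
    simp only [cc, pow_succ]; group

theorem BB.rel (a : BB Q t l κ y) (b : BB Q t l κ' y) : κ⁻¹ * κ' ∈ Qz Q t l := by
  obtain ⟨k, h1, h2⟩ := (a.and b).exists
  simpa [mul_assoc] using mul_mem h1 (inv_mem h2)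

theorem BB.of_rel (a : BB Q t l κ y) (b : κ'⁻¹ * κ ∈ Qz Q t l) : BB Q t l κ' y :=
  Eventually.mono a fun k hk => by simpa [mul_assoc] using mul_mem b hk

theorem BB.mono (v : Val K Q t) (a : BB Q t l κ y) (e : l ≤ m) : BB Q t m κ y :=
  Eventually.mono a fun _ hk => Qz_mono v e hk

theorem BB.mul (v : Val K Q t) (a : BB Q t l κ y) (hu : u ∈ K) : BB Q t l (u * κ) (u * y) := by
  filter_upwards [a, Qz_ev' v (inv_mem hu) l] with k h1 h2
  convert mul_mem h1 h2 using 1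
  simp only [cc]; group

theorem BB_mul (v : Val K Q t) (hu : u ∈ K) : BB Q t l κ (u⁻¹ * y) ↔ BB Q t l (u * κ) y :=
  ⟨fun a => by simpa using a.mul v hu, fun a => by simpa using a.mul v (inv_mem hu)⟩

theorem det (v : Val K Q t) (hK : ∀ x y : H, x * y * x⁻¹ * y⁻¹ ∈ K) (g : H) : ∃ l ≤ (0 : ℤ),
    ∀ κ y y', BB Q t l κ y → BB Q t l κ y' → BB Q t 0 1 (g * y) → BB Q t 0 1 (g * y') := by
  obtain ⟨c, -, hc⟩ := BB.ex v hK 0 g
  obtain ⟨m, hm⟩ := v.comm g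
  obtain ⟨i, h1, h2⟩ := (hc.and (eventually_ge_atTop m)).exists
  have key : ∀ q ∈ Qz Q t (-i), c⁻¹ * (g * q * g⁻¹) * c ∈ Qz Q t 0 := fun q hq => by
    have a : g * (t ^ (-i : ℤ) * q * (t ^ (-i : ℤ))⁻¹) * g⁻¹ ∈ Qz Q t (0 + (i : ℤ)) :=
      Qz_mono v (show (m : ℤ) ≤ _ by omega) (by simpa [mem_Qz] using hm _ (mem_Qz.1 hq))
    convert mul_mem (mul_mem h1 (Qz_conj.2 a)) (inv_mem h1) using 1
    simp only [cc]; group
  refine ⟨-i, by omega, fun κ y y' a b d => ?_⟩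
  filter_upwards [a, b, d, hc] with k a b d e
  convert mul_mem d (mul_mem (mul_mem (inv_mem e) (key _ (mul_mem (inv_mem a) b))) e) using 1
  simp only [cc]; group

theorem bdd [K.Normal] (v : Val K Q t) (hK : ∀ x y : H, x * y * x⁻¹ * y⁻¹ ∈ K) (g : H) :
    ∃ m : ℕ, ∀ y, BB Q t 0 1 (g * y) → BB Q t m 1 y := by
  obtain ⟨c, hcK, hc⟩ := BB.ex v hK 0 g
  obtain ⟨m, hm⟩ := v.comm g⁻¹
  obtain ⟨m', hm'⟩ := Qz_ev v (K_conj g _ (inv_mem hcK))
  refine ⟨m + m', fun y a => ?_⟩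
  filter_upwards [a, hc] with k a b
  have h1 : g⁻¹ * (1⁻¹ * cc t (g * y) k * (c⁻¹ * cc t g k)⁻¹) * g⁻¹⁻¹ ∈ Qz Q t m := by
    simpa [mem_Qz] using hm _ (by simpa [mem_Qz] using mul_mem a (inv_mem b))
  convert mul_mem (Qz_mono v (show (m : ℤ) ≤ (m + m' : ℕ) by omega) h1)
    (Qz_mono v (show (m' : ℤ) ≤ (m + m' : ℕ) by omega) hm') using 1
  simp only [cc]; group

open Classical in
noncomputable def ind (P : H → Prop) (x : H) : ℚ := if P x⁻¹ then 1 else 0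

theorem ind_pos {P : H → Prop} {x : H} (e : P x⁻¹) : ind P x = 1 := if_pos e

theorem ind_neg {P : H → Prop} {x : H} (e : ¬P x⁻¹) : ind P x = 0 := if_neg e

theorem ind_congr {P P' : H → Prop} {x x' : H} (e : P x⁻¹ ↔ P' x'⁻¹) : ind P x = ind P' x' := by
  by_cases h : P x⁻¹
  · rw [ind_pos h, ind_pos (e.1 h)]
  · rw [ind_neg h, ind_neg (mt e.2 h)]

theorem ind_shift (v : Val K Q t) (hκ : κ ∈ K) (x : H) :
    ind (BB Q t l 1) (x * κ) = ind (BB Q t l κ) x :=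
  ind_congr (by rw [mul_inv_rev, BB_mul v hκ, mul_one])

theorem sm_shift [K.Normal] (hp : S_pz) {F : H → ℚ} (a : Sm K h F) (g : H) :
    Sm K h fun x => F (x * g) := by
  obtain ⟨L, a, b, d⟩ := a
  have := LL.cj hp ⟨a, b⟩ g⁻¹
  exact ⟨_, this.1, this.2, fun x y hy => by simpa [mul_assoc] using d (x * g) _ (mem_cj.1 hy)⟩

theorem sm_add (hp : S_pz) (hM : Mx K h) {F F' : H → ℚ} (a : Sm K h F) (a' : Sm K h F') :
    Sm K h (F + F') := by
  obtain ⟨L, a, b, d⟩ := a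
  obtain ⟨L', a', b', d'⟩ := a'
  have := LL.inf hp hM ⟨a, b⟩ ⟨a', b'⟩
  exact ⟨_, this.1, this.2, fun x y hy => by simp [d x y hy.1, d' x y hy.2]⟩

theorem sm_mul {F : H → ℚ} (a : Sm K h F) (u : H ⧸ K → ℚ) : Sm K h fun x => u x * F x := by
  obtain ⟨L, a, b, d⟩ := a
  exact ⟨L, a, b, fun x y hy => by simp only [d x y hy, QuotientGroup.mk_mul_of_mem x (a hy)]⟩

theorem sm_const (hM : Mx K h) (r : ℚ) : Sm K h fun _ => r := by
  obtain ⟨L, a, b⟩ := hM.1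
  exact ⟨L, a, b, fun _ _ _ => rfl⟩

theorem sm_ind (hp : S_pz) (hM : Mx K h) (v : Val K Q t) (l : ℤ) : Sm K h (ind (BB Q t l 1)) := by
  obtain ⟨L, a, b⟩ := hM.1
  obtain ⟨s, hs⟩ := hp.fg b
  obtain ⟨m, hm⟩ := Qz_fin v (s := s) (Subgroup.subset_closure.trans (hs ▸ a))
  have h1 : L ≤ Qz Q t (max l m) :=
    hs ▸ ((Subgroup.closure_le _).2 hm).trans (Qz_mono v (le_max_right _ _))
  have := LL.sub hp ⟨a, b⟩ (inf_le_right : Qz Q t l ⊓ L ≤ L) (by
    rw [Subgroup.inf_relIndex_right]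
    exact fun e => Qz_idx' v (le_max_left l m) (Subgroup.relIndex_eq_zero_of_le_right h1 e))
  refine ⟨_, this.1, this.2, fun x y hy => ?_⟩
  rw [ind_shift v (a hy.2)]
  exact ind_congr ⟨fun e => e.of_rel (by simpa using hy.1), fun e => e.of_rel (by simpa using hy.1)⟩

theorem decomp [K.Normal] (v : Val K Q t) (hK : ∀ x y : H, x * y * x⁻¹ * y⁻¹ ∈ K) {P : H → Prop}
    (e : l ≤ m) (h1 : ∀ κ y y', BB Q t l κ y → BB Q t l κ y' → P y → P y')
    (h2 : ∀ y, P y → BB Q t m 1 y) (h3 : ∃ y, P y) : ∃ (ι : Type) (s : Finset ι) (κ : ι → H),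
      s.Nonempty ∧ (∀ i, κ i ∈ K) ∧ ind P = ∑ i ∈ s, fun x => ind (BB Q t l 1) (x * κ i) := by
  classical
  have := Subgroup.fintypeOfIndexNeZero (Qz_idx' v e)
  have hK' : ∀ x ∈ Qz Q t m, x ∈ K := fun x hx => by
    simpa [mul_assoc] using K_conj (t ^ m) _ (v.le (mem_Qz.1 hx))
  have key : ∀ y, P y → ∃! τ : Qz Q t m ⧸ (Qz Q t l).subgroupOf (Qz Q t m),
      BB Q t l (τ.out : Qz Q t m) y := fun y hy => by
    obtain ⟨κ, -, a⟩ := BB.ex v hK l y
    have b : κ ∈ Qz Q t m := by simpa using (h2 y hy).rel (a.mono v e)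
    refine ⟨(⟨κ, b⟩ : Qz Q t m), a.of_rel ?_, fun τ hτ => ?_⟩
    · exact Subgroup.mem_subgroupOf.1 (QuotientGroup.eq.1 (QuotientGroup.out_eq'
        ((⟨κ, b⟩ : Qz Q t m) : Qz Q t m ⧸ (Qz Q t l).subgroupOf (Qz Q t m))))
    · rw [← QuotientGroup.out_eq' τ, QuotientGroup.eq, Subgroup.mem_subgroupOf]
      exact hτ.rel a
  refine ⟨_, Finset.univ.filter fun τ : Qz Q t m ⧸ (Qz Q t l).subgroupOf (Qz Q t m) =>
    ∃ y, P y ∧ BB Q t l (τ.out : Qz Q t m) y, fun τ => (τ.out : Qz Q t m), ?_,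
    fun τ => hK' _ τ.out.2, funext fun x => ?_⟩
  · obtain ⟨y, hy⟩ := h3
    obtain ⟨τ, hτ, -⟩ := key y hy
    exact ⟨τ, by simpa using ⟨y, hy, hτ⟩⟩
  · simp only [Finset.sum_apply, ind_shift v (hK' _ (Subtype.property _))]
    by_cases hx : P x⁻¹
    · obtain ⟨τ, a, b⟩ := key _ hx
      rw [Finset.sum_eq_single τ, ind_pos hx, ind_pos a]
      · exact fun τ' _ hτ => ind_neg fun e => hτ (b τ' e)
      · exact fun e => absurd (Finset.mem_filter.2 ⟨Finset.mem_univ _, _, hx, a⟩) e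
    · rw [ind_neg hx, eq_comm]
      refine Finset.sum_eq_zero fun τ hτ => ind_neg fun e => hx ?_
      obtain ⟨y, a, b⟩ := (Finset.mem_filter.1 hτ).2
      exact h1 _ _ _ b e a

theorem rescale [K.Normal] {z : Hm H (H ⧸ K) h} (hz : ∀ a, act a z = 0 → a = 0)
    (hu : ∀ g, ∃ u : H ⧸ K → ℚ, (∀ c, u c ≠ 0) ∧ tr h K K g z = act u z) :
    ∃ b : H ⧸ K → ℚ, (∀ c, b c ≠ 0) ∧ ∀ g, tr h K K g (act b z) = act b z := by
  choose u h0 hu using hu
  have inj : ∀ {a a'}, act a z = act a' z → a = a' := fun e =>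
    sub_eq_zero.1 (hz _ (by rw [sub_act, e, sub_self]))
  have e1 : ∀ g a, tr h K K g (act a z) = act (a ∘ rt K K g⁻¹ * u g) z := fun g a => by
    rw [← act_act, ← hu, act_tr (K_conj g)]
    congr 2; funext c
    obtain ⟨x, rfl⟩ := QuotientGroup.mk_surjective c
    simp only [comp_apply, rt_mk (K_conj _), mul_inv_cancel_right]
  have e2 : ∀ g g', u (g * g') = u g ∘ rt K K g'⁻¹ * u g' := fun g g' =>
    inj (by rw [← e1, ← hu, ← hu, tr_tr (K_conj _) (K_conj _)])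
  have e3 : ∀ x : H, u (x : H ⧸ K).out = u x := fun x => by
    obtain ⟨k, hk⟩ := QuotientGroup.mk_out_eq_mul K x
    exact inj (by rw [← hu, ← hu, hk, tr_congr k.2])
  refine ⟨fun c => u c.out c, fun c => h0 _ _, fun g => ?_⟩
  rw [e1]
  congr 1; funext c
  obtain ⟨x, rfl⟩ := QuotientGroup.mk_surjective c
  have := congrFun (e2 (x * g⁻¹) g) x
  simp only [Pi.mul_apply, comp_apply, rt_mk (K_conj _), e3, inv_mul_cancel_right] at this ⊢
  exact this.symm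

end TwoX

open TwoX

theorem two_pf (hp : S_pz) (hθ : S_theta) : S_two := by
  classical
  intro H _ K Q t h hK hM v
  haveI : K.Normal := ⟨fun x hx g => by simpa using mul_mem (hK g x) hx⟩
  obtain ⟨Θ, t1, t2, t3, t4, t5⟩ := hθ H K h hM
  have s1 := sm_const hM 1
  have sf := sm_ind hp hM v
  have hsum : ∀ (l : ℤ) (ι : Type) (s : Finset ι) (κ : ι → H), (∀ i, κ i ∈ K) →
      Sm K h (∑ i ∈ s, fun x => ind (BB Q t l 1) (x * κ i)) ∧
      Θ (∑ i ∈ s, fun x => ind (BB Q t l 1) (x * κ i)) = (s.card : ℚ) • Θ (ind (BB Q t l 1)) := by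
    intro l ι s κ hκ
    induction s using Finset.induction_on with
    | empty =>
      have := t1 0 0 (sm_const hM 0) (sm_const hM 0)
      exact ⟨sm_const hM 0, by simpa using this⟩
    | insert i s hi ih =>
      rw [Finset.sum_insert hi, Finset.card_insert_of_notMem hi]
      refine ⟨sm_add hp hM (sm_shift hp (sf l) _) ih.1, ?_⟩
      rw [t1 _ _ (sm_shift hp (sf l) _) ih.1, ih.2, t3 _ (sf l) _ (hκ i)]
      push_cast; rw [add_smul, one_smul, add_comm]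
  have hI : ∀ a₁ a₂, act a₁ (Θ fun _ => 1) + act a₂ (Θ (ind (BB Q t 0 1))) = 0 →
      a₁ = 0 ∧ a₂ = 0 := fun a₁ a₂ e => by
    rw [← t2 _ s1, ← t2 _ (sf 0), ← t1 _ _ (sm_mul s1 _) (sm_mul (sf 0) _)] at e
    obtain ⟨s, ⟨κ₁, hκ₁⟩, hs, e1⟩ := t5 _ (sm_add hp hM (sm_mul s1 _) (sm_mul (sf 0) _)) e
    have e2 : ∀ x : H, s.card * a₁ x + a₂ x * ∑ κ ∈ s, ind (BB Q t 0 κ) x = 0 := fun x => by
      rw [← e1 x, Finset.mul_sum, ← nsmul_eq_mul, ← Finset.sum_const, ← Finset.sum_add_distrib]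
      refine Finset.sum_congr rfl fun κ hκ => ?_
      simp [QuotientGroup.mk_mul_of_mem x (hs hκ), ind_shift v (hs hκ)]
    have e3 : ∀ (l : ℤ) (x₀ w : H), w ∈ K → ∃ x : H, (x : H ⧸ K) = x₀ ∧ BB Q t l w x⁻¹ :=
      fun l x₀ w hw => by
        obtain ⟨κ₀, a, b⟩ := BB.ex v hK l x₀⁻¹
        exact ⟨x₀ * (κ₀ * w⁻¹), QuotientGroup.mk_mul_of_mem _ (mul_mem a (inv_mem hw)),
          by simpa [mul_assoc] using b.mul v (mul_mem hw (inv_mem a))⟩
    have e4 : a₁ = 0 := by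
      funext c
      obtain ⟨x₀, rfl⟩ := QuotientGroup.mk_surjective c
      obtain ⟨m, hm⟩ := Qz_fin v hs
      obtain ⟨w, hw, hw'⟩ := v.ne
      obtain ⟨x, a, b⟩ := e3 m x₀ _ (K_conj (t ^ (m : ℤ)) w hw)
      have := e2 x
      rw [Finset.sum_eq_zero fun κ hκ => ind_neg fun d => hw' ?_, a, mul_zero, add_zero] at this
      · exact (mul_eq_zero.1 this).resolve_left (by simpa using Finset.ne_empty_of_mem hκ₁)
      · simpa [mem_Qz, mul_assoc] using mul_mem (hm hκ) ((d.mono v (by omega)).rel b)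
    refine ⟨e4, funext fun c => ?_⟩
    obtain ⟨x₀, rfl⟩ := QuotientGroup.mk_surjective c
    obtain ⟨x, a, b⟩ := e3 0 x₀ κ₁ (hs hκ₁)
    have := e2 x
    rw [e4, Pi.zero_apply, mul_zero, zero_add, a] at this
    refine (mul_eq_zero.1 this).resolve_right (ne_of_gt (Finset.sum_pos' (fun κ _ => ?_)
      ⟨κ₁, hκ₁, by simp [ind_pos b]⟩))
    unfold ind; split_ifs <;> simp
  obtain ⟨b₁, n₁, f₁⟩ := rescale (fun a e => (hI a 0 (by rw [e, zero_act, add_zero])).1)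
    fun g => t4 _ s1 g
  obtain ⟨b₂, n₂, f₂⟩ := rescale (fun a e => (hI 0 a (by rw [e, zero_act, add_zero])).2)
    fun g => by
      obtain ⟨u, a, b⟩ := t4 _ (sf 0) g
      obtain ⟨l, hl, d⟩ := det v hK g
      obtain ⟨m, hm⟩ := bdd v hK g
      have h1 : BB Q t 0 1 1 := Eventually.of_forall fun k => by simp [cc]
      obtain ⟨ι, s, κ, r1, r2, r3⟩ := decomp v hK (P := fun y => BB Q t 0 1 (g * y))
        (show l ≤ m by omega) d hm ⟨g⁻¹, by simpa using h1⟩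
      obtain ⟨ι', s', κ', r1', r2', r3'⟩ := decomp v hK (P := BB Q t 0 1) hl
        (fun κ y y' a b c => (b.mono v hl).of_rel (c.rel (a.mono v hl))) (fun _ a => a) ⟨1, h1⟩
      have c1 : (s.card : ℚ) ≠ 0 := by simpa using r1.ne_empty
      have c2 : (s'.card : ℚ) ≠ 0 := by simpa using r1'.ne_empty
      refine ⟨((s.card : ℚ) / s'.card) • u, fun c => mul_ne_zero (div_ne_zero c1 c2) (a c), ?_⟩
      have e : (fun x => ind (BB Q t 0 1) (x * g⁻¹)) = ind fun y => BB Q t 0 1 (g * y) := by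
        funext x; exact ind_congr (by simp)
      have e' := (hsum l ι' s' κ' r2').2
      rw [← r3'] at e'
      rw [b, e, r3, (hsum l ι s κ r2).2, e', smul_act, act_smul, act_smul, smul_smul,
        div_mul_cancel₀ _ c2]
  refine ⟨_, _, fun r r' e => ?_, f₁, f₂⟩
  rw [← smul_act, ← smul_act] at e
  exact ⟨(mul_eq_zero.1 (congrFun (hI _ _ e).1 (1 : H))).resolve_right (n₁ _),
    (mul_eq_zero.1 (congrFun (hI _ _ e).2 (1 : H))).resolve_right (n₂ _)⟩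

end Vale.Agent.P188.Fn
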