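import Vale.Agent.P188.FinLes

/-! The Wang sequence and duality for poly-`ℤ` subgroups. -/

namespace Vale.Agent.P188.Fn

open Function Finsupp

/-- a free action of `ℤ` with its orbit map -/
structure ZA {Y Y' : Type} (S : ℤ → Y → Y) (π : Y → Y') : Prop where
  zero : ∀ x, S 0 x = x
  add : ∀ j k x, S (j + k) x = S k (S j x)
  surj : Surjective π
  orb : ∀ x y, π x = π y ↔ ∃ k, S k x = y
  free : ∀ k x, S k x = x → k = 0

namespace ZA

variable {Y Y' : Type} {S : ℤ → Y → Y} {π : Y → Y'} (h : ZA S π)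
include h

theorem left (x : Y) : S (-1) (S 1 x) = x := by rw [← h.add, add_neg_cancel, h.zero]

theorem right (x : Y) : S 1 (S (-1) x) = x := by rw [← h.add, neg_add_cancel, h.zero]

theorem inj (x : Y) : Injective fun k => S k x := fun j k e => by
  have e : S j x = S k x := e
  have := h.free (k - j) (S j x) (by rw [← h.add, e]; congr 1; ring)
  omega

theorem pi_S (k : ℤ) (x : Y) : π (S k x) = π x := ((h.orb _ _).2 ⟨k, rfl⟩).symm

theorem invariant {A : Type} {a : Y → A} (e : ∀ x, a (S 1 x) = a x) (k : ℤ) (x : Y) :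
    a (S k x) = a x := by
  induction k using Int.induction_on with
  | zero => rw [h.zero]
  | succ k ih => rw [h.add, e, ih]
  | pred k ih => rw [← e, ← h.add, sub_add_cancel, ih]

theorem factor {A : Type} {a : Y → A} (e : ∀ x, a (S 1 x) = a x) : ∃ b : Y' → A, a = b ∘ π := by
  refine ⟨a ∘ surjInv h.surj, funext fun x => ?_⟩
  obtain ⟨k, hk⟩ := (h.orb (surjInv h.surj (π x)) x).1 (surjInv_eq _ _)
  conv_lhs => rw [← hk, h.invariant e]
  rfl

theorem injective : Injective (LinearMap.id - pf (S 1) : (Y →₀ ℚ) →ₗ[ℚ] (Y →₀ ℚ)) := by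
  rw [injective_iff_map_eq_zero]
  intro v hv
  have e : ∀ x, v (S 1 x) = v x := fun x => by
    have := DFunLike.congr_fun hv (S 1 x)
    simpa [mapDomain_apply (LeftInverse.injective h.left), sub_eq_zero] using this
  ext x
  by_contra hx
  refine Set.infinite_range_of_injective (h.inj x) (v.support.finite_toSet.subset ?_)
  rintro _ ⟨k, rfl⟩
  exact mem_support_iff.2 (by rwa [h.invariant e])

theorem exact : Exact (LinearMap.id - pf (S 1) : (Y →₀ ℚ) →ₗ[ℚ] (Y →₀ ℚ)) (pf π) := by
  rw [LinearMap.exact_iff]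
  set R := LinearMap.range (LinearMap.id - pf (S 1) : (Y →₀ ℚ) →ₗ[ℚ] (Y →₀ ℚ))
  have h0 : ∀ x (r : ℚ), single x r - single (S 1 x) r ∈ R := fun x r => ⟨single x r, by simp⟩
  have h1 : ∀ (k : ℤ) x (r : ℚ), single (S k x) r - single x r ∈ R := fun k x r => by
    induction k using Int.induction_on with
    | zero => simp [h.zero]
    | succ k ih => simpa [h.add] using R.sub_mem ih (h0 (S k x) r)
    | pred k ih =>
      have := R.add_mem ih (h0 (S (-k - 1) x) r)
      rw [← h.add, sub_add_cancel] at this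
      convert this using 1; abel
  have h2 : ∀ v : Y →₀ ℚ, v - pf (surjInv h.surj) (pf π v) ∈ R := fun v => by
    induction v using Finsupp.induction_linear with
    | zero => simp
    | add u v hu hv => convert R.add_mem hu hv using 1; simp only [map_add]; abel
    | single x r =>
      obtain ⟨k, hk⟩ := (h.orb (surjInv h.surj (π x)) x).1 (surjInv_eq _ _)
      simpa [hk] using h1 k (surjInv h.surj (π x)) r
  refine le_antisymm (fun v hv => by simpa [LinearMap.mem_ker.1 hv] using h2 v) ?_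
  rw [LinearMap.range_le_ker_iff, LinearMap.comp_sub, pf_pf, LinearMap.comp_id, sub_eq_zero]
  congr 1
  exact funext fun x => (h.pi_S 1 x).symm

theorem solve {A : Type} [AddCommGroup A] (f : Y → A) :
    ∃ g : Y → A, ∀ x, g (S 1 x) = g x + f x := by
  have h1 : ∀ f : ℤ → A, ∃ g : ℤ → A, ∀ k, g (k + 1) = g k + f k := fun f => by
    refine ⟨fun k => ∑ i ∈ Finset.range k.toNat, f i -
      ∑ i ∈ Finset.range (-k).toNat, f (-i - 1), fun k => ?_⟩
    rcases le_or_gt 0 k with hk | hk
    · obtain ⟨n, rfl⟩ := Int.eq_ofNat_of_zero_le hk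
      have e1 : ((n : ℤ) + 1).toNat = n + 1 := by omega
      have e2 : (-((n : ℤ) + 1)).toNat = 0 := by omega
      have e3 : (-(n : ℤ)).toNat = 0 := by omega
      simp only [e1, e2, e3, Finset.sum_range_succ, Int.toNat_natCast]
      simp
    · obtain ⟨n, rfl⟩ : ∃ n : ℕ, k = -n - 1 := ⟨(-k - 1).toNat, by omega⟩
      have e1 : (-(n : ℤ) - 1 + 1).toNat = 0 := by omega
      have e2 : (-(-(n : ℤ) - 1 + 1)).toNat = n := by omega
      have e3 : (-(n : ℤ) - 1).toNat = 0 := by omega
      have e4 : (-(-(n : ℤ) - 1)).toNat = n + 1 := by omega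
      simp only [e1, e2, e3, e4, Finset.sum_range_succ]
      abel
  choose g hg using fun y => h1 fun k => f (S k (surjInv h.surj y))
  choose η hη using fun x => (h.orb (surjInv h.surj (π x)) x).1 (surjInv_eq _ _)
  refine ⟨fun x => g (π x) (η x), fun x => ?_⟩
  have e : η (S 1 x) = η x + 1 := by
    apply h.inj (surjInv h.surj (π x))
    have := hη (S 1 x)
    rw [h.pi_S] at this
    simp only [this, h.add, hη]
  simp only [h.pi_S, e, hg, hη]

end ZA

variable {G : Type} [Group G] {N N' : Subgroup G} {t : G}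

theorem Step.conj_zpow (h : Step N N' t) (k : ℤ) : ∀ x ∈ N, (t ^ k)⁻¹ * x * t ^ k ∈ N := by
  induction k using Int.induction_on with
  | zero => simp
  | succ k ih =>
    intro x hx
    simpa [zpow_add_one, mul_assoc] using h.conj _ (ih x hx)
  | pred k ih =>
    intro x hx
    simpa [zpow_sub_one, mul_assoc] using h.conj' _ (ih x hx)

theorem le_conj {L L' : Subgroup G} (h : L ≤ L') : ∀ x ∈ L, (1 : G)⁻¹ * x * 1 ∈ L' :=
  fun x hx => by simpa using h hx

theorem rt_one_surj {L L' : Subgroup G} (h : L ≤ L') : Surjective (rt L L' 1) := fun p => by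
  obtain ⟨x, rfl⟩ := QuotientGroup.mk_surjective p
  exact ⟨x, by rw [rt_mk (le_conj h), mul_one]⟩

theorem Step.za (h : Step N N' t) : ZA (fun k => rt N N (t ^ k)) (rt N N' 1) where
  zero x := by simp [rt]
  add j k x := by
    obtain ⟨x, rfl⟩ := QuotientGroup.mk_surjective x
    simp only [rt_mk (h.conj_zpow _)]
    rw [zpow_add, mul_assoc]
  surj := rt_one_surj h.le
  orb x y := by
    obtain ⟨x, rfl⟩ := QuotientGroup.mk_surjective x
    obtain ⟨y, rfl⟩ := QuotientGroup.mk_surjective y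
    simp only [rt_mk (h.conj_zpow _), rt_mk (le_conj h.le), mul_one, QuotientGroup.eq]
    constructor
    · intro e
      obtain ⟨k, hk⟩ := h.gen _ e
      exact ⟨-k, by simpa [mul_assoc] using h.conj_zpow (-k) _ hk⟩
    · rintro ⟨k, hk⟩
      simpa [mul_assoc] using N'.mul_mem (N'.zpow_mem h.mem k) (h.le hk)
  free k x := by
    obtain ⟨x, rfl⟩ := QuotientGroup.mk_surjective x
    simp only [rt_mk (h.conj_zpow _), QuotientGroup.eq]
    intro e
    exact h.free k (by simpa using e)

theorem wang_pf : S_wang := by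
  intro G _ N N' t h
  have eT : Eqv G (pf (rt N N t)) := eqv_pf (rt_smul h.conj)
  have hz := h.za
  obtain ⟨δ, h1, h2, h3, h4, h5⟩ := les_pf G _ _ _ (LinearMap.id - pf (rt N N t)) (pf (rt N N' 1))
    (Eqv.id.sub eT) (eqv_pf (rt_smul (le_conj h.le))) (by simpa using hz.injective)
    (mapDomain_surjective hz.surj) (by simpa using hz.exact)
  have e : ∀ m z, hm G m (LinearMap.id - pf (rt N N t)) z = z - tr m N N t z := fun m z => by
    rw [hm_sub Adm.id eT.adm, hm_id, tr]
  refine ⟨δ, fun m z => h1 m z, fun m z => ?_, fun m z => ?_, h4, fun m a z => ?_,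
    fun g g1 g2 g3 m z => ?_⟩
  · rw [← sub_eq_zero, ← neg_eq_zero, neg_sub, ← e]; exact (h2 m z).symm
  · simp only [← e]; exact h3 m z
  · refine h5 _ (ml (a ∘ rt N N' 1)) _ (adm_ml _) (adm_ml _) (adm_ml _) ?_ (ml_pf _ _) m z
    rw [LinearMap.comp_sub, LinearMap.sub_comp, ml_pf, LinearMap.comp_id, LinearMap.id_comp]
    congr 3
    funext x
    simpa using congrArg a (hz.pi_S 1 x)
  · refine h5 _ (pf (rt N N g)) _ (adm_pf (rt_smul g1)) (adm_pf (rt_smul g1))
      (adm_pf (rt_smul g2)) ?_ ?_ m z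
    · rw [LinearMap.comp_sub, LinearMap.sub_comp, pf_pf, pf_pf, LinearMap.comp_id,
        LinearMap.id_comp]
      congr 2
      funext x
      obtain ⟨x, rfl⟩ := QuotientGroup.mk_surjective x
      simp only [comp_apply, rt_mk g1, rt_mk h.conj, QuotientGroup.eq]
      simpa [mul_assoc] using g3
    · rw [pf_pf, pf_pf]
      congr 1
      funext x
      obtain ⟨x, rfl⟩ := QuotientGroup.mk_surjective x
      simp only [comp_apply, rt_mk g1, rt_mk g2, rt_mk (le_conj h.le), mul_one]

theorem act_faith {X : Type} [MulAction G X] {m : ℕ} {ζ : Hm G X m}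
    (hζ : Bijective fun a : X → ℚ => act a ζ) {a : X → ℚ} (h : act a ζ = 0) : a = 0 :=
  hζ.1 (h.trans (zero_act ζ).symm)

theorem pd_step (h : Step N N' t) {n : ℕ} (h1 : FR G (G ⧸ N) n)
    (h2 : ∀ m, m ≠ n → ∀ z : Hm G (G ⧸ N) m, z = 0) :
    FR G (G ⧸ N') (n + 1) ∧ ∀ m, m ≠ n + 1 → ∀ z : Hm G (G ⧸ N') m, z = 0 := by
  classical
  obtain ⟨δ, d1, d2, d3, d4, d5, -⟩ := wang_pf G N N' t h
  obtain ⟨ζ, hζ⟩ := h1
  have hz := h.za
  have hl : ∀ x, rt N N t⁻¹ (rt N N t x) = x := by simpa using hz.left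
  have hr : ∀ x, rt N N t (rt N N t⁻¹ x) = x := by simpa using hz.right
  obtain ⟨u, hu⟩ := hζ.2 (tr n N N t ζ)
  have hT : ∀ a, tr n N N t (act a ζ) = act (a ∘ rt N N t⁻¹ * u) ζ := fun a => by
    rw [← act_act, show act u ζ = _ from hu, act_tr h.conj]
    congr 2; funext x; simp [hl]
  have hu0 : ∀ x, u x ≠ 0 := fun x hx => by
    have e := hT (Pi.single (rt N N t⁻¹ x) 1)
    have e1 : (Pi.single (rt N N t⁻¹ x) (1 : ℚ) : _ → ℚ) ∘ rt N N t⁻¹ * u = 0 := by
      funext y
      by_cases hy : y = x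
      · simp [hy, hx]
      · simp [Pi.single_apply, (LeftInverse.injective hr).eq_iff, hy]
    have e2 := congrArg (tr n N N t⁻¹) e
    rw [e1, zero_act, map_zero, tr_tr h.conj (by simpa using h.conj'), mul_inv_cancel, tr_one] at e2
    simpa using congrFun (act_faith hζ e2) (rt N N t⁻¹ x)
  obtain ⟨g, hg⟩ := hz.solve fun x => Additive.ofMul (Units.mk0 _ (hu0 (rt N N t x)))
  obtain ⟨a₀, ha₀, ea₀⟩ : ∃ a₀ : G ⧸ N → ℚ, (∀ x, a₀ x ≠ 0) ∧
      ∀ x, a₀ (rt N N t x) = a₀ x * u (rt N N t x) :=
    ⟨fun x => ((g x).toMul : ℚˣ), fun x => Units.ne_zero _, fun x => by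
      have := hg x
      simp only [zpow_one] at this
      simp [this]⟩
  have hk : ∀ m w, tr m N N' 1 w = 0 := fun m w => by
    by_cases hm : m = n
    · subst hm
      obtain ⟨b, rfl⟩ := hζ.2 w
      obtain ⟨a, ha⟩ := hz.solve fun x => b (rt N N t x) / a₀ (rt N N t x)
      refine (d3 _ _).2 ⟨act (a₀ * a) ζ, ?_⟩
      rw [hT, ← sub_act]
      congr 1
      funext y
      obtain ⟨x, rfl⟩ := RightInverse.surjective hr y
      have e := ha x
      simp only [zpow_one] at e
      have := ha₀ (rt N N t x)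
      simp only [Pi.sub_apply, Pi.mul_apply, comp_apply, hl, e, mul_right_comm _ (a x), ← ea₀]
      field_simp; ring
    · rw [h2 m hm w, map_zero]
  have hδ : ∀ m z, δ m z = 0 → z = 0 := fun m z e => by
    obtain ⟨w, rfl⟩ := (d1 m z).1 e
    exact hk _ w
  refine ⟨?_, fun m hm z => ?_⟩
  · obtain ⟨ζ', e⟩ := (d2 n (act a₀ ζ)).2 (by
      rw [hT]; congr 1; funext y
      obtain ⟨x, rfl⟩ := RightInverse.surjective hr y
      simp [hl, ea₀])
    refine ⟨ζ', fun b b' hb => ?_, fun z => ?_⟩
    · have e1 := congrArg (δ n) hb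
      simp only [d5, e, act_act] at e1
      funext p
      obtain ⟨x, rfl⟩ := hz.surj p
      exact mul_right_cancel₀ (ha₀ x) (congrFun (hζ.1 e1) x)
    · obtain ⟨a, ha⟩ := hζ.2 (δ n z)
      have e1 := (d2 n _).1 ⟨z, rfl⟩
      rw [← show act a ζ = _ from ha, hT] at e1
      obtain ⟨b, hb⟩ := hz.factor (a := a / a₀) fun x => by
        have e2 := congrFun (hζ.1 e1) (rt N N t x)
        simp only [Pi.mul_apply, comp_apply, hl] at e2
        have := hu0 (rt N N t x)
        simp only [zpow_one, Pi.div_apply, ← e2, ea₀]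
        rw [mul_div_mul_right _ _ this]
      refine ⟨b, sub_eq_zero.1 (hδ n _ ?_)⟩
      rw [map_sub, d5, e, act_act, ← hb, ← show act a ζ = _ from ha, sub_eq_zero]
      congr 1; funext x
      exact div_mul_cancel₀ _ (ha₀ x)
  · cases m with
    | zero => obtain ⟨w, rfl⟩ := d4 z; exact hk _ w
    | succ m => exact hδ m z (h2 m (by omega) _)

theorem app_fin {α β : Type} (D : α → β →₀ ℚ) (v : α →₀ ℚ) (τ : β) :
    app D v τ = linearCombination ℚ D v τ := by
  rw [app, finsum_eq_sum_of_support_subset (s := v.support), linearCombination_apply, Finsupp.sum,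
    Finsupp.finsetSum_apply]
  · exact Finset.sum_congr rfl fun σ _ => by simp [mul_comm]
  · intro σ hσ
    exact mem_support_iff.2 fun e => hσ (by simp [e])

theorem out_bot (x : G) : (x : G ⧸ (⊥ : Subgroup G)).out = x := by
  obtain ⟨y, hy⟩ := QuotientGroup.mk_out_eq_mul ⊥ x
  rw [hy, Subgroup.mem_bot.1 y.2, mul_one]

theorem out_smul_bot (y x : G) : (y • (x : G ⧸ (⊥ : Subgroup G))).out = y * x := by
  rw [MulAction.Quotient.smul_mk, out_bot, smul_eq_mul]

variable {m : ℕ} {c : List G → G ⧸ (⊥ : Subgroup G) →₀ ℚ}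

theorem Ctl.col (h : Ctl m c) (x : G) : ∃ v : List G →₀ ℚ, (∀ l, c l x = v l) ∧
    ∀ τ, Fn.dd c τ x = linearCombination ℚ bd1 v τ := by
  have hf : (support fun l => c l x).Finite := by
    obtain ⟨A, E, -, hE, h⟩ := h
    refine (finite_lists (hE.image fun p => x * p.out⁻¹) (m + 1)).subset fun l hl => ?_
    refine ⟨(h l x hl).1, fun y hy => ⟨_, (h l x hl).2.2 y hy, ?_⟩⟩
    simp only [out_smul_bot]; group
  refine ⟨ofSupportFinite _ hf, fun _ => rfl, fun τ => ?_⟩
  rw [← app_fin]
  exact (congrFun (app_map h.loc (lapply (x : G ⧸ (⊥ : Subgroup G)))) τ).symm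

/-- the cone over the label -/
noncomputable def cone (c : List G → G ⧸ (⊥ : Subgroup G) →₀ ℚ) :
    List G → G ⧸ (⊥ : Subgroup G) →₀ ℚ
  | [] => 0
  | x :: l => single (x : G ⧸ (⊥ : Subgroup G)) (c l x)

theorem mk_bot_inj {x y : G} (h : (x : G ⧸ (⊥ : Subgroup G)) = y) : x = y := by
  rw [← out_bot x, h, out_bot]

theorem Ctl.cone (h : Ctl m c) : Ctl (m + 1) (cone c) := by
  classical
  obtain ⟨A, E, hA, hE, h⟩ := h
  have hE' := hE.image Quotient.out
  refine ⟨A ∪ {1} ∪ (Quotient.out '' E ∪ (Quotient.out '' E)⁻¹), insert ((1 : G) : G ⧸ _) E,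
    (hA.union (Set.finite_singleton _)).union (hE'.union hE'.inv), hE.insert _, fun l p hp => ?_⟩
  cases l with
  | nil => simp [Fn.cone] at hp
  | cons x l =>
    obtain ⟨rfl, h1⟩ := single_apply_ne_zero.1 hp
    obtain ⟨a, b, d⟩ := h l _ h1
    have d' : ∀ y ∈ l, y⁻¹ * x ∈ Quotient.out '' E := fun y hy =>
      ⟨_, d y hy, out_smul_bot _ _⟩
    refine ⟨by simp [a], fun y hy z hz => ?_, fun y hy => ?_⟩
    · rcases List.mem_cons.1 hy with rfl | hy' <;> rcases List.mem_cons.1 hz with rfl | hz'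
      · simp
      · exact Or.inr (Or.inr (by simpa using d' z hz'))
      · exact Or.inr (Or.inl (d' y hy'))
      · exact Or.inl (Or.inl (b y hy' z hz'))
    · rcases List.mem_cons.1 hy with rfl | hy'
      · left; simp [MulAction.Quotient.smul_mk]
      · exact Or.inr (d y hy')

theorem Ctl.dd_cone (h : Ctl m c) (x : G) {v : List G →₀ ℚ} (hv : ∀ l, c l x = v l) (τ : List G) :
    Fn.dd (Fn.cone c) τ x = v τ - mapDomain (x :: ·) (linearCombination ℚ bd v) τ := by
  classical
  obtain ⟨w, hw, e⟩ := h.cone.col x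
  have e1 : w = mapDomain (x :: ·) v := by
    ext l
    rw [← hw]
    by_cases hl : l ∈ Set.range (x :: ·)
    · obtain ⟨l, rfl⟩ := hl
      rw [mapDomain_apply List.cons_injective, Fn.cone, single_eq_same, hv]
    · rw [mapDomain_notin_range _ _ hl]
      cases l with
      | nil => rfl
      | cons y l => exact single_eq_of_ne fun e => hl ⟨l, by rw [mk_bot_inj e]⟩
  rw [e, lc_congr (D' := bd), e1, lc_bd_cons, Finsupp.sub_apply]
  intro σ hσ
  have := h.cone.len (l := σ) fun e => hσ (by simp [← hw, e])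
  exact if_neg (by omega)

open Classical in
/-- the fundamental class of the free set -/
noncomputable def zeta (G : Type) [Group G] (l : List G) : G ⧸ (⊥ : Subgroup G) →₀ ℚ :=
  if l.length = 1 then single ((l.headD 1 : G) : G ⧸ (⊥ : Subgroup G)) 1 else 0

theorem zeta_apply (l : List G) (x : G) : zeta G l x = single [x] (1 : ℚ) l := by
  classical
  unfold zeta
  split_ifs with h
  · obtain ⟨y, rfl⟩ := List.length_eq_one_iff.1 h
    by_cases e : y = x
    · simp [e]
    · rw [List.headD_cons, single_eq_of_ne fun e' => e (mk_bot_inj e').symm,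
        single_eq_of_ne (by simpa using e)]
  · rw [single_eq_of_ne (by rintro rfl; simp at h)]; rfl

theorem ctl_zeta : Ctl 0 (zeta G) := by
  refine ⟨{1}, {((1 : G) : G ⧸ (⊥ : Subgroup G))}, Set.finite_singleton _, Set.finite_singleton _,
    fun l p hp => ?_⟩
  obtain ⟨x, rfl⟩ := QuotientGroup.mk_surjective p
  rw [zeta_apply] at hp
  obtain ⟨rfl, -⟩ := single_apply_ne_zero.1 hp
  simp [MulAction.Quotient.smul_mk]

theorem base_pf : S_base := by
  classical
  intro G _
  refine ⟨⟨cls ⟨zeta G, ctl_zeta, ctl_zeta.dd_zero⟩, ?_, fun z => ?_⟩, fun m hm z => ?_⟩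
  · suffices h : ∀ a, act a (cls ⟨zeta G, ctl_zeta, ctl_zeta.dd_zero⟩) = 0 → a = 0 from
      fun a a' e => sub_eq_zero.1 (h _ (by rw [sub_act, sub_eq_zero]; exact e))
    intro a ha
    rw [act, hm_cls (adm_ml _)] at ha
    obtain ⟨b, hb, e⟩ := cls_eq_zero.1 ha
    funext p
    obtain ⟨x, rfl⟩ := QuotientGroup.mk_surjective p
    obtain ⟨w, hw, e1⟩ := hb.col x
    have e2 : linearCombination ℚ bd w = single [x] (a x) := by
      ext τ
      rw [← lc_congr (D := bd1), ← e1, e, zm_val]
      · simp only [ml_apply, zeta_apply, single_apply]; split_ifs <;> simp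
      · intro σ hσ
        have := hb.len (l := σ) fun e => hσ (by simp [← hw, e])
        exact if_neg (by omega)
    have e3 : linearCombination ℚ bd (linearCombination ℚ bd w) = 0 := by
      rw [linearCombination_apply ℚ w, Finsupp.sum, map_sum]
      simp [bd_bd]
    simpa [e2, bd] using e3
  · obtain ⟨c, rfl⟩ := cls_surj z
    choose v hv e using c.2.1.col
    refine ⟨fun p => linearCombination ℚ bd (v p.out) [], ?_⟩
    simp only [act, hm_cls (adm_ml _)]
    refine (cls_eq.2 ⟨_, c.2.1.cone, ?_⟩).symm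
    funext τ; ext p
    obtain ⟨x, rfl⟩ := QuotientGroup.mk_surjective p
    have e1 : linearCombination ℚ bd (v x) = single [] (linearCombination ℚ bd (v x) []) := by
      ext l
      by_cases hl : l = []
      · simp [hl]
      · rw [single_eq_of_ne hl, ← app_fin]
        refine finsum_eq_zero_of_forall_eq_zero fun σ => ?_
        by_cases h1 : bd σ l = 0
        · simp [h1]
        · by_cases h2 : c.1 σ = 0
          · simp [← hv, h2]
          · have := c.2.1.len h2
            have := (bd_supp h1).1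
            exact absurd (List.length_eq_zero_iff.1 (by omega)) hl
    rw [c.2.1.dd_cone x (hv x), e1, mapDomain_single]
    simp only [zm_val, Pi.sub_apply, Finsupp.sub_apply, hv, ml_apply, zeta_apply, out_bot,
      single_apply]
    split_ifs <;> simp
  · obtain ⟨c, rfl⟩ := cls_surj z
    refine cls_eq_zero.2 ⟨_, c.2.1.cone, ?_⟩
    funext τ; ext p
    obtain ⟨x, rfl⟩ := QuotientGroup.mk_surjective p
    obtain ⟨v, hv, e⟩ := c.2.1.col x
    have e1 : linearCombination ℚ bd v = 0 := by
      ext l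
      rw [← lc_congr (D := bd1), ← e, c.2.2]
      · rfl
      · intro σ hσ
        have := c.2.1.len (l := σ) fun e => hσ (by simp [← hv, e])
        exact if_neg (by omega)
    rw [c.2.1.dd_cone x hv, e1, hv]; simp

theorem pd_pf : S_pd := by
  intro G _ h L hL
  induction hL with
  | zero => exact base_pf G
  | succ h _ ih => exact pd_step h ih.1 ih.2

end Vale.Agent.P188.Fn
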