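import Vale.Agent.P188.Stmts

/-! Gromov module, part A1: balls and polynomial growth. -/

namespace Vale.Agent.P188.Grom

open Function

variable {G H : Type} [Group G] [Group H]

theorem ball_mono (S : Finset G) {r r' : ℕ} (h : r ≤ r') : wBall S r ⊆ wBall S r' := by
  rintro g ⟨l, h1, h2, h3⟩
  exact ⟨l, h1, h2.trans h, h3⟩

theorem ball_one (S : Finset G) (r : ℕ) : (1 : G) ∈ wBall S r :=
  ⟨[], by simp [IsWord], by simp, by simp⟩

theorem ball_mul {S : Finset G} {a b : ℕ} {g h : G} (hg : g ∈ wBall S a) (hh : h ∈ wBall S b) :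
    g * h ∈ wBall S (a + b) := by
  obtain ⟨l, h1, h2, rfl⟩ := hg
  obtain ⟨l', h1', h2', rfl⟩ := hh
  refine ⟨l ++ l', ?_, by simp; omega, by simp⟩
  intro x hx
  rcases List.mem_append.1 hx with hx | hx
  exacts [h1 x hx, h1' x hx]

theorem ball_inv {S : Finset G} {a : ℕ} {g : G} (hg : g ∈ wBall S a) : g⁻¹ ∈ wBall S a := by
  obtain ⟨l, h1, h2, rfl⟩ := hg
  refine ⟨(l.map fun x => x⁻¹).reverse, ?_, by simpa using h2, (List.prod_inv_reverse l).symm⟩
  intro x hx
  simp only [List.mem_reverse, List.mem_map] at hx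
  obtain ⟨y, hy, rfl⟩ := hx
  simpa [or_comm] using h1 y hy

theorem ball_gen {S : Finset G} {s : G} (hs : s ∈ S ∨ s⁻¹ ∈ S) : s ∈ wBall S 1 :=
  ⟨[s], by simpa [IsWord] using hs, by simp, by simp⟩

theorem ball_pow {S : Finset G} {a : ℕ} {g : G} (hg : g ∈ wBall S a) (n : ℕ) :
    g ^ n ∈ wBall S (n * a) := by
  induction n with
  | zero => simpa using ball_one S 0
  | succ n ih => rw [pow_succ, Nat.succ_mul]; exact ball_mul ih hg

theorem ball_zero (S : Finset G) : wBall S 0 = {1} := by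
  ext g
  constructor
  · rintro ⟨l, -, h2, rfl⟩
    have : l = [] := List.length_eq_zero_iff.1 (by omega)
    simp [this]
  · rintro rfl; exact ball_one S 0

theorem ball_succ {S : Finset G} {r : ℕ} {g : G} (hg : g ∈ wBall S (r + 1)) :
    g = 1 ∨ ∃ s, (s ∈ S ∨ s⁻¹ ∈ S) ∧ ∃ h ∈ wBall S r, g = s * h := by
  obtain ⟨l, h1, h2, rfl⟩ := hg
  cases l with
  | nil => simp
  | cons s l =>
    right
    refine ⟨s, h1 s (by simp), l.prod, ⟨l, fun x hx => h1 x (by simp [hx]), ?_, rfl⟩, by simp⟩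
    simpa using h2

theorem ball_succ' {S : Finset G} {r : ℕ} {g : G} (hg : g ∈ wBall S (r + 1)) :
    g = 1 ∨ ∃ s, (s ∈ S ∨ s⁻¹ ∈ S) ∧ ∃ h ∈ wBall S r, g = h * s := by
  rcases ball_succ (ball_inv hg) with h | ⟨s, hs, h, hh, e⟩
  · left; simpa using h
  · right
    refine ⟨s⁻¹, by simpa [or_comm] using hs, h⁻¹, ball_inv hh, ?_⟩
    rw [← mul_inv_rev, ← e, inv_inv]

theorem ball_finite (S : Finset G) (r : ℕ) : (wBall S r).Finite := by
  induction r with
  | zero => rw [ball_zero]; exact Set.finite_singleton _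
  | succ r ih =>
    have hS : ({s : G | s ∈ S ∨ s⁻¹ ∈ S}).Finite := by
      refine (S.finite_toSet.union (S.finite_toSet.preimage (f := fun s : G => s⁻¹)
        (inv_injective.injOn))).subset ?_
      intro s hs; exact hs
    refine ((Set.finite_singleton (1 : G)).union (hS.image2 (· * ·) ih)).subset ?_
    intro g hg
    rcases ball_succ hg with h | ⟨s, hs, h, hh, e⟩
    · left; exact h
    · right; exact ⟨s, hs, h, hh, e.symm⟩

theorem ball_map (f : G →* H) {T : Finset G} {S : Finset H} {L : ℕ}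
    (h : ∀ t ∈ T, f t ∈ wBall S L) (r : ℕ) : ∀ g ∈ wBall T r, f g ∈ wBall S (r * L) := by
  induction r with
  | zero => intro g hg; rw [ball_zero] at hg; rw [hg, map_one]; exact ball_one _ _
  | succ r ih =>
    intro g hg
    rcases ball_succ hg with h1 | ⟨s, hs, g', hh, e⟩
    · rw [h1, map_one]; exact ball_one _ _
    · rw [e, map_mul, Nat.succ_mul, add_comm]
      refine ball_mul ?_ (ih g' hh)
      rcases hs with hs | hs
      · exact h s hs
      · have := ball_inv (h _ hs)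
        simpa using this

theorem ball_of_closure {S : Finset G} {g : G} (hg : g ∈ Subgroup.closure (S : Set G)) :
    ∃ r, g ∈ wBall S r := by
  induction hg using Subgroup.closure_induction with
  | mem x hx => exact ⟨1, ball_gen (Or.inl hx)⟩
  | one => exact ⟨0, ball_one _ _⟩
  | mul x y _ _ hx hy =>
    obtain ⟨a, ha⟩ := hx; obtain ⟨b, hb⟩ := hy; exact ⟨_, ball_mul ha hb⟩
  | inv x _ hx => obtain ⟨a, ha⟩ := hx; exact ⟨_, ball_inv ha⟩

theorem closure_of_ball {S : Finset G} {r : ℕ} {g : G} (hg : g ∈ wBall S r) :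
    g ∈ Subgroup.closure (S : Set G) := by
  obtain ⟨l, h1, -, rfl⟩ := hg
  refine Subgroup.list_prod_mem _ fun x hx => ?_
  rcases h1 x hx with h | h
  · exact Subgroup.subset_closure h
  · exact (Subgroup.inv_mem_iff _).1 (Subgroup.subset_closure h)

theorem ball_unif {S : Finset G} (T : Finset G)
    (h : ∀ t ∈ T, t ∈ Subgroup.closure (S : Set G)) : ∃ L, ∀ t ∈ T, t ∈ wBall S L := by
  choose! r hr using fun t ht => ball_of_closure (h t ht)
  exact ⟨T.sup r, fun t ht => ball_mono S (Finset.le_sup ht) (hr t ht)⟩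

/-- Polynomial growth of degree at most `d` of all finitely generated subgroups. -/
def PG (d : ℕ) (G : Type) [Group G] : Prop :=
  ∀ T : Finset G, ∃ C : ℕ, ∀ r, (wBall T r).ncard ≤ C * (r + 1) ^ d

theorem PG.of_gen {d : ℕ} {S : Finset G} (hS : Subgroup.closure (S : Set G) = ⊤)
    (h : ∃ C : ℕ, ∀ r, (wBall S r).ncard ≤ C * (r + 1) ^ d) : PG d G := by
  intro T
  obtain ⟨C, hC⟩ := h
  obtain ⟨L, hL⟩ := ball_unif (S := S) T (fun t _ => hS ▸ Subgroup.mem_top t)
  refine ⟨C * (L + 1) ^ d, fun r => ?_⟩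
  have h1 : wBall T r ⊆ wBall S (r * L) := ball_map (MonoidHom.id G) hL r
  calc (wBall T r).ncard ≤ (wBall S (r * L)).ncard := Set.ncard_le_ncard h1 (ball_finite _ _)
    _ ≤ C * (r * L + 1) ^ d := hC _
    _ ≤ C * ((L + 1) * (r + 1)) ^ d := by gcongr; nlinarith
    _ = _ := by rw [mul_pow, mul_assoc]

theorem PG.of_inj {d : ℕ} (h : PG d H) (f : G →* H) (hf : Injective f) : PG d G := by
  classical
  intro T
  obtain ⟨C, hC⟩ := h (T.image f)
  refine ⟨C, fun r => le_trans ?_ (hC r)⟩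
  refine Set.ncard_le_ncard_of_injOn f (fun g hg => ?_) hf.injOn (ball_finite _ _)
  have := ball_map f (T := T) (S := T.image f) (L := 1)
    (fun t ht => ball_gen (Or.inl (Finset.mem_image_of_mem f ht))) r g hg
  simpa using this

theorem PG.sub {d : ℕ} (h : PG d G) (K : Subgroup G) : PG d K :=
  h.of_inj K.subtype K.subtype_injective

theorem ball_lift (f : G →* H) (σ : H → G) (hσ : ∀ y, f (σ y) = y) (T : Finset H) (S : Finset G)
    (hS : ∀ t ∈ T, σ t ∈ S) (r : ℕ) : wBall T r ⊆ f '' wBall S r := by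
  induction r with
  | zero => rw [ball_zero, ball_zero]; simp
  | succ r ih =>
    intro g hg
    rcases ball_succ hg with h1 | ⟨s, hs, g', hh, e⟩
    · exact ⟨1, ball_one _ _, by simp [h1]⟩
    · obtain ⟨x, hx, rfl⟩ := ih hh
      rcases hs with hs | hs
      · refine ⟨σ s * x, ?_, by simp [hσ, e]⟩
        rw [add_comm]; exact ball_mul (ball_gen (Or.inl (hS s hs))) hx
      · refine ⟨(σ s⁻¹)⁻¹ * x, ?_, by simp [hσ, e]⟩
        rw [add_comm]; exact ball_mul (ball_inv (ball_gen (Or.inl (hS _ hs)))) hx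

theorem PG.of_surj {d : ℕ} (h : PG d G) (f : G →* H) (hf : Surjective f) : PG d H := by
  classical
  intro T
  obtain ⟨σ, hσ⟩ := hf.hasRightInverse
  obtain ⟨C, hC⟩ := h (T.image σ)
  refine ⟨C, fun r => le_trans ?_ (hC r)⟩
  calc (wBall T r).ncard ≤ (f '' wBall (T.image σ) r).ncard :=
        Set.ncard_le_ncard (ball_lift f σ hσ T _ (fun t ht => Finset.mem_image_of_mem σ ht) r)
          ((ball_finite _ _).image _)
    _ ≤ _ := Set.ncard_image_le (ball_finite _ _)

/-- A polynomial is eventually below an exponential. -/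
theorem poly_lt_exp (C L d : ℕ) : ∃ m : ℕ, C * (m * L + 1) ^ d < 2 ^ m := by
  have h := tendsto_pow_const_div_const_pow_of_one_lt d (r := (2 : ℝ)) (by norm_num)
  have h2 := h.const_mul ((C : ℝ) * (L + 1) ^ d)
  rw [mul_zero] at h2
  have h3 := (h2.eventually (gt_mem_nhds (show (0 : ℝ) < 1 by norm_num))).and
    (Filter.eventually_ge_atTop 1)
  obtain ⟨m, hm, hm1⟩ := h3.exists
  refine ⟨m, ?_⟩
  have hp : (0 : ℝ) < 2 ^ m := by positivity
  rw [← mul_div_assoc, div_lt_one hp] at hm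
  have : ((C * (m * L + 1) ^ d : ℕ) : ℝ) < ((2 ^ m : ℕ) : ℝ) := by
    push_cast
    refine lt_of_le_of_lt ?_ hm
    rw [mul_assoc, ← mul_pow]
    have : (1 : ℝ) ≤ m := by exact_mod_cast hm1
    gcongr
    nlinarith
  exact_mod_cast this

end Vale.Agent.P188.Grom
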