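import Vale.Agent.P188.GromA1

/-! Gromov module, part A2: virtual surjections onto `ℤ` and poly-`ℤ` groups. -/

namespace Vale.Agent.P188.Grom

open Function

variable {G H : Type} [Group G] [Group H]

/-- A finite-index subgroup has a nontrivial homomorphism to `ℤ`. -/
def VZ (G : Type) [Group G] : Prop :=
  ∃ L : Subgroup G, L.FiniteIndex ∧ ∃ (ψ : L →* Multiplicative ℤ) (g : L), ψ g ≠ 1

theorem surj_of_ne (ψ : G →* Multiplicative ℤ) {g0 : G} (h0 : ψ g0 ≠ 1) :
    ∃ ψ' : G →* Multiplicative ℤ, Surjective ψ' ∧ ψ'.ker = ψ.ker := by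
  obtain ⟨a, ha⟩ := Int.subgroup_cyclic (Subgroup.toAddSubgroup' ψ.range)
  have hmem : ∀ n : ℤ, (∃ g, ψ g = Multiplicative.ofAdd n) ↔ a ∣ n := by
    intro n
    have : n ∈ Subgroup.toAddSubgroup' ψ.range ↔ ∃ g, ψ g = Multiplicative.ofAdd n := by
      rw [Subgroup.mem_toAddSubgroup']; rfl
    rw [← this, ha, AddSubgroup.mem_closure_singleton]
    constructor
    · rintro ⟨k, rfl⟩; exact ⟨k, by simp [mul_comm]⟩
    · rintro ⟨k, rfl⟩; exact ⟨k, by simp [mul_comm]⟩
  have hd : ∀ g, a ∣ Multiplicative.toAdd (ψ g) := fun g => (hmem _).1 ⟨g, rfl⟩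
  have ha0 : a ≠ 0 := by
    rintro rfl
    apply h0
    have := hd g0
    rw [zero_dvd_iff] at this
    exact toAdd_eq_zero.1 this
  refine ⟨MonoidHom.mk' (fun g => Multiplicative.ofAdd (Multiplicative.toAdd (ψ g) / a)) ?_, ?_, ?_⟩
  · intro x y
    rw [map_mul, toAdd_mul, Int.add_ediv_of_dvd_left (hd x), ofAdd_add]
  · intro n
    obtain ⟨g, hg⟩ := (hmem (a * Multiplicative.toAdd n)).2 ⟨_, rfl⟩
    refine ⟨g, ?_⟩
    simp [hg, ha0]
  · ext g
    simp only [MonoidHom.mem_ker, MonoidHom.mk'_apply, ofAdd_eq_one]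
    obtain ⟨k, hk⟩ := hd g
    rw [hk, Int.mul_ediv_cancel_left _ ha0, ← toAdd_eq_zero, hk]
    simp [ha0]

theorem VZ.of_inj (h : VZ H) (f : H →* G) (hf : Injective f) (hi : f.range.FiniteIndex) :
    VZ G := by
  obtain ⟨L, hL, ψ, g, hg⟩ := h
  refine ⟨L.map f, ⟨?_⟩, ψ.comp (L.equivMapOfInjective f hf).symm.toMonoidHom,
    L.equivMapOfInjective f hf g, by simpa using hg⟩
  rw [Subgroup.index_map_of_injective _ hf]
  exact mul_ne_zero hL.index_ne_zero hi.index_ne_zero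

theorem VZ.of_sub (K : Subgroup G) [hK : K.FiniteIndex] (h : VZ K) : VZ G :=
  h.of_inj K.subtype K.subtype_injective (by rwa [Subgroup.range_subtype])

theorem VZ.of_surj (h : VZ H) (f : G →* H) (hf : Surjective f) : VZ G := by
  obtain ⟨L, hL, ψ, g, hg⟩ := h
  obtain ⟨x, hx⟩ := f.subgroupComap_surjective_of_surjective L hf g
  refine ⟨L.comap f, ⟨?_⟩, ψ.comp (f.subgroupComap L), x, by simpa [hx] using hg⟩
  rw [Subgroup.index_comap_of_surjective _ hf]
  exact hL.index_ne_zero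

theorem VZ.of_hom (ψ : G →* Multiplicative ℤ) {g : G} (hg : ψ g ≠ 1) : VZ G :=
  ⟨⊤, inferInstance, ψ.comp (Subgroup.subtype ⊤), ⟨g, trivial⟩, by simpa using hg⟩

theorem comm_VZ (A : Type) [CommGroup A] [Group.FG A] [Infinite A] : VZ A := by
  obtain ⟨ι, j, _, _, p, hp, e, ⟨E⟩⟩ := CommGroup.equiv_free_prod_prod_multiplicative_zmod A
  have hj : Nonempty j := by
    by_contra hj
    rw [not_nonempty_iff] at hj
    haveI : ∀ i, NeZero (p i ^ e i) := fun i => ⟨pow_ne_zero _ (hp i).ne_zero⟩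
    haveI : Finite A := Finite.of_equiv _ E.symm.toEquiv
    exact not_finite A
  obtain ⟨i⟩ := hj
  refine VZ.of_hom ((Pi.evalMonoidHom (fun _ : j => Multiplicative ℤ) i).comp
    ((MonoidHom.fst _ _).comp E.toMonoidHom))
    (g := E.symm (fun _ => Multiplicative.ofAdd 1, 1)) ?_
  simp

theorem comm_VZ' (A : Type) [Group A] [Group.FG A] [Infinite A] (h : ∀ x y : A, x * y = y * x) :
    VZ A := by
  letI : CommGroup A := { (inferInstance : Group A) with mul_comm := h }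
  exact comm_VZ A

theorem polyZ_inj : ∀ (m : ℕ) (G H : Type) [Group G] [Group H] (f : H →* G), Injective f →
    f.range.FiniteIndex → PolyZ m G → PolyZ m H := by
  intro m
  induction m with
  | zero =>
    intro G H _ _ f hf _ h
    have : Subsingleton G := h
    exact hf.subsingleton
  | succ m ih =>
    intro G H _ _ f hf hi h
    obtain ⟨ψ, hψ, hk⟩ := h
    obtain ⟨t, ht⟩ := hψ (Multiplicative.ofAdd 1)
    obtain ⟨n, hn0, -, hn⟩ := f.range.exists_pow_mem_of_index_ne_zero hi.index_ne_zero t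
    obtain ⟨x, hx⟩ := hn
    have h0 : (ψ.comp f) x ≠ 1 := by
      rw [MonoidHom.comp_apply, hx, map_pow, ht, ← ofAdd_nsmul]
      simp; omega
    obtain ⟨ψ', hs, hk'⟩ := surj_of_ne _ h0
    refine ⟨ψ', hs, ih ψ.ker ψ'.ker ((f.comp ψ'.ker.subtype).codRestrict ψ.ker ?_) ?_ ?_ hk⟩
    · intro y
      exact hk'.le y.2
    · intro y z hyz
      exact Subtype.ext (hf (congrArg Subtype.val hyz))
    · refine Subgroup.finiteIndex_of_le (H := f.range.subgroupOf ψ.ker) ?_
      rintro ⟨y, hy⟩ ⟨x, hx⟩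
      refine ⟨⟨x, ?_⟩, Subtype.ext hx⟩
      rw [hk', MonoidHom.mem_ker, MonoidHom.comp_apply, hx]
      exact hy

end Vale.Agent.P188.Grom
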