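import Vale.Agent.P188.GromA2

/-! Gromov module, part A3: Milnor's lemma and the kernel of a map onto `ℤ`. -/

namespace Vale.Agent.P188.Grom

open Function

variable {G H : Type} [Group G] [Group H]

theorem milnor_sets (x t : G)
    (h : ∀ n : ℕ, t ^ n * x * (t ^ n)⁻¹ ∉
      Subgroup.closure {y | ∃ i < n, y = t ^ i * x * (t ^ i)⁻¹}) (S : Finset G) (hx : x ∈ S)
    (ht : t ∈ S) (m : ℕ) :
    ∃ A : Finset G, A.card = 2 ^ m ∧
      (∀ a ∈ A, a ∈ Subgroup.closure {y | ∃ i < m, y = t ^ i * x * (t ^ i)⁻¹}) ∧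
      ∀ a ∈ A, a * t ^ m ∈ wBall S (m * 2) := by
  classical
  induction m with
  | zero =>
    refine ⟨{1}, by simp, by simp, ?_⟩
    intro a ha
    rw [Finset.mem_singleton.1 ha]; simpa using ball_one S 0
  | succ m ih =>
    obtain ⟨A, h1, h2, h3⟩ := ih
    have hle : Subgroup.closure {y | ∃ i < m, y = t ^ i * x * (t ^ i)⁻¹} ≤
        Subgroup.closure {y | ∃ i < m + 1, y = t ^ i * x * (t ^ i)⁻¹} :=
      Subgroup.closure_mono fun y ⟨i, hi, e⟩ => ⟨i, by omega, e⟩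
    refine ⟨A ∪ A.image (· * (t ^ m * x * (t ^ m)⁻¹)), ?_, ?_, ?_⟩
    · rw [Finset.card_union_of_disjoint, Finset.card_image_of_injective _ (mul_left_injective _),
        h1, pow_succ, mul_two]
      rw [Finset.disjoint_left]
      intro a ha ha'
      obtain ⟨b, hb, e⟩ := Finset.mem_image.1 ha'
      apply h m
      have : t ^ m * x * (t ^ m)⁻¹ = b⁻¹ * a := by rw [← e]; group
      rw [this]
      exact mul_mem (inv_mem (h2 b hb)) (h2 a ha)
    · intro a ha
      rcases Finset.mem_union.1 ha with ha | ha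
      · exact hle (h2 a ha)
      · obtain ⟨b, hb, rfl⟩ := Finset.mem_image.1 ha
        exact mul_mem (hle (h2 b hb)) (Subgroup.subset_closure ⟨m, by omega, rfl⟩)
    · intro a ha
      have ht1 := ball_gen (S := S) (Or.inl ht)
      have hx1 := ball_gen (S := S) (Or.inl hx)
      rcases Finset.mem_union.1 ha with ha | ha
      · rw [pow_succ, ← mul_assoc]
        exact ball_mono S (by omega) (ball_mul (h3 a ha) ht1)
      · obtain ⟨b, hb, rfl⟩ := Finset.mem_image.1 ha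
        have : b * (t ^ m * x * (t ^ m)⁻¹) * t ^ (m + 1) = b * t ^ m * x * t := by group
        rw [this]
        exact ball_mono S (by omega) (ball_mul (ball_mul (h3 b hb) hx1) ht1)

theorem milnor_one {d : ℕ} (hG : PG d G) (x t : G) : ∃ n : ℕ, t ^ n * x * (t ^ n)⁻¹ ∈
      Subgroup.closure {y | ∃ i < n, y = t ^ i * x * (t ^ i)⁻¹} := by
  classical
  by_contra h
  push Not at h
  obtain ⟨C, hC⟩ := hG {x, t}
  obtain ⟨m, hm⟩ := poly_lt_exp C 2 d
  obtain ⟨A, h1, -, h3⟩ := milnor_sets x t h {x, t} (by simp) (by simp) m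
  have h4 : (A : Set G).ncard ≤ (wBall {x, t} (m * 2)).ncard :=
    Set.ncard_le_ncard_of_injOn (· * t ^ m) h3 (mul_left_injective _).injOn (ball_finite _ _)
  rw [Set.ncard_coe_finset, h1] at h4
  have := hC (m * 2)
  omega

theorem conj_closure (t : G) {s : Set G} {K : Subgroup G} (h : ∀ y ∈ s, t * y * t⁻¹ ∈ K) :
    ∀ y ∈ Subgroup.closure s, t * y * t⁻¹ ∈ K := by
  intro y hy
  induction hy using Subgroup.closure_induction with
  | mem x hx => exact h x hx
  | one => simp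
  | mul x y _ _ hx hy =>
    have : t * (x * y) * t⁻¹ = (t * x * t⁻¹) * (t * y * t⁻¹) := by group
    rw [this]; exact mul_mem hx hy
  | inv x _ hx =>
    have : t * x⁻¹ * t⁻¹ = (t * x * t⁻¹)⁻¹ := by group
    rw [this]; exact inv_mem hx

theorem milnor_nat {d : ℕ} (hG : PG d G) (x t : G) : ∃ n : ℕ, ∀ k : ℕ, t ^ k * x * (t ^ k)⁻¹ ∈
      Subgroup.closure {y | ∃ i ≤ n, y = t ^ i * x * (t ^ i)⁻¹} := by
  obtain ⟨n, hn⟩ := milnor_one hG x t
  refine ⟨n, fun k => ?_⟩
  have hle : Subgroup.closure {y | ∃ i < n, y = t ^ i * x * (t ^ i)⁻¹} ≤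
      Subgroup.closure {y | ∃ i ≤ n, y = t ^ i * x * (t ^ i)⁻¹} :=
    Subgroup.closure_mono fun y ⟨i, hi, e⟩ => ⟨i, hi.le, e⟩
  have key : ∀ y ∈ Subgroup.closure {y | ∃ i < n, y = t ^ i * x * (t ^ i)⁻¹},
      t * y * t⁻¹ ∈ Subgroup.closure {y | ∃ i < n, y = t ^ i * x * (t ^ i)⁻¹} := by
    refine conj_closure t ?_
    rintro y ⟨i, hi, rfl⟩
    have : t * (t ^ i * x * (t ^ i)⁻¹) * t⁻¹ = t ^ (i + 1) * x * (t ^ (i + 1))⁻¹ := by group
    rw [this]
    rcases (show i + 1 < n ∨ i + 1 = n by omega) with h | h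
    · exact Subgroup.subset_closure ⟨i + 1, h, rfl⟩
    · rw [h]; exact hn
  rcases le_or_gt k n with hk | hk
  · exact Subgroup.subset_closure ⟨k, hk, rfl⟩
  · apply hle
    obtain ⟨j, rfl⟩ : ∃ j, k = n + j := ⟨k - n, by omega⟩
    clear hk
    induction j with
    | zero => exact hn
    | succ j ih =>
      have : t ^ (n + (j + 1)) * x * (t ^ (n + (j + 1)))⁻¹ =
          t * (t ^ (n + j) * x * (t ^ (n + j))⁻¹) * t⁻¹ := by group
      rw [this]; exact key _ ih

theorem milnor_int {d : ℕ} (hG : PG d G) (x t : G) : ∃ F : Finset G,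
    (∀ y ∈ F, ∃ i : ℤ, y = t ^ i * x * (t ^ i)⁻¹) ∧
      ∀ k : ℤ, t ^ k * x * (t ^ k)⁻¹ ∈ Subgroup.closure (F : Set G) := by
  classical
  obtain ⟨n, hn⟩ := milnor_nat hG x t
  obtain ⟨n', hn'⟩ := milnor_nat hG x t⁻¹
  refine ⟨(Finset.Icc (-(n' : ℤ)) n).image fun i => t ^ i * x * (t ^ i)⁻¹, ?_, ?_⟩
  · intro y hy
    obtain ⟨i, -, rfl⟩ := Finset.mem_image.1 hy
    exact ⟨i, rfl⟩
  · intro k
    rcases Int.eq_nat_or_neg k with ⟨j, rfl | rfl⟩
    · rw [zpow_natCast]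
      refine Subgroup.closure_mono ?_ (hn j)
      rintro y ⟨i, hi, rfl⟩
      refine Finset.mem_coe.2 (Finset.mem_image.2 ⟨i, Finset.mem_Icc.2 ⟨by omega, by omega⟩, ?_⟩)
      rw [zpow_natCast]
    · rw [zpow_neg, zpow_natCast, ← inv_pow]
      refine Subgroup.closure_mono ?_ (hn' j)
      rintro y ⟨i, hi, rfl⟩
      refine Finset.mem_coe.2 (Finset.mem_image.2 ⟨-i, Finset.mem_Icc.2 ⟨by omega, by omega⟩, ?_⟩)
      rw [zpow_neg, zpow_natCast, ← inv_pow]

theorem ker_fg {d : ℕ} (hG : PG d G) [hfg : Group.FG G] (ψ : G →* Multiplicative ℤ)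
    (hψ : Surjective ψ) : Group.FG ψ.ker := by
  classical
  obtain ⟨S, hS⟩ := hfg.1
  obtain ⟨t, ht⟩ := hψ (Multiplicative.ofAdd 1)
  have htk : ∀ k : ℤ, ψ (t ^ k) = Multiplicative.ofAdd k := by
    intro k; rw [map_zpow, ht, ← ofAdd_zsmul]; simp
  choose F hF1 hF2 using fun s => milnor_int hG (s * (t ^ (Multiplicative.toAdd (ψ s)))⁻¹) t
  set N := Subgroup.closure ((S.biUnion F : Finset G) : Set G) with hN
  have hFN : ∀ s ∈ S, Subgroup.closure (F s : Set G) ≤ N := fun s hs =>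
    Subgroup.closure_mono fun y hy => Finset.mem_coe.2 (Finset.mem_biUnion.2 ⟨s, hs, hy⟩)
  have hconj : ∀ k : ℤ, ∀ y ∈ N, t ^ k * y * (t ^ k)⁻¹ ∈ N := by
    intro k
    refine conj_closure _ ?_
    intro y hy
    obtain ⟨s, hs, hy⟩ := Finset.mem_biUnion.1 (Finset.mem_coe.1 hy)
    obtain ⟨i, rfl⟩ := hF1 s y hy
    have := hFN s hs (hF2 s (k + i))
    have e : t ^ k * (t ^ i * (s * (t ^ Multiplicative.toAdd (ψ s))⁻¹) * (t ^ i)⁻¹) * (t ^ k)⁻¹ =
      t ^ (k + i) * (s * (t ^ Multiplicative.toAdd (ψ s))⁻¹) * (t ^ (k + i))⁻¹ := by group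
    rwa [e]
  have hall : ∀ g : G, g * (t ^ (Multiplicative.toAdd (ψ g)))⁻¹ ∈ N := by
    intro g
    have hg : g ∈ Subgroup.closure (S : Set G) := hS ▸ Subgroup.mem_top g
    induction hg using Subgroup.closure_induction with
    | mem s hs => simpa using hFN s hs (hF2 s 0)
    | one => simp
    | mul x y _ _ hx hy =>
      have := mul_mem hx (hconj (Multiplicative.toAdd (ψ x)) _ hy)
      rw [map_mul, toAdd_mul]
      have e : x * y * (t ^ (Multiplicative.toAdd (ψ x) + Multiplicative.toAdd (ψ y)))⁻¹ =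
        x * (t ^ Multiplicative.toAdd (ψ x))⁻¹ * (t ^ Multiplicative.toAdd (ψ x) *
          (y * (t ^ Multiplicative.toAdd (ψ y))⁻¹) * (t ^ Multiplicative.toAdd (ψ x))⁻¹) := by group
      rwa [e]
    | inv x _ hx =>
      have := hconj (-Multiplicative.toAdd (ψ x)) _ (inv_mem hx)
      rw [map_inv, toAdd_inv]
      have e : x⁻¹ * (t ^ (-Multiplicative.toAdd (ψ x)))⁻¹ =
        t ^ (-Multiplicative.toAdd (ψ x)) * (x * (t ^ Multiplicative.toAdd (ψ x))⁻¹)⁻¹ *
          (t ^ (-Multiplicative.toAdd (ψ x)))⁻¹ := by group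
      rwa [e]
  rw [Group.fg_iff_subgroup_fg]
  refine ⟨S.biUnion F, le_antisymm ?_ ?_⟩
  · rw [Subgroup.closure_le]
    intro y hy
    obtain ⟨s, hs, hy⟩ := Finset.mem_biUnion.1 (Finset.mem_coe.1 hy)
    obtain ⟨i, rfl⟩ := hF1 s y hy
    simp [MonoidHom.mem_ker, htk, -map_zpow]
  · intro g hg
    have := hall g
    rw [MonoidHom.mem_ker.1 hg] at this
    show g ∈ N
    simpa using this

theorem growth_drop {d : ℕ} (hG : PG d G) (ψ : G →* Multiplicative ℤ) (hψ : Surjective ψ)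
    (T : Finset ψ.ker) : ∃ C : ℕ, ∀ r, (wBall T r).ncard * (r + 1) ≤ C * (r + 1) ^ d := by
  classical
  obtain ⟨t, ht⟩ := hψ (Multiplicative.ofAdd 1)
  have htk : ∀ k : ℕ, ψ (t ^ k) = Multiplicative.ofAdd (k : ℤ) := by
    intro k; rw [map_pow, ht, ← ofAdd_nsmul]; simp
  set S : Finset G := insert t (T.image ψ.ker.subtype) with hS
  obtain ⟨C, hC⟩ := hG S
  refine ⟨C * 2 ^ d, fun r => ?_⟩
  have h1 : ((wBall T r) ×ˢ ((Finset.range (r + 1) : Finset ℕ) : Set ℕ)).ncard ≤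
      (wBall S (r + r)).ncard := by
    refine Set.ncard_le_ncard_of_injOn (fun p => (p.1 : G) * t ^ p.2) ?_ ?_ (ball_finite _ _)
    · rintro ⟨g, i⟩ ⟨hg, hi⟩
      have hi' : i ≤ r := by
        have := Finset.mem_range.1 (Finset.mem_coe.1 hi); omega
      refine ball_mul ?_ ?_
      · have := ball_map ψ.ker.subtype (T := T) (S := S) (L := 1)
          (fun x hx => ball_gen (Or.inl (Finset.mem_insert_of_mem (Finset.mem_image_of_mem _ hx))))
          r g hg
        simpa using this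
      · have := ball_pow (ball_gen (S := S) (s := t) (Or.inl (Finset.mem_insert_self _ _))) i
        exact ball_mono S (by simpa using hi') this
    · rintro ⟨g, i⟩ - ⟨g', i'⟩ - e
      have e' := congrArg ψ e
      simp only [map_mul, htk, MonoidHom.mem_ker.1 g.2, MonoidHom.mem_ker.1 g'.2, one_mul] at e'
      have hi : i = i' := by simpa using e'
      subst hi
      have : (g : G) = g' := mul_right_cancel e
      rw [Subtype.ext this]
  rw [Set.ncard_prod, Set.ncard_coe_finset, Finset.card_range] at h1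
  calc _ ≤ _ := h1
    _ ≤ C * (r + r + 1) ^ d := hC _
    _ ≤ C * (2 * (r + 1)) ^ d := by gcongr; omega
    _ = _ := by rw [mul_pow, mul_assoc]

theorem PG.ker {d : ℕ} (hG : PG (d + 1) G) (ψ : G →* Multiplicative ℤ) (hψ : Surjective ψ) :
    PG d ψ.ker := by
  intro T
  obtain ⟨C, hC⟩ := growth_drop hG ψ hψ T
  refine ⟨C, fun r => ?_⟩
  have := hC r
  rw [pow_succ, ← mul_assoc] at this
  exact Nat.le_of_mul_le_mul_right this (by omega)

theorem PG.not_zero (hG : PG 0 G) (ψ : G →* Multiplicative ℤ) (hψ : Surjective ψ) : False := by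
  obtain ⟨C, hC⟩ := growth_drop hG ψ hψ ∅
  have h1 := hC C
  have h2 : 1 ≤ (wBall (∅ : Finset ψ.ker) C).ncard :=
    (Set.ncard_pos (ball_finite _ _)).2 ⟨1, ball_one _ _⟩
  simp only [pow_zero, mul_one] at h1
  nlinarith

end Vale.Agent.P188.Grom
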