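import Vale.Agent.P188.GromA3

/-! Gromov module, part A4: the induction on the degree. -/

namespace Vale.Agent.P188.Grom

open Function

variable {G H : Type} [Group G] [Group H]

theorem finite_hom [hG : Group.FG G] [Finite H] : Finite (G →* H) := by
  obtain ⟨S, hS⟩ := hG.1
  refine Finite.of_injective (fun (f : G →* H) (s : S) => f s) ?_
  intro f g h
  exact MonoidHom.eq_of_eqOn_dense hS fun s hs => congrFun h ⟨s, hs⟩

theorem exists_char [Group.FG G] (K : Subgroup G) [K.FiniteIndex] :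
    ∃ M : Subgroup G, M ≤ K ∧ M.FiniteIndex ∧ M.Characteristic := by
  haveI : Finite (G →* Equiv.Perm (G ⧸ K)) := finite_hom
  refine ⟨⨅ f : G →* Equiv.Perm (G ⧸ K), f.ker, ?_,
    Subgroup.finiteIndex_iInf fun f => inferInstance, ?_⟩
  · refine le_trans (iInf_le _ (MulAction.toPermHom G (G ⧸ K))) ?_
    rw [← Subgroup.normalCore_eq_ker]
    exact K.normalCore_le
  · rw [Subgroup.characteristic_iff_le_comap]
    intro φ x hx
    rw [Subgroup.mem_comap, Subgroup.mem_iInf]
    intro f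
    exact Subgroup.mem_iInf.1 hx (f.comp φ.toMonoidHom)

/-- The subgroup generated by a normal subgroup of the kernel and a lift of the generator. -/
def liftSub (ψ : G →* Multiplicative ℤ) (t : G) (M : Subgroup G) [hM : M.Normal] : Subgroup G where
  carrier := {g | g * (t ^ (Multiplicative.toAdd (ψ g)))⁻¹ ∈ M}
  one_mem' := by simp
  mul_mem' := by
    intro x y hx hy
    have := mul_mem hx (hM.conj_mem _ hy (t ^ (Multiplicative.toAdd (ψ x))))
    have e : x * y * (t ^ (Multiplicative.toAdd (ψ x) + Multiplicative.toAdd (ψ y)))⁻¹ =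
      x * (t ^ Multiplicative.toAdd (ψ x))⁻¹ * (t ^ Multiplicative.toAdd (ψ x) *
        (y * (t ^ Multiplicative.toAdd (ψ y))⁻¹) * (t ^ Multiplicative.toAdd (ψ x))⁻¹) := by group
    show x * y * (t ^ (Multiplicative.toAdd (ψ (x * y))))⁻¹ ∈ M
    rwa [map_mul, toAdd_mul, e]
  inv_mem' := by
    intro x hx
    have := hM.conj_mem _ (inv_mem hx) (t ^ (-Multiplicative.toAdd (ψ x)))
    have e : x⁻¹ * (t ^ (-Multiplicative.toAdd (ψ x)))⁻¹ =
      t ^ (-Multiplicative.toAdd (ψ x)) * (x * (t ^ Multiplicative.toAdd (ψ x))⁻¹)⁻¹ *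
        (t ^ (-Multiplicative.toAdd (ψ x)))⁻¹ := by group
    show x⁻¹ * (t ^ (Multiplicative.toAdd (ψ x⁻¹)))⁻¹ ∈ M
    rwa [map_inv, toAdd_inv, e]

theorem mem_liftSub (ψ : G →* Multiplicative ℤ) (t : G) (M : Subgroup G) [hM : M.Normal] (g : G) :
    g ∈ liftSub ψ t M ↔ g * (t ^ (Multiplicative.toAdd (ψ g)))⁻¹ ∈ M := Iff.rfl

theorem ext_step (ψ : G →* Multiplicative ℤ) (hψ : Surjective ψ) [Group.FG ψ.ker]
    (K : Subgroup ψ.ker) [K.FiniteIndex] {m : ℕ} (hK : PolyZ m K) :
    ∃ L : Subgroup G, L.FiniteIndex ∧ PolyZ (m + 1) L := by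
  obtain ⟨M, hMK, hMi, hMc⟩ := exists_char K
  obtain ⟨t, ht⟩ := hψ (Multiplicative.ofAdd 1)
  have htk : ∀ k : ℤ, ψ (t ^ k) = Multiplicative.ofAdd k := by
    intro k; rw [map_zpow, ht, ← ofAdd_zsmul]; simp
  have hPM : PolyZ m M := polyZ_inj m K M (Subgroup.inclusion hMK)
    (Subgroup.inclusion_injective hMK) (by rw [Subgroup.inclusion_range]; infer_instance) hK
  set L := liftSub ψ t (M.map ψ.ker.subtype) with hL
  have htL : ∀ k : ℤ, t ^ k ∈ L := by
    intro k; rw [hL, mem_liftSub, htk]; simp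
  have hML : ∀ x : ψ.ker, (x : G) ∈ L ↔ x ∈ M := by
    intro x
    rw [hL, mem_liftSub, MonoidHom.mem_ker.1 x.2]
    simp
  refine ⟨L, ?_, ψ.comp L.subtype, ?_, ?_⟩
  · haveI : Finite (G ⧸ L) := by
      refine Finite.of_surjective (α := ψ.ker ⧸ M)
        (Quotient.map' (fun x => (x : G)) fun x y hxy => ?_) ?_
      · rw [QuotientGroup.leftRel_apply] at hxy ⊢
        exact (hML _).2 hxy
      · intro q
        obtain ⟨g, rfl⟩ := QuotientGroup.mk_surjective q
        refine ⟨QuotientGroup.mk ⟨g * (t ^ (Multiplicative.toAdd (ψ g)))⁻¹, ?_⟩, ?_⟩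
        · simp [MonoidHom.mem_ker, htk, -map_zpow]
        · refine QuotientGroup.eq.2 ?_
          simpa using htL _
    exact Subgroup.finiteIndex_of_finite_quotient
  · intro n
    exact ⟨⟨t ^ Multiplicative.toAdd n, htL _⟩, by simp [htk, -map_zpow]⟩
  · let f0 : (ψ.comp L.subtype).ker →* ψ.ker :=
      (L.subtype.comp (ψ.comp L.subtype).ker.subtype).codRestrict ψ.ker fun y => y.2
    refine polyZ_inj m M _ (f0.codRestrict M fun y => (hML _).1 y.1.2) ?_ ?_ hPM
    · intro y z hyz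
      exact Subtype.ext (Subtype.ext (congrArg (fun w : M => ((w : ψ.ker) : G)) hyz))
    · have : (f0.codRestrict M fun y => (hML _).1 y.1.2).range = ⊤ := by
        rw [MonoidHom.range_eq_top]
        intro y
        exact ⟨⟨⟨((y : ψ.ker) : G), (hML _).2 y.2⟩, (y : ψ.ker).2⟩, rfl⟩
      rw [this]; infer_instance

theorem polyZ_push (f : H →* G) (hf : Injective f) (hi : f.range.FiniteIndex) {m : ℕ}
    {L : Subgroup H} (hL : L.FiniteIndex) (h : PolyZ m L) :
    ∃ L' : Subgroup G, L'.FiniteIndex ∧ PolyZ m L' := by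
  refine ⟨L.map f, ⟨?_⟩, polyZ_inj m L _ (L.equivMapOfInjective f hf).symm.toMonoidHom
    (L.equivMapOfInjective f hf).symm.injective ?_ h⟩
  · rw [Subgroup.index_map_of_injective _ hf]
    exact mul_ne_zero hL.index_ne_zero hi.index_ne_zero
  · rw [MonoidHom.range_eq_top.2 (L.equivMapOfInjective f hf).symm.surjective]
    infer_instance

/-- The key dichotomy used in the induction. -/
def GStar : Prop :=
  ∀ (d : ℕ) (G : Type) [Group G], Group.FG G → Infinite G → PG d G → VZ G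

theorem main_ind (hS : GStar) : ∀ (d : ℕ) (G : Type) [Group G], Group.FG G → PG d G →
    ∃ L : Subgroup G, L.FiniteIndex ∧ ∃ m ≤ d, PolyZ m L := by
  intro d
  induction d with
  | zero =>
    intro G _ hfg hG
    rcases finite_or_infinite G with h | h
    · exact ⟨⊥, inferInstance, 0, le_rfl, (inferInstance : Subsingleton (⊥ : Subgroup G))⟩
    · obtain ⟨L, hL, ψ, g, hg⟩ := hS 0 G hfg h hG
      obtain ⟨ψ', hs, -⟩ := surj_of_ne ψ hg
      exact ((hG.sub L).not_zero ψ' hs).elim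
  | succ d ih =>
    intro G _ hfg hG
    rcases finite_or_infinite G with h | h
    · exact ⟨⊥, inferInstance, 0, by omega, (inferInstance : Subsingleton (⊥ : Subgroup G))⟩
    · obtain ⟨L, hL, ψ, g, hg⟩ := hS _ G hfg h hG
      obtain ⟨ψ', hs, -⟩ := surj_of_ne ψ hg
      haveI := ker_fg (hG.sub L) ψ' hs
      obtain ⟨K, hK, m, hm, hP⟩ := ih ψ'.ker inferInstance ((hG.sub L).ker ψ' hs)
      obtain ⟨L1, hL1, hP1⟩ := ext_step ψ' hs K hP
      obtain ⟨L2, hL2, hP2⟩ := polyZ_push L.subtype L.subtype_injective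
        (by rwa [Subgroup.range_subtype]) hL1 hP1
      exact ⟨L2, hL2, m + 1, by omega, hP2⟩

theorem gromov_of_gstar (hS : GStar) : Gromov_stmt := by
  intro d G _ S hgen h
  exact main_ind hS d G ⟨⟨S, hgen⟩⟩ (PG.of_gen hgen h)

end Vale.Agent.P188.Grom
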