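import Vale.Agent.P188.GromA4

/-! Gromov module, part B1: length functions and iterated commutators. -/

namespace Vale.Agent.P188.Grom

open Function

variable {G H : Type} [Group G] [Group H]

/-- The properties of `g ↦ ‖ρ g - 1‖` used in the compact case. -/
structure IsLen (ℓ : G → ℝ) : Prop where
  pos : ∀ g, g ≠ 1 → 0 < ℓ g
  one : ℓ 1 = 0
  mul : ∀ g h, ℓ (g * h) ≤ ℓ g + ℓ h
  inv : ∀ g, ℓ g⁻¹ ≤ ℓ g
  comm : ∀ g h, ℓ (g * h * g⁻¹ * h⁻¹) ≤ 2 * ℓ g * ℓ h
  pow : ∀ g (i : ℕ), 1 ≤ i → i * ℓ g ≤ 1 → ℓ g / 2 ≤ ℓ (g ^ i)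

theorem IsLen.nonneg {ℓ : G → ℝ} (h : IsLen ℓ) (g : G) : 0 ≤ ℓ g := by
  by_cases hg : g = 1
  · rw [hg, h.one]
  · exact (h.pos g hg).le

theorem IsLen.pow_le {ℓ : G → ℝ} (h : IsLen ℓ) (g : G) (i : ℕ) : ℓ (g ^ i) ≤ i * ℓ g := by
  induction i with
  | zero => simp [h.one]
  | succ i ih =>
    rw [pow_succ]; push_cast
    linarith [h.mul (g ^ i) g]

theorem IsLen.comap {ℓ : G → ℝ} (h : IsLen ℓ) (f : H →* G) (hf : Injective f) :
    IsLen (fun x => ℓ (f x)) where
  pos g hg := h.pos _ fun e => hg (hf (by rw [e, map_one]))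
  one := by simp [h.one]
  mul g g' := by simpa using h.mul _ _
  inv g := by simpa using h.inv _
  comm g g' := by simpa using h.comm _ _
  pow g i h1 h2 := by simpa using h.pow _ i h1 h2

/-- All iterated commutators of depth `m` of `h` with elements of `S` vanish. -/
def Zc (S : Finset G) : ℕ → G → Prop
  | 0, h => h = 1
  | m + 1, h => ∀ s ∈ S, Zc S m (s * h * s⁻¹ * h⁻¹)

theorem Zc_one (S : Finset G) (m : ℕ) : Zc S m 1 := by
  induction m with
  | zero => rfl
  | succ m ih => intro s _; simpa using ih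

theorem Zc_succ (S : Finset G) (m : ℕ) : ∀ h, Zc S m h → Zc S (m + 1) h := by
  induction m with
  | zero => intro h hh; rw [show h = 1 from hh]; exact Zc_one S 1
  | succ m ih => intro h hh s hs; exact ih _ (hh s hs)

theorem Zc_mono (S : Finset G) {m m' : ℕ} (hm : m ≤ m') {h : G} (hh : Zc S m h) : Zc S m' h := by
  induction hm with
  | refl => exact hh
  | step _ ih => exact Zc_succ S _ _ ih

theorem pow_sep {ℓ : G → ℝ} (hl : IsLen ℓ) {h a b : G} (h1 : h ≠ 1) {N i j : ℕ} {ε : ℝ}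
    (hε : N * ε ≤ 1 / 20) (hh : ℓ h ≤ ε) (ha : ℓ a ≤ 4 * N * ε * ℓ h) (hb : ℓ b ≤ 4 * N * ε * ℓ h)
    (hi : i < N) (hij : j < i) : h ^ i * a ≠ h ^ j * b := by
  intro e
  obtain ⟨k, rfl⟩ : ∃ k, i = j + k := ⟨i - j, by omega⟩
  have e2 : h ^ k = b * a⁻¹ := by
    rw [pow_add, mul_assoc] at e
    rw [← mul_left_cancel e]; group
  have hp := hl.pos h h1
  have hk : (k : ℝ) ≤ N := by exact_mod_cast (by omega : k ≤ N)
  have h2 := hl.pow h k (by omega) (by nlinarith [(Nat.cast_nonneg k : (0 : ℝ) ≤ k)])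
  have h3 := hl.mul b a⁻¹
  have h4 := hl.inv a
  rw [e2] at h2
  nlinarith

theorem chain_sets {ℓ : G → ℝ} (hl : IsLen ℓ) (S : Finset G) {N : ℕ} (hN : 1 ≤ N) {ε : ℝ}
    (hε : N * ε ≤ 1 / 20) (hS : ∀ s ∈ S, ℓ s ≤ ε) (m : ℕ) :
    ∀ (h : G) (L : ℕ), ¬ Zc S m h → ℓ h ≤ ε → h ∈ wBall S L →
      ∃ (A : Finset G) (B : ℕ), A.card = N ^ m ∧ B + N * (L + 2) ≤ N * (L + 2) * 2 ^ m ∧
        ∀ a ∈ A, ℓ a ≤ 2 * N * ℓ h ∧ a ∈ wBall S B := by
  classical
  induction m with
  | zero =>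
    intro h L _ _ _
    refine ⟨{1}, 0, by simp, by simp, fun a ha => ?_⟩
    rw [Finset.mem_singleton.1 ha, hl.one]
    exact ⟨by have := hl.nonneg h; positivity, ball_one _ _⟩
  | succ m ih =>
    intro h L hZ hh hL
    have h1 : h ≠ 1 := fun e => hZ (e ▸ Zc_one S _)
    have hp := hl.pos h h1
    have hN' : (1 : ℝ) ≤ N := by exact_mod_cast hN
    have hε0 : 0 ≤ ε := hp.le.trans hh
    have hε1 : ε ≤ 1 / 20 := by nlinarith
    simp only [Zc, not_forall] at hZ
    obtain ⟨s, hs, hZ⟩ := hZ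
    have hc : ℓ (s * h * s⁻¹ * h⁻¹) ≤ 2 * ε * ℓ h := by
      have := hl.comm s h
      have := hS s hs
      nlinarith
    have hs1 := ball_gen (S := S) (Or.inl hs)
    obtain ⟨A, B, hA, hB, hAB⟩ := ih _ (1 + L + 1 + L) hZ (by nlinarith)
      (ball_mul (ball_mul (ball_mul hs1 hL) (ball_inv hs1)) (ball_inv hL))
    have hA' : ∀ a ∈ A, ℓ a ≤ 4 * N * ε * ℓ h := fun a ha => by
      have := (hAB a ha).1
      nlinarith
    refine ⟨(Finset.range N ×ˢ A).image fun p => h ^ p.1 * p.2, N * L + B, ?_, ?_, ?_⟩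
    · rw [Finset.card_image_of_injOn, Finset.card_product, Finset.card_range, hA, pow_succ,
        mul_comm]
      rintro ⟨i, a⟩ hia ⟨j, b⟩ hjb e
      simp only [Finset.coe_product, Set.mem_prod, Finset.mem_coe, Finset.mem_range] at hia hjb
      simp only at e
      rcases lt_trichotomy i j with hij | hij | hij
      · exact (pow_sep hl h1 hε hh (hA' _ hjb.2) (hA' _ hia.2) hjb.1 hij e.symm).elim
      · subst hij; rw [mul_left_cancel e]
      · exact (pow_sep hl h1 hε hh (hA' _ hia.2) (hA' _ hjb.2) hia.1 hij e).elim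
    · have e : N * (L + 2) * 2 ^ (m + 1) = N * (1 + L + 1 + L + 2) * 2 ^ m := by ring
      rw [e]; nlinarith
    · intro a ha
      obtain ⟨⟨i, b⟩, hib, rfl⟩ := Finset.mem_image.1 ha
      simp only [Finset.mem_product, Finset.mem_range] at hib
      refine ⟨?_, ball_mul (ball_mono S (Nat.mul_le_mul_right _ hib.1.le) (ball_pow hL i))
        (hAB b hib.2).2⟩
      have h2 := hl.mul (h ^ i) b
      have h3 := hl.pow_le h i
      have h4 := hA' b hib.2
      have h5 : (i : ℝ) ≤ N := by exact_mod_cast hib.1.le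
      have h6 : 4 * N * ε * ℓ h ≤ N * ℓ h := by
        have : 0 ≤ N * ℓ h := by positivity
        nlinarith
      simp only
      nlinarith

theorem exists_Zc {d : ℕ} (hG : PG d G) {ℓ : G → ℝ} (hl : IsLen ℓ) (S : Finset G) {ε : ℝ}
    (hε : (2 ^ (d + 1) : ℕ) * ε ≤ 1 / 20) (hS : ∀ s ∈ S, ℓ s ≤ ε) :
    ∃ m, ∀ s ∈ S, Zc S m s := by
  obtain ⟨C, hC⟩ := hG S
  set N := 2 ^ (d + 1) with hN
  have hN1 : 1 ≤ N := Nat.one_le_two_pow
  refine ⟨C * (N * 3) ^ d, fun s hs => ?_⟩
  set m := C * (N * 3) ^ d with hm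
  by_contra hZ
  obtain ⟨A, B, hA, hB, hAB⟩ := chain_sets hl S hN1 hε hS m s 1 hZ (hS s hs)
    (ball_gen (Or.inl hs))
  have h1 : (A : Set G).ncard ≤ (wBall S B).ncard :=
    Set.ncard_le_ncard (fun a ha => (hAB a ha).2) (ball_finite _ _)
  rw [Set.ncard_coe_finset, hA] at h1
  have h2 : (wBall S B).ncard ≤ C * (N * 3 * 2 ^ m) ^ d := by
    refine (hC B).trans ?_
    gcongr
    have e : N * (1 + 2) = N * 3 := rfl
    rw [e] at hB
    omega
  have h3 : N ^ m = 2 ^ m * (2 ^ m) ^ d := by rw [hN]; ring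
  have h4 : m < 2 ^ m := Nat.lt_two_pow_self
  have h5 : C * (N * 3 * 2 ^ m) ^ d = m * (2 ^ m) ^ d := by
    rw [mul_pow (N * 3), ← mul_assoc]
  have h6 : 0 < (2 ^ m) ^ d := by positivity
  have := Nat.mul_lt_mul_of_lt_of_le h4 (le_refl ((2 ^ m) ^ d)) h6
  omega

theorem Zc_quot [DecidableEq (G ⧸ Subgroup.center G)] (S : Finset G)
    (hS : Subgroup.closure (S : Set G) = ⊤) (m : ℕ) :
    ∀ h : G, Zc S (m + 1) h →
      Zc (S.image (QuotientGroup.mk' (Subgroup.center G))) m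
        (QuotientGroup.mk' (Subgroup.center G) h) := by
  induction m with
  | zero =>
    intro h hh
    show _ = 1
    rw [QuotientGroup.mk'_apply, QuotientGroup.eq_one_iff, Subgroup.mem_center_iff]
    intro g
    have hg : g ∈ Subgroup.closure (S : Set G) := hS ▸ Subgroup.mem_top g
    have : Subgroup.closure (S : Set G) ≤ Subgroup.centralizer {h} := by
      rw [Subgroup.closure_le]
      intro s hs
      have e : s * h * s⁻¹ * h⁻¹ = 1 := hh s hs
      rw [SetLike.mem_coe, Subgroup.mem_centralizer_singleton_iff]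
      calc s * h = (s * h * s⁻¹ * h⁻¹) * (h * s) := by group
        _ = h * s := by rw [e, one_mul]
    exact Subgroup.mem_centralizer_singleton_iff.1 (this hg)
  | succ m ih =>
    intro h hh s' hs'
    obtain ⟨s, hs, rfl⟩ := Finset.mem_image.1 hs'
    simpa using ih _ (hh s hs)

theorem nilp_VZ (m : ℕ) : ∀ (G : Type) [Group G] (S : Finset G),
    Subgroup.closure (S : Set G) = ⊤ → Infinite G → (∀ s ∈ S, Zc S m s) → VZ G := by
  classical
  induction m with
  | zero =>
    intro G _ S hS hI h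
    have : (⊤ : Subgroup G) = ⊥ := by
      rw [← hS, Subgroup.closure_eq_bot_iff]
      exact fun s hs => h s hs
    haveI : Subsingleton G := Subgroup.subsingleton_iff.1 (subsingleton_of_bot_eq_top this.symm)
    exact (not_finite G).elim
  | succ m ih =>
    intro G _ S hS hI h
    rcases finite_or_infinite (G ⧸ Subgroup.center G) with hq | hq
    · haveI : (Subgroup.center G).FiniteIndex := Subgroup.finiteIndex_of_finite_quotient
      haveI : Group.FG G := ⟨⟨S, hS⟩⟩
      haveI : Infinite (Subgroup.center G) := by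
        by_contra hc
        rw [not_infinite_iff_finite] at hc
        haveI := Finite.of_subgroup_quotient (Subgroup.center G)
        exact not_finite G
      exact VZ.of_sub (Subgroup.center G) (comm_VZ' _ fun x y =>
        Subtype.ext (Subgroup.mem_center_iff.1 y.2 x))
    · refine VZ.of_surj (ih _ (S.image (QuotientGroup.mk' (Subgroup.center G))) ?_ hq ?_) _
        (QuotientGroup.mk'_surjective _)
      · rw [Finset.coe_image, ← MonoidHom.map_closure, hS]
        exact Subgroup.map_top_of_surjective _ (QuotientGroup.mk'_surjective _)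
      · intro s' hs'
        obtain ⟨s, hs, rfl⟩ := Finset.mem_image.1 hs'
        exact Zc_quot S hS m s (h s hs)

end Vale.Agent.P188.Grom
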