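import Vale.Agent.P188.GromB1

/-! Gromov module, part B2: bounded finite-dimensional representations. -/

namespace Vale.Agent.P188.Grom

open Function

variable {G H : Type} [Group G] [Group H]
variable {A : Type} [NormedRing A] [NormedAlgebra ℝ A]

theorem norm_pow_sub (a : A) (ha : ∀ i : ℕ, 1 ≤ i → ‖a ^ i - 1‖ ≤ i * ‖a - 1‖) (i : ℕ) :
    ‖a ^ i - 1 - (i : ℝ) • (a - 1)‖ ≤ i * i / 2 * ‖a - 1‖ ^ 2 := by
  induction i with
  | zero => simp
  | succ i ih =>
    have e : a ^ (i + 1) - 1 - ((i + 1 : ℕ) : ℝ) • (a - 1) =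
        (a ^ i - 1 - (i : ℝ) • (a - 1)) + (a ^ i - 1) * (a - 1) := by
      push_cast
      rw [add_smul, one_smul, pow_succ]
      noncomm_ring
    rw [e]
    have h1 : ‖(a ^ i - 1) * (a - 1)‖ ≤ i * ‖a - 1‖ * ‖a - 1‖ := by
      refine (norm_mul_le _ _).trans ?_
      rcases Nat.eq_zero_or_pos i with rfl | hi
      · simp
      · gcongr; exact ha i hi
    refine (norm_add_le _ _).trans ?_
    push_cast
    nlinarith [sq_nonneg ‖a - 1‖]

theorem isLen_norm (φ : G →* A) (hφ : ∀ g, ‖φ g‖ ≤ 1) (hi : Injective φ) :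
    IsLen fun g => ‖φ g - 1‖ := by
  have hl : ∀ g (a : A), ‖φ g * a‖ ≤ ‖a‖ := fun g a =>
    (norm_mul_le _ _).trans (mul_le_of_le_one_left (norm_nonneg _) (hφ g))
  have hr : ∀ g (a : A), ‖a * φ g‖ ≤ ‖a‖ := fun g a =>
    (norm_mul_le _ _).trans (mul_le_of_le_one_right (norm_nonneg _) (hφ g))
  have hmul : ∀ g h, ‖φ (g * h) - 1‖ ≤ ‖φ g - 1‖ + ‖φ h - 1‖ := by
    intro g h
    have e : φ (g * h) - 1 = (φ g - 1) + φ g * (φ h - 1) := by rw [map_mul]; noncomm_ring
    rw [e]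
    exact (norm_add_le _ _).trans (by gcongr; exact hl _ _)
  refine ⟨fun g hg => ?_, by simp, hmul, fun g => ?_, fun g h => ?_, fun g i h1 h2 => ?_⟩
  · rw [norm_pos_iff, sub_ne_zero]
    intro e; exact hg (hi (by rw [e, map_one]))
  · have e : φ g⁻¹ - 1 = φ g⁻¹ * (1 - φ g) := by
      rw [mul_sub, ← map_mul, inv_mul_cancel, map_one, mul_one]
    rw [e, norm_sub_rev (φ g)]
    exact hl _ _
  · have e : φ (g * h * g⁻¹ * h⁻¹) - 1 =
        ((φ g - 1) * (φ h - 1) - (φ h - 1) * (φ g - 1)) * φ (g⁻¹ * h⁻¹) := by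
      have e1 : (φ g - 1) * (φ h - 1) - (φ h - 1) * (φ g - 1) = φ (g * h) - φ (h * g) := by
        rw [map_mul, map_mul]; noncomm_ring
      rw [e1, sub_mul, ← map_mul, ← map_mul]
      have e2 : h * g * (g⁻¹ * h⁻¹) = 1 := by group
      rw [e2, map_one, mul_assoc (g * h)]
    rw [e]
    refine (hr _ _).trans ((norm_sub_le _ _).trans ?_)
    have h1 := norm_mul_le (φ g - 1) (φ h - 1)
    have h2 := norm_mul_le (φ h - 1) (φ g - 1)
    nlinarith
  · have hp : ∀ j : ℕ, 1 ≤ j → ‖φ g ^ j - 1‖ ≤ j * ‖φ g - 1‖ := by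
      intro j _
      induction j with
      | zero => simp
      | succ j ih =>
        rcases Nat.eq_zero_or_pos j with rfl | hj
        · simp
        · have := hmul (g ^ j) g
          rw [← pow_succ, map_pow, map_pow] at this
          have := ih hj
          push_cast; linarith
    have h3 := norm_pow_sub (φ g) hp i
    have h4 : ‖(i : ℝ) • (φ g - 1)‖ = i * ‖φ g - 1‖ := by rw [norm_smul]; simp
    have h5 := norm_sub_norm_le ((i : ℝ) • (φ g - 1)) (φ g ^ i - 1)
    rw [norm_sub_rev ((i : ℝ) • (φ g - 1)), h4] at h5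
    rw [map_pow]
    have h6 : (1 : ℝ) ≤ i := by exact_mod_cast h1
    have h7 := norm_nonneg (φ g - 1)
    have h8 : 0 ≤ i * ‖φ g - 1‖ := by positivity
    have h9 : (i : ℝ) * i / 2 * ‖φ g - 1‖ ^ 2 = (i * ‖φ g - 1‖) * (i * ‖φ g - 1‖) / 2 := by ring
    have h10 : (i * ‖φ g - 1‖) * (i * ‖φ g - 1‖) ≤ i * ‖φ g - 1‖ := by nlinarith
    nlinarith

theorem small_finiteIndex [ProperSpace A] (φ : G →* A) (hφ : ∀ g, ‖φ g‖ ≤ 1) {ε : ℝ} (hε : 0 < ε) :
    (Subgroup.closure {g | ‖φ g - 1‖ ≤ ε}).FiniteIndex := by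
  have htb : TotallyBounded (Set.range φ) :=
    (isCompact_closedBall (0 : A) 1).totallyBounded.subset (by
      rintro _ ⟨g, rfl⟩; simpa using hφ g)
  obtain ⟨F, hF1, hF2, hF3⟩ := Metric.finite_approx_of_totallyBounded htb ε hε
  choose! σ hσ using fun y (hy : y ∈ F) => (show ∃ g, φ g = y from hF1 hy)
  haveI : Finite F := hF2
  haveI : Finite (G ⧸ Subgroup.closure {g | ‖φ g - 1‖ ≤ ε}) := by
    refine Finite.of_surjective (fun y : F => QuotientGroup.mk (σ y)) ?_
    intro q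
    obtain ⟨g, rfl⟩ := QuotientGroup.mk_surjective q
    obtain ⟨y, hy, hg⟩ := Set.mem_iUnion₂.1 (hF3 ⟨g, rfl⟩)
    refine ⟨⟨y, hy⟩, QuotientGroup.eq.2 (Subgroup.subset_closure ?_)⟩
    have e : φ ((σ y)⁻¹ * g) - 1 = φ (σ y)⁻¹ * (φ g - φ (σ y)) := by
      rw [mul_sub, ← map_mul, ← map_mul, inv_mul_cancel, map_one]
    rw [hσ y hy] at e
    show ‖φ ((σ y)⁻¹ * g) - 1‖ ≤ ε
    rw [e]
    refine (norm_mul_le _ _).trans ((mul_le_of_le_one_left (norm_nonneg _) (hφ _)).trans ?_)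
    rw [← dist_eq_norm]
    exact (Metric.mem_ball.1 hg).le
  exact Subgroup.finiteIndex_of_finite_quotient

theorem exists_fin_gen (s : Set G) (h : (Subgroup.closure s).FG) :
    ∃ S : Finset G, (S : Set G) ⊆ s ∧ Subgroup.closure (S : Set G) = Subgroup.closure s := by
  classical
  obtain ⟨F, hF⟩ := h
  have : ∀ x ∈ F, ∃ S : Finset G, (S : Set G) ⊆ s ∧ x ∈ Subgroup.closure (S : Set G) := by
    intro x hx
    have hx' : x ∈ Subgroup.closure s := hF ▸ Subgroup.subset_closure hx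
    clear hx
    induction hx' using Subgroup.closure_induction with
    | mem x hx => exact ⟨{x}, by simpa using hx, Subgroup.subset_closure (by simp)⟩
    | one => exact ⟨∅, by simp, one_mem _⟩
    | mul x y _ _ hx hy =>
      obtain ⟨S, h1, h2⟩ := hx
      obtain ⟨S', h1', h2'⟩ := hy
      refine ⟨S ∪ S', by simp [h1, h1'], mul_mem (Subgroup.closure_mono (by simp) h2)
        (Subgroup.closure_mono (by simp) h2')⟩
    | inv x _ hx =>
      obtain ⟨S, h1, h2⟩ := hx
      exact ⟨S, h1, inv_mem h2⟩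
  choose! S hS1 hS2 using this
  refine ⟨F.biUnion S, ?_, le_antisymm (Subgroup.closure_mono ?_) ?_⟩
  · intro y hy
    obtain ⟨x, hx, hy⟩ := Finset.mem_biUnion.1 (Finset.mem_coe.1 hy)
    exact hS1 x hx hy
  · intro y hy
    obtain ⟨x, hx, hy⟩ := Finset.mem_biUnion.1 (Finset.mem_coe.1 hy)
    exact hS1 x hx hy
  · rw [← hF, Subgroup.closure_le]
    intro x hx
    refine Subgroup.closure_mono ?_ (hS2 x hx)
    intro y hy
    exact Finset.mem_coe.2 (Finset.mem_biUnion.2 ⟨x, hx, hy⟩)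

theorem compact_VZ_inj [ProperSpace A] {d : ℕ} (hG : PG d G) [Group.FG G] [Infinite G]
    (φ : G →* A) (hφ : ∀ g, ‖φ g‖ ≤ 1) (hi : Injective φ) : VZ G := by
  classical
  set ε : ℝ := 1 / (20 * (2 ^ (d + 1) : ℕ)) with hε
  have hε0 : 0 < ε := by positivity
  set K := Subgroup.closure {g | ‖φ g - 1‖ ≤ ε} with hK
  haveI : K.FiniteIndex := small_finiteIndex φ hφ hε0
  have hfg : K.FG := (Group.fg_iff_subgroup_fg K).1 inferInstance
  obtain ⟨S, hS1, hS2⟩ := exists_fin_gen _ hfg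
  haveI : Infinite K := by
    by_contra hc
    rw [not_infinite_iff_finite] at hc
    haveI := Finite.of_subgroup_quotient K
    exact not_finite G
  set S' : Finset K := S.preimage K.subtype K.subtype_injective.injOn with hS'
  have hgen : Subgroup.closure (S' : Set K) = ⊤ := by
    rw [hS', Finset.coe_preimage]
    have : K = Subgroup.closure (S : Set G) := hS2.symm
    apply Subgroup.map_injective K.subtype_injective
    rw [MonoidHom.map_closure, Set.image_preimage_eq_of_subset, ← MonoidHom.range_eq_map,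
      Subgroup.range_subtype, hS2]
    intro x hx
    exact ⟨⟨x, Subgroup.subset_closure (hS1 hx)⟩, rfl⟩
  have hl := (isLen_norm φ hφ hi).comap K.subtype K.subtype_injective
  obtain ⟨m, hm⟩ := exists_Zc (hG.sub K) hl S' (ε := ε)
    (by rw [hε]; field_simp; exact le_rfl) (fun s hs => hS1 (Finset.mem_preimage.1 hs))
  exact VZ.of_sub K (nilp_VZ m K S' hgen inferInstance hm)

theorem compact_VZ [ProperSpace A] {d : ℕ} (hG : PG d G) [Group.FG G]
    (φ : G →* A) (hφ : ∀ g, ‖φ g‖ ≤ 1) (hi : (Set.range φ).Infinite) : VZ G := by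
  have hs := φ.toHomUnits.rangeRestrict_surjective
  haveI : Group.FG φ.toHomUnits.range := Group.fg_of_surjective hs
  haveI : Infinite φ.toHomUnits.range := by
    by_contra hc
    rw [not_infinite_iff_finite] at hc
    apply hi
    refine (Set.finite_range fun x : φ.toHomUnits.range => ((x : Aˣ) : A)).subset ?_
    rintro _ ⟨g, rfl⟩
    exact ⟨⟨φ.toHomUnits g, g, rfl⟩, rfl⟩
  refine VZ.of_surj (compact_VZ_inj (hG.of_surj _ hs)
    ((Units.coeHom A).comp φ.toHomUnits.range.subtype) ?_ ?_) _ hs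
  · rintro ⟨_, g, rfl⟩
    exact hφ g
  · exact Units.val_injective.comp Subtype.val_injective

end Vale.Agent.P188.Grom
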