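import Vale.Agent.P188.GromB2

/-! Gromov module, part C1: lazy symmetric random walks and finite sums. -/

namespace Vale.Agent.P188.Grom

open Function

variable {G : Type} [Group G]

omit [Group G] in
theorem fs_of {f g : G → ℝ} (hf : HasFiniteSupport f) (h : ∀ x, f x = 0 → g x = 0) :
    HasFiniteSupport g :=
  Set.Finite.subset hf fun x hx h0 => hx (h x h0)

theorem fs_rt {f : G → ℝ} (hf : HasFiniteSupport f) (s : G) : HasFiniteSupport fun x => f (x * s) :=
  hf.fun_comp_of_injective (mul_left_injective s)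

theorem fs_lt {f : G → ℝ} (hf : HasFiniteSupport f) (s : G) : HasFiniteSupport fun x => f (s * x) :=
  hf.fun_comp_of_injective (mul_right_injective s)

theorem sum_rt (f : G → ℝ) (s : G) : ∑ᶠ x, f (x * s) = ∑ᶠ x, f x :=
  finsum_comp_equiv (Equiv.mulRight s)

theorem sum_lt (f : G → ℝ) (s : G) : ∑ᶠ x, f (s * x) = ∑ᶠ x, f x :=
  finsum_comp_equiv (Equiv.mulLeft s)

/-- The pairing of functions. -/
noncomputable def ip (f g : G → ℝ) : ℝ := ∑ᶠ x, f x * g x

omit [Group G] in
theorem ip_comm (f g : G → ℝ) : ip f g = ip g f := finsum_congr fun _ => mul_comm _ _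

omit [Group G] in
theorem ip_sub_right {f : G → ℝ} (hf : HasFiniteSupport f) (g h : G → ℝ) :
    ip f (g - h) = ip f g - ip f h := by
  unfold ip
  rw [← finsum_sub_distrib (by fun_prop) (by fun_prop)]
  exact finsum_congr fun x => by simp [mul_sub]

omit [Group G] in
theorem ip_add_right {f : G → ℝ} (hf : HasFiniteSupport f) (g h : G → ℝ) :
    ip f (g + h) = ip f g + ip f h := by
  unfold ip
  rw [← finsum_add_distrib (by fun_prop) (by fun_prop)]
  exact finsum_congr fun x => by simp [mul_add]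

omit [Group G] in
theorem ip_sub_left {f g : G → ℝ} (hf : HasFiniteSupport f) (hg : HasFiniteSupport g) (h : G → ℝ) :
    ip (f - g) h = ip f h - ip g h := by
  unfold ip
  rw [← finsum_sub_distrib (by fun_prop) (by fun_prop)]
  exact finsum_congr fun x => by simp [sub_mul]

omit [Group G] in
theorem ip_add_left {f g : G → ℝ} (hf : HasFiniteSupport f) (hg : HasFiniteSupport g) (h : G → ℝ) :
    ip (f + g) h = ip f h + ip g h := by
  unfold ip
  rw [← finsum_add_distrib (by fun_prop) (by fun_prop)]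
  exact finsum_congr fun x => by simp [add_mul]

omit [Group G] in
theorem ip_sum_right {ι : Type} {f : G → ℝ} (hf : HasFiniteSupport f) (s : Finset ι) (c : ι → ℝ)
    (g : ι → G → ℝ) : ip f (fun x => ∑ i ∈ s, c i * g i x) = ∑ i ∈ s, c i * ip f (g i) := by
  unfold ip
  simp only [Finset.mul_sum, mul_finsum]
  rw [finsum_sum_comm _ _ (fun i _ => by fun_prop)]
  exact Finset.sum_congr rfl fun i _ => finsum_congr fun x => by ring

omit [Group G] in
theorem ip_self_nonneg (f : G → ℝ) : 0 ≤ ip f f := finsum_nonneg fun _ => mul_self_nonneg _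

omit [Group G] in
theorem ip_sq_le {f g : G → ℝ} (hf : HasFiniteSupport f) (hg : HasFiniteSupport g) :
    ip f g ^ 2 ≤ ip f f * ip g g := by
  classical
  have h1 : ∀ k : G → ℝ, (∀ x, f x = 0 → g x = 0 → k x = 0) →
      ∑ᶠ x, k x = ∑ x ∈ hf.toFinset ∪ hg.toFinset, k x := by
    intro k hk
    refine finsum_eq_sum_of_support_subset _ fun x hx => ?_
    by_contra hn
    simp only [Finset.coe_union, Set.mem_union, not_or] at hn
    refine hx (hk x ?_ ?_)
    · by_contra h; exact hn.1 ((Set.Finite.mem_toFinset hf).2 h)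
    · by_contra h; exact hn.2 ((Set.Finite.mem_toFinset hg).2 h)
  unfold ip
  rw [h1 _ (fun x h _ => by simp [h]), h1 _ (fun x h _ => by simp [h]),
    h1 _ (fun x _ h => by simp [h])]
  simpa [sq] using Finset.sum_mul_sq_le_sq_mul_sq (hf.toFinset ∪ hg.toFinset) f g

omit [Group G] in
theorem sq_le_ip {f : G → ℝ} (hf : HasFiniteSupport f) (x : G) : f x ^ 2 ≤ ip f f := by
  rw [sq]
  exact single_le_finsum x (f := fun x => f x * f x) (by fun_prop) fun _ => mul_self_nonneg _

theorem ip_rt (f g : G → ℝ) (s : G) : ip (fun x => f (x * s)) g = ip f fun x => g (x * s⁻¹) := by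
  unfold ip
  rw [← sum_rt _ s⁻¹]
  simp

theorem ip_rt_rt (f g : G → ℝ) (s : G) :
    ip (fun x => f (x * s)) (fun x => g (x * s)) = ip f g := sum_rt (fun x => f x * g x) s

theorem ip_lt (f g : G → ℝ) (s : G) : ip (fun x => f (s⁻¹ * x)) g = ip f fun x => g (s * x) := by
  unfold ip
  rw [← sum_lt _ s]
  simp

/-- A lazy symmetric finitely supported random walk. -/
structure RW (G : Type) [Group G] where
  T : Finset G
  μ : G → ℝ
  pos : ∀ s ∈ T, 0 < μ s
  sum : ∑ s ∈ T, μ s = 1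
  symm : ∀ s ∈ T, s⁻¹ ∈ T
  μ_symm : ∀ s, μ s⁻¹ = μ s
  one_mem : 1 ∈ T
  lazy : 1 / 2 ≤ μ 1
  gen : Subgroup.closure (T : Set G) = ⊤

theorem exists_RW [hG : Group.FG G] : Nonempty (RW G) := by
  classical
  obtain ⟨S, hS⟩ := hG.1
  set T : Finset G := insert 1 (S ∪ S.image fun x => x⁻¹) with hT
  have hc : (0 : ℝ) < T.card := by
    exact_mod_cast Finset.card_pos.2 ⟨1, Finset.mem_insert_self _ _⟩
  refine ⟨⟨T, fun s => (if s = 1 then 1 / 2 else 0) + 1 / (2 * T.card), ?_, ?_, ?_, ?_, ?_, ?_, ?_⟩⟩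
  · intro s _; split_ifs <;> positivity
  · rw [Finset.sum_add_distrib, Finset.sum_ite_eq', if_pos (Finset.mem_insert_self _ _),
      Finset.sum_const, nsmul_eq_mul]
    field_simp; norm_num
  · intro s hs
    simp only [hT, Finset.mem_insert, Finset.mem_union, Finset.mem_image] at hs ⊢
    rcases hs with rfl | hs | ⟨x, hx, rfl⟩
    · simp
    · exact Or.inr (Or.inr ⟨s, hs, rfl⟩)
    · simp [hx]
  · intro s; simp
  · exact Finset.mem_insert_self _ _
  · simp only [if_true]
    have : 0 ≤ 1 / (2 * (T.card : ℝ)) := by positivity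
    linarith
  · rw [eq_top_iff, ← hS]
    refine Subgroup.closure_mono fun x hx => ?_
    simp [hT, hx]

namespace RW

variable (R : RW G)

theorem sum_inv (F : G → ℝ) : ∑ s ∈ R.T, R.μ s * F s⁻¹ = ∑ s ∈ R.T, R.μ s * F s :=
  Finset.sum_nbij' (fun s => s⁻¹) (fun s => s⁻¹) R.symm R.symm (by simp) (by simp)
    (fun s _ => by rw [R.μ_symm])

theorem sum_const (c : ℝ) : ∑ s ∈ R.T, R.μ s * c = c := by rw [← Finset.sum_mul, R.sum, one_mul]

theorem sum_le {F F' : G → ℝ} (h : ∀ s ∈ R.T, F s ≤ F' s) :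
    ∑ s ∈ R.T, R.μ s * F s ≤ ∑ s ∈ R.T, R.μ s * F' s :=
  Finset.sum_le_sum fun s hs => mul_le_mul_of_nonneg_left (h s hs) (R.pos s hs).le

theorem single_le {F : G → ℝ} (h : ∀ s ∈ R.T, 0 ≤ F s) {t : G} (ht : t ∈ R.T) :
    R.μ t * F t ≤ ∑ s ∈ R.T, R.μ s * F s :=
  Finset.single_le_sum (f := fun s => R.μ s * F s)
    (fun s hs => mul_nonneg (R.pos s hs).le (h s hs)) ht

theorem exists_min : ∃ c : ℝ, 0 < c ∧ ∀ s ∈ R.T, c ≤ R.μ s := by
  obtain ⟨s, hs, h⟩ := R.T.exists_min_image R.μ ⟨1, R.one_mem⟩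
  exact ⟨R.μ s, R.pos s hs, h⟩

/-- The Markov operator. -/
noncomputable def P : Module.End ℝ (G → ℝ) where
  toFun f x := ∑ s ∈ R.T, R.μ s * f (x * s)
  map_add' f g := by ext x; simp [mul_add, Finset.sum_add_distrib]
  map_smul' c f := by ext x; simp [Finset.mul_sum, mul_left_comm]

theorem P_apply (f : G → ℝ) (x : G) : R.P f x = ∑ s ∈ R.T, R.μ s * f (x * s) := rfl

theorem fs_P {f : G → ℝ} (hf : HasFiniteSupport f) : HasFiniteSupport (R.P f) := by
  exact HasFiniteSupport.sum (f := fun s x => R.μ s * f (x * s))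
    (fun s => fs_of (fs_rt hf s) fun x h => by simp [h]) R.T

theorem ip_P_right {f : G → ℝ} (hf : HasFiniteSupport f) (g : G → ℝ) :
    ip f (R.P g) = ∑ s ∈ R.T, R.μ s * ip f fun x => g (x * s) :=
  ip_sum_right hf R.T R.μ fun s x => g (x * s)

theorem ip_P {f : G → ℝ} (hf : HasFiniteSupport f) (g : G → ℝ) : ip (R.P f) g = ip f (R.P g) := by
  rw [R.ip_P_right hf, ← R.sum_inv]
  unfold ip
  simp only [P_apply, Finset.sum_mul, mul_finsum]
  rw [finsum_sum_comm _ _ (fun i _ => fs_of (fs_rt hf i) fun x h => by simp [h])]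
  refine Finset.sum_congr rfl fun s _ => ?_
  rw [← sum_rt _ s⁻¹]
  exact finsum_congr fun x => by simp [mul_assoc]

theorem P_mono {f g : G → ℝ} (h : ∀ x, f x ≤ g x) (x : G) : R.P f x ≤ R.P g x :=
  R.sum_le fun _ _ => h _

theorem P_const (c : ℝ) : R.P (fun _ => c) = fun _ => c := by
  ext x; exact R.sum_const c

theorem Pn_succ (n : ℕ) (f : G → ℝ) : (R.P ^ (n + 1)) f = R.P ((R.P ^ n) f) := by
  rw [pow_succ']; rfl

theorem Pn_succ' (n : ℕ) (f : G → ℝ) : (R.P ^ (n + 1)) f = (R.P ^ n) (R.P f) := by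
  rw [pow_succ]; rfl

theorem Pn_mono (n : ℕ) {f g : G → ℝ} (h : ∀ x, f x ≤ g x) (x : G) :
    (R.P ^ n) f x ≤ (R.P ^ n) g x := by
  induction n generalizing x with
  | zero => exact h x
  | succ n ih => rw [Pn_succ, Pn_succ]; exact R.P_mono ih x

theorem Pn_const (n : ℕ) (c : ℝ) : (R.P ^ n) (fun _ => c) = fun _ => c := by
  induction n with
  | zero => rfl
  | succ n ih => rw [Pn_succ, ih, P_const]

theorem Pn_lt (n : ℕ) (f : G → ℝ) (t : G) :
    (R.P ^ n) (fun x => f (t * x)) = fun x => (R.P ^ n) f (t * x) := by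
  induction n with
  | zero => rfl
  | succ n ih => rw [Pn_succ, Pn_succ, ih]; ext x; simp [P_apply, mul_assoc]

open Classical in
/-- The law of the walk at time `n`. -/
noncomputable def p (n : ℕ) : G → ℝ := (R.P ^ n) fun x => if x = 1 then 1 else 0

theorem p_succ (n : ℕ) : R.p (n + 1) = R.P (R.p n) := R.Pn_succ n _

theorem fs_p (n : ℕ) : HasFiniteSupport (R.p n) := by
  induction n with
  | zero =>
    refine (Set.finite_singleton (1 : G)).subset fun x hx => ?_
    by_contra h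
    exact hx (if_neg h)
  | succ n ih => rw [p_succ]; exact R.fs_P ih

theorem p_nonneg (n : ℕ) (x : G) : 0 ≤ R.p n x := by
  classical
  have := R.Pn_mono n (f := fun _ => 0) (g := fun x => if x = 1 then 1 else 0)
    (fun x => by split_ifs <;> norm_num) x
  rw [Pn_const] at this
  exact this

theorem ip_p (n : ℕ) (u : G → ℝ) : ip (R.p n) u = (R.P ^ n) u 1 := by
  induction n generalizing u with
  | zero =>
    unfold ip
    rw [finsum_eq_single _ 1 fun x hx => by simp [p, hx]]
    simp [p]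
  | succ n ih => rw [p_succ, R.ip_P (R.fs_p n), ih, Pn_succ']

theorem ip_p_lt (n : ℕ) (u : G → ℝ) (t : G) :
    ip (fun x => R.p n (t⁻¹ * x)) u = (R.P ^ n) u t := by
  rw [ip_lt, ip_p, Pn_lt]; simp

theorem sum_p (n : ℕ) : ∑ᶠ x, R.p n x = 1 := by
  have := R.ip_p n fun _ => 1
  rw [Pn_const] at this
  simpa [ip] using this

theorem p_supp (n : ℕ) (x : G) (h : R.p n x ≠ 0) : x ∈ wBall R.T n := by
  induction n generalizing x with
  | zero =>
    have : x = 1 := by
      by_contra h'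
      exact h (if_neg h')
    rw [this]; exact ball_one _ _
  | succ n ih =>
    rw [p_succ, P_apply] at h
    obtain ⟨s, hs, h'⟩ := Finset.exists_ne_zero_of_sum_ne_zero h
    have := ball_mul (ih _ (right_ne_zero_of_mul h')) (ball_inv (ball_gen (Or.inl hs)))
    simpa using this

theorem p_left (n : ℕ) (x : G) : R.p (n + 1) x = ∑ t ∈ R.T, R.μ t * R.p n (t⁻¹ * x) := by
  classical
  have h1 : ∀ (m : ℕ) (y : G), R.p m y = ip (R.p m) fun z => if z = y then 1 else 0 := by
    intro m y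
    unfold ip
    rw [finsum_eq_single _ y fun x hx => by simp [hx]]
    simp
  rw [h1, ip_p, Pn_succ, P_apply]
  refine Finset.sum_congr rfl fun t _ => ?_
  rw [one_mul, ← ip_p_lt]
  unfold ip
  rw [finsum_eq_single _ x fun y hy => by simp [hy]]
  simp

end RW

end Vale.Agent.P188.Grom
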