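import Vale.Agent.P188.GromC1

/-! Gromov module, part C2: energy estimates. -/

namespace Vale.Agent.P188.Grom

open Function Filter Topology

variable {G : Type} [Group G]

theorem exists_shell [Infinite G] {S : Finset G} (hS : Subgroup.closure (S : Set G) = ⊤) (n : ℕ) :
    ∃ y ∈ wBall S (n + 1), y ∉ wBall S n := by
  by_contra h
  push Not at h
  have h1 : ∀ k, wBall S (n + k) ⊆ wBall S n := by
    intro k
    induction k with
    | zero => exact subset_rfl
    | succ k ih =>
      intro g hg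
      rcases ball_succ hg with rfl | ⟨s, hs, g', hg', rfl⟩
      · exact ball_one _ _
      · refine h _ ?_
        rw [add_comm]
        exact ball_mul (ball_gen hs) (ih hg')
  refine Set.infinite_univ (α := G) ((ball_finite S n).subset fun g _ => ?_)
  obtain ⟨r, hr⟩ := ball_of_closure (S := S) (g := g) (hS ▸ Subgroup.mem_top g)
  exact h1 r (ball_mono S (by omega) hr)

namespace RW

variable (R : RW G)

theorem lip_ball {u : G → ℝ} {L : ℝ} (h : ∀ x, ∀ s ∈ R.T, |u (x * s) - u x| ≤ L) (r : ℕ) :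
    ∀ g ∈ wBall R.T r, ∀ x, |u (x * g) - u x| ≤ r * L := by
  have hL : 0 ≤ L := (abs_nonneg _).trans (h 1 1 R.one_mem)
  induction r with
  | zero => intro g hg x; rw [ball_zero] at hg; rw [hg]; simp
  | succ r ih =>
    intro g hg x
    rcases ball_succ hg with rfl | ⟨s, hs, g', hg', rfl⟩
    · simp only [mul_one, sub_self, abs_zero]; positivity
    · have hs' : s ∈ R.T := by
        rcases hs with hs | hs
        · exact hs
        · simpa using R.symm _ hs
      have h1 := ih g' hg' (x * s)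
      have h2 := h x s hs'
      rw [← mul_assoc]
      have h3 := abs_sub_le (u (x * s * g')) (u (x * s)) (u x)
      push_cast; linarith

/-- The squared norm of a difference. -/
noncomputable def D (f : G → ℝ) (s : G) : ℝ :=
  ip ((fun x => f (x * s)) - f) ((fun x => f (x * s)) - f)

/-- The energy. -/
noncomputable def En (f : G → ℝ) : ℝ := ip f (f - R.P f)

theorem D_eq {f : G → ℝ} (hf : HasFiniteSupport f) (s : G) :
    D f s = 2 * ip f f - 2 * ip f fun x => f (x * s) := by
  unfold D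
  rw [ip_sub_left (fs_rt hf s) hf, ip_sub_right (fs_rt hf s), ip_sub_right hf, ip_rt_rt,
    ip_comm (fun x => f (x * s)) f]
  ring

theorem En_eq {f : G → ℝ} (hf : HasFiniteSupport f) : 2 * R.En f = ∑ s ∈ R.T, R.μ s * D f s := by
  unfold En
  simp only [D_eq hf, mul_sub, Finset.sum_sub_distrib, R.sum_const]
  rw [ip_sub_right hf, R.ip_P_right hf, mul_sub, Finset.mul_sum]
  congr 1
  exact Finset.sum_congr rfl fun s _ => by ring

theorem ip_P_nonneg {g : G → ℝ} (hg : HasFiniteSupport g) : 0 ≤ ip g (R.P g) := by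
  have h1 : ∀ s, 0 ≤ ip g g + ip g fun x => g (x * s) := by
    intro s
    have := ip_self_nonneg ((fun x => g (x * s)) + g)
    rw [ip_add_left (fs_rt hg s) hg, ip_add_right (fs_rt hg s), ip_add_right hg, ip_rt_rt,
      ip_comm (fun x => g (x * s)) g] at this
    linarith
  have h2 := R.single_le (fun s _ => h1 s) R.one_mem
  simp only [mul_add, Finset.sum_add_distrib, R.sum_const, mul_one] at h2
  rw [← R.ip_P_right hg] at h2
  have h3 := R.lazy
  have h4 := ip_self_nonneg g
  have h5 : ip g (fun x => g x) = ip g g := rfl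
  nlinarith

theorem En_P {f : G → ℝ} (hf : HasFiniteSupport f) :
    R.En (R.P f) ≤ R.En f - ip (f - R.P f) (f - R.P f) := by
  have hP := R.fs_P hf
  have hg : HasFiniteSupport (f - R.P f) := hf.sub hP
  have h0 := R.ip_P_nonneg hg
  unfold En
  rw [← map_sub]
  set g := f - R.P f with hgd
  have e : R.P f = f - g := by rw [hgd]; abel
  have h1 : ip (R.P f) (R.P g) = ip f (R.P g) - ip g (R.P g) := by
    conv_lhs => rw [e]
    exact ip_sub_left hf hg _
  have h2 : ip f (R.P g) = ip f g - ip g g := by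
    rw [← R.ip_P hf]
    conv_lhs => rw [e]
    exact ip_sub_left hf hg _
  linarith

theorem sq_le_D {f : G → ℝ} (hf : HasFiniteSupport f) (x s : G) : (f (x * s) - f x) ^ 2 ≤ D f s :=
  sq_le_ip ((fs_rt hf s).sub hf) x

theorem D_nonneg (f : G → ℝ) (s : G) : 0 ≤ D f s := ip_self_nonneg _

theorem En_lower [Infinite G] {c : ℝ} (hc : 0 < c) (hc' : ∀ s ∈ R.T, c ≤ R.μ s) (n : ℕ) :
    c ≤ 2 * R.En (R.p n) * (((wBall R.T n).ncard : ℝ) * (2 * n + 1)) ^ 2 := by
  have hf := R.fs_p n
  have h1 : ∀ s ∈ R.T, c * D (R.p n) s ≤ 2 * R.En (R.p n) := by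
    intro s hs
    rw [R.En_eq hf]
    refine le_trans ?_ (R.single_le (fun s _ => D_nonneg _ s) hs)
    exact mul_le_mul_of_nonneg_right (hc' s hs) (D_nonneg _ s)
  set L := √(2 * R.En (R.p n) / c) with hL
  have h0 : 0 ≤ 2 * R.En (R.p n) := le_trans (mul_nonneg hc.le (D_nonneg _ _)) (h1 1 R.one_mem)
  have h2 : ∀ x, ∀ s ∈ R.T, |R.p n (x * s) - R.p n x| ≤ L := by
    intro x s hs
    refine Real.abs_le_sqrt ((sq_le_D hf x s).trans ?_)
    rw [le_div_iff₀ hc, mul_comm]
    exact h1 s hs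
  obtain ⟨y, hy, hy'⟩ := exists_shell R.gen n
  have hy0 : R.p n y = 0 := by
    by_contra h; exact hy' (R.p_supp n y h)
  have h3 : ∀ x ∈ wBall R.T n, R.p n x ≤ (2 * n + 1) * L := by
    intro x hx
    have := R.lip_ball h2 _ _ (ball_mul (ball_inv hy) hx) y
    rw [mul_inv_cancel_left, hy0, sub_zero] at this
    refine (le_abs_self _).trans (this.trans (le_of_eq ?_))
    push_cast; ring
  have h4 : (1 : ℝ) ≤ (wBall R.T n).ncard * ((2 * n + 1) * L) := by
    refine (R.sum_p n).symm.le.trans ?_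
    rw [finsum_eq_sum_of_support_subset (s := (ball_finite R.T n).toFinset) _
      (fun x hx => by simpa using R.p_supp n x hx), Set.ncard_eq_toFinset_card _ (ball_finite R.T n),
      ← nsmul_eq_mul]
    exact Finset.sum_le_card_nsmul _ _ _ fun x hx => h3 x (by simpa using hx)
  have h5 : L ^ 2 = 2 * R.En (R.p n) / c := Real.sq_sqrt (div_nonneg h0 hc.le)
  have h6 : (1 : ℝ) ≤ ((wBall R.T n).ncard * ((2 * n + 1) * L)) ^ 2 := one_le_pow₀ h4
  rw [← mul_assoc, mul_pow, h5, ← mul_div_assoc, le_div_iff₀ hc] at h6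
  linarith

theorem exists_small [Infinite G] {d : ℕ} (hG : PG d G) {δ : ℝ} (hδ : 0 < δ) (hδ1 : δ < 1) :
    ∃ f, HasFiniteSupport f ∧ 0 < R.En f ∧ ip (f - R.P f) (f - R.P f) ≤ δ * R.En f := by
  obtain ⟨c, hc, hc'⟩ := R.exists_min
  obtain ⟨C, hC⟩ := hG R.T
  have hpos : ∀ n, 0 < R.En (R.p n) := by
    intro n
    by_contra h
    push Not at h
    have := R.En_lower hc hc' n
    nlinarith [sq_nonneg (((wBall R.T n).ncard : ℝ) * (2 * n + 1))]
  by_contra h
  push Not at h
  have h1 : ∀ n, R.En (R.p n) ≤ (1 - δ) ^ n * R.En (R.p 0) := by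
    intro n
    induction n with
    | zero => simp
    | succ n ih =>
      have h2 := h _ (R.fs_p n) (hpos n)
      have h3 := R.En_P (R.fs_p n)
      rw [R.p_succ, pow_succ]
      nlinarith
  have h2 := (tendsto_pow_const_mul_const_pow_of_abs_lt_one (2 * d + 2) (r := 1 - δ)
    (by rw [abs_lt]; constructor <;> linarith)).const_mul
    (2 * R.En (R.p 0) * (C * 2 ^ d * 3) ^ 2)
  rw [mul_zero] at h2
  obtain ⟨n, hn, hn1⟩ := ((h2.eventually (gt_mem_nhds hc)).and (eventually_ge_atTop 1)).exists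
  have h3 := R.En_lower hc hc' n
  have hn' : (1 : ℝ) ≤ n := by exact_mod_cast hn1
  have h4 : ((wBall R.T n).ncard : ℝ) ≤ C * (2 * n) ^ d := by
    have : ((wBall R.T n).ncard : ℝ) ≤ C * (n + 1) ^ d := by exact_mod_cast hC n
    refine this.trans ?_
    gcongr; linarith
  have h5 : 2 * R.En (R.p n) * (((wBall R.T n).ncard : ℝ) * (2 * n + 1)) ^ 2 ≤
      2 * ((1 - δ) ^ n * R.En (R.p 0)) * ((C * (2 * n) ^ d) * (3 * n)) ^ 2 := by
    have := (hpos n).le
    have := h1 n
    gcongr
    · linarith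
    · linarith
  have h6 : 2 * ((1 - δ) ^ n * R.En (R.p 0)) * ((C * (2 * n) ^ d) * (3 * n)) ^ 2 =
      2 * R.En (R.p 0) * (C * 2 ^ d * 3) ^ 2 * ((n : ℝ) ^ (2 * d + 2) * (1 - δ) ^ n) := by ring
  linarith

theorem exists_approx [Infinite G] {d : ℕ} (hG : PG d G) {δ : ℝ} (hδ : 0 < δ) (hδ1 : δ < 1) :
    ∃ v : G → ℝ, v 1 = 0 ∧ (∀ x, ∀ s ∈ R.T, |v (x * s) - v x| ≤ 1) ∧
      (∀ x, (v x - R.P v x) ^ 2 ≤ δ) ∧ 1 ≤ ∑ s ∈ R.T, |v s| := by
  obtain ⟨f, hf, hE, hs⟩ := R.exists_small hG hδ hδ1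
  obtain ⟨s0, hs0, hmax⟩ := R.T.exists_max_image (D f) ⟨1, R.one_mem⟩
  set m := D f s0 with hm
  have h1 : 2 * R.En f ≤ m := by
    rw [R.En_eq hf, ← R.sum_const m]
    exact R.sum_le hmax
  have hm0 : 0 < m := by linarith
  set k := (fun x => f (x * s0)) - f with hk
  have hkf : HasFiniteSupport k := (fs_rt hf s0).sub hf
  have hkk : ip k k = m := rfl
  set u : G → ℝ := fun x => (ip k fun y => f (y * x)) / m with hu
  have hcs : ∀ (g : G → ℝ) (x : G), HasFiniteSupport g →
      ((ip k fun y => g (y * x)) / m) ^ 2 ≤ ip g g / m := by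
    intro g x hg
    have := ip_sq_le hkf (fs_rt hg x)
    rw [ip_rt_rt, hkk] at this
    rw [div_pow, div_le_div_iff₀ (by positivity) hm0]
    nlinarith
  have hlip : ∀ x, ∀ s ∈ R.T, |u (x * s) - u x| ≤ 1 := by
    intro x s hs
    have h2 := hcs _ x ((fs_rt hf s).sub hf)
    have e : u (x * s) - u x = (ip k fun y => ((fun x => f (x * s)) - f) (y * x)) / m := by
      simp only [hu]
      rw [← sub_div, ← ip_sub_right hkf]
      congr 2
      ext y; simp [mul_assoc]
    rw [e, ← sq_le_one_iff_abs_le_one]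
    exact h2.trans ((div_le_one hm0).2 (hmax s hs))
  have hP : ∀ x, u x - R.P u x = (ip k fun y => (f - R.P f) (y * x)) / m := by
    intro x
    have e1 : (fun y => (f - R.P f) (y * x)) =
        (fun y => f (y * x)) - fun y => ∑ s ∈ R.T, R.μ s * f (y * (x * s)) := by
      ext y; simp [P_apply, mul_assoc]
    rw [e1, ip_sub_right hkf, ip_sum_right hkf R.T R.μ fun s y => f (y * (x * s)), sub_div,
      Finset.sum_div, P_apply]
    simp only [hu, mul_div_assoc]
  have hs1 : u s0 - u 1 = 1 := by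
    simp only [hu, mul_one]
    rw [← sub_div, ← ip_sub_right hkf]
    exact div_self hm0.ne'
  refine ⟨fun x => u x - u 1, sub_self _, fun x s hs => by simpa using hlip x s hs, fun x => ?_, ?_⟩
  · have e : R.P (fun x => u x - u 1) x = R.P u x - u 1 := by
      simp only [P_apply, mul_sub, Finset.sum_sub_distrib, R.sum_const]
    rw [e, sub_sub_sub_cancel_right, hP]
    refine (hcs _ x (hf.sub (R.fs_P hf))).trans ?_
    rw [div_le_iff₀ hm0]
    nlinarith
  · refine le_trans ?_ (Finset.single_le_sum (f := fun s => |u s - u 1|)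
      (fun _ _ => abs_nonneg _) hs0)
    simp [hs1]

end RW

end Vale.Agent.P188.Grom
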