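import Vale.Agent.P188.GromC2

/-! Gromov module, part C3: Lipschitz harmonic functions. -/

namespace Vale.Agent.P188.Grom

open Function Filter Topology

variable {G : Type} [Group G]

theorem ultra_lim (U : Ultrafilter ℕ) {a : ℕ → ℝ} {M : ℝ} (h : ∀ n, |a n| ≤ M) :
    Tendsto a U (𝓝 (limUnder U a)) := by
  apply tendsto_nhds_limUnder
  obtain ⟨x, -, hx⟩ := (isCompact_Icc (a := -M) (b := M)).ultrafilter_le_nhds (U.map a)
    (by
      rw [Ultrafilter.coe_map, le_principal_iff, mem_map]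
      exact Eventually.of_forall fun n => abs_le.1 (h n))
  exact ⟨x, hx⟩

namespace RW

variable (R : RW G)

/-- Lipschitz harmonic functions vanishing at the identity. -/
def V0 : Submodule ℝ (G → ℝ) where
  carrier := {u | u 1 = 0 ∧ R.P u = u ∧ ∃ L, ∀ x, ∀ s ∈ R.T, |u (x * s) - u x| ≤ L}
  zero_mem' := ⟨rfl, map_zero _, 0, by simp⟩
  add_mem' := by
    rintro u v ⟨h1, h2, L, h3⟩ ⟨h1', h2', L', h3'⟩
    refine ⟨by simp [h1, h1'], by rw [map_add, h2, h2'], L + L', fun x s hs => ?_⟩
    have e : (u + v) (x * s) - (u + v) x = (u (x * s) - u x) + (v (x * s) - v x) := by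
      simp only [Pi.add_apply]; ring
    rw [e]
    exact (abs_add_le _ _).trans (add_le_add (h3 x s hs) (h3' x s hs))
  smul_mem' := by
    rintro c u ⟨h1, h2, L, h3⟩
    refine ⟨by simp [h1], by rw [map_smul, h2], |c| * L, fun x s hs => ?_⟩
    simp only [Pi.smul_apply, smul_eq_mul]
    rw [← mul_sub, abs_mul]
    exact mul_le_mul_of_nonneg_left (h3 x s hs) (abs_nonneg _)

theorem exists_harm [Infinite G] {d : ℕ} (hG : PG d G) : ∃ u ∈ R.V0, u ≠ 0 := by
  have hδ : ∀ n : ℕ, (0 : ℝ) < 1 / ((n : ℝ) + 2) ∧ 1 / ((n : ℝ) + 2) < 1 := fun n =>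
    ⟨by positivity, by rw [div_lt_one (by positivity)]; linarith [n.cast_nonneg (α := ℝ)]⟩
  choose v h1 h2 h3 h4 using fun n : ℕ => R.exists_approx hG (hδ n).1 (hδ n).2
  set U := hyperfilter ℕ
  have hb : ∀ x, ∃ M, ∀ n, |v n x| ≤ M := by
    intro x
    obtain ⟨r, hr⟩ := ball_of_closure (S := R.T) (g := x) (R.gen ▸ Subgroup.mem_top x)
    refine ⟨r * 1, fun n => ?_⟩
    simpa [h1 n] using R.lip_ball (h2 n) r x hr 1
  set u : G → ℝ := fun x => limUnder U fun n => v n x with hu
  have ht : ∀ x, Tendsto (fun n => v n x) U (𝓝 (u x)) := fun x =>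
    (hb x).elim fun _ hM => ultra_lim U hM
  refine ⟨u, ⟨?_, ?_, 1, fun x s hs => ?_⟩, fun h0 => ?_⟩
  · refine tendsto_nhds_unique (ht 1) ?_
    simp only [h1]; exact tendsto_const_nhds
  · ext x
    have h5 : Tendsto (fun n => (v n x - R.P (v n) x) ^ 2) U (𝓝 ((u x - R.P u x) ^ 2)) :=
      ((ht x).sub (tendsto_finsetSum _ fun s _ => (ht _).const_mul _)).pow 2
    have h6 : Tendsto (fun n : ℕ => 1 / ((n : ℝ) + 2)) U (𝓝 0) := by
      refine Tendsto.mono_left ?_ Nat.hyperfilter_le_atTop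
      exact tendsto_const_nhds.div_atTop
        (tendsto_atTop_add_const_right _ _ tendsto_natCast_atTop_atTop)
    have h7 := le_of_tendsto_of_tendsto' h5 h6 fun n => h3 n x
    have h8 : u x - R.P u x = 0 := pow_eq_zero_iff (two_ne_zero) |>.1 (le_antisymm h7 (sq_nonneg _))
    linarith
  · exact le_of_tendsto' ((ht _).sub (ht _)).abs fun n => h2 n x s hs
  · have h5 : Tendsto (fun n => ∑ s ∈ R.T, |v n s|) U (𝓝 (∑ s ∈ R.T, |u s|)) :=
      tendsto_finsetSum _ fun s _ => (ht _).abs
    have h6 := ge_of_tendsto' h5 h4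
    rw [h0] at h6
    norm_num at h6

theorem const_of_step {u : G → ℝ} (h : ∀ x, ∀ s ∈ R.T, u (x * s) = u x) (x : G) : u x = u 1 := by
  obtain ⟨r, hr⟩ := ball_of_closure (S := R.T) (g := x) (R.gen ▸ Subgroup.mem_top x)
  have := R.lip_ball (u := u) (L := 0) (fun x s hs => by simp [h x s hs]) r x hr 1
  simp only [one_mul, mul_zero, abs_nonpos_iff] at this
  linarith

theorem max_principle {u : G → ℝ} (hu : R.P u = u) {x0 : G} (h : ∀ x, u x ≤ u x0) (x : G) :
    u x = u x0 := by
  have h1 : ∀ y, u y = u x0 → ∀ s ∈ R.T, u (y * s) = u x0 := by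
    intro y hy s hs
    have h2 := R.single_le (F := fun s => u x0 - u (y * s)) (fun s _ => sub_nonneg.2 (h _)) hs
    simp only [mul_sub, Finset.sum_sub_distrib, R.sum_const] at h2
    rw [← P_apply, hu, hy, sub_self, ← mul_sub] at h2
    have := R.pos s hs
    have := h (y * s)
    nlinarith
  have h2 : ∀ r, ∀ g ∈ wBall R.T r, u (x0 * g) = u x0 := by
    intro r
    induction r with
    | zero => intro g hg; rw [ball_zero] at hg; rw [hg, mul_one]
    | succ r ih =>
      intro g hg
      rcases ball_succ' hg with rfl | ⟨s, hs, g', hg', rfl⟩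
      · rw [mul_one]
      · have hs' : s ∈ R.T := by
          rcases hs with hs | hs
          · exact hs
          · simpa using R.symm _ hs
        rw [← mul_assoc]
        exact h1 _ (ih g' hg') s hs'
  obtain ⟨r, hr⟩ := ball_of_closure (S := R.T) (g := x0⁻¹ * x) (R.gen ▸ Subgroup.mem_top _)
  simpa using h2 r _ hr

/-- The action of the group on normalised Lipschitz harmonic functions. -/
noncomputable def act (g : G) : R.V0 →ₗ[ℝ] R.V0 where
  toFun u := ⟨fun x => u.1 (g⁻¹ * x) - u.1 g⁻¹, by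
    obtain ⟨u, h1, h2, L, h3⟩ := u
    refine ⟨by simp, ?_, L, fun x s hs => ?_⟩
    · ext x
      simp only [P_apply, mul_sub, Finset.sum_sub_distrib, R.sum_const, ← mul_assoc]
      rw [← P_apply, h2]
    · simpa [mul_assoc] using h3 (g⁻¹ * x) s hs⟩
  map_add' u v := by ext x; simp; ring
  map_smul' c u := by ext x; simp; ring

theorem act_apply (g : G) (u : R.V0) (x : G) : (R.act g u).1 x = u.1 (g⁻¹ * x) - u.1 g⁻¹ := rfl

/-- The action as a homomorphism. -/
noncomputable def rep : G →* Module.End ℝ R.V0 where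
  toFun := R.act
  map_one' := by ext u x; simp [act_apply, u.2.1]
  map_mul' g h := by ext u x; simp [act_apply, mul_assoc]

theorem rep_apply (g : G) (u : R.V0) (x : G) : (R.rep g u).1 x = u.1 (g⁻¹ * x) - u.1 g⁻¹ := rfl

theorem finite_case [hfg : Group.FG G] {u : R.V0} (hu : u ≠ 0) (K : Subgroup G) [K.FiniteIndex]
    (hK : ∀ g ∈ K, R.rep g u = u) : VZ G := by
  have hadd : ∀ g ∈ K, ∀ x, u.1 (g * x) = u.1 g + u.1 x := by
    intro g hg x
    have := congrArg (fun w : R.V0 => w.1 x) (hK g⁻¹ (inv_mem hg))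
    simp only [rep_apply, inv_inv] at this
    linarith
  let φ : K →* Multiplicative ℝ := MonoidHom.mk' (fun g => Multiplicative.ofAdd (u.1 g))
    fun g h => by rw [← ofAdd_add, ← hadd g g.2]; rfl
  have hne : ∃ g : K, u.1 g ≠ 0 := by
    by_contra h
    push Not at h
    haveI : Finite (G ⧸ K) := inferInstance
    let w : G ⧸ K → ℝ := fun q => u.1 (q.out)⁻¹
    have hw : ∀ x, u.1 x = w (QuotientGroup.mk x⁻¹) := by
      intro x
      obtain ⟨k, hk⟩ := QuotientGroup.mk_out_eq_mul K x⁻¹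
      simp only [w]
      rw [hk, mul_inv_rev, inv_inv, hadd _ (inv_mem k.2)]
      have := h k⁻¹
      simp only [InvMemClass.coe_inv] at this
      rw [this, zero_add]
    obtain ⟨q, hq⟩ := Finite.exists_max w
    have hmax := R.max_principle u.2.2.1 (x0 := (q.out)⁻¹) (fun x => by rw [hw]; exact hq _)
    apply hu
    ext x
    rw [hmax x, ← hmax 1, u.2.1]; rfl
  obtain ⟨g, hg⟩ := hne
  have hs := φ.rangeRestrict_surjective
  haveI : Group.FG φ.range := Group.fg_of_surjective hs
  haveI : Infinite φ.range := by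
    refine Infinite.of_injective (fun n : ℕ => φ.rangeRestrict (g ^ n)) fun n m h => ?_
    have h1 : φ (g ^ n) = φ (g ^ m) := congrArg Subtype.val h
    rw [map_pow, map_pow] at h1
    have h2 := congrArg Multiplicative.toAdd h1
    simp only [toAdd_pow, nsmul_eq_mul] at h2
    exact_mod_cast mul_right_cancel₀ hg h2
  exact VZ.of_sub K (VZ.of_surj (comm_VZ φ.range) _ hs)

end RW

end Vale.Agent.P188.Grom
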