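import Vale.Agent.P188.GromC3

/-! Gromov module, part D1: entropy. -/

namespace Vale.Agent.P188.Grom

open Function Filter Topology

variable {G : Type} [Group G]

theorem hell_pt {a b : ℝ} (ha : 0 ≤ a) (hb : 0 ≤ b) (h : b = 0 → a = 0) :
    (√a - √b) * (√a - √b) ≤ a * Real.log a - a * Real.log b - a + b := by
  rcases ha.eq_or_lt with rfl | ha'
  · simp [Real.mul_self_sqrt hb]
  have hb' : 0 < b := lt_of_le_of_ne hb fun e => ha'.ne' (h e.symm)
  obtain ⟨α, hα, rfl⟩ : ∃ α : ℝ, 0 < α ∧ a = α ^ 2 := ⟨√a, Real.sqrt_pos.2 ha', (Real.sq_sqrt ha).symm⟩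
  obtain ⟨β, hβ, rfl⟩ : ∃ β : ℝ, 0 < β ∧ b = β ^ 2 := ⟨√b, Real.sqrt_pos.2 hb', (Real.sq_sqrt hb).symm⟩
  rw [Real.sqrt_sq hα.le, Real.sqrt_sq hβ.le, Real.log_pow, Real.log_pow]
  have h1 := Real.log_le_sub_one_of_pos (div_pos hβ hα)
  rw [Real.log_div hβ.ne' hα.ne'] at h1
  have h2 := mul_le_mul_of_nonneg_left h1 (sq_nonneg α)
  have h3 : α ^ 2 * (β / α - 1) = α * β - α ^ 2 := by field_simp
  push_cast
  nlinarith

omit [Group G] in
theorem hell_cs {a b : G → ℝ} (ha : HasFiniteSupport a) (hb : HasFiniteSupport b)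
    (ha0 : ∀ x, 0 ≤ a x) (hb0 : ∀ x, 0 ≤ b x) (w : G → ℝ) :
    (ip a w - ip b w) ^ 2 ≤ ip (fun x => √(a x) - √(b x)) (fun x => √(a x) - √(b x)) *
      (2 * (ip a (fun x => w x ^ 2) + ip b (fun x => w x ^ 2))) := by
  have ha' : HasFiniteSupport fun x => √(a x) := fs_of ha fun x h => by simp [h]
  have hb' : HasFiniteSupport fun x => √(b x) := fs_of hb fun x h => by simp [h]
  have h1 : HasFiniteSupport fun x => √(a x) - √(b x) := ha'.sub hb'
  have h2 : HasFiniteSupport fun x => (√(a x) + √(b x)) * w x := (ha'.add hb').fun_mul_left _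
  have e : ip a w - ip b w = ip (fun x => √(a x) - √(b x)) fun x => (√(a x) + √(b x)) * w x := by
    rw [← ip_sub_left ha hb]
    refine finsum_congr fun x => ?_
    have := Real.mul_self_sqrt (ha0 x)
    have := Real.mul_self_sqrt (hb0 x)
    simp only [Pi.sub_apply]
    rw [← mul_assoc]
    congr 1
    linarith
  rw [e]
  refine (ip_sq_le h1 h2).trans (mul_le_mul_of_nonneg_left ?_ (ip_self_nonneg _))
  rw [← ip_add_left ha hb]
  unfold ip
  rw [mul_finsum]
  refine finsum_le_finsum' (h2.fun_mul_left _) (fs_of (ha.add hb) fun x h => by simp [h])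
    fun x => ?_
  have := Real.mul_self_sqrt (ha0 x)
  have := Real.mul_self_sqrt (hb0 x)
  have h3 : (√(a x) + √(b x)) ^ 2 ≤ 2 * (a x + b x) := by nlinarith [sq_nonneg (√(a x) - √(b x))]
  have h4 := mul_le_mul_of_nonneg_right h3 (sq_nonneg (w x))
  simp only [Pi.add_apply]
  nlinarith

namespace RW

variable (R : RW G)

/-- The entropy at time `n`. -/
noncomputable def H (n : ℕ) : ℝ := -ip (R.p n) fun x => Real.log (R.p n x)

/-- The squared Hellinger distance between consecutive laws. -/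
noncomputable def He (n : ℕ) (t : G) : ℝ :=
  ip (fun x => √(R.p n (t⁻¹ * x)) - √(R.p (n + 1) x))
    (fun x => √(R.p n (t⁻¹ * x)) - √(R.p (n + 1) x))

theorem He_nonneg (n : ℕ) (t : G) : 0 ≤ R.He n t := ip_self_nonneg _

theorem He_le (n : ℕ) {t : G} (ht : t ∈ R.T) :
    R.He n t ≤ -R.H n - ip (fun x => R.p n (t⁻¹ * x)) fun x => Real.log (R.p (n + 1) x) := by
  have ha := fs_lt (R.fs_p n) t⁻¹
  have hb := R.fs_p (n + 1)
  have e1 : -R.H n = ∑ᶠ x, R.p n (t⁻¹ * x) * Real.log (R.p n (t⁻¹ * x)) := by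
    rw [H, neg_neg, sum_lt (fun x => R.p n x * Real.log (R.p n x))]; rfl
  have e2 : ∑ᶠ x, R.p n (t⁻¹ * x) = 1 := by rw [sum_lt, sum_p]
  have e3 := R.sum_p (n + 1)
  have h1 : R.He n t ≤ ∑ᶠ x, (R.p n (t⁻¹ * x) * Real.log (R.p n (t⁻¹ * x)) -
      R.p n (t⁻¹ * x) * Real.log (R.p (n + 1) x) - R.p n (t⁻¹ * x) + R.p (n + 1) x) := by
    refine finsum_le_finsum' ?_ ?_ fun x => hell_pt (R.p_nonneg _ _) (R.p_nonneg _ _) fun h => ?_
    · refine HasFiniteSupport.fun_mul_left ?_ _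
      exact HasFiniteSupport.sub (fs_of ha fun x h => by simp [h]) (fs_of hb fun x h => by simp [h])
    · exact (((ha.fun_mul_left _).sub (ha.fun_mul_left _)).sub ha).add hb
    · have h2 := R.single_le (F := fun t => R.p n (t⁻¹ * x)) (fun s _ => R.p_nonneg _ _) ht
      rw [← p_left, h] at h2
      have h3 := R.pos t ht
      have h4 := R.p_nonneg n (t⁻¹ * x)
      nlinarith
  rw [finsum_add_distrib (fs_of ha fun x h => by simp [h]) hb,
    finsum_sub_distrib (fs_of ha fun x h => by simp [h]) ha,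
    finsum_sub_distrib (ha.fun_mul_left _) (ha.fun_mul_left _), e2, e3, ← e1] at h1
  unfold ip
  linarith

theorem H_incr (n : ℕ) : ∑ t ∈ R.T, R.μ t * R.He n t ≤ R.H (n + 1) - R.H n := by
  refine (R.sum_le fun t ht => R.He_le n ht).trans (le_of_eq ?_)
  simp only [mul_sub, Finset.sum_sub_distrib, R.sum_const, ip_p_lt]
  rw [H, H, R.ip_p (n + 1), Pn_succ, P_apply]
  simp only [one_mul]
  ring

theorem He_le_incr (n : ℕ) {t : G} (ht : t ∈ R.T) : R.μ t * R.He n t ≤ R.H (n + 1) - R.H n :=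
  (R.single_le (fun s _ => R.He_nonneg n s) ht).trans (R.H_incr n)

theorem H_zero : R.H 0 = 0 := by
  rw [H, ip_p]
  simp [p]

theorem H_le (n : ℕ) : R.H n ≤ Real.log (wBall R.T n).ncard := by
  set B := (ball_finite R.T n).toFinset with hB
  have hc : (wBall R.T n).ncard = B.card := Set.ncard_eq_toFinset_card _ _
  have hB0 : (0 : ℝ) < B.card := by
    exact_mod_cast Finset.card_pos.2 ⟨1, by simpa [hB] using ball_one R.T n⟩
  have hs : ∀ k : G → ℝ, (∀ x, R.p n x = 0 → k x = 0) → ∑ᶠ x, k x = ∑ x ∈ B, k x := by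
    intro k hk
    refine finsum_eq_sum_of_support_subset _ fun x hx => ?_
    simpa [hB] using R.p_supp n x fun h => hx (hk x h)
  have e1 : ∑ x ∈ B, R.p n x = 1 := by rw [← hs _ fun _ h => h, sum_p]
  have e2 : -R.H n = ∑ x ∈ B, R.p n x * Real.log (R.p n x) := by
    rw [H, neg_neg, ← hs _ fun x h => by simp [h]]; rfl
  have h1 : 0 ≤ ∑ x ∈ B, (R.p n x * Real.log (R.p n x) - R.p n x * Real.log (B.card : ℝ)⁻¹ -
      R.p n x + (B.card : ℝ)⁻¹) :=
    Finset.sum_nonneg fun x _ => (mul_self_nonneg _).trans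
      (hell_pt (R.p_nonneg _ _) (by positivity) fun h => (inv_ne_zero hB0.ne' h).elim)
  rw [Finset.sum_add_distrib, Finset.sum_sub_distrib, Finset.sum_sub_distrib, ← Finset.sum_mul,
    e1, ← e2, Finset.sum_const, nsmul_eq_mul, mul_inv_cancel₀ hB0.ne', Real.log_inv] at h1
  rw [hc]
  linarith

theorem H_bound {d : ℕ} (hG : PG d G) : ∃ c : ℝ, ∀ n : ℕ, R.H n ≤ c + d * Real.log (n + 1) := by
  obtain ⟨C, hC⟩ := hG R.T
  have hp : ∀ n, 0 < (wBall R.T n).ncard := fun n =>
    (Set.ncard_pos (ball_finite _ _)).2 ⟨1, ball_one _ _⟩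
  have hC0 : 0 < C := by
    have := (hp 0).trans_le (hC 0)
    simpa using this
  refine ⟨Real.log C, fun n => (R.H_le n).trans ?_⟩
  rw [← Real.log_pow, ← Real.log_mul (by exact_mod_cast hC0.ne') (by positivity)]
  refine Real.log_le_log (by exact_mod_cast hp n) ?_
  exact_mod_cast hC n

theorem freq_incr {d : ℕ} (hG : PG d G) :
    ∃ᶠ n : ℕ in atTop, ((n : ℝ) + 1) * (R.H (n + 1) - R.H n) ≤ d + 1 := by
  obtain ⟨c, hc⟩ := R.H_bound hG
  rw [Filter.Frequently]
  intro h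
  obtain ⟨N, hN⟩ := eventually_atTop.1 h
  have h1 : ∀ k : ℕ, R.H N - (d + 1) * Real.log (N + 1) ≤
      R.H (N + k) - (d + 1) * Real.log ((N + k : ℕ) + 1) := by
    intro k
    induction k with
    | zero => simp
    | succ k ih =>
      have h2 := not_le.1 (hN (N + k) (by omega))
      set m : ℝ := ((N + k : ℕ) : ℝ) + 1 with hm
      have hm0 : 0 < m := by positivity
      have h3 := Real.log_le_sub_one_of_pos (show 0 < (m + 1) / m by positivity)
      rw [Real.log_div (by positivity) hm0.ne'] at h3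
      have h4 : (m + 1) / m - 1 = 1 / m := by field_simp; ring
      have e : ((N + (k + 1) : ℕ) : ℝ) + 1 = m + 1 := by rw [hm]; push_cast; ring
      rw [e, ← add_assoc]
      have h5 : (d + 1) * (1 / m) ≤ R.H (N + k + 1) - R.H (N + k) := by
        rw [mul_one_div, div_le_iff₀ hm0]; linarith
      have h6 : ((d : ℝ) + 1) * (Real.log (m + 1) - Real.log m) ≤ (d + 1) * (1 / m) := by
        rw [← h4]; gcongr
      linarith
  have h2 : Tendsto (fun k : ℕ => Real.log ((N + k : ℕ) + 1)) atTop atTop := by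
    refine Real.tendsto_log_atTop.comp (tendsto_atTop_add_const_right _ _ ?_)
    refine tendsto_natCast_atTop_atTop.comp ?_
    exact tendsto_atTop_mono (fun k => Nat.le_add_left k N) tendsto_id
  obtain ⟨k, hk⟩ := (h2.eventually_gt_atTop (c - (R.H N - (d + 1) * Real.log (N + 1)))).exists
  have := h1 k
  have := hc (N + k)
  linarith

theorem H_div {d : ℕ} (hG : PG d G) :
    Tendsto (fun n : ℕ => R.H (n + 1) / ((n : ℝ) + 1)) atTop (𝓝 0) := by
  obtain ⟨c, hc⟩ := R.H_bound hG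
  have h0 : ∀ n, 0 ≤ R.H n := by
    intro n
    induction n with
    | zero => rw [H_zero]
    | succ n ih =>
      have := R.He_le_incr n R.one_mem
      have := mul_nonneg (R.pos 1 R.one_mem).le (R.He_nonneg n 1)
      linarith
  have h1 : Tendsto (fun n : ℕ => ((n : ℝ) + 2)) atTop atTop :=
    tendsto_atTop_add_const_right _ _ tendsto_natCast_atTop_atTop
  have h2 := ((Real.tendsto_pow_log_div_mul_add_atTop 1 (-1) 1 one_ne_zero).comp h1).const_mul
    (d : ℝ)
  have h3 : Tendsto (fun n : ℕ => c / ((n : ℝ) + 1)) atTop (𝓝 0) :=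
    tendsto_const_nhds.div_atTop (tendsto_atTop_add_const_right _ _ tendsto_natCast_atTop_atTop)
  have h4 := h3.add h2
  simp only [mul_zero, add_zero] at h4
  refine squeeze_zero (fun n => div_nonneg (h0 _) (by positivity)) (fun n => ?_) h4
  have h5 := hc (n + 1)
  simp only [comp, pow_one, one_mul]
  have e : (n : ℝ) + 2 + -1 = n + 1 := by ring
  rw [e, ← mul_div_assoc, ← add_div]
  have e2 : ((n + 1 : ℕ) : ℝ) + 1 = n + 2 := by push_cast; ring
  rw [e2] at h5
  gcongr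

theorem step_cs (n : ℕ) (t : G) (w : G → ℝ) :
    ((R.P ^ n) w t - (R.P ^ (n + 1)) w 1) ^ 2 ≤
      R.He n t * (2 * ((R.P ^ n) (fun x => w x ^ 2) t + (R.P ^ (n + 1)) (fun x => w x ^ 2) 1)) := by
  have := hell_cs (fs_lt (R.fs_p n) t⁻¹) (R.fs_p (n + 1)) (fun x => R.p_nonneg _ _)
    (fun x => R.p_nonneg _ _) w
  rwa [ip_p_lt, ip_p_lt, ip_p, ip_p] at this

end RW

end Vale.Agent.P188.Grom
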