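import Vale.Agent.P188.GromD1

/-! Gromov module, part D2: an invariant mean adapted to the entropy increments. -/

namespace Vale.Agent.P188.Grom

open Function Filter Topology

variable {G : Type} [Group G]

/-- Bounded functions. -/
def Bdd (f : G → ℝ) : Prop := ∃ M, ∀ x, |f x| ≤ M

namespace RW

variable (R : RW G)

/-- Cesaro averages of the expectations. -/
noncomputable def A (n : ℕ) : (G → ℝ) →ₗ[ℝ] ℝ where
  toFun f := (∑ k ∈ Finset.range (n + 1), (R.P ^ k) f 1) / ((n : ℝ) + 1)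
  map_add' f g := by simp [Finset.sum_add_distrib, add_div]
  map_smul' c f := by simp [← Finset.mul_sum, mul_div_assoc]

theorem A_apply (n : ℕ) (f : G → ℝ) :
    R.A n f = (∑ k ∈ Finset.range (n + 1), (R.P ^ k) f 1) / ((n : ℝ) + 1) := rfl

theorem Pn_le (k : ℕ) {f : G → ℝ} {K : ℝ} (h : ∀ x, f x ≤ K) (x : G) : (R.P ^ k) f x ≤ K := by
  have := R.Pn_mono k (g := fun _ => K) h x
  rwa [Pn_const] at this

theorem Pn_ge (k : ℕ) {f : G → ℝ} {K : ℝ} (h : ∀ x, K ≤ f x) (x : G) : K ≤ (R.P ^ k) f x := by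
  have := R.Pn_mono k (f := fun _ => K) h x
  rwa [Pn_const] at this

theorem Pn_abs (k : ℕ) {f : G → ℝ} {K : ℝ} (h : ∀ x, |f x| ≤ K) (x : G) : |(R.P ^ k) f x| ≤ K :=
  abs_le.2 ⟨R.Pn_ge k (fun x => (abs_le.1 (h x)).1) x, R.Pn_le k (fun x => (abs_le.1 (h x)).2) x⟩

theorem A_le (n : ℕ) {f : G → ℝ} {K : ℝ} (h : ∀ x, f x ≤ K) : R.A n f ≤ K := by
  rw [A_apply, div_le_iff₀ (by positivity)]
  have := Finset.sum_le_card_nsmul (Finset.range (n + 1)) _ K fun k _ => R.Pn_le k h 1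
  simpa [mul_comm] using this

theorem A_abs (n : ℕ) {f : G → ℝ} {K : ℝ} (h : ∀ x, |f x| ≤ K) : |R.A n f| ≤ K := by
  refine abs_le.2 ⟨?_, R.A_le n fun x => (abs_le.1 (h x)).2⟩
  have := R.A_le n (f := -f) (K := K) fun x => by simpa [neg_le] using (abs_le.1 (h x)).1
  rw [map_neg] at this
  linarith

theorem A_inv {d : ℕ} (hG : PG d G) {f : G → ℝ} {M : ℝ} (h : ∀ x, |f x| ≤ M) {t : G}
    (ht : t ∈ R.T) :
    Tendsto (fun n => R.A n (fun x => f (t * x)) - R.A n f) atTop (𝓝 0) := by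
  have hμ := R.pos t ht
  have hM : 0 ≤ M := (abs_nonneg _).trans (h 1)
  have h1 : ∀ k, ((R.P ^ k) f t - (R.P ^ (k + 1)) f 1) ^ 2 ≤
      4 * M ^ 2 / R.μ t * (R.H (k + 1) - R.H k) := by
    intro k
    have h2 : ∀ j x, (R.P ^ j) (fun x => f x ^ 2) x ≤ M ^ 2 := fun j x =>
      R.Pn_le j (fun x => sq_le_sq' (abs_le.1 (h x)).1 (abs_le.1 (h x)).2) x
    refine (R.step_cs k t f).trans ?_
    have h3 := R.He_le_incr k ht
    have h4 := R.He_nonneg k t
    calc _ ≤ R.He k t * (2 * (M ^ 2 + M ^ 2)) := by gcongr <;> exact h2 _ _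
      _ = 4 * M ^ 2 / R.μ t * (R.μ t * R.He k t) := by field_simp; ring
      _ ≤ _ := by gcongr
  have h2 : ∀ n : ℕ, ((∑ k ∈ Finset.range (n + 1), ((R.P ^ k) f t - (R.P ^ (k + 1)) f 1)) /
      ((n : ℝ) + 1)) ^ 2 ≤ 4 * M ^ 2 / R.μ t * (R.H (n + 1) / ((n : ℝ) + 1)) := by
    intro n
    have h3 := sq_sum_le_card_mul_sum_sq (s := Finset.range (n + 1))
      (f := fun k => (R.P ^ k) f t - (R.P ^ (k + 1)) f 1)
    have h4 := Finset.sum_le_sum (s := Finset.range (n + 1)) fun k _ => h1 k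
    rw [← Finset.mul_sum, Finset.sum_range_sub, H_zero, sub_zero] at h4
    rw [Finset.card_range] at h3
    push_cast at h3
    have hn : (0 : ℝ) < n + 1 := by positivity
    rw [div_pow, div_le_iff₀ (by positivity)]
    calc _ ≤ _ := h3
      _ ≤ ((n : ℝ) + 1) * (4 * M ^ 2 / R.μ t * R.H (n + 1)) := by gcongr
      _ = _ := by field_simp
  have h3 : Tendsto (fun n : ℕ => (∑ k ∈ Finset.range (n + 1),
      ((R.P ^ k) f t - (R.P ^ (k + 1)) f 1)) / ((n : ℝ) + 1)) atTop (𝓝 0) := by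
    have h4 := ((R.H_div hG).const_mul (4 * M ^ 2 / R.μ t)).sqrt
    rw [mul_zero, Real.sqrt_zero] at h4
    exact squeeze_zero_norm (fun n => Real.abs_le_sqrt (h2 n)) h4
  have h4 : Tendsto (fun n : ℕ => ((R.P ^ (n + 1)) f 1 - (R.P ^ 0) f 1) / ((n : ℝ) + 1)) atTop
      (𝓝 0) := by
    have h5 : Tendsto (fun n : ℕ => (M + M) / ((n : ℝ) + 1)) atTop (𝓝 0) :=
      tendsto_const_nhds.div_atTop (tendsto_atTop_add_const_right _ _ tendsto_natCast_atTop_atTop)
    refine squeeze_zero_norm (fun n => ?_) h5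
    rw [Real.norm_eq_abs, abs_div, abs_of_pos (show (0 : ℝ) < n + 1 by positivity)]
    gcongr
    exact (abs_sub _ _).trans (add_le_add (R.Pn_abs _ h 1) (R.Pn_abs _ h 1))
  have h5 := h3.add h4
  rw [add_zero] at h5
  refine h5.congr fun n => ?_
  rw [A_apply, A_apply, ← Finset.sum_range_sub (fun k => (R.P ^ k) f 1), ← add_div, ← sub_div,
    ← Finset.sum_add_distrib, ← Finset.sum_sub_distrib]
  congr 1
  refine Finset.sum_congr rfl fun k _ => ?_
  rw [Pn_lt]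
  simp

/-- The carre du champ. -/
noncomputable def e (u v : G → ℝ) (x : G) : ℝ :=
  ∑ s ∈ R.T, R.μ s * ((u (x * s) - u x) * (v (x * s) - v x))

theorem e_bdd (u v : R.V0) : Bdd (R.e u v) := by
  obtain ⟨u, -, -, L, hu⟩ := u
  obtain ⟨v, -, -, L', hv⟩ := v
  refine ⟨L * L', fun x => ?_⟩
  refine (Finset.abs_sum_le_sum_abs _ _).trans ?_
  rw [← R.sum_const (L * L')]
  refine Finset.sum_le_sum fun s hs => ?_
  rw [abs_mul, abs_of_pos (R.pos s hs), abs_mul]
  have := R.pos s hs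
  have := hu x s hs
  have := hv x s hs
  have : 0 ≤ L := (abs_nonneg _).trans (hu x s hs)
  gcongr

theorem e_self {u : G → ℝ} (hu : R.P u = u) :
    R.e u u = R.P (fun x => u x ^ 2) - fun x => u x ^ 2 := by
  ext x
  have h1 := congrFun hu x
  rw [P_apply] at h1
  have h2 : R.e u u x = ∑ s ∈ R.T, (R.μ s * u (x * s) ^ 2 - 2 * u x * (R.μ s * u (x * s)) +
      R.μ s * u x ^ 2) := Finset.sum_congr rfl fun s _ => by ring
  rw [h2, Finset.sum_add_distrib, Finset.sum_sub_distrib, ← Finset.mul_sum, h1, R.sum_const]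
  simp only [Pi.sub_apply, P_apply]
  ring

theorem ev_bound (u : R.V0) {t : G} (ht : t ∈ R.T) (n : ℕ) :
    (R.μ t * u.1 t) ^ 2 ≤ 4 * (((n : ℝ) + 1) * (R.H (n + 1) - R.H n)) * R.A n (R.e u u) := by
  obtain ⟨u, h1, h2, hL⟩ := u
  have hμ := R.pos t ht
  have hP : ∀ k, (R.P ^ k) u = u := by
    intro k
    induction k with
    | zero => rfl
    | succ k ih => rw [Pn_succ, ih, h2]
  have h3 := R.step_cs n t u
  rw [hP, hP, h1, sub_zero] at h3
  set w : G → ℝ := fun x => u x ^ 2 with hw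
  have hw0 : ∀ k x, 0 ≤ (R.P ^ k) w x := fun k x => R.Pn_ge k (fun x => sq_nonneg _) x
  have h4 : R.μ t * (R.P ^ n) w t ≤ (R.P ^ (n + 1)) w 1 := by
    rw [Pn_succ, P_apply]
    simpa using R.single_le (F := fun s => (R.P ^ n) w s) (fun s _ => hw0 _ _) ht
  have h5 : R.μ t ≤ 1 := by
    simpa [R.sum] using R.single_le (F := fun _ => 1) (fun _ _ => zero_le_one) ht
  have h6 : ((n : ℝ) + 1) * R.A n (R.e u u) = (R.P ^ (n + 1)) w 1 := by
    rw [A_apply, mul_div_cancel₀ _ (by positivity), R.e_self h2]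
    have : ∀ k, (R.P ^ k) (R.P w - w) 1 = (R.P ^ (k + 1)) w 1 - (R.P ^ k) w 1 := by
      intro k; rw [map_sub, Pn_succ']; rfl
    simp only [← hw, this]
    rw [Finset.sum_range_sub (fun k => (R.P ^ k) w 1)]
    simp [hw, h1]
  have h7 := R.He_le_incr n ht
  have h8 := R.He_nonneg n t
  have h9 := hw0 (n + 1) 1
  have h10 := hw0 n t
  show (R.μ t * u t) ^ 2 ≤ 4 * (((n : ℝ) + 1) * (R.H (n + 1) - R.H n)) * R.A n (R.e u u)
  calc (R.μ t * u t) ^ 2 = R.μ t ^ 2 * u t ^ 2 := by ring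
    _ ≤ R.μ t ^ 2 * (R.He n t * (2 * ((R.P ^ n) w t + (R.P ^ (n + 1)) w 1))) := by gcongr
    _ = (R.μ t * R.He n t) * (2 * (R.μ t * (R.P ^ n) w t + R.μ t * (R.P ^ (n + 1)) w 1)) := by ring
    _ ≤ (R.H (n + 1) - R.H n) * (2 * ((R.P ^ (n + 1)) w 1 + 1 * (R.P ^ (n + 1)) w 1)) := by
        gcongr
        exact (mul_nonneg hμ.le h8).trans h7
    _ = _ := by rw [← h6]; ring

theorem exists_mean {d : ℕ} (hG : PG d G) : ∃ Λ : (G → ℝ) → ℝ,
    (∀ f g, Bdd f → Bdd g → Λ (f + g) = Λ f + Λ g) ∧ (∀ (c : ℝ) f, Bdd f → Λ (c • f) = c * Λ f) ∧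
    (∀ f K, Bdd f → (∀ x, f x ≤ K) → Λ f ≤ K) ∧
    (∀ g f, Bdd f → Λ (fun x => f (g * x)) = Λ f) ∧
    ∀ u : R.V0, ∀ t ∈ R.T, (R.μ t * u.1 t) ^ 2 ≤ 4 * (d + 1) * Λ (R.e u u) := by
  haveI := frequently_iff_neBot.1 (R.freq_incr hG)
  obtain ⟨U, hU⟩ := Ultrafilter.exists_le (atTop ⊓
    𝓟 {n : ℕ | ((n : ℝ) + 1) * (R.H (n + 1) - R.H n) ≤ d + 1})
  have hU1 : (U : Filter ℕ) ≤ atTop := hU.trans inf_le_left
  have hU2 : ∀ᶠ n : ℕ in U, ((n : ℝ) + 1) * (R.H (n + 1) - R.H n) ≤ d + 1 :=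
    le_principal_iff.1 (hU.trans inf_le_right)
  set Λ : (G → ℝ) → ℝ := fun f => limUnder U fun n => R.A n f with hΛ
  have ht : ∀ f, Bdd f → Tendsto (fun n => R.A n f) U (𝓝 (Λ f)) := fun f ⟨M, hM⟩ =>
    ultra_lim U fun n => R.A_abs n hM
  have huniq : ∀ f l, Tendsto (fun n => R.A n f) U (𝓝 l) → Λ f = l := fun f l h => h.limUnder_eq
  refine ⟨Λ, fun f g hf hg => huniq _ _ ?_, fun c f hf => huniq _ _ ?_, fun f K hf hK => ?_, ?_,
    fun u t ht' => ?_⟩
  · simp only [map_add]; exact (ht f hf).add (ht g hg)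
  · simp only [map_smul, smul_eq_mul]; exact (ht f hf).const_mul c
  · exact le_of_tendsto' (ht f hf) fun n => R.A_le n hK
  · have h1 : ∀ t ∈ R.T, ∀ f, Bdd f → Λ (fun x => f (t * x)) = Λ f := by
      intro t ht' f hf
      obtain ⟨M, hM⟩ := id hf
      have := ((R.A_inv hG hM ht').mono_left hU1).add (ht f hf)
      refine huniq _ _ ?_
      simpa using this
    have h2 : ∀ r, ∀ g ∈ wBall R.T r, ∀ f, Bdd f → Λ (fun x => f (g * x)) = Λ f := by
      intro r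
      induction r with
      | zero => intro g hg f _; rw [ball_zero] at hg; rw [hg]; simp
      | succ r ih =>
        intro g hg f hf
        rcases ball_succ hg with rfl | ⟨s, hs, g', hg', rfl⟩
        · simp
        · have hs' : s ∈ R.T := by
            rcases hs with hs | hs
            · exact hs
            · simpa using R.symm _ hs
          obtain ⟨M, hM⟩ := id hf
          rw [← h1 s hs' f hf, ← ih g' hg' (fun x => f (s * x)) ⟨M, fun x => hM _⟩]
          simp only [mul_assoc]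
    intro g f hf
    obtain ⟨r, hr⟩ := ball_of_closure (S := R.T) (g := g) (R.gen ▸ Subgroup.mem_top g)
    exact h2 r g hr f hf
  · refine ge_of_tendsto ((ht _ (R.e_bdd u u)).const_mul (4 * ((d : ℝ) + 1))) ?_
    filter_upwards [hU2] with n hn
    refine (R.ev_bound u ht' n).trans ?_
    have h0 : 0 ≤ R.A n (R.e u u) := by
      have := R.A_le n (f := -R.e u u) (K := 0) fun x => by
        simp only [Pi.neg_apply, neg_nonpos]
        exact Finset.sum_nonneg fun s hs => mul_nonneg (R.pos s hs).le (mul_self_nonneg _)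
      rw [map_neg] at this
      linarith
    gcongr

end RW

end Vale.Agent.P188.Grom
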