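import Vale.Agent.P188.GromD2

/-! Gromov module, part D3: finite dimensionality and the dichotomy. -/

namespace Vale.Agent.P188.Grom

open Function

variable {G : Type} [Group G]

section Inner

variable {V : Type} [NormedAddCommGroup V] [InnerProductSpace ℝ V]

theorem bessel_fun {m : ℕ} {v : Fin m → V} (hv : Orthonormal ℝ v) (φ : V →ₗ[ℝ] ℝ) {C : ℝ}
    (hC : 0 ≤ C) (h : ∀ u, φ u ^ 2 ≤ C * inner ℝ u u) : ∑ i, φ (v i) ^ 2 ≤ C := by
  have h1 := h (∑ i, φ (v i) • v i)
  rw [hv.inner_sum, map_sum] at h1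
  simp only [map_smul, smul_eq_mul, conj_trivial, ← sq] at h1
  have h0 : 0 ≤ ∑ i, φ (v i) ^ 2 := Finset.sum_nonneg fun _ _ => sq_nonneg _
  by_contra hc
  push Not at hc
  nlinarith

theorem findim_of_orth (K : ℝ) (h : ∀ (m : ℕ) (v : Fin m → V), Orthonormal ℝ v → (m : ℝ) ≤ K) :
    FiniteDimensional ℝ V := by
  have h1 : Module.rank ℝ V ≤ (⌈K⌉₊ : ℕ) := by
    refine rank_le fun s hs => ?_
    set W := Submodule.span ℝ (Set.range fun i : s => (i : V)) with hW
    haveI : FiniteDimensional ℝ W := FiniteDimensional.span_of_finite ℝ (Set.finite_range _)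
    have h2 : Module.finrank ℝ W = s.card := by
      rw [hW, finrank_span_eq_card hs, Fintype.card_coe]
    have h3 := h _ _ ((stdOrthonormalBasis ℝ W).orthonormal.comp_linearIsometry W.subtypeₗᵢ)
    rw [h2] at h3
    exact_mod_cast h3.trans (Nat.le_ceil K)
  exact Module.rank_lt_aleph0_iff.1 (h1.trans_lt Cardinal.natCast_lt_aleph0)

theorem rep_dich [FiniteDimensional ℝ V] {d : ℕ} (hG : PG d G) [Group.FG G]
    (ρ : G →* Module.End ℝ V) (h : ∀ g u, ‖ρ g u‖ ≤ ‖u‖) :
    VZ G ∨ ∃ K : Subgroup G, K.FiniteIndex ∧ ∀ g ∈ K, ∀ u, ρ g u = u := by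
  set φ : G →* (V →L[ℝ] V) :=
    ((Module.End.toContinuousLinearMap V).toMulEquiv.toMonoidHom).comp ρ with hφ
  have hφ' : ∀ g u, φ g u = ρ g u := fun _ _ => rfl
  by_cases hi : (Set.range φ).Infinite
  · left
    refine compact_VZ hG φ (fun g => ?_) hi
    exact ContinuousLinearMap.opNorm_le_bound _ zero_le_one fun u => by simpa [hφ'] using h g u
  · right
    rw [Set.not_infinite] at hi
    haveI : Finite φ.toHomUnits.range := by
      haveI := hi.to_subtype
      refine Finite.of_injective (β := Set.range φ)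
        (fun x => ⟨((x : (V →L[ℝ] V)ˣ) : V →L[ℝ] V), ?_⟩) ?_
      · obtain ⟨_, g, rfl⟩ := x
        exact ⟨g, rfl⟩
      · intro x y hxy
        exact Subtype.ext (Units.ext (congrArg Subtype.val hxy))
    refine ⟨φ.toHomUnits.ker, inferInstance, fun g hg u => ?_⟩
    have : φ g = 1 := congrArg Units.val (MonoidHom.mem_ker.1 hg)
    rw [← hφ', this]; rfl

end Inner

theorem core_dich {V : Type} [AddCommGroup V] [Module ℝ V] (c : InnerProductSpace.Core ℝ V)
    {d : ℕ} (hG : PG d G) [Group.FG G] (ρ : G →* Module.End ℝ V)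
    (hinv : ∀ g u v, c.inner (ρ g u) (ρ g v) = c.inner u v) {ι : Type} (φ : ι → V →ₗ[ℝ] ℝ)
    {C : ℝ} (hC : 0 ≤ C) (hφ : ∀ t u, φ t u ^ 2 ≤ C * c.inner u u) (K : ℝ)
    (hK : ∀ (m : ℕ) (v : Fin m → V), (∀ g t, ∑ i, φ t (ρ g (v i)) ^ 2 ≤ C) →
      ∑ i, c.inner (v i) (v i) ≤ K) :
    VZ G ∨ ∃ K : Subgroup G, K.FiniteIndex ∧ ∀ g ∈ K, ∀ u, ρ g u = u := by
  letI : NormedAddCommGroup V := c.toNormedAddCommGroup
  letI : InnerProductSpace ℝ V := InnerProductSpace.ofCore c.toCore
  have hinv' : ∀ g (u v : V), inner ℝ (ρ g u) (ρ g v) = inner ℝ u v := hinv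
  haveI : FiniteDimensional ℝ V := by
    refine findim_of_orth K fun m v hv => ?_
    have h1 := hK m v fun g t => bessel_fun (v := fun i => ρ g (v i)) ?_ (φ t) hC (hφ t)
    · have h2 : ∀ i, c.inner (v i) (v i) = 1 := fun i => by
        have := orthonormal_iff_ite.1 hv i i
        rw [if_pos rfl] at this
        exact this
      rw [Finset.sum_congr rfl fun i _ => h2 i] at h1
      simpa using h1
    · rw [orthonormal_iff_ite] at hv ⊢
      intro i j
      rw [hinv', hv]
  refine rep_dich hG ρ fun g u => le_of_eq ?_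
  rw [← sq_eq_sq₀ (norm_nonneg _) (norm_nonneg _), ← real_inner_self_eq_norm_sq,
    ← real_inner_self_eq_norm_sq, hinv']

namespace RW

variable (R : RW G)

theorem e_rep (g : G) (u v : R.V0) :
    R.e (R.rep g u) (R.rep g v) = fun x => R.e u v (g⁻¹ * x) := by
  ext x
  simp [e, rep_apply, mul_assoc]

theorem dich {d : ℕ} (hG : PG d G) [Group.FG G] :
    VZ G ∨ ∃ K : Subgroup G, K.FiniteIndex ∧ ∀ g ∈ K, ∀ u, R.rep g u = u := by
  obtain ⟨Λ, hadd, hsmul, hle, hinv, hev⟩ := R.exists_mean hG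
  have hd : (0 : ℝ) < 4 * (d + 1) := by positivity
  have hinv' : ∀ g (u v : R.V0), Λ (R.e (R.rep g u) (R.rep g v)) = Λ (R.e u v) := by
    intro g u v
    rw [e_rep, hinv _ _ (R.e_bdd u v)]
  let c : InnerProductSpace.Core ℝ R.V0 :=
    { inner := fun u v => Λ (R.e u v)
      conj_inner_symm := fun u v => by
        have : R.e v u = R.e u v := by ext x; simp [e, mul_comm]
        simp [this]
      re_inner_nonneg := fun u => by
        have := (sq_nonneg _).trans (hev u 1 R.one_mem)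
        exact (mul_nonneg_iff_of_pos_left hd).1 this
      add_left := fun u v w => by
        rw [← hadd _ _ (R.e_bdd u w) (R.e_bdd v w)]
        congr 1
        ext x
        simp only [e, Pi.add_apply, Submodule.coe_add, ← Finset.sum_add_distrib]
        exact Finset.sum_congr rfl fun s _ => by ring
      smul_left := fun u v r => by
        rw [conj_trivial, ← hsmul _ _ (R.e_bdd u v)]
        congr 1
        ext x
        simp only [e, Pi.smul_apply, Submodule.coe_smul, smul_eq_mul, Finset.mul_sum]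
        exact Finset.sum_congr rfl fun s _ => by ring
      definite := fun u hu => by
        have hu' : Λ (R.e u u) = 0 := hu
        ext x
        have h1 := R.const_of_step (u := u.1) (fun y s hs => ?_) x
        · rw [h1, u.2.1]; rfl
        · have h2 := hev (R.rep y⁻¹ u) s hs
          rw [hinv', hu', mul_zero, rep_apply, inv_inv] at h2
          have h3 := pow_eq_zero_iff (two_ne_zero) |>.1 (le_antisymm h2 (sq_nonneg _))
          have h4 := (mul_eq_zero.1 h3).resolve_left (R.pos s hs).ne'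
          linarith }
  refine core_dich c hG R.rep hinv' (ι := R.T)
    (fun t => R.μ t • ((LinearMap.proj (t : G)).comp R.V0.subtype)) hd.le
    (fun t u => hev u t t.2) (∑ t ∈ R.T, 4 * (d + 1) / R.μ t) fun m v hv => ?_
  have h1 : ∀ s : Finset (Fin m), Bdd (∑ i ∈ s, R.e (v i) (v i)) ∧
      Λ (∑ i ∈ s, R.e (v i) (v i)) = ∑ i ∈ s, Λ (R.e (v i) (v i)) := by
    intro s
    induction s using Finset.induction_on with
    | empty =>
      have h0 : Bdd (0 : G → ℝ) := ⟨0, by simp⟩
      refine ⟨h0, ?_⟩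
      simpa using hsmul 0 0 h0
    | insert i s hi ih =>
      rw [Finset.sum_insert hi, Finset.sum_insert hi, hadd _ _ (R.e_bdd _ _) ih.1, ih.2]
      refine ⟨?_, rfl⟩
      obtain ⟨M, hM⟩ := R.e_bdd (v i) (v i)
      obtain ⟨M', hM'⟩ := ih.1
      exact ⟨M + M', fun x => (abs_add_le _ _).trans (add_le_add (hM x) (hM' x))⟩
  show ∑ i, Λ (R.e (v i) (v i)) ≤ _
  rw [← (h1 _).2]
  refine hle _ _ (h1 _).1 fun x => ?_
  simp only [Finset.sum_apply, e]
  rw [Finset.sum_comm]
  refine Finset.sum_le_sum fun t ht => ?_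
  have h2 : ∑ i, (R.μ t * ((v i).1 (x * t) - (v i).1 x)) ^ 2 ≤ 4 * (d + 1) := by
    simpa [rep_apply] using hv x⁻¹ ⟨t, ht⟩
  rw [le_div_iff₀ (R.pos t ht), Finset.sum_mul]
  refine le_trans (le_of_eq ?_) h2
  exact Finset.sum_congr rfl fun i _ => by ring

end RW

theorem gstar : GStar := by
  intro d G _ hfg hI hG
  obtain ⟨R⟩ := exists_RW (G := G)
  rcases R.dich hG with h | ⟨K, hK, h⟩
  · exact h
  · obtain ⟨u, hu, hu0⟩ := R.exists_harm hG
    exact R.finite_case (u := ⟨u, hu⟩) (fun e => hu0 (congrArg Subtype.val e)) K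
      fun g hg => h g hg _

end Vale.Agent.P188.Grom
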