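import Vale.Agent.P188.Stmts

/-! Cocycles in Hilbert spaces: fixed vectors, projections, weak limits, descent. -/

namespace Vale.Agent.P188.HST

open Filter Topology Function
open scoped RealInnerProductSpace

variable {G V : Type} [Group G] [NormedAddCommGroup V] [InnerProductSpace ℝ V]
  {U : G →* (V ≃ₗᵢ[ℝ] V)} {b : G → V}

theorem U_mul (g h : G) (v : V) : U (g * h) v = U g (U h v) := by rw [map_mul]; rfl

theorem U_one (v : V) : U 1 v = v := by rw [map_one]; rfl

theorem U_inv (g : G) (v : V) : U g⁻¹ (U g v) = v := by rw [← U_mul, inv_mul_cancel, U_one]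

theorem U_inv' (g : G) (v : V) : U g (U g⁻¹ v) = v := by rw [← U_mul, mul_inv_cancel, U_one]

theorem inner_U (g : G) (v w : V) : ⟪v, U g w⟫ = ⟪U g⁻¹ v, w⟫ := by
  rw [← (U g).inner_map_map (U g⁻¹ v), U_inv']

theorem coc_one (hb : IsCocycle U b) : b 1 = 0 := by
  have := hb 1 1
  rwa [mul_one, U_one, left_eq_add] at this

theorem coc_norm_mul (hb : IsCocycle U b) (g h : G) : ‖b (g * h)‖ ≤ ‖b g‖ + ‖b h‖ := by
  rw [hb, ← (U g).norm_map (b h)]
  exact norm_add_le _ _

theorem coc_norm_inv (hb : IsCocycle U b) (g : G) : ‖b g⁻¹‖ = ‖b g‖ := by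
  have := hb g g⁻¹
  rw [mul_inv_cancel, coc_one hb, eq_comm, add_eq_zero_iff_eq_neg] at this
  rw [this, norm_neg, (U g).norm_map]

theorem coc_sub {b' : G → V} (hb : IsCocycle U b) (hb' : IsCocycle U b') :
    IsCocycle U fun g => b g - b' g := fun g h => by
  simp only [hb g h, hb' g h, map_sub]
  abel

theorem coc_cob (ξ : V) : IsCocycle U fun g => U g ξ - ξ := fun g h => by
  simp only [U_mul, map_sub]
  abel

theorem hacob_add {b' : G → V} (hb : HACob U b) (hb' : HACob U b') :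
    HACob U fun g => b g + b' g := fun F ε hε => by
  obtain ⟨ξ, h⟩ := hb F _ (half_pos hε)
  obtain ⟨ξ', h'⟩ := hb' F _ (half_pos hε)
  refine ⟨ξ + ξ', fun g hg => ?_⟩
  have e : b g + b' g - (U g (ξ + ξ') - (ξ + ξ')) =
      (b g - (U g ξ - ξ)) + (b' g - (U g ξ' - ξ')) := by rw [map_add]; abel
  rw [e]
  exact (norm_add_le _ _).trans (by linarith [h g hg, h' g hg])

variable (U) in
/-- vectors fixed by `S` -/
def Fix (S : Set G) : Submodule ℝ V where
  carrier := {v | ∀ s ∈ S, U s v = v}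
  add_mem' := fun hv hw s hs => by rw [map_add, hv s hs, hw s hs]
  zero_mem' := fun s _ => map_zero _
  smul_mem' := fun c v hv s hs => by rw [map_smul, hv s hs]

instance [CompleteSpace V] (S : Set G) : CompleteSpace (Fix U S) := by
  have : (Fix U S : Set V) = ⋂ s ∈ S, {v | U s v = v} := by
    ext v
    simp only [Set.mem_iInter]
    rfl
  refine IsClosed.completeSpace_coe (hs := ?_)
  rw [this]
  exact isClosed_biInter fun s _ => isClosed_eq (U s).continuous continuous_id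

theorem Fix_inv {S : Set G} (hS : ∀ g, ∀ s ∈ S, g⁻¹ * s * g ∈ S) (g : G) :
    ∀ v ∈ Fix U S, U g v ∈ Fix U S := fun v hv s hs => by
  conv_rhs => rw [← hv _ (hS g s hs)]
  rw [← U_mul, ← U_mul, ← mul_assoc, mul_inv_cancel_left]

theorem orth_inv {K : Submodule ℝ V} (hK : ∀ g, ∀ v ∈ K, U g v ∈ K) (g : G) :
    ∀ v ∈ Kᗮ, U g v ∈ Kᗮ := fun v hv u hu => by
  rw [inner_U]
  exact hv _ (hK _ _ hu)

theorem coc_proj {K : Submodule ℝ V} [K.HasOrthogonalProjection] (hK : ∀ g, ∀ v ∈ K, U g v ∈ K)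
    (hb : IsCocycle U b) : IsCocycle U fun g => K.starProjection (b g) := fun g h => by
  simp only [hb g h, map_add]
  congr 1
  refine Submodule.eq_starProjection_of_mem_orthogonal (hK _ _ (K.starProjection_apply_mem _)) ?_
  rw [← map_sub]
  exact orth_inv hK _ _ (K.sub_starProjection_mem_orthogonal _)

theorem proj_orth {K K' : Submodule ℝ V} [K.HasOrthogonalProjection] (h : K' ≤ K) {v : V}
    (hv : v ∈ K'ᗮ) : K.starProjection v ∈ K'ᗮ := by
  have := K'ᗮ.sub_mem hv (Submodule.orthogonal_le h (K.sub_starProjection_mem_orthogonal v))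
  rwa [sub_sub_cancel] at this

variable [CompleteSpace V]

theorem weak (ξ : ℕ → V)
    (h : ∀ g η, Tendsto (fun n => ⟪η, b g - (U g (ξ n) - ξ n)⟫) atTop (𝓝 0)) : HACob U b := by
  intro F ε hε
  let L : V →ₗ[ℝ] PiLp 2 fun _ : F => V :=
    (WithLp.linearEquiv 2 ℝ (F → V)).symm.toLinearMap ∘ₗ
      LinearMap.pi fun g : F => (U g).toLinearEquiv.toLinearMap - LinearMap.id
  have h1 : (WithLp.toLp 2 fun g : F => b g) ∈ (LinearMap.range L).topologicalClosure := by
    rw [← Submodule.orthogonal_orthogonal_eq_closure]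
    intro η hη
    have h2 := tendsto_finsetSum (Finset.univ : Finset F) fun g _ => h g (η g)
    have h3 : ∀ n, ∑ g : F, ⟪η g, b g - (U g (ξ n) - ξ n)⟫ =
        ⟪η, WithLp.toLp 2 fun g : F => b g⟫ := fun n => by
      have h4 := (Submodule.mem_orthogonal' _ _).1 hη _ (LinearMap.mem_range_self L (ξ n))
      rw [← sub_zero ⟪η, _⟫, ← h4, ← inner_sub_right, PiLp.inner_apply]
      rfl
    simp only [h3, Finset.sum_const_zero] at h2
    exact tendsto_nhds_unique tendsto_const_nhds h2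
  obtain ⟨_, ⟨ξ', rfl⟩, h2⟩ := Metric.mem_closure_iff.1 h1 ε hε
  refine ⟨ξ', fun g hg => ?_⟩
  rw [dist_eq_norm] at h2
  exact (PiLp.norm_apply_le ((WithLp.toLp 2 fun g : F => b g) - L ξ') ⟨g, hg⟩).trans h2.le

theorem tend_orth {W : Type} [NormedAddCommGroup W] [NormedSpace ℝ W] {S : Set G}
    (T : ℕ → V →ₗ[ℝ] W) {C : ℝ} (hT : ∀ n v, ‖T n v‖ ≤ C * ‖v‖)
    (h : ∀ s ∈ S, ∀ ζ, Tendsto (fun n => T n (U s ζ - ζ)) atTop (𝓝 0)) :
    ∀ η ∈ (Fix U S)ᗮ, Tendsto (fun n => T n η) atTop (𝓝 0) := by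
  let K : Submodule ℝ V :=
    { carrier := {η | Tendsto (fun n => T n η) atTop (𝓝 0)}
      add_mem' := fun h1 h2 => by simpa using Tendsto.add h1 h2
      zero_mem' := by simp
      smul_mem' := fun c _ h1 => by simpa using Tendsto.const_smul h1 c }
  have hc : IsClosed (K : Set V) :=
    (LipschitzWith.uniformEquicontinuous (fun n => T n) _ fun n =>
      AddMonoidHomClass.lipschitz_of_bound (T n) C (hT n)).equicontinuous.isClosed_setOfPred_tendsto
      continuous_const
  have h1 : Kᗮ ≤ Fix U S := fun v hv s hs => by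
    have h2 : U s⁻¹ v = v := ext_inner_right ℝ fun ζ => by
      have := (Submodule.mem_orthogonal' _ _).1 hv _ (h s hs ζ)
      rwa [inner_sub_right, inner_U, sub_eq_zero] at this
    conv_lhs => rw [← h2, U_inv']
  intro η hη
  have h2 := Submodule.orthogonal_le h1 hη
  rwa [Submodule.orthogonal_orthogonal_eq_closure, hc.submodule_topologicalClosure_eq] at h2

theorem mazur {S : Set G} (hS : ∀ g, ∀ s ∈ S, g⁻¹ * s⁻¹ * g ∈ S) (hb : IsCocycle U b) (ξ : ℕ → V)
    (h1 : ∀ g n, b g - (U g (ξ n) - ξ n) ∈ (Fix U S)ᗮ)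
    (h2 : ∀ g, ∃ C, ∀ n, ‖b g - (U g (ξ n) - ξ n)‖ ≤ C)
    (h3 : ∀ s ∈ S, Tendsto (fun n => b s - (U s (ξ n) - ξ n)) atTop (𝓝 0)) : HACob U b := by
  refine weak ξ fun g η => ?_
  obtain ⟨C, hC⟩ := h2 g
  have hr : ∀ n, IsCocycle U fun g => b g - (U g (ξ n) - ξ n) := fun n => coc_sub hb (coc_cob _)
  generalize hr' : (fun n g => b g - (U g (ξ n) - ξ n)) = r
  have e : ∀ n g, b g - (U g (ξ n) - ξ n) = r n g := fun n g => congrFun (congrFun hr' n) g
  simp only [e] at h1 h3 hr hC ⊢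
  have h4 := tend_orth (U := U) (S := S) (fun n => innerₛₗ ℝ (r n g)) (C := C)
    (fun n v => (norm_inner_le_norm _ _).trans (mul_le_mul_of_nonneg_right (hC n) (norm_nonneg _)))
    (fun s hs ζ => ?_) _ ((Fix U S).sub_starProjection_mem_orthogonal η)
  · refine h4.congr fun n => ?_
    rw [innerₛₗ_apply_apply, inner_sub_right, real_inner_comm,
      (Submodule.mem_orthogonal' _ _).1 (h1 g n) _ ((Fix U S).starProjection_apply_mem η), sub_zero]
  · have h5 := h3 _ (hS g s hs)
    have h6 := h3 _ (hS 1 s hs)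
    rw [inv_one, one_mul, mul_one] at h6
    have h7 := ((((U g).continuous.tendsto _).comp h5).sub h6).inner (𝕜 := ℝ)
      (tendsto_const_nhds (x := ζ))
    simp only [map_zero, sub_zero, inner_zero_left] at h7
    refine h7.congr fun n => ?_
    have a1 := hr n g (g⁻¹ * s⁻¹ * g)
    rw [← mul_assoc, mul_inv_cancel_left, hr n s⁻¹ g] at a1
    rw [innerₛₗ_apply_apply, inner_sub_right, inner_U, ← inner_sub_left]
    congr 1
    rw [comp_apply, sub_eq_sub_iff_add_eq_add, add_comm, ← a1, add_comm]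

/-- cocycles with values orthogonal to the vectors fixed by `S` are almost coboundaries -/
def Van (G : Type) [Group G] (S : Set G) : Prop :=
  ∀ (V : Type) [NormedAddCommGroup V] [InnerProductSpace ℝ V] [CompleteSpace V]
    (U : G →* (V ≃ₗᵢ[ℝ] V)) (b : G → V), IsCocycle U b → (∀ g, b g ∈ (Fix U S)ᗮ) → HACob U b

theorem descent {G' : Type} [Group G'] (p : G →* G') (hp : Surjective p) {S : Set G'}
    (H : Van G' S) (hb : IsCocycle U b) (h0 : ∀ a ∈ p.ker, b a = 0)
    (ho : ∀ g, b g ∈ (Fix U (p ⁻¹' S))ᗮ) : HACob U b := by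
  classical
  have hS : ∀ g, ∀ s ∈ (p.ker : Set G), g⁻¹ * s * g ∈ (p.ker : Set G) := fun g s hs =>
    p.normal_ker.conj_mem' s hs g
  have hK := Fix_inv (U := U) hS
  let U₁ : G →* (Fix U p.ker ≃ₗᵢ[ℝ] Fix U p.ker) :=
    { toFun := fun g =>
        { toFun := fun v => ⟨U g v, hK g _ v.2⟩
          invFun := fun v => ⟨U g⁻¹ v, hK _ _ v.2⟩
          map_add' := fun v w => Subtype.ext (map_add (U g) _ _)
          map_smul' := fun c v => Subtype.ext (map_smul (U g) _ _)
          left_inv := fun v => Subtype.ext (U_inv g _)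
          right_inv := fun v => Subtype.ext (U_inv' g _)
          norm_map' := fun v => (U g).norm_map _ }
      map_one' := LinearIsometryEquiv.ext fun v => Subtype.ext (U_one _)
      map_mul' := fun g h => LinearIsometryEquiv.ext fun v => Subtype.ext (U_mul g h _) }
  have hk : p.ker ≤ U₁.ker := fun a ha => LinearIsometryEquiv.ext fun v => Subtype.ext (v.2 a ha)
  have hU : ∀ g v, (p.liftOfSurjective hp ⟨U₁, hk⟩ (p g) v : V) = U g v := fun g v => by
    rw [MonoidHom.liftOfRightInverse_comp_apply]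
    rfl
  have hb1 : ∀ g, b g ∈ Fix U p.ker := fun g a ha => by
    have a1 := hb g (g⁻¹ * a * g)
    rw [← mul_assoc, mul_inv_cancel_left, hb a g, h0 a ha, h0 _ (hS g a ha), map_zero] at a1
    simpa using a1
  have hb2 : ∀ g, b (surjInv hp (p g)) = b g := fun g => by
    have a1 := hb g (g⁻¹ * surjInv hp (p g))
    rw [mul_inv_cancel_left, h0 (g⁻¹ * _) (by simp [surjInv_eq hp]), map_zero, add_zero] at a1
    exact a1
  intro F ε hε
  obtain ⟨ξ, hξ⟩ := H _ (p.liftOfSurjective hp ⟨U₁, hk⟩) (fun g => ⟨b (surjInv hp g), hb1 _⟩)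
    (fun g h => by
      obtain ⟨g, rfl⟩ := hp g
      obtain ⟨h, rfl⟩ := hp h
      refine Subtype.ext ?_
      simp only [← map_mul, hb2, Submodule.coe_add, hU]
      exact hb g h)
    (fun g v hv => ho _ v fun s hs => by rw [← hU, hv _ hs]) (F.image p) ε hε
  refine ⟨ξ, fun g hg => ?_⟩
  have := hξ _ (Finset.mem_image_of_mem p hg)
  rwa [← Submodule.norm_coe, Submodule.coe_sub, Submodule.coe_sub, hU, Subtype.coe_mk, hb2] at this

end Vale.Agent.P188.HST
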