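import Vale.Agent.P188.HSTA

/-! Boxes in lattices and almost invariant families adapted to a matrix action. -/

namespace Vale.Agent.P188.HST

open Finset Matrix

theorem lin_bound {k : ℕ} (Q : (Fin k → ℤ) → ℝ → Prop) (h0 : Q 0 0)
    (ha : ∀ a c a' c', Q a c → Q a' c' → Q (a + a') (c + c'))
    (hm : ∀ a c c', Q a c → c ≤ c' → Q a c') (he : ∀ a, ∃ c, Q a c) :
    ∃ C : ℝ, 0 ≤ C ∧ ∀ a, Q a (C * ‖a‖) := by
  choose c hc using he
  have h1 : ∀ a (n : ℕ), Q (n • a) (n * |c a|) := fun a n => by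
    induction n with
    | zero => simpa using h0
    | succ n ih =>
      rw [succ_nsmul]
      refine hm _ _ _ (ha _ _ _ _ ih (hc a)) ?_
      push_cast
      linarith [le_abs_self (c a)]
  have h2 : ∀ a (z : ℤ), Q (z • a) ((|c a| + |c (-a)|) * ‖z‖) := fun a z => by
    obtain ⟨n, rfl | rfl⟩ := z.eq_nat_or_neg
    · rw [natCast_zsmul]
      refine hm _ _ _ (h1 a n) ?_
      rw [Int.norm_natCast]
      nlinarith [abs_nonneg (c (-a)), Nat.cast_nonneg (α := ℝ) n]
    · rw [neg_smul, ← smul_neg, natCast_zsmul]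
      refine hm _ _ _ (h1 (-a) n) ?_
      rw [norm_neg, Int.norm_natCast]
      nlinarith [abs_nonneg (c a), Nat.cast_nonneg (α := ℝ) n]
  refine ⟨∑ i, (|c (Pi.single i 1)| + |c (-Pi.single i 1)|), by positivity, fun a => ?_⟩
  have h3 : ∀ s : Finset (Fin k), Q (∑ i ∈ s, a i • Pi.single i 1)
      ((∑ i ∈ s, (|c (Pi.single i 1)| + |c (-Pi.single i 1)|)) * ‖a‖) := fun s => by
    induction s using Finset.induction_on with
    | empty => simpa using h0
    | insert i s hi ih =>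
      rw [sum_insert hi, sum_insert hi, add_mul]
      refine ha _ _ _ _ (hm _ _ _ (h2 _ _) ?_) ih
      exact mul_le_mul_of_nonneg_left (norm_le_pi_norm a i) (by positivity)
  convert h3 univ using 1
  ext i
  simp [Pi.single_apply]

/-- the box of side `L` -/
noncomputable def box (m L : ℕ) : Finset (Fin m → ℤ) := Fintype.piFinset fun _ => Ico (0 : ℤ) L

theorem card_box (m L : ℕ) : (box m L).card = L ^ m := by simp [box]

theorem mem_box {m L : ℕ} {x : Fin m → ℤ} : x ∈ box m L ↔ ∀ i, 0 ≤ x i ∧ x i < L := by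
  simp [box]

theorem norm_box {m L : ℕ} {x : Fin m → ℤ} (h : x ∈ box m L) : ‖x‖ ≤ L := by
  refine (pi_norm_le_iff_of_nonneg (Nat.cast_nonneg _)).2 fun i => ?_
  obtain ⟨h1, h2⟩ := mem_box.1 h i
  rw [Int.norm_eq_abs, abs_of_nonneg (by exact_mod_cast h1)]
  exact_mod_cast h2.le

theorem box_bad {m : ℕ} (L : ℕ) (s : Fin m → ℤ) :
    L * #{x ∈ box m L | x + s ∉ box m L} ≤ (∑ j, (s j).natAbs) * L ^ m := by
  have h1 : ∀ j, #{t ∈ Ico (0 : ℤ) L | t + s j ∉ Ico (0 : ℤ) L} ≤ (s j).natAbs := fun j => by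
    refine (card_le_card (t := if 0 ≤ s j then Ico (L - s j) L else Ico 0 (-s j))
      fun t ht => ?_).trans ?_
    · simp only [mem_filter, mem_Ico] at ht
      split_ifs <;> simp only [mem_Ico] <;> omega
    · split_ifs <;> rw [Int.card_Ico] <;> omega
  have h2 : {x ∈ box m L | x + s ∉ box m L} ⊆ univ.biUnion fun j => Fintype.piFinset
      (Function.update (fun _ => Ico (0 : ℤ) L) j {t ∈ Ico (0 : ℤ) L | t + s j ∉ Ico (0 : ℤ) L}) := by
    intro x hx
    simp only [box, mem_filter, Fintype.mem_piFinset, not_forall] at hx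
    obtain ⟨hx, j, hj⟩ := hx
    refine mem_biUnion.2 ⟨j, mem_univ _, Fintype.mem_piFinset.2 fun i => ?_⟩
    rcases eq_or_ne i j with rfl | hij
    · rw [Function.update_self]
      exact mem_filter.2 ⟨hx i, hj⟩
    · rw [Function.update_of_ne hij]
      exact hx i
  refine (Nat.mul_le_mul_left _ ((card_le_card h2).trans card_biUnion_le)).trans ?_
  rw [mul_sum, sum_mul]
  refine sum_le_sum fun j _ => ?_
  have h3 : L * L ^ (m - 1) = L ^ m := by
    rw [← pow_succ', Nat.sub_add_cancel j.pos]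
  rw [Fintype.card_piFinset, ← mul_prod_erase _ _ (mem_univ j), Function.update_self,
    prod_congr rfl (g := fun _ => L) fun i hi => by
      rw [Function.update_of_ne (ne_of_mem_erase hi)]; simp,
    prod_const, card_erase_of_mem (mem_univ j), card_univ, Fintype.card_fin, ← h3, mul_left_comm]
  exact Nat.mul_le_mul_right _ (h1 j)

theorem shift_sum {W : Type} [NormedAddCommGroup W] {m L : ℕ} (hL : 0 < L) (s : Fin m → ℤ)
    (f : (Fin m → ℤ) → W) {M : ℝ} (h1 : ∀ x ∈ box m L, ‖f x‖ ≤ M)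
    (h2 : ∀ x ∈ box m L, ‖f (x + s)‖ ≤ M) :
    ‖∑ x ∈ box m L, (f (x + s) - f x)‖ ≤
      #(box m L) * (2 * M * (∑ j, (s j).natAbs : ℕ) / L) := by
  have hM : 0 ≤ M := (norm_nonneg _).trans (h1 0 (mem_box.2 fun _ => ⟨le_rfl, by simpa using hL⟩))
  set B := box m L with hB
  let B' := B.map (addRightEmbedding s)
  have e1 : #(B' \ B) = #{x ∈ B | x + s ∉ B} := by
    rw [sdiff_eq_filter, filter_map, card_map]
    rfl
  have e2 : #(B \ B') = #(B' \ B) := card_sdiff_comm (card_map _).symm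
  have e3 : ∑ x ∈ B, (f (x + s) - f x) = ∑ x ∈ B' \ B, f x - ∑ x ∈ B \ B', f x := by
    rw [sum_sdiff_sub_sum_sdiff, sum_map, sum_sub_distrib]
    rfl
  have a1 : ‖∑ x ∈ B' \ B, f x‖ ≤ #(B' \ B) * M := by
    rw [← nsmul_eq_mul]
    refine (norm_sum_le _ _).trans (sum_le_card_nsmul _ _ _ fun x hx => ?_)
    obtain ⟨y, hy, rfl⟩ := mem_map.1 (mem_sdiff.1 hx).1
    exact h2 y hy
  have a2 : ‖∑ x ∈ B \ B', f x‖ ≤ #(B \ B') * M := by
    rw [← nsmul_eq_mul]
    exact (norm_sum_le _ _).trans (sum_le_card_nsmul _ _ _ fun x hx => h1 x (mem_sdiff.1 hx).1)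
  have a3 : (L : ℝ) * #{x ∈ B | x + s ∉ B} ≤ (∑ j, (s j).natAbs : ℕ) * #B := by
    rw [hB, card_box]
    exact_mod_cast box_bad L s
  rw [e3, ← mul_div_assoc, le_div_iff₀ (by exact_mod_cast hL)]
  rw [e2] at a2
  rw [e1] at a1 a2
  have a4 := mul_le_mul_of_nonneg_right ((norm_sub_le _ _).trans (add_le_add a1 a2))
    (Nat.cast_nonneg (α := ℝ) L)
  nlinarith [mul_le_mul_of_nonneg_left a3 hM]

theorem maxdet {m : ℕ} (T : Finset (Fin m → ℤ)) (hT : ∀ i, Pi.single i 1 ∈ T) :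
    ∃ (v : Fin m → Fin m → ℤ) (d : ℤ), d ≠ 0 ∧ (∀ j, v j ∈ T) ∧
      ∀ w ∈ T, ∃ c : Fin m → ℤ, (∀ j, (c j).natAbs ≤ d.natAbs) ∧ ∑ j, c j • v j = d • w := by
  have h1 : (1 : Matrix (Fin m) (Fin m) ℤ) ∈ Fintype.piFinset fun _ : Fin m => T :=
    Fintype.mem_piFinset.2 fun i => by
      convert hT i using 1
      ext j
      rw [Matrix.one_apply, Pi.single_apply]
      simp only [eq_comm]
  obtain ⟨v, hv, h⟩ := exists_max_image (Fintype.piFinset fun _ : Fin m => T)
    (fun v => (Matrix.det (Matrix.of v)).natAbs) ⟨_, h1⟩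
  rw [Fintype.mem_piFinset] at hv
  refine ⟨v, Matrix.det (Matrix.of v), fun h0 => ?_, hv, fun w hw =>
    ⟨cramer (Matrix.of v)ᵀ w, fun j => ?_, ?_⟩⟩
  · have := h _ h1
    rw [h0] at this
    have h3 : (Matrix.det (1 : Matrix (Fin m) (Fin m) ℤ)).natAbs ≤ 0 := this
    simp at h3
  · rw [cramer_transpose_apply]
    refine h (Function.update v j w) (Fintype.mem_piFinset.2 fun i => ?_)
    rcases eq_or_ne i j with rfl | hij
    · rwa [Function.update_self]
    · rw [Function.update_of_ne hij]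
      exact hv i
  · rw [← det_transpose, ← mulVec_cramer]
    ext i
    simp [mulVec, dotProduct, mul_comm]

/-- coordinatewise floor -/
noncomputable def fl {m : ℕ} (y : Fin m → ℝ) : Fin m → ℤ := fun i => ⌊y i⌋

/-- an integer vector as a real vector -/
def cst {m : ℕ} (v : Fin m → ℤ) : Fin m → ℝ := fun i => v i

theorem fl_add {m : ℕ} (v : Fin m → ℤ) (y : Fin m → ℝ) : fl (cst v + y) = v + fl y :=
  funext fun _ => Int.floor_intCast_add _ _

theorem norm_fl {m : ℕ} (y : Fin m → ℝ) : ‖fl y‖ ≤ ‖y‖ + 1 := by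
  refine (pi_norm_le_iff_of_nonneg (by positivity)).2 fun i => ?_
  have h := abs_le.1 (norm_le_pi_norm y i)
  rw [Int.norm_eq_abs, abs_le, fl]
  constructor <;> linarith [Int.floor_le (y i), Int.lt_floor_add_one (y i)]

theorem norm_fr {m : ℕ} (y : Fin m → ℝ) : ‖y - cst (fl y)‖ ≤ 1 :=
  (pi_norm_le_iff_of_nonneg zero_le_one).2 fun i =>
    ((Real.norm_of_nonneg (Int.fract_nonneg (y i))).trans_lt (Int.fract_lt_one _)).le

theorem cst_mulVec {m : ℕ} (A : Matrix (Fin m) (Fin m) ℤ) (v : Fin m → ℤ) :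
    cst (A *ᵥ v) = A.map (Int.castRingHom ℝ) *ᵥ cst v :=
  funext fun i => RingHom.map_mulVec (Int.castRingHom ℝ) A v i

theorem family {m k : ℕ} (p : (Fin m → ℤ) → ℝ) (p0 : p 0 = 0)
    (hp : ∀ v w, p (v + w) ≤ p v + p w) (R : (Fin k → ℤ) → Matrix (Fin m) (Fin m) ℤ)
    (R0 : R 0 = 1) (hR : ∀ a a', R (a + a') = R a * R a')
    (h : ∀ a, ∃ c, ∀ v, p (R a *ᵥ v) ≤ p v + c) :
    ∃ C : ℝ, 0 ≤ C ∧ ∀ n : ℕ, 0 < n → ∃ (L : ℕ) (w : (Fin m → ℤ) → Fin m → ℤ), 0 < L ∧
      (∀ l ∈ box m L, ∀ a, p (R a *ᵥ w l) ≤ C * (n + ‖a‖)) ∧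
      ∀ a ∈ box k n, ∀ i, ∃ c : Fin m → ℤ, n * ∑ j, (c j).natAbs ≤ m * L ∧
        ∀ l, R a *ᵥ w (l + c) = R a *ᵥ w l + Pi.single i 1 := by
  obtain ⟨C, hC, h1⟩ := lin_bound (fun v c => p v ≤ c) p0.le
    (fun a _ a' _ h h' => (hp a a').trans (add_le_add h h')) (fun _ _ _ => le_trans)
    fun _ => ⟨_, le_rfl⟩
  have h2 : ∀ y, p (fl y) ≤ C * (‖y‖ + 1) := fun y =>
    (h1 _).trans (mul_le_mul_of_nonneg_left (norm_fl y) hC)
  have h3 : ∀ v y, p (fl (cst v + y)) ≤ p v + C * (‖y‖ + 1) := fun v y => by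
    rw [fl_add]
    exact (hp _ _).trans (add_le_add le_rfl (h2 y))
  obtain ⟨D, hD, h4⟩ := lin_bound
    (fun a c => ∀ y, p (fl ((R a).map (Int.castRingHom ℝ) *ᵥ y)) ≤ p (fl y) + c)
    (fun y => by simp [R0])
    (fun a _ a' _ h h' y => by
      rw [hR, Matrix.map_mul, ← mulVec_mulVec]
      linarith [h ((R a').map (Int.castRingHom ℝ) *ᵥ y), h' y])
    (fun _ _ _ h h' y => (h y).trans (add_le_add le_rfl h')) fun a => by
      obtain ⟨c, hc⟩ := h a
      obtain ⟨c', h0, hc'⟩ :=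
        (LinearMap.toContinuousLinearMap (mulVecLin ((R a).map (Int.castRingHom ℝ)))).bound
      refine ⟨c + C * (c' + 1), fun y => ?_⟩
      have e := h3 (R a *ᵥ fl y) ((R a).map (Int.castRingHom ℝ) *ᵥ (y - cst (fl y)))
      rw [cst_mulVec, ← mulVec_add, add_sub_cancel] at e
      have e' : ‖(R a).map (Int.castRingHom ℝ) *ᵥ (y - cst (fl y))‖ ≤ c' :=
        (hc' _).trans (mul_le_of_le_one_right h0.le (norm_fr y))
      nlinarith [hc (fl y)]
  have h5 : ∀ (s : Finset (Fin m)) (y : Fin m → Fin m → ℝ),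
      p (fl (∑ j ∈ s, y j)) ≤ ∑ j ∈ s, (p (fl (y j)) + 3 * C) := fun s y => by
    induction s using Finset.induction_on with
    | empty => exact ((congrArg p (funext fun _ => Int.floor_zero (R := ℝ))).trans p0).le
    | insert i s hi ih =>
      rw [sum_insert hi, sum_insert hi]
      generalize ∑ j ∈ s, y j = z at ih ⊢
      have e := h3 (fl (y i) + fl z) (y i - cst (fl (y i)) + (z - cst (fl z)))
      rw [show cst (fl (y i) + fl z) + (y i - cst (fl (y i)) + (z - cst (fl z))) = y i + z from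
        funext fun j => by simp only [cst, Pi.add_apply, Pi.sub_apply, Int.cast_add]; ring] at e
      have e' := (norm_add_le _ _).trans (add_le_add (norm_fr (y i)) (norm_fr z))
      nlinarith [hp (fl (y i)) (fl z)]
  refine ⟨m * (5 * C + D) + D, by positivity, fun n hn => ?_⟩
  have hn' : (1 : ℝ) ≤ n := by exact_mod_cast hn
  obtain ⟨v, d, hd, hv, hc⟩ := maxdet ((box k n ×ˢ (univ : Finset (Fin m))).image
    fun x => R (-x.1) *ᵥ Pi.single x.2 1) fun i => mem_image.2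
      ⟨(0, i), mem_product.2 ⟨mem_box.2 fun _ => ⟨le_rfl, by simpa using hn⟩, mem_univ _⟩, by
        rw [neg_zero, R0, one_mulVec]⟩
  have hd' : (d : ℝ) ≠ 0 := by exact_mod_cast hd
  refine ⟨n * d.natAbs, fun l => fl (∑ j, (l j / d : ℝ) • cst (v j)), by positivity,
    fun l hl a => ?_, fun a ha i => ?_⟩
  · have e := h4 a (cst (fl (∑ j, (l j / d : ℝ) • cst (v j))))
    have e1 : ∀ u : Fin m → ℤ, fl (cst u) = u := fun u => funext fun i => Int.floor_intCast _
    rw [← cst_mulVec, e1, e1] at e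
    have e2 : ∀ j ∈ univ, p (fl ((l j / d : ℝ) • cst (v j))) + 3 * C ≤ (5 * C + D) * n := by
      intro j _
      obtain ⟨⟨a', i⟩, hx, e3⟩ := mem_image.1 (hv j)
      rw [← e3, cst_mulVec, ← mulVec_smul]
      have e4 := h4 (-a') ((l j / d : ℝ) • cst (Pi.single i 1))
      have e5 := norm_box (mem_product.1 hx).1
      have e6 : ‖(l j / d : ℝ) • cst (Pi.single i 1 : Fin m → ℤ)‖ ≤ n := by
        have e7 := (norm_le_pi_norm l j).trans (norm_box hl)
        rw [show cst (Pi.single i 1 : Fin m → ℤ) = Pi.single i 1 from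
          funext fun j => by simp [cst, Pi.single_apply], norm_smul, Pi.norm_single, norm_one,
          mul_one, norm_div, div_le_iff₀ (norm_pos_iff.2 hd')]
        simpa [Int.norm_eq_abs] using e7
      rw [norm_neg] at e4
      nlinarith [h2 ((l j / d : ℝ) • cst (Pi.single i 1)), mul_le_mul_of_nonneg_left e5 hD,
        mul_le_mul_of_nonneg_left e6 hC, mul_le_mul_of_nonneg_left hn' hC]
    have e3 := (h5 univ _).trans (sum_le_card_nsmul _ _ _ e2)
    rw [card_univ, Fintype.card_fin, nsmul_eq_mul] at e3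
    have e4 : 0 ≤ m * (5 * C + D) * ‖a‖ := by positivity
    have e5 : 0 ≤ D * n := by positivity
    nlinarith
  · obtain ⟨c, c1, c2⟩ := hc _ (mem_image.2 ⟨(a, i), mem_product.2 ⟨ha, mem_univ _⟩, rfl⟩)
    refine ⟨c, ?_, fun l => ?_⟩
    · rw [mul_left_comm]
      refine Nat.mul_le_mul_left _ ((sum_le_card_nsmul _ _ _ fun j _ => c1 j).trans_eq ?_)
      simp
    · have e : ∑ j, ((l + c) j / d : ℝ) • cst (v j) =
          cst (R (-a) *ᵥ Pi.single i 1) + ∑ j, (l j / d : ℝ) • cst (v j) := by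
        ext i'
        have e1 := congrArg (Int.cast : ℤ → ℝ) (congrFun c2 i')
        simp only [Finset.sum_apply, Pi.smul_apply, smul_eq_mul, Int.cast_sum, Int.cast_mul] at e1
        simp only [Finset.sum_apply, Pi.smul_apply, smul_eq_mul, Pi.add_apply, cst, Int.cast_add,
          add_div, add_mul, sum_add_distrib, div_mul_eq_mul_div, ← sum_div, e1]
        rw [mul_div_cancel_left₀ _ hd', add_comm]
      simp only []
      rw [e, fl_add, mulVec_add, mulVec_mulVec, ← hR, add_neg_cancel, R0, one_mulVec, add_comm]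

end Vale.Agent.P188.HST
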