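import Vale.Agent.P188.TailS

/-! P188: basic facts on i.i.d. noise, paths and random orbits. -/

namespace Vale.Agent.P188

open Function MeasureTheory
open scoped ENNReal NNReal

instance iid_prob {N : Type} [MeasurableSpace N] (μ : Measure N) [IsProbabilityMeasure μ] :
    IsProbabilityMeasure (iid μ) := by
  unfold iid; infer_instance

/-- Follow `ω` for `R` steps, then `ω'`. -/
def splice {N : Type} (R : ℕ) (ω ω' : ℕ → N) : ℕ → N := fun j => if j < R then ω j else ω' (j - R)

/-- Prepend one noise variable. -/
def consN {N : Type} (g : N) (ω : ℕ → N) : ℕ → N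
  | 0 => g
  | j + 1 => ω j

section
variable {N : Type} [MeasurableSpace N] (μ : Measure N) [IsProbabilityMeasure μ]

theorem measurable_splice (R : ℕ) :
    Measurable fun p : (ℕ → N) × (ℕ → N) => splice R p.1 p.2 := by
  refine measurable_pi_lambda _ fun j => ?_
  unfold splice
  split_ifs
  · exact (measurable_pi_apply j).comp measurable_fst
  · exact (measurable_pi_apply _).comp measurable_snd

/-- The Markov property of the noise. -/
theorem mp_splice (R : ℕ) :
    MeasurePreserving (fun p : (ℕ → N) × (ℕ → N) => splice R p.1 p.2)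
      ((iid μ).prod (iid μ)) (iid μ) := by
  classical
  refine ⟨measurable_splice R, ?_⟩
  unfold iid
  refine Measure.eq_infinitePi _ fun s t ht => ?_
  rw [Measure.map_apply (measurable_splice R) (MeasurableSet.pi s.countable_toSet fun i _ => ht i)]
  have h1 : (fun p : (ℕ → N) × (ℕ → N) => splice R p.1 p.2) ⁻¹' (Set.pi (s : Set ℕ) t) =
      (Set.pi ((s.filter (· < R) : Finset ℕ) : Set ℕ) t) ×ˢ
        (Set.pi (((s.filter (fun j => ¬ j < R)).image (· - R) : Finset ℕ) : Set ℕ)
          fun j => t (j + R)) := by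
    ext ⟨a, b⟩
    simp only [Set.mem_preimage, Set.mem_pi, Finset.mem_coe, Set.mem_prod, Finset.mem_filter,
      Finset.mem_image, splice]
    constructor
    · intro h
      refine ⟨fun i hi => by simpa [hi.2] using h i hi.1, ?_⟩
      rintro _ ⟨i, hi, rfl⟩
      have := h i hi.1
      rw [if_neg hi.2] at this
      rwa [Nat.sub_add_cancel (not_lt.1 hi.2)]
    · rintro ⟨h1, h2⟩ i hi
      split_ifs with hr
      · exact h1 i ⟨hi, hr⟩
      · have := h2 (i - R) ⟨i, ⟨hi, hr⟩, rfl⟩
        rwa [Nat.sub_add_cancel (not_lt.1 hr)] at this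
  rw [h1, Measure.prod_prod, Measure.infinitePi_pi _ (fun i _ => ht i),
    Measure.infinitePi_pi _ (fun i _ => ht _), Finset.prod_image, 
    ← Finset.prod_filter_mul_prod_filter_not s (· < R)]
  · congr 1
    refine Finset.prod_congr rfl fun i hi => ?_
    rw [Nat.sub_add_cancel (not_lt.1 (Finset.mem_filter.1 hi).2)]
  · intro i hi j hj hij
    have h1 := not_lt.1 (Finset.mem_filter.1 hi).2
    have h2 := not_lt.1 (Finset.mem_filter.1 hj).2
    simp only at hij
    omega

theorem measurable_consN : Measurable fun p : N × (ℕ → N) => consN p.1 p.2 := by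
  refine measurable_pi_lambda _ fun j => ?_
  cases j with
  | zero => exact measurable_fst
  | succ j => exact (measurable_pi_apply j).comp measurable_snd

theorem mp_consN :
    MeasurePreserving (fun p : N × (ℕ → N) => consN p.1 p.2) (μ.prod (iid μ)) (iid μ) := by
  have h0 : MeasurePreserving (fun ω : ℕ → N => ω 0) (iid μ) μ :=
    measurePreserving_eval_infinitePi (fun _ : ℕ => μ) 0
  have h1 := h0.prod (MeasurePreserving.id (iid μ))
  refine ⟨measurable_consN, ?_⟩
  rw [← h1.map_eq, Measure.map_map measurable_consN h1.measurable]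
  refine Eq.trans ?_ (mp_splice μ 1).map_eq
  congr 1
  funext p j
  cases j <;> simp [consN, splice]

theorem mp_headTail :
    MeasurePreserving (fun ω : ℕ → N => (ω 0, fun j => ω (j + 1))) (iid μ) (μ.prod (iid μ)) := by
  have hm : Measurable fun ω : ℕ → N => (ω 0, fun j => ω (j + 1)) :=
    (measurable_pi_apply 0).prodMk (measurable_pi_lambda _ fun j => measurable_pi_apply _)
  refine ⟨hm, ?_⟩
  conv_lhs => rw [← (mp_consN μ).map_eq]
  rw [Measure.map_map hm measurable_consN]
  have : ((fun ω : ℕ → N => (ω 0, fun j => ω (j + 1))) ∘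
      fun p : N × (ℕ → N) => consN p.1 p.2) = id := by
    funext p; rfl
  rw [this, Measure.map_id]

theorem mp_shift (R : ℕ) :
    MeasurePreserving (fun ω : ℕ → N => fun j => ω (j + R)) (iid μ) (iid μ) := by
  have hm : Measurable fun ω : ℕ → N => fun j => ω (j + R) :=
    measurable_pi_lambda _ fun j => measurable_pi_apply _
  refine ⟨hm, ?_⟩
  conv_lhs => rw [← (mp_splice μ R).map_eq]
  rw [Measure.map_map hm (measurable_splice R)]
  have : ((fun ω : ℕ → N => fun j => ω (j + R)) ∘
      fun p : (ℕ → N) × (ℕ → N) => splice R p.1 p.2) = Prod.snd := by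
    funext p j; simp [splice]
  rw [this]
  exact (measurePreserving_snd (μ := iid μ) (ν := iid μ)).map_eq

theorem mp_zip {N' : Type} [MeasurableSpace N'] (ν : Measure N') [IsProbabilityMeasure ν] :
    MeasurePreserving (fun p : (ℕ → N) × (ℕ → N') => fun j => (p.1 j, p.2 j))
      ((iid μ).prod (iid ν)) (iid (μ.prod ν)) := by
  have hm : Measurable (fun p : (ℕ → N) × (ℕ → N') => fun j => (p.1 j, p.2 j)) :=
    measurable_pi_lambda _ fun j => ((measurable_pi_apply j).comp measurable_fst).prodMk
      ((measurable_pi_apply j).comp measurable_snd)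
  refine ⟨hm, ?_⟩
  refine ((Measure.isProjectiveLimit_infinitePi (fun _ : ℕ => μ.prod ν)).unique ?_).symm
  intro s
  have h1 : MeasurePreserving (s.restrict : (ℕ → N) → (s → N)) (iid μ)
      (Measure.pi fun _ => μ) := ⟨by fun_prop, Measure.infinitePi_map_restrict _⟩
  have h2 : MeasurePreserving (s.restrict : (ℕ → N') → (s → N')) (iid ν)
      (Measure.pi fun _ => ν) := ⟨by fun_prop, Measure.infinitePi_map_restrict _⟩
  have h3 := ((measurePreserving_arrowProdEquivProdArrow N N' s (fun _ => μ)
    (fun _ => ν)).symm _).comp (h1.prod h2)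
  rw [Measure.map_map (by fun_prop) hm]
  exact h3.map_eq

end

section
variable {Γ σ N : Type} [Group Γ] (step : σ → N → Γ × σ)

theorem cpath_succ' (x : Γ × σ) (ω : ℕ → N) (n : ℕ) :
    cpath step x ω (n + 1) = cpath step (mv step x (ω 0)) (fun j => ω (j + 1)) n := by
  induction n with
  | zero => rfl
  | succ n ih => rw [cpath, ih]; rfl

theorem cpath_add (x : Γ × σ) (ω : ℕ → N) (R n : ℕ) :
    cpath step x ω (n + R) = cpath step (cpath step x ω R) (fun j => ω (j + R)) n := by
  induction n with
  | zero => simp [cpath]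
  | succ n ih => rw [Nat.add_right_comm, cpath, ih]; rfl

theorem cpath_congr (x : Γ × σ) {ω ω' : ℕ → N} (n : ℕ) (h : ∀ j < n, ω j = ω' j) :
    cpath step x ω n = cpath step x ω' n := by
  induction n with
  | zero => rfl
  | succ n ih => rw [cpath, cpath, ih fun j hj => h j (by omega), h n (by omega)]

theorem cpath_mul (γ y : Γ) (u : σ) (ω : ℕ → N) (n : ℕ) :
    cpath step (γ * y, u) ω n = (γ * (cpath step (y, u) ω n).1, (cpath step (y, u) ω n).2) := by
  induction n with
  | zero => rfl
  | succ n ih => rw [cpath, ih]; simp [cpath, mv, mul_assoc]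

theorem lp_mul (γ y : Γ) (u : σ) (ω : ℕ → N) (n : ℕ) :
    lp step (γ * y, u) ω n = γ * lp step (y, u) ω n := by
  simp [lp, cpath_mul]

theorem measurable_cpath [Countable Γ] [MeasurableSpace Γ] [DiscreteMeasurableSpace Γ]
    [MeasurableSpace σ] [MeasurableSpace N]
    (h : Measurable fun p : σ × N => step p.1 p.2) (n : ℕ) :
    Measurable fun p : (Γ × σ) × (ℕ → N) => cpath step p.1 p.2 n := by
  induction n with
  | zero => exact measurable_fst
  | succ n ih =>
    have h2 : Measurable fun p : (Γ × σ) × (ℕ → N) => step (cpath step p.1 p.2 n).2 (p.2 n) :=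
      h.comp (ih.snd.prodMk ((measurable_pi_apply n).comp measurable_snd))
    have h3 : Measurable fun q : Γ × Γ => q.1 * q.2 := Measurable.of_discrete
    exact (h3.comp (ih.fst.prodMk h2.fst)).prodMk h2.snd

theorem measurable_lp [Countable Γ] [MeasurableSpace Γ] [DiscreteMeasurableSpace Γ]
    [MeasurableSpace σ] [MeasurableSpace N]
    (h : Measurable fun p : σ × N => step p.1 p.2) :
    Measurable fun p : (Γ × σ) × (ℕ → N) => lp step p.1 p.2 :=
  measurable_pi_lambda _ fun n => (measurable_cpath step h n).fst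

theorem orb_skew {Z : Type} [MulAction Γ Z] (z : Z) (u : σ) (ω : ℕ → N) (n : ℕ) :
    orb (skew step) (z, u) ω n = ((lp step (1, u) ω n)⁻¹ • z, (cpath step (1, u) ω n).2) := by
  induction n with
  | zero => simp [orb, lp, cpath]
  | succ n ih => rw [orb, ih]; simp [skew, lp, cpath, mv, mul_smul]

end

section
variable {Y N : Type} (T : N → Y → Y)

theorem orb_succ' (y : Y) (ω : ℕ → N) (n : ℕ) :
    orb T y ω (n + 1) = orb T (T (ω 0) y) (fun j => ω (j + 1)) n := by
  induction n with
  | zero => rfl
  | succ n ih => rw [orb, ih]; rfl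

theorem orb_add (y : Y) (ω : ℕ → N) (R n : ℕ) :
    orb T y ω (n + R) = orb T (orb T y ω R) (fun j => ω (j + R)) n := by
  induction n with
  | zero => simp [orb]
  | succ n ih => rw [Nat.add_right_comm, orb, ih]; rfl

theorem orb_congr (y : Y) {ω ω' : ℕ → N} (n : ℕ) (h : ∀ j < n, ω j = ω' j) :
    orb T y ω n = orb T y ω' n := by
  induction n with
  | zero => rfl
  | succ n ih => rw [orb, orb, ih fun j hj => h j (by omega), h n (by omega)]

variable [MeasurableSpace Y] [MeasurableSpace N] {μ : Measure Y} {T}

theorem RMP.measurable_orb (h : RMP μ T) (n : ℕ) :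
    Measurable fun p : Y × (ℕ → N) => orb T p.1 p.2 n := by
  induction n with
  | zero => exact measurable_fst
  | succ n ih => exact h.meas.comp (ih.prodMk ((measurable_pi_apply n).comp measurable_snd))

/-- The pair (new state, noise) has the product law. -/
theorem RMP.mp_pair [SFinite μ] (h : RMP μ T) (P : Measure N) [SFinite P] :
    MeasurePreserving (fun p : Y × N => (T p.2 p.1, p.2)) (μ.prod P) (μ.prod P) := by
  have h1 : MeasurePreserving (fun p : N × Y => (id p.1, T p.1 p.2)) (P.prod μ) (P.prod μ) :=
    (MeasurePreserving.id P).skew_product (h.meas.comp measurable_swap)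
      (Filter.Eventually.of_forall fun g => (h.mp g).map_eq)
  exact (Measure.measurePreserving_swap.comp h1).comp Measure.measurePreserving_swap

/-- The skew shift preserves the stationary law. -/
theorem RMP.mp_skewShift [SFinite μ] (h : RMP μ T) (P : Measure N) [IsProbabilityMeasure P] :
    MeasurePreserving (fun p : Y × (ℕ → N) => (T (p.2 0) p.1, fun j => p.2 (j + 1)))
      (μ.prod (iid P)) (μ.prod (iid P)) := by
  have h1 := (MeasurePreserving.id μ).prod (mp_headTail P)
  have h2 := (measurePreserving_prodAssoc μ P (iid P)).symm _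
  have h3 := ((measurePreserving_fst (μ := μ) (ν := P)).comp (h.mp_pair P)).prod
    (MeasurePreserving.id (iid P))
  exact (h3.comp h2).comp h1

end

end Vale.Agent.P188
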