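import Vale.Agent.P188.ChainS

/-! P188: basic lemmas on layers, extensions and the torus. -/

namespace Vale.Agent.P188

open Function MeasureTheory Filter Matrix
open scoped ENNReal NNReal Topology

theorem toR_mul {k : ℕ} (a b : Zk k) : toR (a * b) = toR a + toR b := by
  funext i; simp [toR]

theorem toR_one {k : ℕ} : toR (1 : Zk k) = 0 := by funext i; simp [toR]

theorem toR_inv {k : ℕ} (a : Zk k) : toR a⁻¹ = -toR a := by funext i; simp [toR]

section
variable {G : Type*} [Group G] {k : ℕ} (π : G →* Zk k)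
theorem ht_mul (g h : G) : ht π (g * h) = ht π g + ht π h := by simp [ht, toR_mul]
theorem ht_one : ht π 1 = 0 := by simp [ht, toR_one]
theorem ht_inv (g : G) : ht π g⁻¹ = -ht π g := by simp [ht, toR_inv]
end

theorem Tr.mono {Γ : Type} [Group Γ] {k : ℕ} {S : Finset Γ} {π : Γ →* Zk k} {a : Rk k}
    {κ Λ κ' Λ' : ℝ} {y : ℕ → Γ} (h : Tr S π a κ Λ y) (h1 : κ ≤ κ') (h2 : Λ ≤ Λ') :
    Tr S π a κ' Λ' y := fun j => by
  have : κ * j + Λ ≤ κ' * j + Λ' :=
    add_le_add (mul_le_mul_of_nonneg_right h1 (Nat.cast_nonneg j)) h2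
  exact ⟨(h j).1.trans this, (h j).2.trans this⟩

theorem Tr.mul_left {Γ : Type} [Group Γ] {k : ℕ} {S : Finset Γ} {π : Γ →* Zk k} {a : Rk k}
    {κ Λ : ℝ} {y : ℕ → Γ} (g : Γ) : Tr S π a κ Λ (fun j => g * y j) ↔ Tr S π a κ Λ y := by
  refine forall_congr' fun j => ?_
  have h1 : (g * y j)⁻¹ * (g * y (j + 1)) = (y j)⁻¹ * y (j + 1) := by group
  have h2 : ht π (g * y j) - ht π (g * y 0) = ht π (y j) - ht π (y 0) := by
    rw [ht_mul, ht_mul]; abel
  simp only [h1, h2]

namespace Layer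
variable {k : ℕ} (L : Layer k)

theorem Qi_mul : L.Qi * L.Q = 1 := mul_eq_one_comm.1 L.Q_mul

theorem R_one : L.R 1 = 1 := by simp [R]

theorem R_mul (a b : Zk k) : L.R (a * b) = L.R a * L.R b := by
  simp only [R, map_mul]
  exact Matrix.map_mul (f := Int.castRingHom ℝ)

theorem B_eq (b : Zk k) : L.B b = L.Qi * L.R b * L.Q := rfl

theorem B_one : L.B 1 = 1 := by rw [B_eq, R_one, Matrix.mul_one, Qi_mul]

theorem B_mul (a b : Zk k) : L.B (a * b) = L.B a * L.B b := by
  simp only [B_eq, R_mul, Matrix.mul_assoc]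
  rw [← Matrix.mul_assoc L.Q L.Qi, L.Q_mul, Matrix.one_mul]

theorem Q_B (b : Zk k) (x : Fin L.m → ℝ) :
    L.Q.mulVec ((L.B b).mulVec x) = (L.R b).mulVec (L.Q.mulVec x) := by
  simp only [B_eq, mulVec_mulVec]
  rw [← Matrix.mul_assoc, ← Matrix.mul_assoc, L.Q_mul, Matrix.one_mul]

theorem R_cast (b : Zk k) (v : Fin L.m → ℤ) :
    (L.R b).mulVec (fun i => (v i : ℝ)) = fun i => (((L.ρ b).mulVec v i : ℤ) : ℝ) := by
  funext i; simp [R, mulVec, dotProduct]

theorem Q_co (v : Fin L.m → ℤ) : L.Q.mulVec (L.co v) = fun i => (v i : ℝ) := by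
  simp [co, mulVec_mulVec, L.Q_mul]

theorem co_add (v v' : Fin L.m → ℤ) : L.co (v + v') = L.co v + L.co v' := by
  simp only [co, ← mulVec_add]; congr 1; funext i; simp

theorem co_sub (v v' : Fin L.m → ℤ) : L.co (v - v') = L.co v - L.co v' := by
  simp only [co, ← mulVec_sub]; congr 1; funext i; simp

theorem co_rho (b : Zk k) (v : Fin L.m → ℤ) :
    L.co ((L.ρ b).mulVec v) = (L.B b).mulVec (L.co v) := by
  rw [co, ← R_cast, B_eq, ← mulVec_mulVec, ← mulVec_mulVec, Q_co]

theorem pr_add (a : Rk k) (x y : Fin L.m → ℝ) : L.pr a (x + y) = L.pr a x + L.pr a y := rfl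

theorem pr_sub (a : Rk k) (x y : Fin L.m → ℝ) : L.pr a (x - y) = L.pr a x - L.pr a y := rfl

theorem pr_emb (a : Rk k) (y : L.Neg a → ℝ) : L.pr a (L.emb a y) = y := by
  funext i; simp [pr, emb, i.2]

theorem norm_pr_le (a : Rk k) (x : Fin L.m → ℝ) : ‖L.pr a x‖ ≤ ‖x‖ :=
  (pi_norm_le_iff_of_nonneg (norm_nonneg _)).2 fun i => norm_le_pi_norm x i.1

theorem B_block (a : Rk k) (b : Zk k) {i j : Fin L.m} (h : ¬ (L.wt i a < 0 ↔ L.wt j a < 0)) :
    L.B b i j = 0 := L.block b i j fun e => h (by rw [e])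

theorem pr_B (a : Rk k) (b : Zk k) (x : Fin L.m → ℝ) :
    L.pr a ((L.B b).mulVec x) = (L.Bm a b).mulVec (L.pr a x) := by
  funext i
  simp only [pr, Bm, mulVec, dotProduct, toSquareBlockProp_def, of_apply]
  rw [← Finset.sum_subtype (Finset.univ.filter fun j => L.wt j a < 0) (by simp)
    (fun j => L.B b i.1 j * x j), Finset.sum_filter]
  refine Finset.sum_congr rfl fun j _ => ?_
  split_ifs with h
  · rfl
  · rw [L.B_block a b (by simp [i.2, h]), zero_mul]

theorem Bm_one (a : Rk k) : L.Bm a 1 = 1 := by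
  ext i j; simp [Bm, B_one, toSquareBlockProp_def, one_apply, Subtype.ext_iff]

theorem Bm_mulVec_mul (a : Rk k) (b b' : Zk k) (y : L.Neg a → ℝ) :
    (L.Bm a (b * b')).mulVec y = (L.Bm a b).mulVec ((L.Bm a b').mulVec y) := by
  rw [← L.pr_emb a y, ← pr_B, ← pr_B, ← pr_B, B_mul, mulVec_mulVec]

theorem Bm_mul (a : Rk k) (b b' : Zk k) : L.Bm a (b * b') = L.Bm a b * L.Bm a b' := by
  refine Matrix.toLin'.injective (LinearMap.ext fun y => ?_)
  simp [Bm_mulVec_mul]

theorem abs_det_Bm (a : Rk k) (b : Zk k) :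
    |(L.Bm a b).det| = Real.exp (∑ i with L.wt i a < 0, L.wt i (toR b)) :=
  L.det b (fun i => L.wt i a < 0) fun i j h => by rw [h]

theorem kap_append (a : Rk k) (w : List (Wt k)) :
    kap (List.ofFn L.wt ++ w) a = ∑ i with L.wt i a < 0, L.wt i + kap w a := by
  classical
  simp only [kap, List.filter_append, List.sum_append]
  congr 1
  rw [List.ofFn_eq_map, List.filter_map, Finset.sum_filter, Fin.sum_univ_def]
  induction List.finRange L.m with
  | nil => simp
  | cons i l ih => by_cases h : L.wt i a < 0 <;> simp [h, List.filter_cons] <;> simpa using ih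

end Layer

section torus
variable {m : ℕ}

theorem lift_prj (x : Fin m → ℝ) : lift (prj x) = fun i => Int.fract (x i) := by
  funext i
  simpa [lift, prj] using AddCircle.coe_equivIco_mk_apply (1 : ℝ) (x i)

theorem prj_lift (u : Tor m) : prj (lift u) = u := by
  funext i; exact AddCircle.coe_equivIco

theorem lift_mem (u : Tor m) (i : Fin m) : lift u i ∈ Set.Ico (0 : ℝ) 1 := by
  simpa [lift] using (AddCircle.equivIco 1 0 (u i)).2

theorem norm_lift_le (u : Tor m) : ‖lift u‖ ≤ 1 :=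
  (pi_norm_le_iff_of_nonneg zero_le_one).2 fun i => by
    rw [Real.norm_eq_abs, abs_of_nonneg (lift_mem u i).1]; exact (lift_mem u i).2.le

theorem prj_add (x y : Fin m → ℝ) : prj (x + y) = prj x + prj y := by
  funext i; simp [prj]

theorem prj_int (v : Fin m → ℤ) : prj (fun i => (v i : ℝ)) = 0 := by
  funext i
  simpa [prj] using (AddCircle.coe_eq_zero_iff (1 : ℝ)).2 ⟨v i, by simp⟩

theorem lift_prj_add_flo (x : Fin m → ℝ) :
    lift (prj x) + (fun i => ((Multiplicative.toAdd (flo x) i : ℤ) : ℝ)) = x := by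
  funext i; simp [lift_prj, flo]

theorem flo_add_int (x : Fin m → ℝ) (v : Fin m → ℤ) :
    flo (x + fun i => (v i : ℝ)) = flo x * Multiplicative.ofAdd v := by
  apply Multiplicative.toAdd.injective
  funext i; simp [flo]

theorem flo_lift (u : Tor m) : flo (lift u) = 1 := by
  apply Multiplicative.toAdd.injective
  funext i; simpa [flo] using Int.floor_eq_zero_iff.2 (lift_mem u i)

theorem norm_clamp_le (t : Fin m → ℝ) : ‖clamp t‖ ≤ 1 :=
  (pi_norm_le_iff_of_nonneg zero_le_one).2 fun i => by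
    rw [Real.norm_eq_abs, abs_le]
    exact ⟨le_max_left _ _, max_le (by norm_num) (min_le_left _ _)⟩

theorem continuous_clamp : Continuous (clamp : (Fin m → ℝ) → Fin m → ℝ) := by
  unfold clamp; fun_prop

theorem continuous_prj : Continuous (prj : (Fin m → ℝ) → Tor m) :=
  continuous_pi fun i => (AddCircle.continuous_mk' 1).comp (continuous_apply i)

theorem measurable_lift : Measurable (lift : Tor m → Fin m → ℝ) :=
  measurable_pi_lambda _ fun i => measurable_subtype_coe.comp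
    ((AddCircle.measurableEquivIco 1 0).measurable.comp (measurable_pi_apply i))

theorem ae_clamp : ∀ᵐ t ∂noiseM m, clamp t = t := by
  have h : ∀ᵐ s ∂rho1, max (-1) (min 1 s) = s := by
    rw [rho1, ae_withDensity_iff (continuous_dens.measurable.ennreal_ofReal)]
    refine ae_of_all _ fun s hs => ?_
    have : |s| < 1 := by
      by_contra h
      exact hs (by rw [dens_eq_zero (not_lt.1 h)]; simp)
    rw [abs_lt] at this
    rw [min_eq_right this.2.le, max_eq_right this.1.le]
  have := Measure.ae_eq_pi (μ := fun _ : Fin m => rho1)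
    (f := fun _ s => max (-1) (min 1 s)) (f' := fun _ s => s) fun _ => h
  exact this

/-- Affine maps of the torus with unimodular linear part preserve Haar measure. -/
theorem mp_affine {k : ℕ} (L : Layer k) (b : Zk k) (c : Fin L.m → ℝ) :
    MeasurePreserving (fun u : Tor L.m => prj ((L.R b).mulVec (lift u) + c))
      (torM L.m) (torM L.m) := by
  let f : (M : Matrix (Fin L.m) (Fin L.m) ℤ) → Tor L.m →+ Tor L.m := fun M =>
    { toFun := fun u i => ∑ j, M i j • u j
      map_zero' := by funext i; simp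
      map_add' := fun u v => by funext i; simp [Finset.sum_add_distrib] }
  have hf : ∀ b (x : Fin L.m → ℝ), f (L.ρ b) (prj x) = prj ((L.R b).mulVec x) := by
    intro b x
    funext i
    simp only [f, prj, Layer.R, mulVec, dotProduct, map_apply, AddMonoidHom.coe_mk,
      ZeroHom.coe_mk]
    rw [QuotientAddGroup.mk_sum]
    refine Finset.sum_congr rfl fun j _ => ?_
    rw [← zsmul_eq_mul, AddCircle.coe_zsmul]
  have hc : Continuous (f (L.ρ b)) := by
    simp only [f, AddMonoidHom.coe_mk, ZeroHom.coe_mk]; fun_prop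
  have hs : Surjective (f (L.ρ b)) := fun u =>
    ⟨prj ((L.R b⁻¹).mulVec (lift u)), by
      rw [hf, mulVec_mulVec, ← L.R_mul, mul_inv_cancel, L.R_one, one_mulVec, prj_lift]⟩
  haveI : (torM L.m).IsAddHaarMeasure := by unfold torM; infer_instance
  have h1 : MeasurePreserving (f (L.ρ b)) (torM L.m) (torM L.m) :=
    AddMonoidHom.measurePreserving hc hs rfl
  have h2 := (measurePreserving_add_right (torM L.m) (prj c)).comp h1
  convert h2 using 1
  funext u
  rw [prj_add, ← hf, prj_lift]; rfl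

end torus

namespace Ext
variable {k : ℕ} {L : Layer k} {Γ Γ' : Type} [Group Γ] [Group Γ'] {π' : Γ' →* Zk k}
  (E : Ext L Γ Γ' π')

theorem p_ι (v : Zk L.m) : E.p (E.ι v) = 1 := by
  have : E.ι v ∈ E.p.ker := E.range_eq ▸ ⟨v, rfl⟩
  exact this

theorem vOf_ι (v : Zk L.m) : E.vOf (E.ι v) = Multiplicative.toAdd v := by
  rw [vOf, Function.leftInverse_invFun E.ι_inj]

theorem ι_vOf {g : Γ} (h : E.p g = 1) : E.ι (Multiplicative.ofAdd (E.vOf g)) = g := by
  have : g ∈ E.ι.range := E.range_eq ▸ h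
  obtain ⟨v, rfl⟩ := this
  rw [vOf_ι]; rfl

theorem mul_ι (g : Γ) (v : Zk L.m) : g * E.ι v = E.ι (L.act (π' (E.p g)) v) * g := by
  rw [← E.conj]; group

theorem disc_spec {s : Γ' → Γ} (hs : ∀ g, E.p (s g) = g) (g g' : Γ) :
    E.ι (Multiplicative.ofAdd (E.disc s g g')) * (g * s ((E.p g)⁻¹ * E.p g')) = g' := by
  rw [disc, E.ι_vOf (by simp [hs])]; group

theorem disc_ι_mul {s : Γ' → Γ} (hs : ∀ g, E.p (s g) = g) (g g' : Γ) (v : Fin L.m → ℤ) :
    E.disc s g (E.ι (Multiplicative.ofAdd v) * g') = v + E.disc s g g' := by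
  have h := E.disc_spec hs g g'
  have h2 : E.ι (Multiplicative.ofAdd v) * g' * (g * s ((E.p g)⁻¹ * E.p g'))⁻¹ =
      E.ι (Multiplicative.ofAdd (v + E.disc s g g')) := by
    rw [ofAdd_add, map_mul]
    conv_lhs => rw [← h]
    rw [h]; nth_rewrite 1 [← h]; group
  rw [disc, map_mul, p_ι, one_mul, h2, vOf_ι]; rfl

theorem place_ι_mul (g : Γ) (v : Fin L.m → ℤ) (X : Fin L.m → ℝ) :
    E.place (E.ι (Multiplicative.ofAdd v) * g) X = E.place g (X + L.co v) := by
  have h1 : (L.R (π' (E.p g))⁻¹).mulVec (L.Q.mulVec (X + L.co v)) =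
      (L.R (π' (E.p g))⁻¹).mulVec (L.Q.mulVec X) +
        fun i => (((L.ρ (π' (E.p g))⁻¹).mulVec v i : ℤ) : ℝ) := by
    rw [mulVec_add, mulVec_add, L.Q_co, L.R_cast]
  simp only [place, map_mul, p_ι, one_mul, h1, flo_add_int, prj_add, prj_int, add_zero]
  congr 1
  rw [← map_mul, mul_comm (flo _), map_mul, ← mul_assoc (g), E.mul_ι g (Multiplicative.ofAdd _)]
  congr 3
  simp [Layer.act, mulVec_mulVec, ← map_mul]

end Ext

end Vale.Agent.P188
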