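import Vale.Agent.P188.Chain

namespace Vale.Agent.P188

universe u v

/-- The theorem. -/
def Main_stmt : Prop :=
  ∀ (H : Type u) (G : Type v) [Group H] [Group G] (S : Finset H) (T : Finset G),
    Subgroup.closure (S : Set H) = ⊤ → Subgroup.closure (T : Set G) = ⊤ →
    ∀ (K C : ℝ) (F : H → G), IsQuasiIsometry S T K C F →
    IsVirtuallyPolycyclic G → IsVirtuallyPolycyclic H

end Vale.Agent.P188
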