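import Mathlib

/-! Word-length estimates in groups with a central-type series of generators. -/

namespace Vale.Agent.P188.Nil

open Pointwise

variable {G G' : Type*} [Group G] [Group G']

/-- The symmetric set attached to a list. -/
def Sy (xs : List G) : Set G := {g | g = 1 ∨ g ∈ xs ∨ g⁻¹ ∈ xs}

/-- The subgroup generated by a list. -/
def cl (xs : List G) : Subgroup G := Subgroup.closure {x | x ∈ xs}

lemma one_mem_Sy (xs : List G) : (1 : G) ∈ Sy xs := Or.inl rfl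

lemma mem_Sy {xs : List G} {x : G} (h : x ∈ xs) : x ∈ Sy xs := Or.inr (Or.inl h)

lemma inv_mem_Sy {xs : List G} {g : G} (h : g ∈ Sy xs) : g⁻¹ ∈ Sy xs := by
  rcases h with h | h | h
  · exact Or.inl (by simp [h])
  · exact Or.inr (Or.inr (by simpa using h))
  · exact Or.inr (Or.inl h)

lemma Sy_mono {xs ys : List G} (h : xs ⊆ ys) : Sy xs ⊆ Sy ys := by
  rintro g (hg | hg | hg)
  · exact Or.inl hg
  · exact Or.inr (Or.inl (h hg))
  · exact Or.inr (Or.inr (h hg))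

lemma Sy_finite (xs : List G) : (Sy xs).Finite := by
  have h1 : {x | x ∈ xs}.Finite := List.finite_toSet xs
  refine ((Set.finite_singleton (1 : G)).union (h1.union h1.inv)).subset ?_
  rintro g (hg | hg | hg)
  · exact Or.inl hg
  · exact Or.inr (Or.inl hg)
  · exact Or.inr (Or.inr hg)

lemma Sy_pow_finite (xs : List G) (n : ℕ) : (Sy xs ^ n).Finite := by
  induction n with
  | zero => rw [pow_zero]; exact Set.finite_one
  | succ n ih => rw [pow_succ]; exact ih.mul (Sy_finite xs)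

lemma mem_cl {xs : List G} {x : G} (h : x ∈ xs) : x ∈ cl xs := Subgroup.subset_closure h

lemma cl_mono {xs ys : List G} (h : xs ⊆ ys) : cl xs ≤ cl ys :=
  Subgroup.closure_mono fun _ hx => h hx

lemma cl_le {xs : List G} {H : Subgroup G} (h : ∀ x ∈ xs, x ∈ H) : cl xs ≤ H :=
  (Subgroup.closure_le H).2 h

lemma Sy_sub {xs : List G} {H : Subgroup G} (h : ∀ x ∈ xs, x ∈ H) : Sy xs ⊆ H := by
  rintro g (hg | hg | hg)
  · rw [hg]; exact H.one_mem
  · exact h g hg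
  · exact H.inv_mem_iff.1 (h _ hg)

lemma pow_sub {X : Set G} {H : Subgroup G} (h : X ⊆ H) (n : ℕ) : X ^ n ⊆ H := by
  induction n with
  | zero => intro g hg; rw [pow_zero, Set.mem_one] at hg; rw [hg]; exact H.one_mem
  | succ n ih =>
    rw [pow_succ]
    rintro _ ⟨a, ha, b, hb, rfl⟩
    exact H.mul_mem (ih ha) (h hb)

lemma Sy_pow_cl {xs : List G} {n : ℕ} {g : G} (h : g ∈ Sy xs ^ n) : g ∈ cl xs :=
  pow_sub (Sy_sub fun _ => mem_cl) n h

lemma mul_mem_pow {X : Set G} {a b : ℕ} {g h : G} (hg : g ∈ X ^ a) (hh : h ∈ X ^ b) :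
    g * h ∈ X ^ (a + b) := by
  rw [pow_add]; exact Set.mul_mem_mul hg hh

lemma mem_pow_one {X : Set G} {g : G} (hg : g ∈ X) : g ∈ X ^ 1 := by rwa [pow_one]

lemma inv_mem_pow {X : Set G} (hX : ∀ g ∈ X, g⁻¹ ∈ X) {n : ℕ} {g : G} (hg : g ∈ X ^ n) :
    g⁻¹ ∈ X ^ n := by
  have : X ⊆ X⁻¹ := fun g hg => hX g hg
  have h2 := Set.pow_subset_pow_left (n := n) this hg
  rwa [inv_pow, Set.mem_inv] at h2

lemma inv_Sy {xs : List G} {n : ℕ} {g : G} (hg : g ∈ Sy xs ^ n) : g⁻¹ ∈ Sy xs ^ n :=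
  inv_mem_pow (fun _ => inv_mem_Sy) hg

lemma up_Sy {xs : List G} {a b : ℕ} {g : G} (hg : g ∈ Sy xs ^ a) (h : a ≤ b) : g ∈ Sy xs ^ b :=
  Set.pow_subset_pow_right (one_mem_Sy xs) h hg

lemma hom_pow (f : G →* G') {X : Set G} {Z : Set G'} (h : ∀ x ∈ X, f x ∈ Z) {n : ℕ} {g : G}
    (hg : g ∈ X ^ n) : f g ∈ Z ^ n := by
  have h1 : f '' X ⊆ Z := by rintro _ ⟨x, hx, rfl⟩; exact h x hx
  apply Set.pow_subset_pow_left h1
  rw [← Set.image_pow]
  exact ⟨g, hg, rfl⟩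

lemma lift_pow (f : G →* G') {X : Set G} {Z : Set G'} (h : ∀ z ∈ Z, ∃ x ∈ X, f x = z) {n : ℕ}
    {g : G'} (hg : g ∈ Z ^ n) : ∃ x ∈ X ^ n, f x = g := by
  have h1 : Z ⊆ f '' X := h
  have h2 := Set.pow_subset_pow_left (n := n) h1 hg
  rwa [← Set.image_pow] at h2

lemma conj_pow' (a : G) {X Z : Set G} (h : ∀ x ∈ X, a * x * a⁻¹ ∈ Z) {n : ℕ} {g : G}
    (hg : g ∈ X ^ n) : a * g * a⁻¹ ∈ Z ^ n :=
  hom_pow (MulAut.conj a).toMonoidHom (X := X) (Z := Z) h hg

lemma pow_pow' {X : Set G} {K n : ℕ} {g : G} (hg : g ∈ (X ^ K) ^ n) : g ∈ X ^ (K * n) := by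
  rwa [pow_mul]

lemma sub_pow {X Y : Set G} {K n : ℕ} (h : Y ⊆ X ^ K) {g : G} (hg : g ∈ Y ^ n) :
    g ∈ X ^ (K * n) := pow_pow' (Set.pow_subset_pow_left h hg)

lemma zpow_mem_pow {X : Set G} (h1 : (1 : G) ∈ X) {x : G} (hx : x ∈ X) (hx' : x⁻¹ ∈ X) {e : ℤ}
    {n : ℕ} (he : |e| ≤ n) : x ^ e ∈ X ^ n := by
  have h : e.natAbs ≤ n := by rw [abs_le] at he; omega
  apply Set.pow_subset_pow_right h1 h
  rcases Int.natAbs_eq e with h2 | h2
  · rw [h2, zpow_natCast, Int.natAbs_natCast]; exact Set.pow_mem_pow hx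
  · rw [h2, zpow_neg, zpow_natCast, Int.natAbs_neg, Int.natAbs_natCast, ← inv_pow]
    exact Set.pow_mem_pow hx'

lemma exists_pow_of_mem_cl {xs : List G} {g : G} (hg : g ∈ cl xs) : ∃ r, g ∈ Sy xs ^ r := by
  induction hg using Subgroup.closure_induction with
  | mem x hx => exact ⟨1, mem_pow_one (mem_Sy hx)⟩
  | one => exact ⟨0, by simp⟩
  | mul a b _ _ ha hb =>
    obtain ⟨r, hr⟩ := ha
    obtain ⟨s, hs⟩ := hb
    exact ⟨r + s, mul_mem_pow hr hs⟩
  | inv a _ ha =>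
    obtain ⟨r, hr⟩ := ha
    exact ⟨r, inv_Sy hr⟩

lemma finite_sub_pow {xs : List G} {F : Set G} (hF : F.Finite) (h : F ⊆ cl xs) :
    ∃ K, 1 ≤ K ∧ F ⊆ Sy xs ^ K := by
  induction F, hF using Set.Finite.induction_on with
  | empty => exact ⟨1, le_rfl, Set.empty_subset _⟩
  | @insert a s _ _ ih =>
    obtain ⟨K, hK1, hK⟩ := ih ((Set.subset_insert _ _).trans h)
    obtain ⟨r, hr⟩ := exists_pow_of_mem_cl (h (Set.mem_insert _ _))
    refine ⟨K + r, by omega, ?_⟩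
    rintro g (rfl | hg)
    · exact up_Sy hr (by omega)
    · exact up_Sy (hK hg) (by omega)

/-- Collecting the letter `x` to the right. -/
lemma collect {x : G} {Y Z W : Set G} (hW : ∀ w ∈ W, w = x ∨ w = x⁻¹ ∨ w ∈ Y) (h1 : (1 : G) ∈ Z)
    {L0 : ℕ} (hc : ∀ a : ℤ, |a| ≤ L0 → ∀ y ∈ Y, x ^ a * y * (x ^ a)⁻¹ ∈ Z) :
    ∀ L ≤ L0, ∀ g ∈ W ^ L, ∃ e : ℤ, |e| ≤ L ∧ g * (x ^ e)⁻¹ ∈ Z ^ L := by
  intro L
  induction L with
  | zero =>
    intro _ g hg
    rw [pow_zero, Set.mem_one] at hg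
    exact ⟨0, by simp, by simp [hg]⟩
  | succ L ih =>
    intro hL g hg
    rw [pow_succ] at hg
    obtain ⟨a, ha, w, hw, rfl⟩ := hg
    obtain ⟨e, he, hz⟩ := ih (by omega) a ha
    have hup : a * (x ^ e)⁻¹ ∈ Z ^ (L + 1) := Set.pow_subset_pow_right h1 (by omega) hz
    rcases hW w hw with rfl | rfl | hy
    · refine ⟨e + 1, by rw [abs_le] at he ⊢; push_cast; omega, ?_⟩
      convert hup using 1
      simp only [zpow_add, zpow_one]; group
    · refine ⟨e - 1, by rw [abs_le] at he ⊢; push_cast; omega, ?_⟩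
      convert hup using 1
      simp only [zpow_sub, zpow_one]; group
    · refine ⟨e, by push_cast; omega, ?_⟩
      have := mul_mem_pow hz (mem_pow_one (hc e (by omega) w hy))
      convert this using 1
      group

/-- A list of generators running down a central series of `N` with infinite cyclic steps. -/
def Good (N : Subgroup G) : List G → Prop
  | [] => True
  | x :: xs => x ∈ N ∧ (∀ g ∈ N, g * x * g⁻¹ * x⁻¹ ∈ cl xs) ∧
      (∀ e : ℤ, x ^ e ∈ cl xs → e = 0) ∧ Good N xs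

lemma le_pw (r K : ℕ) : K ≤ (r + 2) ^ K :=
  (Nat.lt_two_pow_self).le.trans (Nat.pow_le_pow_left (by omega) K)

lemma pw_add (r d : ℕ) : (r + 2) ^ d + 2 ≤ (r + 2) ^ (d + 2) := by
  have h1 : 1 ≤ (r + 2) ^ d := Nat.one_le_pow _ _ (by omega)
  have h2 : 4 ≤ (r + 2) ^ 2 := Nat.pow_le_pow_left (show 2 ≤ r + 2 by omega) 2
  rw [pow_add]; nlinarith

lemma mem_Sy_cons {x g : G} {xs : List G} (h : g ∈ Sy (x :: xs)) :
    g = x ∨ g = x⁻¹ ∨ g ∈ Sy xs := by
  rcases h with h | h | h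
  · exact Or.inr (Or.inr (Or.inl h))
  · rcases List.mem_cons.1 h with h | h
    · exact Or.inl h
    · exact Or.inr (Or.inr (mem_Sy h))
  · rcases List.mem_cons.1 h with h | h
    · exact Or.inr (Or.inl (by rw [← h, inv_inv]))
    · exact Or.inr (Or.inr (Or.inr (Or.inr h)))

/-- Conjugation by powers has polynomial growth. -/
lemma nil_nat {N : Subgroup G} : ∀ {xs : List G}, Good N xs → ∀ g ∈ N,
    ∃ d, ∀ n : ℕ, ∀ y ∈ Sy xs, g ^ n * y * (g ^ n)⁻¹ ∈ Sy xs ^ ((n + 2) ^ d)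
  | [], _, g, _ => ⟨0, fun n y hy => by
      have : y = 1 := by simpa [Sy] using hy
      rw [this]; simpa using one_mem_Sy _⟩
  | x :: xs, h, g, hg => by
    obtain ⟨d, hd⟩ := nil_nat h.2.2.2 g hg
    obtain ⟨K, hK⟩ := exists_pow_of_mem_cl (h.2.1 g hg)
    have hsub : Sy xs ⊆ Sy (x :: xs) := Sy_mono (List.subset_cons_self _ _)
    have key : ∀ m n : ℕ, n ≤ m →
        g ^ n * x * (g ^ n)⁻¹ * x⁻¹ ∈ Sy xs ^ (n * ((m + 2) ^ d * K)) := by
      intro m n
      induction n with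
      | zero => intro _; simp
      | succ n ih =>
        intro hn
        have h2 := pow_pow' (conj_pow' (g ^ n) (hd n) hK)
        have h3 := up_Sy h2 (Nat.mul_le_mul_right K
          (Nat.pow_le_pow_left (show n + 2 ≤ m + 2 by omega) d))
        have h4 := mul_mem_pow h3 (ih (by omega))
        convert h4 using 1
        · ring_nf
        · rw [pow_succ]; group
    refine ⟨d + K + 3, fun n y hy => ?_⟩
    have hx : g ^ n * x * (g ^ n)⁻¹ ∈ Sy (x :: xs) ^ ((n + 2) ^ (d + K + 3)) := by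
      have h2 := mul_mem_pow (Set.pow_subset_pow_left hsub (key n n le_rfl))
        (mem_pow_one (mem_Sy (List.mem_cons_self (a := x) (l := xs))))
      rw [inv_mul_cancel_right] at h2
      refine up_Sy h2 ?_
      have h3 : n * ((n + 2) ^ d * K) ≤ (n + 2) ^ (d + K + 1) := by
        rw [pow_succ, pow_add, mul_comm]
        exact Nat.mul_le_mul (Nat.mul_le_mul_left _ (le_pw n K)) (by omega)
      have := pw_add n (d + K + 1)
      rw [show d + K + 3 = d + K + 1 + 2 by ring]; omega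
    rcases mem_Sy_cons hy with rfl | rfl | hy
    · exact hx
    · convert inv_Sy hx using 1; group
    · exact up_Sy (Set.pow_subset_pow_left hsub (hd n y hy))
        (Nat.pow_le_pow_right (by omega) (by omega))

lemma nil_int {N : Subgroup G} {xs : List G} (h : Good N xs) {g : G} (hg : g ∈ N) :
    ∃ d, ∀ (n : ℕ) (a : ℤ), |a| ≤ n → ∀ y ∈ Sy xs,
      g ^ a * y * (g ^ a)⁻¹ ∈ Sy xs ^ ((n + 2) ^ d) := by
  obtain ⟨d, hd⟩ := nil_nat h g hg
  obtain ⟨d', hd'⟩ := nil_nat h g⁻¹ (N.inv_mem hg)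
  refine ⟨d + d', fun n a ha y hy => ?_⟩
  have h0 : a.natAbs + 2 ≤ n + 2 := by rw [abs_le] at ha; omega
  rcases Int.natAbs_eq a with h2 | h2
  · rw [h2, zpow_natCast]
    exact up_Sy (hd _ y hy) ((Nat.pow_le_pow_left h0 d).trans
      (Nat.pow_le_pow_right (by omega) (by omega)))
  · rw [h2, zpow_neg, zpow_natCast, ← inv_pow]
    exact up_Sy (hd' _ y hy) ((Nat.pow_le_pow_left h0 d').trans
      (Nat.pow_le_pow_right (by omega) (by omega)))

lemma good_dist {N : Subgroup G} {x : G} {xs : List G} (h : Good N (x :: xs)) :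
    ∃ d, ∀ r : ℕ, ∀ g ∈ Sy (x :: xs) ^ r,
      ∃ e : ℤ, |e| ≤ r ∧ g * (x ^ e)⁻¹ ∈ Sy xs ^ ((r + 2) ^ d) := by
  obtain ⟨d, hd⟩ := nil_int h.2.2.2 h.1
  refine ⟨d + 1, fun r g hg => ?_⟩
  obtain ⟨e, he, hz⟩ := collect (fun w hw => mem_Sy_cons hw) (Set.one_mem_pow (one_mem_Sy xs))
    (hd r) r le_rfl g hg
  refine ⟨e, he, up_Sy (pow_pow' hz) ?_⟩
  rw [pow_succ]
  exact Nat.mul_le_mul_left _ (by omega)

/-- Polynomial growth. -/
lemma good_growth {N : Subgroup G} : ∀ {xs : List G}, Good N xs →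
    ∃ d, ∀ r : ℕ, (Sy xs ^ r).ncard ≤ (r + 2) ^ d
  | [], _ => ⟨0, fun r => by
      have : Sy ([] : List G) = 1 := by ext g; simp [Sy]
      rw [this, one_pow, pow_zero]; exact (Set.ncard_singleton _).le⟩
  | x :: xs, h => by
    obtain ⟨d, hd⟩ := good_dist h
    obtain ⟨d', hd'⟩ := good_growth h.2.2.2
    refine ⟨(d + 2) * d' + 2, fun r => ?_⟩
    have hsub : Sy (x :: xs) ^ r ⊆ (fun p : G × ℤ => p.1 * x ^ p.2) ''
        ((Sy xs ^ ((r + 2) ^ d)) ×ˢ (Finset.Icc (-(r : ℤ)) r : Set ℤ)) := by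
      intro g hg
      obtain ⟨e, he, hz⟩ := hd r g hg
      exact ⟨(_, e), ⟨hz, by simpa [abs_le] using he⟩, by simp⟩
    have hfin : ((Sy xs ^ ((r + 2) ^ d)) ×ˢ (Finset.Icc (-(r : ℤ)) r : Set ℤ)).Finite :=
      (Sy_pow_finite xs _).prod (Finset.finite_toSet _)
    refine (Set.ncard_le_ncard hsub (hfin.image _)).trans ((Set.ncard_image_le hfin).trans ?_)
    rw [Set.ncard_prod, Set.ncard_coe_finset, Int.card_Icc, pow_add, pow_mul]
    refine Nat.mul_le_mul ((hd' _).trans (Nat.pow_le_pow_left (pw_add r d) _)) ?_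
    have : (r + 1 - -(r : ℤ)).toNat = 2 * r + 1 := by omega
    rw [this]; nlinarith

/-- Polynomial distortion of the terms of the series. -/
lemma good_sub {N : Subgroup G} {zs : List G} : ∀ {ys : List G}, Good N (ys ++ zs) →
    ∃ d, ∀ r : ℕ, ∀ g ∈ Sy (ys ++ zs) ^ r, g ∈ cl zs → g ∈ Sy zs ^ ((r + 2) ^ d)
  | [], _ => ⟨1, fun r g hg _ => up_Sy hg (by rw [pow_one]; omega)⟩
  | y :: ys, h => by
    obtain ⟨d, hd⟩ := good_dist h
    obtain ⟨d', hd'⟩ := good_sub (ys := ys) h.2.2.2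
    refine ⟨(d + 2) * d', fun r g hg hz => ?_⟩
    obtain ⟨e, -, he⟩ := hd r g hg
    have h1 : g ∈ cl (ys ++ zs) := cl_mono (List.subset_append_right _ _) hz
    have h2 : y ^ e ∈ cl (ys ++ zs) := by
      have := (cl (ys ++ zs)).mul_mem ((cl (ys ++ zs)).inv_mem (Sy_pow_cl he)) h1
      simpa using this
    rw [h.2.2.1 e h2, zpow_zero, inv_one, mul_one] at he
    refine up_Sy (hd' _ g he hz) ?_
    rw [pow_mul]
    exact Nat.pow_le_pow_left (pw_add r d) _

lemma cl_append (p : G →* G') {ys zs : List G} (hz : cl zs = p.ker) :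
    cl (ys ++ zs) = (cl (ys.map p)).comap p := by
  apply le_antisymm
  · refine cl_le fun x hx => ?_
    rcases List.mem_append.1 hx with hx | hx
    · exact mem_cl (List.mem_map_of_mem hx)
    · have : p x = 1 := by rw [← MonoidHom.mem_ker, ← hz]; exact mem_cl hx
      rw [Subgroup.mem_comap, this]; exact one_mem _
  · have h1 : p.ker ≤ cl (ys ++ zs) := hz ▸ cl_mono (List.subset_append_right _ _)
    rw [← Subgroup.comap_map_eq_self h1]
    refine Subgroup.comap_mono (cl_le fun x hx => ?_)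
    obtain ⟨y, hy, rfl⟩ := List.mem_map.1 hx
    exact Subgroup.mem_map_of_mem p (mem_cl (List.mem_append_left _ hy))

lemma good_lift (p : G →* G') {N : Subgroup G'} {zs : List G} (hz : cl zs = p.ker)
    (hg : Good (N.comap p) zs) : ∀ {ys : List G}, Good N (ys.map p) → Good (N.comap p) (ys ++ zs)
  | [], _ => hg
  | y :: ys, h => by
    refine ⟨h.1, fun g hg => ?_, fun e he => ?_, good_lift p hz hg h.2.2.2⟩
    · change _ ∈ cl (ys ++ zs)
      rw [cl_append p hz, Subgroup.mem_comap]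
      simpa using h.2.1 (p g) hg
    · change _ ∈ cl (ys ++ zs) at he
      rw [cl_append p hz, Subgroup.mem_comap, map_zpow] at he
      exact h.2.2.1 e he

end Vale.Agent.P188.Nil
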