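import Vale.Agent.P188.Basic

/-! Module statements for P188, part 1 (group theory, linear algebra, Hilbert spaces). -/

namespace Vale.Agent.P188

open Function MeasureTheory

/-- Gromov's theorem, with the length of the series bounded by the degree. -/
def Gromov_stmt : Prop :=
  ∀ (d : ℕ) (G : Type) [Group G] (S : Finset G), Subgroup.closure (S : Set G) = ⊤ →
    (∃ C : ℕ, ∀ r, (wBall S r).ncard ≤ C * (r + 1) ^ d) →
    ∃ L : Subgroup G, L.FiniteIndex ∧ ∃ m ≤ d, PolyZ m L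

/-- The final group-theoretic step. -/
def Fin_stmt : Prop :=
  ∀ (H Γ : Type) [Group H] [Group Γ] (S : Finset H) (T : Finset Γ),
    Subgroup.closure (S : Set H) = ⊤ → Subgroup.closure (T : Set Γ) = ⊤ →
    ∀ n, PolyZ n Γ → ∀ (K C : ℝ) (F : H → Γ), IsQuasiIsometry S T K C F →
    ∀ (k : ℕ) (φ : H →* Multiplicative (Rk k)) (D : ℕ),
    (∀ r ρ : ℕ, (hBall S (fun h => Multiplicative.toAdd (φ h)) r ρ).ncard ≤
      (D * (r + 1) * 2 ^ ρ) ^ D) →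
    IsVirtuallyPolycyclic H

/-- Virtually polycyclic groups are virtually towers. -/
def Tower_stmt : Prop :=
  ∀ (G : Type) [Group G], IsVirtuallyPolycyclic G →
    ∃ L : Subgroup G, L.FiniteIndex ∧
      ∃ (k : ℕ) (π : L →* Zk k) (w : List (Wt k)), Tower L π w ∧ Definite w

/-- Towers are poly-`ℤ`, with a finite generating set adapted to the kernel of the height. -/
def TowerBasic_stmt : Prop :=
  ∀ (k : ℕ) (Γ : Type) [Group Γ] (π : Γ →* Zk k) (w : List (Wt k)), Tower Γ π w →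
    (∃ n, PolyZ n Γ) ∧ Surjective π ∧ w.sum = 0 ∧
    ∃ S : Finset Γ, Subgroup.closure (S : Set Γ) = ⊤ ∧
      Subgroup.closure ((S : Set Γ) ∩ π.ker) = π.ker

/-- Elementary properties of the logarithmic size. -/
def SzBasic_stmt : Prop :=
  ∀ (k : ℕ) (Γ : Type) [Group Γ] (π : Γ →* Zk k) (S : Finset Γ),
    Subgroup.closure (S : Set Γ) = ⊤ →
    (∀ g, g ∈ hBall S (ht π) (2 ^ sz S π g) (sz S π g)) ∧ sz S π 1 = 0 ∧
    (∀ g h, sz S π (g * h) ≤ sz S π g + sz S π h + 1) ∧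
    (∀ g, sz S π g⁻¹ ≤ 2 * sz S π g) ∧ (∀ g, ‖ht π g‖ ≤ sz S π g) ∧
    (∃ C : ℕ, ∀ g, sz S π g ≤ C * wordLength S g) ∧
    (Bijective π → ∃ C : ℝ, ∀ g, (sz S π g : ℝ) ≤ C * (‖ht π g‖ + 1))

open Classical in
/-- The logarithmic size along one extension. -/
def SzExt_stmt : Prop :=
  ∀ (k : ℕ) (Γ Γ' : Type) [Group Γ] [Group Γ'] (π' : Γ' →* Zk k) (w : List (Wt k)),
    Tower Γ' π' w → ∀ (L : Layer k) (E : Ext L Γ Γ' π') (S : Finset Γ),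
    Subgroup.closure (S : Set Γ) = ⊤ →
    (∀ g, sz (S.image E.p) π' (E.p g) ≤ sz S (π'.comp E.p) g) ∧
    (∃ s : Γ' → Γ, s 1 = 1 ∧ (∀ g, E.p (s g) = g) ∧
      ∀ g, sz S (π'.comp E.p) (s g) ≤ sz (S.image E.p) π' g) ∧
    (∃ C : ℕ, ∀ (v : Zk L.m) (n : ℕ), (∀ i, |Multiplicative.toAdd v i| ≤ 2 ^ n) →
      sz S (π'.comp E.p) (E.ι v) ≤ n + C) ∧
    (∃ C : ℕ, ∀ (v : Zk L.m) (i : Fin L.m),
      |Multiplicative.toAdd v i| ≤ 2 ^ (C * (sz S (π'.comp E.p) (E.ι v) + 1)))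

/-- Counting words with bounded heights in a tower. -/
def Count_stmt : Prop :=
  ∀ (k : ℕ) (Γ : Type) [Group Γ] (π : Γ →* Zk k) (w : List (Wt k)), Tower Γ π w →
    ∀ S : Finset Γ, ∃ D : ℕ, ∀ r ρ : ℕ,
      (hBall S (ht π) r ρ).ncard ≤ (D * (r + 1) * 2 ^ ρ) ^ D

/-- One step of an invariant flag for commuting real operators. -/
def Flag_stmt : Prop :=
  ∀ (G E : Type) [Group G] [AddCommGroup E] [Module ℝ E] [FiniteDimensional ℝ E]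
    (ρ : G →* (E →ₗ[ℝ] E)), (∀ g h, ρ g * ρ h = ρ h * ρ g) →
    ∀ U : Submodule ℝ E, U ≠ ⊤ → (∀ g, ∀ u ∈ U, ρ g u ∈ U) →
    ∃ (x : ℂ →ₗ[ℝ] E) (l : G →* ℂˣ), (∃ z, x z ∉ U) ∧
      ∀ g z, ρ g (x z) - x (l g * z) ∈ U

/-- Every weight is the modulus of an eigen-functional on a normal subgroup. -/
def Eig_stmt : Prop :=
  ∀ (k : ℕ) (Γ : Type) [Group Γ] (π : Γ →* Zk k) (w : List (Wt k)), Tower Γ π w →
    ∀ χ ∈ w, ∃ (U : Subgroup Γ) (φ : Γ → ℂ) (l : Zk k →* ℂˣ), U.Normal ∧ U ≤ π.ker ∧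
      (∀ u ∈ U, ∀ u' ∈ U, φ (u * u') = φ u + φ u') ∧ (∃ u ∈ U, φ u ≠ 0) ∧
      (∀ g, ∀ u ∈ U, φ (g * u * g⁻¹) = l (π g) * φ u) ∧
      ∀ b, ‖(l b : ℂ)‖ = Real.exp (χ (toR b))

/-- Reduced cohomology of towers: the Hilbert space structure theorem. -/
def HST_stmt : Prop :=
  ∀ (k : ℕ) (Γ : Type) [Group Γ] (π : Γ →* Zk k) (w : List (Wt k)), Tower Γ π w →
    ∀ (V : Type) [NormedAddCommGroup V] [InnerProductSpace ℝ V] [CompleteSpace V]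
    (U : Γ →* (V ≃ₗᵢ[ℝ] V)) (b : Γ → V), IsCocycle U b →
    ∃ (E : Submodule ℝ V) (bE : Γ → V) (D : Zk k →* Multiplicative V),
      FiniteDimensional ℝ E ∧ IsCocycle U bE ∧ (∀ g, bE g ∈ E) ∧
      (∀ g, ∀ e ∈ E, U g e ∈ E) ∧ (∀ n ∈ π.ker, ∀ e ∈ E, U n e = e) ∧
      E = Submodule.span ℝ (bE '' (π.ker : Set Γ)) ∧
      (∀ g a, U g (Multiplicative.toAdd (D a)) = Multiplicative.toAdd (D a)) ∧
      HACob U fun g => b g - bE g - Multiplicative.toAdd (D (π g))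

/-- Linear isometries of the entropy norm. -/
def Phi {k : ℕ} (w : List (Wt k)) : Set (Matrix (Fin k) (Fin k) ℝ) :=
  {D | ∀ b, enorm' w (D.mulVec b) = enorm' w b}

/-- Polyhedral geometry of the entropy norm. -/
def Phi_stmt : Prop :=
  ∀ (k : ℕ) (w : List (Wt k)), w.sum = 0 → Definite w →
    (Phi w).Finite ∧ (∀ D ∈ Phi w, IsUnit D.det) ∧
    (∃ (F : Finset (Rk k)) (c : ℝ), 0 < c ∧
      (∀ a ∈ F, Generic w a ∧ ∀ D ∈ Phi w, c * ‖D.mulVec a - a‖ ≤ kap w a (D.mulVec a - a)) ∧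
      ∀ b, c * ‖b‖ ≤ ∑ a ∈ F, |kap w a b|) ∧
    (∀ a, enorm' w a = -kap w a a) ∧ (∀ a, Generic w a → kap w (-a) = -kap w a) ∧
    (∀ D : Matrix (Fin k) (Fin k) ℝ, IsUnit D.det → ∀ a, enorm' w (D.mulVec a) < enorm' w a →
      ∃ a', Generic w a' ∧ Generic w (D.mulVec a') ∧ enorm' w (D.mulVec a') < enorm' w a')

/-- Poly-`ℤ` groups have invariant probability measures on compact spaces. -/
def Amen_stmt : Prop :=
  ∀ (n : ℕ) (Γ : Type) [Group Γ], PolyZ n Γ →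
    ∀ (Z : Type) [TopologicalSpace Z] [CompactSpace Z] [TopologicalSpace.MetrizableSpace Z]
    [MeasurableSpace Z] [BorelSpace Z] [Nonempty Z] [MulAction Γ Z] [ContinuousConstSMul Γ Z],
    ∃ ν : Measure Z, IsProbabilityMeasure ν ∧ ∀ g : Γ, MeasurePreserving (g • ·) ν ν

/-- The maximal ergodic inequality. -/
def MaxErg_stmt : Prop :=
  ∀ (Ω : Type) [MeasurableSpace Ω] (μ : Measure Ω) [IsFiniteMeasure μ] (T : Ω → Ω),
    MeasurePreserving T μ μ → ∀ f : Ω → ℝ, Measurable f → (∀ x, 0 ≤ f x) → Integrable f μ →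
    ∀ c : ℝ, 0 < c →
    μ.real {x | ∃ n : ℕ, c * n < ∑ j ∈ Finset.range n, f (T^[j] x)} ≤ (∫ x, f x ∂μ) / c

/-- An equivariant family of Lipschitz, finite-to-one self-maps of `Γ`. -/
structure QS {Γ : Type} [Group Γ] (S : Finset Γ) (K : ℕ) (Z : Type) [MulAction Γ Z]
    [MeasurableSpace Z] where
  q : Z → Γ → Γ
  q_one : ∀ z, q z 1 = 1
  q_mul : ∀ z p p', q z (p * p') = q z p * q (p⁻¹ • z) p'
  q_lip : ∀ z, ∀ s ∈ S, wordLength S (q z s) ≤ K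
  q_fib : ∀ z y, (q z ⁻¹' {y}).Finite ∧ (q z ⁻¹' {y}).ncard ≤ K
  q_meas : ∀ p y, MeasurableSet {z | q z p = y}

/-- The structure theorem for the height cocycle. -/
def ST_stmt : Prop :=
  ∀ (k : ℕ) (Γ : Type) [Group Γ] (π : Γ →* Zk k) (w : List (Wt k)), Tower Γ π w → Definite w →
    ∀ S : Finset Γ, Subgroup.closure (S : Set Γ) = ⊤ → ∀ K : ℕ, ∃ K' : ℝ,
    ∀ (Z : Type) [MulAction Γ Z] [MeasurableSpace Z] (Q : QS S K Z) (ν : Measure Z)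
    [IsProbabilityMeasure ν], (∀ g : Γ, MeasurePreserving (g • ·) ν ν) →
    ∃ D : Z → Matrix (Fin k) (Fin k) ℝ, (∀ i j, Measurable fun z => D z i j) ∧
      (∀ g : Γ, ∀ z, D (g • z) = D z) ∧ (∀ z b, ‖(D z).mulVec b‖ ≤ K' * ‖b‖) ∧
      ACob ν fun g z => ht π (Q.q z g) - (D z).mulVec (ht π g)

end Vale.Agent.P188
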