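import Vale.Agent.P188.NilA
import Vale.Agent.P188.Stmts

/-! Exponential distortion of the kernel of the height, and the basis of a lattice. -/

namespace Vale.Agent.P188.Nil

open Pointwise Function

variable {G G' : Type*} [Group G] [Group G']

lemma conj_bound {X T : Set G} {K : ℕ} (h : ∀ t ∈ T, ∀ x ∈ X, t * x * t⁻¹ ∈ X ^ K) (n : ℕ) :
    ∀ u ∈ T ^ n, ∀ x ∈ X, u * x * u⁻¹ ∈ X ^ (K ^ n) := by
  induction n with
  | zero =>
    intro u hu x hx
    rw [pow_zero, Set.mem_one] at hu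
    simpa [hu] using hx
  | succ n ih =>
    intro u hu x hx
    rw [pow_succ'] at hu
    obtain ⟨t, ht, u, hu, rfl⟩ := hu
    have := pow_pow' (conj_pow' t (h t ht) (ih u hu x hx))
    convert this using 1
    · rw [pow_succ']
    · group

lemma comm_bound {xs : List G} {T : Set G} {K : ℕ} (hK : 1 ≤ K)
    (h : ∀ t ∈ T, ∀ x ∈ Sy xs, t * x * t⁻¹ ∈ Sy xs ^ K) {y : G}
    (h2 : ∀ t ∈ T, t * y * t⁻¹ * y⁻¹ ∈ Sy xs ^ K) (n : ℕ) :
    ∀ u ∈ T ^ n, u * y * u⁻¹ * y⁻¹ ∈ Sy xs ^ ((2 * K) ^ n) := by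
  induction n with
  | zero =>
    intro u hu
    rw [pow_zero, Set.mem_one] at hu
    simpa [hu] using one_mem_Sy xs
  | succ n ih =>
    intro u hu
    rw [pow_succ'] at hu
    obtain ⟨t, ht, u, hu, rfl⟩ := hu
    have h3 := mul_mem_pow (pow_pow' (conj_pow' t (h t ht) (ih u hu))) (h2 t ht)
    have h4 : 1 ≤ (2 * K) ^ n := Nat.one_le_pow _ _ (by omega)
    refine up_Sy (b := (2 * K) ^ (n + 1)) ?_ (a := K * (2 * K) ^ n + K)
      (by rw [pow_succ]; nlinarith)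
    convert h3 using 1
    group

lemma exists_conj_bound {A : Type*} [CommGroup A] (π : G →* A) {xs : List G}
    (hx : cl xs = π.ker) {T : Set G} (hT : T.Finite) :
    ∃ K, 1 ≤ K ∧ (∀ t ∈ T, ∀ x ∈ Sy xs, t * x * t⁻¹ ∈ Sy xs ^ K) ∧
      ∀ t ∈ T, ∀ y ∈ T, t * y * t⁻¹ * y⁻¹ ∈ Sy xs ^ K := by
  have h1 := (hT.prod (Sy_finite xs)).image fun p : G × G => p.1 * p.2 * p.1⁻¹
  have h2 := (hT.prod hT).image fun p : G × G => p.1 * p.2 * p.1⁻¹ * p.2⁻¹
  obtain ⟨K, hK, h⟩ := finite_sub_pow (xs := xs) (h1.union h2) (by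
    rintro _ (⟨⟨t, x⟩, ⟨-, hx'⟩, rfl⟩ | ⟨⟨t, y⟩, -, rfl⟩)
    · have : x ∈ π.ker := hx ▸ Sy_sub (fun _ => mem_cl) hx'
      rw [hx]
      exact (inferInstance : π.ker.Normal).conj_mem _ this t
    · rw [hx, SetLike.mem_coe, MonoidHom.mem_ker]
      simp)
  exact ⟨K, hK, fun t ht x hx' => h (Or.inl ⟨(t, x), ⟨ht, hx'⟩, rfl⟩),
    fun t ht y hy => h (Or.inr ⟨(t, y), ⟨ht, hy⟩, rfl⟩)⟩

lemma map_mem_Sy (p : G →* G') {xs : List G} {g : G} (h : g ∈ Sy xs) : p g ∈ Sy (xs.map p) := by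
  rcases h with h | h | h
  · exact Or.inl (by simp [h])
  · exact mem_Sy (List.mem_map_of_mem h)
  · exact Or.inr (Or.inr (by rw [← map_inv]; exact List.mem_map_of_mem h))

lemma lift_mem_Sy (p : G →* G') {xs : List G} {g : G'} (h : g ∈ Sy (xs.map p)) :
    ∃ x ∈ Sy xs, p x = g := by
  rcases h with h | h | h
  · exact ⟨1, one_mem_Sy _, by simp [h]⟩
  · obtain ⟨x, hx, rfl⟩ := List.mem_map.1 h
    exact ⟨x, mem_Sy hx, rfl⟩
  · obtain ⟨x, hx, h⟩ := List.mem_map.1 h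
    exact ⟨x⁻¹, inv_mem_Sy (mem_Sy hx), by simp [h]⟩

lemma exp_aux {A : Type*} [CommGroup A] (π : G →* A) {xs : List G} (hx : cl xs = π.ker) :
    ∀ {es : List G}, Good ⊤ (es.map π) → ∃ K, 1 ≤ K ∧ ∀ R L : ℕ,
      ∀ g ∈ (Sy es ∪ Sy xs ^ R) ^ L, π g = 1 → g ∈ Sy xs ^ ((R + 1) * K ^ (L + 1))
  | [], _ => ⟨2, by omega, fun R L g hg _ => by
      have h1 : Sy ([] : List G) ∪ Sy xs ^ R ⊆ Sy xs ^ R := by
        rintro y (hy | hy)
        · have : y = 1 := by simpa [Sy] using hy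
          rw [this]; exact Set.one_mem_pow (one_mem_Sy xs)
        · exact hy
      refine up_Sy (sub_pow h1 hg) (Nat.mul_le_mul (by omega) ?_)
      have : L < 2 ^ L := Nat.lt_two_pow_self
      rw [pow_succ]; omega⟩
  | e :: es, h => by
    obtain ⟨K', hK', ih⟩ := exp_aux π hx (es := es) h.2.2.2
    obtain ⟨K, hK, hc, hm⟩ := exists_conj_bound π hx (Sy_finite (e :: es))
    refine ⟨4 * K * K' ^ 2, by have := Nat.one_le_pow 2 K' hK'; nlinarith, fun R L g hg hπ => ?_⟩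
    have he : e ∈ Sy (e :: es) := mem_Sy List.mem_cons_self
    have hsub : Sy es ⊆ Sy (e :: es) := Sy_mono (List.subset_cons_self _ _)
    have h2K : 1 ≤ (2 * K) ^ L := Nat.one_le_pow _ _ (by omega)
    have h1 : (1 : G) ∈ Sy es ∪ Sy xs ^ ((R + 1) * (2 * K) ^ L) := Or.inl (one_mem_Sy es)
    obtain ⟨m, -, hz⟩ := collect (x := e) (Y := Sy es ∪ Sy xs ^ R)
      (Z := (Sy es ∪ Sy xs ^ ((R + 1) * (2 * K) ^ L)) ^ 2) (W := Sy (e :: es) ∪ Sy xs ^ R)
      (L0 := L) (by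
        rintro w (hw | hw)
        · rcases mem_Sy_cons hw with h | h | h
          · exact Or.inl h
          · exact Or.inr (Or.inl h)
          · exact Or.inr (Or.inr (Or.inl h))
        · exact Or.inr (Or.inr (Or.inr hw))) (Set.one_mem_pow h1) (by
        intro a ha y hy
        have hu : e ^ a ∈ Sy (e :: es) ^ L := zpow_mem_pow (one_mem_Sy _) he (inv_mem_Sy he) ha
        rw [sq]
        rcases hy with hy | hy
        · have h3 := comm_bound hK hc (fun t ht => hm t ht y (hsub hy)) L _ hu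
          refine ⟨_, Or.inr (up_Sy h3 (by nlinarith)), y, Or.inl hy, by simp⟩
        · have h3 := pow_pow' (conj_pow' _ (conj_bound hc L _ hu) hy)
          have h4 : K ^ L ≤ (2 * K) ^ L := Nat.pow_le_pow_left (by omega) L
          exact ⟨_, Or.inr (up_Sy h3 (by nlinarith)), 1, h1, by simp⟩) L le_rfl g hg
    have hz' := pow_pow' hz
    have hm0 : m = 0 := by
      refine h.2.2.1 m ?_
      have h3 : Sy es ∪ Sy xs ^ ((R + 1) * (2 * K) ^ L) ⊆ (cl (es.map π)).comap π := by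
        rintro y (hy | hy)
        · exact Sy_sub (fun _ => mem_cl) (map_mem_Sy π hy)
        · have : π y = 1 := by rw [← MonoidHom.mem_ker, ← hx]; exact Sy_pow_cl hy
          rw [SetLike.mem_coe, Subgroup.mem_comap, this]; exact one_mem _
      have h4 := pow_sub h3 _ hz'
      simpa [hπ] using h4
    rw [hm0, zpow_zero, inv_one, mul_one] at hz'
    refine up_Sy (ih _ _ g hz' hπ) ?_
    have h5 : (4 * K * K' ^ 2) ^ (L + 1) =
        (2 ^ L * (2 * K) * K') * (2 * (2 * K) ^ L * K' ^ (2 * L + 1)) := by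
      rw [show 4 * K * K' ^ 2 = 2 * (2 * K) * K' ^ 2 by ring, mul_pow, mul_pow, ← pow_mul]
      ring
    have h6 : 1 ≤ 2 ^ L * (2 * K) * K' := Nat.one_le_iff_ne_zero.2 (by positivity)
    calc ((R + 1) * (2 * K) ^ L + 1) * K' ^ (2 * L + 1)
        ≤ (R + 1) * (2 * (2 * K) ^ L * K' ^ (2 * L + 1)) := by
          rw [← mul_assoc]; exact Nat.mul_le_mul_right _ (by nlinarith)
      _ ≤ _ := by rw [h5]; exact Nat.mul_le_mul_left _ (Nat.le_mul_of_pos_left _ h6)

/-- The standard basis vectors. -/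
def bv {m : ℕ} (i : Fin m) : Zk m := Multiplicative.ofAdd (Pi.single i 1)

/-- The standard basis as a list. -/
def bas (m : ℕ) : List (Zk m) := (List.finRange m).map bv

lemma good_bas_aux {m : ℕ} (ι : Zk m →* G) (hι : Injective ι) {N : Subgroup G}
    (h1 : ∀ v, ι v ∈ N) (h2 : ∀ g ∈ N, ∀ v, g * ι v * g⁻¹ = ι v) :
    ∀ l : List (Fin m), l.Nodup → Good N ((l.map bv).map ι)
  | [], _ => trivial
  | i :: l, h => by
    rw [List.nodup_cons] at h
    refine ⟨h1 _, fun g hg => by rw [h2 g hg]; simp, fun e he => ?_,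
      good_bas_aux ι hι h1 h2 l h.2⟩
    let φ : Zk m →* Multiplicative ℤ := (Pi.evalAddMonoidHom (fun _ => ℤ) i).toMultiplicative
    have h3 : cl ((l.map bv).map ι) ≤ φ.ker.map ι := cl_le fun x hx => by
      obtain ⟨v, hv, rfl⟩ := List.mem_map.1 hx
      obtain ⟨j, hj, rfl⟩ := List.mem_map.1 hv
      refine Subgroup.mem_map_of_mem ι ?_
      have : i ≠ j := fun e => h.1 (e ▸ hj)
      simp [φ, bv, this]
    obtain ⟨w, hw, h4⟩ := h3 he
    rw [← map_zpow] at h4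
    rw [hι h4] at hw
    simpa [φ, bv] using hw

lemma good_bas {m : ℕ} (ι : Zk m →* G) (hι : Injective ι) {N : Subgroup G}
    (h1 : ∀ v, ι v ∈ N) (h2 : ∀ g ∈ N, ∀ v, g * ι v * g⁻¹ = ι v) : Good N ((bas m).map ι) :=
  good_bas_aux ι hι h1 h2 _ (List.nodup_finRange m)

lemma bv_mem {m : ℕ} (i : Fin m) : bv i ∈ Sy (bas m) :=
  mem_Sy (List.mem_map_of_mem (List.mem_finRange i))

lemma mem_bas_pow {m : ℕ} {v : Zk m} {ρ : ℕ} (h : ∀ i, |Multiplicative.toAdd v i| ≤ ρ) :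
    v ∈ Sy (bas m) ^ (m * ρ) := by
  have key : ∀ s : Finset (Fin m),
      ∏ i ∈ s, bv i ^ Multiplicative.toAdd v i ∈ Sy (bas m) ^ (s.card * ρ) := by
    intro s
    induction s using Finset.induction_on with
    | empty => simp
    | insert a s ha ih =>
      rw [Finset.prod_insert ha, Finset.card_insert_of_notMem ha, add_mul, one_mul, add_comm]
      exact mul_mem_pow (zpow_mem_pow (one_mem_Sy _) (bv_mem a) (inv_mem_Sy (bv_mem a)) (h a)) ih
  have h2 : ∏ i, bv i ^ Multiplicative.toAdd v i = v := by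
    apply Multiplicative.toAdd.injective
    ext j
    simp [bv, toAdd_prod, Pi.single_apply]
  simpa [h2] using key Finset.univ

lemma coord_le {m : ℕ} (i : Fin m) (R : ℕ) :
    ∀ v ∈ Sy (bas m) ^ R, |Multiplicative.toAdd v i| ≤ R := by
  have h1 : ∀ v ∈ bas m, |Multiplicative.toAdd v i| ≤ 1 := by
    intro v hv
    obtain ⟨j, -, rfl⟩ := List.mem_map.1 hv
    by_cases h : i = j <;> simp [bv, h]
  have h2 : ∀ v ∈ Sy (bas m), |Multiplicative.toAdd v i| ≤ 1 := by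
    rintro v (hv | hv | hv)
    · simp [hv]
    · exact h1 v hv
    · simpa using h1 _ hv
  induction R with
  | zero => intro v hv; rw [pow_zero, Set.mem_one] at hv; simp [hv]
  | succ R ih =>
    intro v hv
    rw [pow_succ] at hv
    obtain ⟨a, ha, b, hb, rfl⟩ := hv
    have := ih a ha
    have := h2 b hb
    have := abs_add_le (Multiplicative.toAdd a i) (Multiplicative.toAdd b i)
    simp only [toAdd_mul, Pi.add_apply]
    push_cast; omega

lemma exists_bound {m : ℕ} (v : Zk m) : ∃ ρ0 : ℕ, (∀ i, |Multiplicative.toAdd v i| ≤ ρ0) ∧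
    ∀ ρ : ℕ, (∀ i, |Multiplicative.toAdd v i| ≤ ρ) → ρ0 ≤ ρ := by
  refine ⟨Finset.univ.sup fun i => (Multiplicative.toAdd v i).natAbs, fun i => ?_,
    fun ρ h => Finset.sup_le fun i _ => ?_⟩
  · have := Finset.le_sup (f := fun i => (Multiplicative.toAdd v i).natAbs) (Finset.mem_univ i)
    rw [← Int.natCast_natAbs]; exact_mod_cast this
  · have := h i
    rw [abs_le] at this; omega

lemma cl_bas {m : ℕ} (ι : Zk m →* G) : cl ((bas m).map ι) = ι.range := by
  apply le_antisymm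
  · refine cl_le fun x hx => ?_
    obtain ⟨v, -, rfl⟩ := List.mem_map.1 hx
    exact ⟨v, rfl⟩
  · rintro _ ⟨v, rfl⟩
    obtain ⟨ρ, h, -⟩ := exists_bound v
    exact Sy_pow_cl (hom_pow ι (fun x hx => map_mem_Sy ι hx) (mem_bas_pow h))

lemma exists_lifts (p : G →* G') (hp : Surjective p) (l : List G') :
    ∃ ys : List G, ys.map p = l :=
  ⟨l.map (surjInv hp), by simp [List.map_map, Function.comp_def, surjInv_eq hp]⟩

/-- Exponential distortion of the kernel, together with a section. -/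
lemma exp_sec {k : ℕ} (π : G →* Zk k) (hπ : Surjective π) {xs : List G} (hx : cl xs = π.ker)
    (ts : List G) : ∃ (σ : Zk k → G) (K : ℕ), 1 ≤ K ∧ σ 1 = 1 ∧ (∀ a, π (σ a) = a) ∧
      ∀ ρ : ℕ, ∀ s ∈ Sy ts, ∀ a : Zk k, (∀ i, |Multiplicative.toAdd a i| ≤ ρ) →
        (∀ i, |Multiplicative.toAdd (a * π s) i| ≤ ρ) →
        σ a * s * (σ (a * π s))⁻¹ ∈ Sy xs ^ (K ^ (ρ + 1)) := by
  obtain ⟨es, hes⟩ := exists_lifts π hπ (bas k)
  have hg : Good ⊤ (es.map π) := by
    have := good_bas (N := ⊤) (MonoidHom.id (Zk k)) injective_id (fun _ => trivial)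
      (fun g _ v => by simp)
    rw [hes]; simpa using this
  obtain ⟨K, hK, h⟩ := exp_aux π hx hg
  have hsec : ∀ a, ∃ g, π g = a ∧ ∀ ρ : ℕ, (∀ i, |Multiplicative.toAdd a i| ≤ ρ) →
      g ∈ Sy es ^ (k * ρ) := by
    intro a
    obtain ⟨ρ0, h0, h1⟩ := exists_bound a
    have h2 := mem_bas_pow h0
    rw [← hes] at h2
    obtain ⟨g, hg, rfl⟩ := lift_pow π (fun z hz => lift_mem_Sy π hz) h2
    exact ⟨g, rfl, fun ρ hρ => up_Sy hg (Nat.mul_le_mul_left _ (h1 ρ hρ))⟩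
  choose σ hσ hσ' using hsec
  have htop : cl (es ++ xs) = ⊤ := by
    rw [cl_append π hx, hes, ← List.map_id (bas k)]
    have := cl_bas (MonoidHom.id (Zk k))
    rw [MonoidHom.range_eq_top_of_surjective _ surjective_id] at this
    exact (congrArg (Subgroup.comap π) this).trans (Subgroup.comap_top π)
  obtain ⟨c, hc, hc'⟩ := finite_sub_pow (xs := es ++ xs) (Sy_finite ts) (by rw [htop]; simp)
  have hsub : Sy (es ++ xs) ⊆ Sy es ∪ Sy xs ^ 1 := by
    rw [pow_one]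
    rintro g (hg | hg | hg)
    · exact Or.inl (Or.inl hg)
    · exact (List.mem_append.1 hg).imp mem_Sy mem_Sy
    · exact (List.mem_append.1 hg).imp (fun h => Or.inr (Or.inr h)) fun h => Or.inr (Or.inr h)
  refine ⟨σ, 2 * K ^ (2 * k + c + 1), by have := Nat.one_le_pow (2 * k + c + 1) K hK; omega,
    by simpa using hσ' 1 0 (by simp), hσ, fun ρ s hs a ha ha' => ?_⟩
  have h1 : Sy es ⊆ Sy es ∪ Sy xs ^ 1 := Set.subset_union_left
  have h2 := mul_mem_pow (mul_mem_pow (Set.pow_subset_pow_left h1 (hσ' a ρ ha))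
    (Set.pow_subset_pow_left hsub (hc' hs))) (Set.pow_subset_pow_left h1 (inv_Sy (hσ' _ ρ ha')))
  refine up_Sy (h 1 _ _ h2 (by simp [hσ])) ?_
  rw [mul_pow, ← pow_mul]
  refine Nat.mul_le_mul ?_ (Nat.pow_le_pow_right hK (by nlinarith))
  have : 1 ≤ 2 ^ ρ := Nat.one_le_two_pow
  rw [pow_succ]; omega

end Vale.Agent.P188.Nil
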