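import Mathlib

/-! P188, Op: compactness of almost invariant measures. -/

namespace Vale.Agent.P188.OpX

open MeasureTheory Filter Topology BoundedContinuousFunction
open scoped ENNReal NNReal

variable {Γ : Type} [Group Γ] {Z : Type} [TopologicalSpace Z] [CompactSpace Z]
  [TopologicalSpace.MetrizableSpace Z] [MeasurableSpace Z] [BorelSpace Z]
  [MulAction Γ Z] [ContinuousConstSMul Γ Z]

/-- almost invariance of a measure -/
def AInv (C : Γ → ℝ≥0) (t : ℝ≥0) (m : Measure Z) : Prop :=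
  ∀ (γ : Γ) (h : Z →ᵇ ℝ≥0) (M : ℝ≥0), (∀ z, h z ≤ M) →
    ∫⁻ z, h (γ • z) ∂m ≤ (1 + t) * ∫⁻ z, h z ∂m + M * C γ * t

theorem exists_lim (C : Γ → ℝ≥0) (t : ℕ → ℝ≥0) (ht : Tendsto t atTop (𝓝 0))
    (m : ℕ → Measure Z) (hm : ∀ n, IsProbabilityMeasure (m n)) (hA : ∀ n, AInv C (t n) (m n)) :
    ∃ (μ : Measure Z) (U : Filter ℕ), U.NeBot ∧ U ≤ atTop ∧ IsProbabilityMeasure μ ∧
      (∀ g : Γ, MeasurePreserving (g • ·) μ μ) ∧
      ∀ h : Z →ᵇ ℝ≥0, Tendsto (fun n => ∫⁻ z, h z ∂(m n)) U (𝓝 (∫⁻ z, h z ∂μ)) := by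
  let p : ℕ → ProbabilityMeasure Z := fun n => ⟨m n, hm n⟩
  let U : Ultrafilter ℕ := Ultrafilter.of atTop
  have hU : (U : Filter ℕ) ≤ atTop := Ultrafilter.of_le _
  obtain ⟨μ, -, hμ⟩ := isCompact_univ.ultrafilter_le_nhds (U.map p) (by simp)
  have hl := ProbabilityMeasure.tendsto_iff_forall_lintegral_tendsto.1
    (show Tendsto p U (𝓝 μ) from hμ)
  have key : ∀ (γ : Γ) (h : Z →ᵇ ℝ≥0),
      ∫⁻ z, h (γ • z) ∂(μ : Measure Z) ≤ ∫⁻ z, h z ∂(μ : Measure Z) := by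
    intro γ h
    obtain ⟨M, hM⟩ : ∃ M : ℝ≥0, ∀ z, h z ≤ M := ⟨nndist h 0, fun z => BoundedContinuousFunction.NNReal.upper_bound h z⟩
    have h1 := hl (h.compContinuous ⟨fun z => γ • z, continuous_const_smul γ⟩)
    have ht' : Tendsto (fun n => (t n : ℝ≥0∞)) U (𝓝 0) := by
      simpa using (ENNReal.tendsto_coe.2 ht).mono_left hU
    have h2 : Tendsto (fun n => (1 + (t n : ℝ≥0∞)) * ∫⁻ z, h z ∂(m n) + M * C γ * t n) U
        (𝓝 ((1 + 0) * ∫⁻ z, h z ∂(μ : Measure Z) + M * C γ * 0)) := by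
      refine Tendsto.add (ENNReal.Tendsto.mul (tendsto_const_nhds.add ht') (by simp) (hl h)
        (Or.inr (by simp))) (ENNReal.Tendsto.const_mul ht' (Or.inr ?_))
      exact ENNReal.mul_ne_top ENNReal.coe_ne_top ENNReal.coe_ne_top
    simpa using le_of_tendsto_of_tendsto' h1 h2 fun n => hA n γ h M hM
  refine ⟨μ, U, inferInstance, hU, inferInstance, fun g => ?_, hl⟩
  have hg : Measurable fun z : Z => g • z := (continuous_const_smul g).measurable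
  refine ⟨hg, ext_of_forall_lintegral_eq_of_IsFiniteMeasure fun h => ?_⟩
  rw [lintegral_map h.measurable_coe_ennreal_comp hg]
  refine le_antisymm (key g h) ?_
  have := key g⁻¹ (h.compContinuous ⟨fun z => g • z, continuous_const_smul g⟩)
  simpa using this

theorem exists_t (C : Γ → ℝ≥0) (Ψ : Z →ᵇ ℝ≥0) (b : ℝ≥0∞)
    (hb : ∀ μ : Measure Z, IsProbabilityMeasure μ → (∀ g : Γ, MeasurePreserving (g • ·) μ μ) →
      ∫⁻ z, Ψ z ∂μ < b) :
    ∃ t : ℝ≥0, 0 < t ∧ t ≤ 1 ∧ ∀ m : Measure Z, 2⁻¹ ≤ m Set.univ → m Set.univ ≤ 1 →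
      AInv C t m → ∫⁻ z, Ψ z ∂m ≤ b := by
  by_contra hcon
  push Not at hcon
  choose m h1 h2 h3 h4 using fun n : ℕ => hcon (1 / ((n : ℝ≥0) + 1)) (by positivity)
    (by rw [div_le_one (by positivity)]; simp)
  have h0 : ∀ n, m n Set.univ ≠ 0 := fun n => (lt_of_lt_of_le (by simp) (h1 n)).ne'
  have ht : ∀ n, m n Set.univ ≠ ∞ := fun n => (lt_of_le_of_lt (h2 n) (by simp)).ne
  obtain ⟨μ, U, _, hU, hμ, hinv, hl⟩ := exists_lim (fun γ => 2 * C γ)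
    (fun n : ℕ => 1 / ((n : ℝ≥0) + 1)) tendsto_one_div_add_atTop_nhds_zero_nat
    (fun n => (m n Set.univ)⁻¹ • m n)
    (fun n => ⟨by rw [Measure.smul_apply, smul_eq_mul, ENNReal.inv_mul_cancel (h0 n) (ht n)]⟩)
    (fun n γ h M hM => by
      simp only [lintegral_smul_measure, smul_eq_mul]
      refine (mul_le_mul_right (h3 n γ h M hM) _).trans ?_
      rw [mul_add, mul_left_comm]
      refine add_le_add le_rfl ?_
      have : (m n Set.univ)⁻¹ ≤ 2 := by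
        have := ENNReal.inv_le_inv.2 (h1 n)
        rwa [inv_inv] at this
      calc _ ≤ 2 * ((M : ℝ≥0∞) * C γ * ((1 / ((n : ℝ≥0) + 1) : ℝ≥0) : ℝ≥0∞)) := by gcongr
        _ = _ := by rw [ENNReal.coe_mul, ENNReal.coe_two]; ring)
  refine absurd (ge_of_tendsto' (hl Ψ) fun n => ?_) (not_le.2 (hb μ hμ hinv))
  simp only [lintegral_smul_measure, smul_eq_mul]
  refine (h4 n).le.trans (le_mul_of_one_le_left' ?_)
  exact ENNReal.one_le_inv.2 (h2 n)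

theorem exists_R (Ψ : ℕ → Z →ᵇ ℝ≥0) (e : ℝ≥0∞)
    (hsub : ∀ μ : Measure Z, IsProbabilityMeasure μ → (∀ g : Γ, MeasurePreserving (g • ·) μ μ) →
      ∀ R j : ℕ, ∫⁻ z, Ψ (j * R) z ∂μ ≤ j * ∫⁻ z, Ψ R z ∂μ)
    (hex : ∀ μ : Measure Z, IsProbabilityMeasure μ → (∀ g : Γ, MeasurePreserving (g • ·) μ μ) →
      ∃ R : ℕ, 0 < R ∧ ∫⁻ z, Ψ R z ∂μ < e * R) :
    ∃ R : ℕ, 2 ≤ R ∧ ∀ μ : Measure Z, IsProbabilityMeasure μ →
      (∀ g : Γ, MeasurePreserving (g • ·) μ μ) → ∫⁻ z, Ψ R z ∂μ < e * R := by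
  by_contra hcon
  push Not at hcon
  choose m h1 h2 h3 using fun n : ℕ => hcon (n + 2).factorial
    (le_trans (by omega) (Nat.self_le_factorial _))
  obtain ⟨μ, U, _, hU, hμ, hinv, hl⟩ := exists_lim (Γ := Γ) (fun _ => 0) (fun _ => 0)
    tendsto_const_nhds m h1 (fun n γ h M _ => by
      simpa using ((h2 n γ).lintegral_comp h.measurable_coe_ennreal_comp).le)
  obtain ⟨R, hR, hlt⟩ := hex μ hμ hinv
  refine absurd (ge_of_tendsto (hl (Ψ R)) ?_) (not_le.2 hlt)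
  filter_upwards [hU (eventually_ge_atTop R)] with n hn
  obtain ⟨j, hj⟩ := Nat.dvd_factorial hR (show R ≤ n + 2 from le_trans hn (by omega))
  have hj0 : j ≠ 0 := by
    rintro rfl
    exact (n + 2).factorial_ne_zero (by simpa using hj)
  have a1 := h3 n
  rw [hj, mul_comm R j] at a1
  have a2 := a1.trans (hsub (m n) (h1 n) (h2 n) R j)
  rw [Nat.cast_mul, mul_left_comm] at a2
  exact (ENNReal.mul_le_mul_iff_right (by exact_mod_cast hj0) (ENNReal.natCast_ne_top j)).1 a2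

omit [TopologicalSpace.MetrizableSpace Z] [MeasurableSpace Z] [BorelSpace Z] in
theorem exists_bcf (Ψ : Z → ℝ≥0∞) (hc : IsLocallyConstant Ψ) (hf : ∀ z, Ψ z ≠ ∞) :
    ∃ h : Z →ᵇ ℝ≥0, ∀ z, (h z : ℝ≥0∞) = Ψ z :=
  ⟨mkOfCompact ⟨fun z => (Ψ z).toNNReal, (hc.comp ENNReal.toNNReal).continuous⟩,
    fun z => ENNReal.coe_toNNReal (hf z)⟩

end Vale.Agent.P188.OpX
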