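import Vale.Agent.P188.Iid

/-! P188, Op: the Markov operator and square integrable densities. -/

namespace Vale.Agent.P188.OpX

open MeasureTheory Filter Topology
open scoped ENNReal NNReal

theorem sq_le (a b : ℝ≥0∞) (ha : a ≠ ∞) (t : ℝ≥0) (h0 : 0 < t) (h1 : t ≤ 1) :
    a ^ 2 ≤ (1 + t) * b ^ 2 + (2 / t : ℝ≥0) * ‖a.toReal - b.toReal‖ₑ ^ 2 := by
  rcases eq_or_ne b ∞ with rfl | hb
  · simp [ENNReal.mul_top]
  lift a to ℝ≥0 using ha
  lift b to ℝ≥0 using hb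
  rw [enorm_eq_nnnorm]
  norm_cast
  rw [← NNReal.coe_le_coe]
  push_cast
  rw [Real.norm_eq_abs, sq_abs]
  simp only [ENNReal.coe_toReal]
  have h0' : (0 : ℝ) < t := h0
  have h1' : (t : ℝ) ≤ 1 := h1
  rw [← mul_le_mul_iff_right₀ h0']
  have : (t : ℝ) * ((1 + t) * b ^ 2 + 2 / t * (a - b) ^ 2) =
      t * (1 + t) * b ^ 2 + 2 * (a - b) ^ 2 := by field_simp
  rw [this]
  nlinarith [sq_nonneg (t * b - (a - b) : ℝ), mul_nonneg (sub_nonneg.2 h1') (sq_nonneg (a - b : ℝ))]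

theorem err_add_le (a b : ℝ≥0∞) :
    ‖a.toReal - b.toReal‖ₑ ^ 2 + 2 * (a * b) ≤ a ^ 2 + b ^ 2 := by
  rcases eq_or_ne a ∞ with rfl | ha
  · simp
  rcases eq_or_ne b ∞ with rfl | hb
  · simp
  lift a to ℝ≥0 using ha
  lift b to ℝ≥0 using hb
  rw [enorm_eq_nnnorm]
  norm_cast
  rw [← NNReal.coe_le_coe]
  push_cast
  rw [Real.norm_eq_abs, sq_abs]
  simp only [ENNReal.coe_toReal]
  nlinarith

section
variable {X : Type} [MeasurableSpace X] {m : Measure X}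

theorem meas_err {A B : X → ℝ≥0∞} (hA : Measurable A) (hB : Measurable B) :
    Measurable fun x => ‖(A x).toReal - (B x).toReal‖ₑ ^ 2 :=
  ((hA.ennreal_toReal.sub hB.ennreal_toReal).enorm).pow_const 2

theorem int_err_add_le {A B : X → ℝ≥0∞} (hA : Measurable A) (hB : Measurable B) :
    ∫⁻ x, ‖(A x).toReal - (B x).toReal‖ₑ ^ 2 ∂m + 2 * ∫⁻ x, A x * B x ∂m ≤
      ∫⁻ x, A x ^ 2 ∂m + ∫⁻ x, B x ^ 2 ∂m := by
  rw [← lintegral_const_mul _ (hA.fun_mul hB), ← lintegral_add_left (meas_err hA hB),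
    ← lintegral_add_left (hA.pow_const 2)]
  exact lintegral_mono fun x => err_add_le _ _

theorem le_of_add (x : ℝ≥0∞) {δ c : ℝ} (hδ : 0 ≤ δ) (hδ1 : δ ≤ 1) (hc : 0 ≤ c - 2 * (1 - δ))
    (h : x + 2 * ENNReal.ofReal (1 - δ) ≤ ENNReal.ofReal c) :
    x ≤ ENNReal.ofReal (c - 2 * (1 - δ)) := by
  have e : ENNReal.ofReal c =
      ENNReal.ofReal (c - 2 * (1 - δ)) + 2 * ENNReal.ofReal (1 - δ) := by
    rw [← ENNReal.ofReal_ofNat 2, ← ENNReal.ofReal_mul (by norm_num),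
      ← ENNReal.ofReal_add hc (by linarith)]
    congr 1
    ring
  rw [e] at h
  exact (ENNReal.add_le_add_iff_right
    (ENNReal.mul_ne_top (by simp) ENNReal.ofReal_ne_top)).1 h

theorem err_le {A B : X → ℝ≥0∞} (hA : Measurable A) (hB : Measurable B)
    (h1 : ∫⁻ x, A x ^ 2 ∂m ≤ 1) (h2 : ∫⁻ x, B x ^ 2 ∂m ≤ 1) {δ : ℝ} (hδ : 0 ≤ δ) (hδ1 : δ ≤ 1)
    (h : ENNReal.ofReal (1 - δ) ≤ ∫⁻ x, A x * B x ∂m) :
    ∫⁻ x, ‖(A x).toReal - (B x).toReal‖ₑ ^ 2 ∂m ≤ ENNReal.ofReal (2 * δ) := by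
  have := le_of_add (∫⁻ x, ‖(A x).toReal - (B x).toReal‖ₑ ^ 2 ∂m) (c := 2) hδ hδ1 (by linarith)
    (calc _ ≤ _ := by gcongr
      _ ≤ _ := int_err_add_le hA hB
      _ ≤ 1 + 1 := add_le_add h1 h2
      _ = _ := by rw [one_add_one_eq_two, ENNReal.ofReal_ofNat])
  rwa [show 2 - 2 * (1 - δ) = 2 * δ by ring] at this

theorem sq_ge {A B : X → ℝ≥0∞} (hA : Measurable A) (hB : Measurable B)
    (h1 : ∫⁻ x, A x ^ 2 ∂m ≤ 1) {δ : ℝ} (hδ1 : 2 * δ ≤ 1)
    (h : ENNReal.ofReal (1 - δ) ≤ ∫⁻ x, A x * B x ∂m) :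
    ENNReal.ofReal (1 - 2 * δ) ≤ ∫⁻ x, B x ^ 2 ∂m := by
  have h2 : 2 * ENNReal.ofReal (1 - δ) ≤ 1 + ∫⁻ x, B x ^ 2 ∂m :=
    calc _ ≤ 2 * ∫⁻ x, A x * B x ∂m := by gcongr
      _ ≤ _ := le_add_self
      _ ≤ _ := int_err_add_le hA hB
      _ ≤ _ := by gcongr
  have e : 2 * ENNReal.ofReal (1 - δ) = 1 + ENNReal.ofReal (1 - 2 * δ) := by
    rw [← ENNReal.ofReal_ofNat 2, ← ENNReal.ofReal_mul (by norm_num), ← ENNReal.ofReal_one,
      ← ENNReal.ofReal_add (by norm_num) (by linarith)]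
    congr 1
    ring
  rw [e] at h2
  exact (ENNReal.add_le_add_iff_left ENNReal.one_ne_top).1 h2

theorem sq_int_le [IsProbabilityMeasure m] {A : X → ℝ≥0∞} (hA : Measurable A) :
    (∫⁻ x, A x ∂m) ^ 2 ≤ ∫⁻ x, A x ^ 2 ∂m := by
  have := ENNReal.lintegral_mul_le_Lp_mul_Lq m Real.HolderConjugate.two_two hA.aemeasurable
    (aemeasurable_const (b := (1 : ℝ≥0∞)))
  simp only [Pi.mul_apply, mul_one, ENNReal.one_rpow, lintegral_const, measure_univ,
    ENNReal.rpow_ofNat, one_pow] at this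
  refine (pow_le_pow_left' this 2).trans (le_of_eq ?_)
  rw [← ENNReal.rpow_natCast, ← ENNReal.rpow_mul]
  norm_num

theorem ae_ne_top {A : X → ℝ≥0∞} (hA : Measurable A) (h1 : ∫⁻ x, A x ^ 2 ∂m ≤ 1) :
    ∀ᵐ x ∂m, A x ≠ ∞ := by
  filter_upwards [ae_lt_top (hA.pow_const 2) (lt_of_le_of_lt h1 ENNReal.one_lt_top).ne] with x hx h
  simp [h] at hx

theorem weighted {A B ψ : X → ℝ≥0∞} (hA : Measurable A) (hB : Measurable B) (hψ : Measurable ψ)
    (h1 : ∀ᵐ x ∂m, A x ≠ ∞) {M : ℝ≥0∞} (hM : ∀ x, ψ x ≤ M) (t : ℝ≥0) (h0 : 0 < t) (ht : t ≤ 1) :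
    ∫⁻ x, A x ^ 2 * ψ x ∂m ≤ (1 + t) * ∫⁻ x, B x ^ 2 * ψ x ∂m +
      (2 / t : ℝ≥0) * M * ∫⁻ x, ‖(A x).toReal - (B x).toReal‖ₑ ^ 2 ∂m := by
  rw [← lintegral_const_mul _ ((hB.pow_const 2).fun_mul hψ), ← lintegral_const_mul _ (meas_err hA hB),
    ← lintegral_add_left (((hB.pow_const 2).fun_mul hψ).const_mul _)]
  refine lintegral_mono_ae ?_
  filter_upwards [h1] with x hx
  calc A x ^ 2 * ψ x ≤ ((1 + t) * B x ^ 2 +
        (2 / t : ℝ≥0) * ‖(A x).toReal - (B x).toReal‖ₑ ^ 2) * ψ x := by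
        gcongr
        exact sq_le _ _ hx t h0 ht
    _ = (1 + t) * (B x ^ 2 * ψ x) +
        (2 / t : ℝ≥0) * ψ x * ‖(A x).toReal - (B x).toReal‖ₑ ^ 2 := by ring
    _ ≤ _ := by gcongr; exact hM x

end

section
variable {Y N : Type} [MeasurableSpace Y] [MeasurableSpace N] {μ : Measure Y} {T : N → Y → Y}

/-- the Markov operator -/
noncomputable def mk (P : Measure N) (T : N → Y → Y) (h : Y → ℝ≥0∞) (y : Y) : ℝ≥0∞ :=
  ∫⁻ g, h (T g y) ∂P

variable {P : Measure N} [IsProbabilityMeasure P] [IsProbabilityMeasure μ]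

omit [IsProbabilityMeasure μ] in
theorem meas_mk (hT : RMP μ T) {h : Y → ℝ≥0∞} (hh : Measurable h) : Measurable (mk P T h) :=
  (hh.comp hT.meas).lintegral_prod_right'

theorem mp_step (hT : RMP μ T) : MeasurePreserving (fun p : Y × N => T p.2 p.1) (μ.prod P) μ :=
  (measurePreserving_fst (μ := μ) (ν := P)).comp (hT.mp_pair P)

theorem int_mk (hT : RMP μ T) {h : Y → ℝ≥0∞} (hh : Measurable h) :
    ∫⁻ y, mk P T h y ∂μ = ∫⁻ y, h y ∂μ := by
  rw [← (mp_step (P := P) hT).lintegral_comp hh]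
  exact (lintegral_prod _ (hh.comp hT.meas).aemeasurable).symm

omit [IsProbabilityMeasure μ] in
theorem mk_sq_le (hT : RMP μ T) {h : Y → ℝ≥0∞} (hh : Measurable h) (y : Y) :
    mk P T h y ^ 2 ≤ mk P T (fun y => h y ^ 2) y :=
  sq_int_le (hh.comp (hT.meas.comp measurable_prodMk_left))

theorem int_mk_sq (hT : RMP μ T) {h : Y → ℝ≥0∞} (hh : Measurable h) :
    ∫⁻ y, mk P T h y ^ 2 ∂μ ≤ ∫⁻ y, h y ^ 2 ∂μ :=
  (lintegral_mono (mk_sq_le hT hh)).trans (int_mk hT (hh.pow_const 2)).le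

theorem iter_mk (hT : RMP μ T) {h : Y → ℝ≥0∞} (hh : Measurable h) (R : ℕ) :
    Measurable ((mk P T)^[R] h) ∧ ∫⁻ y, (mk P T)^[R] h y ^ 2 ∂μ ≤ ∫⁻ y, h y ^ 2 ∂μ ∧
      ∀ y, ∫⁻ ω, h (orb T y ω R) ∂(iid P) = (mk P T)^[R] h y := by
  induction R with
  | zero => exact ⟨hh, le_rfl, fun y => by simp [orb]⟩
  | succ R ih =>
    rw [Function.iterate_succ_apply']
    refine ⟨meas_mk hT ih.1, (int_mk_sq hT ih.1).trans ih.2.1, fun y => ?_⟩
    have hm : Measurable fun p : N × (ℕ → N) => h (orb T (T p.1 y) p.2 R) :=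
      hh.comp ((hT.measurable_orb R).comp
        (((hT.meas.comp measurable_prodMk_left).comp measurable_fst).prodMk measurable_snd))
    simp only [orb_succ']
    rw [(mp_headTail P).lintegral_comp hm, lintegral_prod _ hm.aemeasurable]
    simp only [ih.2.2]
    rfl

theorem mp_iter (hT : RMP μ T) (R : ℕ) :
    MeasurePreserving (fun p : Y × (ℕ → N) => (orb T p.1 p.2 R, fun j => p.2 (j + R)))
      (μ.prod (iid P)) (μ.prod (iid P)) := by
  induction R with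
  | zero => exact MeasurePreserving.id _
  | succ R ih =>
    have := (hT.mp_skewShift P).comp ih
    convert this using 1
    funext p
    simp only [Function.comp, orb, zero_add, Prod.mk.injEq, true_and]
    funext j
    rw [add_assoc, add_comm 1 R]

theorem mp_orb (hT : RMP μ T) (R : ℕ) :
    MeasurePreserving (fun p : Y × (ℕ → N) => orb T p.1 p.2 R) (μ.prod (iid P)) μ :=
  (measurePreserving_fst (μ := μ) (ν := iid P)).comp (mp_iter hT R)

omit [IsProbabilityMeasure μ] in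
theorem meas_defic (hT : RMP μ T) {k : ℕ} {U : Y → N → Rk k}
    (hU : Measurable fun p : Y × N => U p.1 p.2) (κ : Wt k) (c ε₀ : ℝ) (R : ℕ) :
    Measurable fun p : Y × (ℕ → N) => ENNReal.ofReal (defic T U κ c ε₀ p.1 p.2 0 R) := by
  have h1 : ∀ n, Measurable fun p : Y × (ℕ → N) => sumU T U p.1 p.2 n := fun n =>
    Finset.measurable_sum _ fun i _ =>
      hU.comp ((hT.measurable_orb i).prodMk ((measurable_pi_apply i).comp measurable_snd))
  have h2 := (h1 R).sub (h1 0)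
  exact (((h2.norm.const_mul c).sub (κ.continuous.measurable.comp h2)).sub_const _).ennreal_ofReal

omit [MeasurableSpace Y] [MeasurableSpace N] in
theorem defic_add {k : ℕ} (U : Y → N → Rk k) (κ : Wt k) {c : ℝ} (hc : 0 ≤ c) (ε₀ : ℝ) (y : Y)
    (ω : ℕ → N) (R n : ℕ) : defic T U κ c ε₀ y ω 0 (R + n) ≤ defic T U κ c ε₀ y ω 0 R +
      defic T U κ c ε₀ (orb T y ω R) (fun j => ω (j + R)) 0 n := by
  have e : sumU T U y ω (R + n) =
      sumU T U y ω R + sumU T U (orb T y ω R) (fun j => ω (j + R)) n := by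
    unfold sumU
    rw [Finset.sum_range_add]
    congr 1
    exact Finset.sum_congr rfl fun i _ => by rw [add_comm R i, orb_add]
  have z : ∀ y ω, sumU T U y ω 0 = 0 := fun y ω => by simp [sumU]
  unfold defic
  simp only [e, z, sub_zero, map_add]
  have := mul_le_mul_of_nonneg_left
    (norm_add_le (sumU T U y ω R) (sumU T U (orb T y ω R) (fun j => ω (j + R)) n)) hc
  push_cast
  linarith

theorem int_defic_mul (hT : RMP μ T) {k : ℕ} {U : Y → N → Rk k}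
    (hU : Measurable fun p : Y × N => U p.1 p.2) (κ : Wt k) {c : ℝ} (hc : 0 ≤ c) (ε₀ : ℝ)
    (R j : ℕ) :
    ∫⁻ p, ENNReal.ofReal (defic T U κ c ε₀ p.1 p.2 0 (j * R)) ∂(μ.prod (iid P)) ≤
      j * ∫⁻ p, ENNReal.ofReal (defic T U κ c ε₀ p.1 p.2 0 R) ∂(μ.prod (iid P)) := by
  induction j with
  | zero => simp [defic]
  | succ j ih =>
    rw [Nat.succ_mul, Nat.cast_succ, add_mul, one_mul]
    refine le_trans ?_ (add_le_add ih le_rfl)
    rw [← (mp_iter (P := P) hT (j * R)).lintegral_comp (meas_defic hT hU κ c ε₀ R),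
      ← lintegral_add_left (meas_defic hT hU κ c ε₀ _)]
    exact lintegral_mono fun p =>
      (ENNReal.ofReal_le_ofReal (defic_add U κ hc ε₀ _ _ _ _)).trans ENNReal.ofReal_add_le

end

end Vale.Agent.P188.OpX
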