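import Vale.Agent.P188.OpB

/-! P188, Op: the skew system and the deficiency under an invariant measure. -/

namespace Vale.Agent.P188.OpX

open MeasureTheory Filter Topology
open scoped ENNReal NNReal Pointwise

theorem ht_mul {Γ : Type} [Group Γ] {k : ℕ} (π : Γ →* Zk k) (g h : Γ) :
    ht π (g * h) = ht π g + ht π h := by
  funext i
  simp [ht, toR]

theorem ht_one {Γ : Type} [Group Γ] {k : ℕ} (π : Γ →* Zk k) : ht π 1 = 0 := by
  funext i
  simp [ht, toR]

section
variable {Γ σ N Z : Type} [Group Γ] [MulAction Γ Z] {step : σ → N → Γ × σ}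

theorem fin_lp (hF : ∃ F : Finset Γ, ∀ u g, (step u g).1 ∈ F) (n : ℕ) :
    ∃ A : Set Γ, A.Finite ∧ ∀ u ω, lp step (1, u) ω n ∈ A := by
  obtain ⟨F, hF⟩ := hF
  induction n with
  | zero => exact ⟨{1}, Set.finite_singleton _, fun u ω => rfl⟩
  | succ n ih =>
    obtain ⟨A, hA, h⟩ := ih
    exact ⟨A * (F : Set Γ), hA.mul F.finite_toSet, fun u ω => Set.mul_mem_mul (h u ω) (hF _ _)⟩

variable [MeasurableSpace Z] {k K : ℕ} (π : Γ →* Zk k) {S : Finset Γ} (Q : QS S K Z)

theorem sumU_skew (z : Z) (u : σ) (ω : ℕ → N) (n : ℕ) :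
    sumU (skew step) (defect π Q.q step) (z, u) ω n =
      ht π (Q.q z (lp step (1, u) ω n)) - ht π (lp step (1, u) ω n) := by
  induction n with
  | zero => simp [sumU, lp, cpath, Q.q_one]
  | succ n ih =>
    have e : lp step (1, u) ω (n + 1) =
        lp step (1, u) ω n * (step (cpath step (1, u) ω n).2 (ω n)).1 := rfl
    rw [sumU, Finset.sum_range_succ, ← sumU, ih, orb_skew, e, Q.q_mul, ht_mul, ht_mul, defect]
    abel

variable [Countable Γ] [MeasurableSpace Γ] [DiscreteMeasurableSpace Γ] [MeasurableSpace σ]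
  [MeasurableSpace N]

omit [MeasurableSpace σ] [MeasurableSpace N] in
theorem meas_act (h : ∀ g : Γ, Measurable (g • · : Z → Z)) :
    Measurable fun p : Γ × Z => p.1⁻¹ • p.2 :=
  measurable_from_prod_countable_right fun g => h g⁻¹

theorem rmp_skew {ν : Measure Z} [SFinite ν] (hν : ∀ g : Γ, MeasurePreserving (g • ·) ν ν)
    {μσ : Measure σ} [SFinite μσ] (hm : Measurable fun p : σ × N => step p.1 p.2)
    (hmp : ∀ g, MeasurePreserving (fun u => (step u g).2) μσ μσ) :
    RMP (ν.prod μσ) (skew step) := by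
  have ha := meas_act fun g => (hν g).measurable
  refine ⟨?_, fun g => ?_⟩
  · have h1 : Measurable fun p : (Z × σ) × N => step p.1.2 p.2 :=
      hm.comp (measurable_fst.snd.prodMk measurable_snd)
    exact (ha.comp (h1.fst.prodMk measurable_fst.fst)).prodMk h1.snd
  · have h1 : Measurable fun p : σ × Z => step p.1 g :=
      hm.comp (measurable_fst.prodMk measurable_const)
    have h2 : MeasurePreserving (fun p : σ × Z => ((step p.1 g).2, (step p.1 g).1⁻¹ • p.2))
        (μσ.prod ν) (μσ.prod ν) :=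
      (hmp g).skew_product (g := fun u z => (step u g).1⁻¹ • z)
        (ha.comp (h1.fst.prodMk measurable_snd))
        (Eventually.of_forall fun u => (hν _).map_eq)
    exact (Measure.measurePreserving_swap.comp h2).comp Measure.measurePreserving_swap

omit [MeasurableSpace σ] [MeasurableSpace N] in
theorem meas_q (g : Γ) : Measurable fun z => ht π (Q.q z g) :=
  (Measurable.of_discrete (f := ht π)).comp (measurable_to_countable' (Q.q_meas g))

theorem meas_defect (hm : Measurable fun p : σ × N => step p.1 p.2) :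
    Measurable fun p : (Z × σ) × N => defect π Q.q step p.1 p.2 := by
  have h1 : Measurable fun p : (Z × σ) × N => step p.1.2 p.2 :=
    hm.comp (measurable_fst.snd.prodMk measurable_snd)
  have h2 : Measurable fun p : Γ × Z => ht π (Q.q p.2 p.1) - ht π p.1 :=
    measurable_from_prod_countable_right fun g => (meas_q π Q g).sub_const (ht π g)
  exact h2.comp (h1.fst.prodMk measurable_fst.fst)

end

theorem phi_bound {k : ℕ} (κ : Wt k) {c : ℝ} (hc : 0 ≤ c) (v x : Rk k) (R : ℕ)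
    (hv : c * ‖v‖ ≤ κ v) : c * ‖R • v + x‖ - κ (R • v + x) ≤ (c + ‖κ‖) * ‖x‖ := by
  have h1 : ‖R • v + x‖ ≤ R * ‖v‖ + ‖x‖ := (norm_add_le _ _).trans (by
    gcongr
    exact norm_nsmul_le)
  have h2 := mul_le_mul_of_nonneg_left h1 hc
  have h3 := mul_le_mul_of_nonneg_left hv (Nat.cast_nonneg (α := ℝ) R)
  have h4 := (abs_le.1 (κ.le_opNorm x)).1
  rw [map_add, map_nsmul, nsmul_eq_mul R (κ v)]
  nlinarith

theorem defic_le {Y N : Type} {k : ℕ} (T : N → Y → Y) (U : Y → N → Rk k) (κ : Wt k) {c : ℝ}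
    (hc : 0 ≤ c) (e₀ : ℝ) (v : Y → Rk k) (B : Y → Rk k) (ρ : Y → ℝ) (hv : ∀ g y, v (T g y) = v y)
    (hU : ∀ y g, ‖U y g - v y - (B (T g y) - B y)‖ ≤ e₀ + ρ y) (y : Y) (hy : c * ‖v y‖ ≤ κ (v y))
    (ω : ℕ → N) (R : ℕ) : defic T U κ c ((c + ‖κ‖) * e₀) y ω 0 R ≤
      (c + ‖κ‖) * (‖B (orb T y ω R)‖ + ‖B y‖ + ∑ i ∈ Finset.range R, ρ (orb T y ω i)) := by
  have hv' : ∀ i, v (orb T y ω i) = v y := by
    intro i
    induction i with
    | zero => rfl
    | succ i ih => rw [orb, hv, ih]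
  let E : ℕ → Rk k := fun i => U (orb T y ω i) (ω i) - v (orb T y ω i) -
    (B (orb T y ω (i + 1)) - B (orb T y ω i))
  have e : sumU T U y ω R = R • v y + (B (orb T y ω R) - B y + ∑ i ∈ Finset.range R, E i) := by
    simp only [E, Finset.sum_sub_distrib, hv', Finset.sum_const, Finset.card_range, sumU]
    have := Finset.sum_range_sub (fun i => B (orb T y ω i)) R
    rw [Finset.sum_sub_distrib] at this
    rw [this]
    simp only [orb]
    abel
  have z : sumU T U y ω 0 = 0 := by simp [sumU]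
  have h1 : ‖B (orb T y ω R) - B y + ∑ i ∈ Finset.range R, E i‖ ≤
      ‖B (orb T y ω R)‖ + ‖B y‖ + (R * e₀ + ∑ i ∈ Finset.range R, ρ (orb T y ω i)) := by
    refine (norm_add_le _ _).trans (add_le_add (norm_sub_le _ _) ?_)
    refine (norm_sum_le _ _).trans ((Finset.sum_le_sum fun i _ => hU _ _).trans (le_of_eq ?_))
    simp [Finset.sum_add_distrib]
  have h2 := mul_le_mul_of_nonneg_left h1 (add_nonneg hc (norm_nonneg κ))
  have h3 := phi_bound κ hc (v y) (B (orb T y ω R) - B y + ∑ i ∈ Finset.range R, E i) R hy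
  unfold defic
  rw [z, sub_zero, e]
  push_cast
  linarith

theorem int_defic_le {Y N : Type} [MeasurableSpace Y] [MeasurableSpace N] {μ : Measure Y}
    [IsProbabilityMeasure μ] (P : Measure N) [IsProbabilityMeasure P] {T : N → Y → Y}
    (hT : RMP μ T) {k : ℕ} (U : Y → N → Rk k) (κ : Wt k) {c : ℝ}
    (hc : 0 ≤ c) (e₀ : ℝ) (v : Y → Rk k) (B : Y → Rk k) (ρ : Y → ℝ) (hv : ∀ g y, v (T g y) = v y)
    (hU : ∀ y g, ‖U y g - v y - (B (T g y) - B y)‖ ≤ e₀ + ρ y)
    (hy : ∀ᵐ y ∂μ, c * ‖v y‖ ≤ κ (v y)) (hB : Measurable B) (hρ : Measurable ρ)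
    (hρ0 : ∀ y, 0 ≤ ρ y) (R : ℕ) :
    ∫⁻ p, ENNReal.ofReal (defic T U κ c ((c + ‖κ‖) * e₀) p.1 p.2 0 R) ∂(μ.prod (iid P)) ≤
      ENNReal.ofReal (c + ‖κ‖) *
        (2 * ∫⁻ y, ‖B y‖ₑ ∂μ + R * ∫⁻ y, ENNReal.ofReal (ρ y) ∂μ) := by
  have h1 : ∀ i, Measurable fun p : Y × (ℕ → N) => ‖B (orb T p.1 p.2 i)‖ₑ :=
    fun i => (hB.comp (hT.measurable_orb i)).enorm
  have h2 : ∀ i, Measurable fun p : Y × (ℕ → N) => ENNReal.ofReal (ρ (orb T p.1 p.2 i)) :=
    fun i => (hρ.comp (hT.measurable_orb i)).ennreal_ofReal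
  have h3 : Measurable fun p : Y × (ℕ → N) => ‖B (orb T p.1 p.2 R)‖ₑ + ‖B (orb T p.1 p.2 0)‖ₑ :=
    (h1 R).add (h1 0)
  calc _ ≤ ∫⁻ p, ENNReal.ofReal (c + ‖κ‖) * (‖B (orb T p.1 p.2 R)‖ₑ + ‖B (orb T p.1 p.2 0)‖ₑ +
        ∑ i ∈ Finset.range R, ENNReal.ofReal (ρ (orb T p.1 p.2 i))) ∂(μ.prod (iid P)) := by
        refine lintegral_mono_ae ?_
        filter_upwards [(measurePreserving_fst (μ := μ) (ν := iid P)).quasiMeasurePreserving.ae hy]
          with p hp
        refine (ENNReal.ofReal_le_ofReal (defic_le T U κ hc e₀ v B ρ hv hU p.1 hp p.2 R)).trans ?_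
        rw [ENNReal.ofReal_mul (add_nonneg hc (norm_nonneg κ))]
        gcongr
        refine ENNReal.ofReal_add_le.trans (add_le_add (ENNReal.ofReal_add_le.trans ?_) ?_)
        · rw [ofReal_norm, ofReal_norm]
          rfl
        · exact (ENNReal.ofReal_sum_of_nonneg fun i _ => hρ0 _).le
    _ = _ := by
        rw [lintegral_const_mul _ (h3.fun_add (Finset.measurable_fun_sum _ fun i _ => h2 i)),
          lintegral_add_left h3, lintegral_add_left (h1 R), lintegral_finsetSum _ fun i _ => h2 i,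
          (mp_orb hT R).lintegral_comp hB.enorm, (mp_orb hT 0).lintegral_comp hB.enorm]
        simp only [fun i => (mp_orb (P := P) hT i).lintegral_comp hρ.ennreal_ofReal,
          Finset.sum_const, Finset.card_range, nsmul_eq_mul, two_mul]

end Vale.Agent.P188.OpX
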