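import Vale.Agent.P188.LayerB

/-! P188: the torus part of the pair invariant. -/

namespace Vale.Agent.P188

open Function MeasureTheory Filter Matrix
open scoped ENNReal NNReal Topology

theorem pairExt_pi_le (μ ν : Measure ℝ) [SigmaFinite μ] [SigmaFinite ν] (c : ℝ≥0∞)
    (h : μ ≤ c • ν) (m : ℕ) :
    (Measure.pi fun _ : Fin m => μ) ≤ c ^ m • Measure.pi fun _ : Fin m => ν := by
  induction m with
  | zero =>
    rw [Measure.pi_of_empty, Measure.pi_of_empty, pow_zero, one_smul]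
  | succ m ih =>
    have h1 := (measurePreserving_piFinSuccAbove (fun _ : Fin (m + 1) => μ) 0).symm
    have h2 := (measurePreserving_piFinSuccAbove (fun _ : Fin (m + 1) => ν) 0).symm
    rw [← h1.map_eq, ← h2.map_eq, ← Measure.map_smul]
    refine Measure.map_mono ?_ h1.measurable
    refine (Measure.prod_mono h ih).trans_eq ?_
    rw [Measure.prod_smul_left, Measure.prod_smul_right, smul_smul, pow_succ']

theorem pairExt_rho_le : rho1 ≤ (2 : ℝ≥0∞) • (volume : Measure ℝ) := by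
  rw [rho1, ← withDensity_const]
  refine withDensity_mono (ae_of_all _ fun s => ?_)
  have h1 : max (1 - |s|) 0 ≤ 1 := max_le (by linarith [abs_nonneg s]) zero_le_one
  have h2 : 0 ≤ max (1 - |s|) 0 := le_max_right _ _
  have h3 : dens s ≤ 2 := by unfold dens; nlinarith
  simpa using ENNReal.ofReal_le_ofReal h3

theorem pairExt_noise_le (m : ℕ) :
    noiseM m ≤ (2 : ℝ≥0∞) ^ m • (volume : Measure (Fin m → ℝ)) :=
  pairExt_pi_le rho1 volume 2 pairExt_rho_le m

theorem pairExt_cube {m : ℕ} (w : Fin m → ℝ) :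
    MeasurePreserving (prj : (Fin m → ℝ) → Tor m)
      (volume.restrict (Set.pi Set.univ fun i => Set.Ico (w i) (w i + 1))) (torM m) := by
  have h1 : ∀ a : ℝ, MeasurePreserving (fun x : ℝ => (x : UnitAddCircle))
      (volume.restrict (Set.Ico a (a + 1))) AddCircle.haarAddCircle := fun a => by
    have := AddCircle.measurePreserving_mk 1 a
    rw [AddCircle.volume_eq_smul_haarAddCircle, ENNReal.ofReal_one, one_smul] at this
    rw [restrict_Ico_eq_restrict_Ioc]
    exact this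
  rw [volume_pi, Measure.restrict_pi_pi]
  exact measurePreserving_pi _ _ fun i => h1 (w i)

theorem pairExt_flo_fin (m : ℕ) (M : ℝ) :
    ∃ W : Finset (Zk m), ∀ x : Fin m → ℝ, ‖x‖ ≤ M → flo x ∈ W := by
  classical
  refine ⟨(Fintype.piFinset fun _ : Fin m => Finset.Icc ⌊-M⌋ ⌊M⌋).image Multiplicative.ofAdd,
    fun x hx => Finset.mem_image.2 ⟨_, ?_, rfl⟩⟩
  refine Fintype.mem_piFinset.2 fun i => Finset.mem_Icc.2 ?_
  have := abs_le.1 ((norm_le_pi_norm x i).trans hx)
  exact ⟨Int.floor_le_floor this.1, Int.floor_le_floor this.2⟩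

theorem pairExt_mulVec_bd {m : ℕ} (A : Matrix (Fin m) (Fin m) ℝ) :
    ∃ M : ℝ, ∀ x : Fin m → ℝ, ‖x‖ ≤ 1 → ‖A.mulVec x‖ ≤ M := by
  refine ⟨‖LinearMap.toContinuousLinearMap (Matrix.toLin' A)‖, fun x hx => ?_⟩
  have := (LinearMap.toContinuousLinearMap (Matrix.toLin' A)).le_opNorm_of_le hx
  simpa using this

theorem pairExt_noise_tor {m : ℕ} (A : Matrix (Fin m) (Fin m) ℝ) (hA : A.det ≠ 0) :
    ∃ C : ℝ≥0, ∀ (φ : Tor m → ℝ≥0∞), Measurable φ → ∀ c : Fin m → ℝ,
      ∫⁻ t, φ (prj (c + A.mulVec (clamp t))) ∂noiseM m ≤ C * ∫⁻ v, φ v ∂torM m := by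
  obtain ⟨M, hM⟩ := pairExt_mulVec_bd A
  obtain ⟨W, hW⟩ := pairExt_flo_fin m M
  refine ⟨W.card * (2 ^ m * Real.toNNReal |A.det⁻¹|), fun φ hφ c => ?_⟩
  have : (torM m).IsAddHaarMeasure := by unfold torM; infer_instance
  let cube : Zk m → Set (Fin m → ℝ) := fun w => Set.pi Set.univ fun i =>
    Set.Ico ((Multiplicative.toAdd w i : ℤ) : ℝ) ((Multiplicative.toAdd w i : ℤ) + 1)
  have hcube : ∀ w, MeasurableSet (cube w) := fun w =>
    MeasurableSet.univ_pi fun i => measurableSet_Ico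
  have hψ : Measurable fun x : Fin m → ℝ => φ (prj c + prj x) :=
    hφ.comp (measurable_const.add continuous_prj.measurable)
  have hAm : Measurable (Matrix.toLin' A) := (LinearMap.continuous_on_pi _).measurable
  have h1 : ∫⁻ t, φ (prj (c + A.mulVec (clamp t))) ∂noiseM m ≤
      ∫⁻ t, ∑ w ∈ W, (cube w).indicator (fun x => φ (prj c + prj x)) (Matrix.toLin' A t)
        ∂noiseM m := by
    refine lintegral_mono_ae (ae_clamp.mono fun t ht => ?_)
    have h2 := hW _ (hM _ (norm_clamp_le t))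
    rw [ht] at h2 ⊢
    refine le_trans (le_of_eq ?_) (Finset.single_le_sum (f := fun w =>
      (cube w).indicator (fun x => φ (prj c + prj x)) (Matrix.toLin' A t))
      (fun _ _ => zero_le) h2)
    rw [Set.indicator_of_mem, prj_add, Matrix.toLin'_apply]
    intro i _
    exact ⟨Int.floor_le _, Int.lt_floor_add_one _⟩
  refine h1.trans ?_
  rw [lintegral_finsetSum (f := fun w t => (cube w).indicator (fun x => φ (prj c + prj x))
    (Matrix.toLin' A t)) _ fun w _ => (hψ.indicator (hcube w)).comp hAm]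
  refine (Finset.sum_le_card_nsmul _ _
    ((2 ^ m * ENNReal.ofReal |A.det⁻¹|) * ∫⁻ v, φ v ∂torM m) fun w _ => ?_).trans_eq ?_
  · refine (lintegral_mono' (pairExt_noise_le m) le_rfl).trans_eq ?_
    rw [lintegral_smul_measure, ← lintegral_map (hψ.indicator (hcube w)) hAm,
      Real.map_matrix_volume_pi_eq_smul_volume_pi hA, lintegral_smul_measure,
      lintegral_indicator (hcube w),
      (pairExt_cube _).lintegral_comp (f := fun v => φ (prj c + v))
        (hφ.comp (measurable_const.add measurable_id)), lintegral_add_left_eq_self]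
    simp [mul_assoc]
  · simp [ENNReal.ofReal, mul_assoc]

section
variable {k : ℕ} (L : Layer k)

theorem pairExt_lift_prj {m : ℕ} (x : Fin m → ℝ) :
    lift (prj x) = x - fun i => ((Multiplicative.toAdd (flo x) i : ℤ) : ℝ) :=
  eq_sub_of_add_eq (lift_prj_add_flo x)

theorem pairExt_prj_R (b : Zk k) (x : Fin L.m → ℝ) :
    prj ((L.R b).mulVec (lift (prj x))) = prj ((L.R b).mulVec x) := by
  conv_rhs => rw [← lift_prj_add_flo x, mulVec_add, prj_add, L.R_cast, prj_int, add_zero]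

theorem pairExt_key {L : Layer k} {Γ Γ' : Type} [Group Γ] [Group Γ'] {π' : Γ' →* Zk k}
    (E : Ext L Γ Γ' π') (γ : Γ) (v : Tor L.m) (X X' : Fin L.m → ℝ)
    (h : X' = (L.R (π' (E.p γ))).mulVec (lift (prj X)) +
      (lift v - (L.R (π' (E.p γ))).mulVec X)) :
    γ⁻¹ * E.ι (flo X') = (γ * E.ι (flo X))⁻¹ ∧ prj X' = v := by
  have h1 : X' = lift v +
      fun i => (((-(L.ρ (π' (E.p γ))).mulVec (Multiplicative.toAdd (flo X))) i : ℤ) : ℝ) := by
    rw [h, pairExt_lift_prj, mulVec_sub, L.R_cast]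
    funext i
    simp
    ring
  refine ⟨?_, by rw [h1, prj_add, prj_int, add_zero, prj_lift]⟩
  rw [h1, flo_add_int, flo_lift, one_mul, E.mul_ι γ, _root_.mul_inv_rev, ← map_inv]
  rfl

end

end Vale.Agent.P188
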