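import Vale.Agent.P188.Stmts

/-! Words, recurrence and lattice lemmas for the structure theorem. -/

namespace Vale.Agent.P188

open Function Filter Topology

section Words

variable {G : Type} [Group G] {S : Finset G}

theorem st_one_mem (r : ℕ) : (1 : G) ∈ wBall S r := ⟨[], fun _ h => by simp at h, by simp, rfl⟩

theorem st_mul_mem {g h : G} {r r' : ℕ} (hg : g ∈ wBall S r) (hh : h ∈ wBall S r') :
    g * h ∈ wBall S (r + r') := by
  obtain ⟨l, h1, h2, rfl⟩ := hg
  obtain ⟨l', h3, h4, rfl⟩ := hh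
  refine ⟨l ++ l', fun x hx => (List.mem_append.1 hx).elim (h1 x) (h3 x), ?_, List.prod_append⟩
  rw [List.length_append]
  omega

theorem st_mono {g : G} {r r' : ℕ} (hg : g ∈ wBall S r) (h : r ≤ r') : g ∈ wBall S r' := by
  obtain ⟨l, h1, h2, h3⟩ := hg
  exact ⟨l, h1, h2.trans h, h3⟩

theorem st_inv_mem {g : G} {r : ℕ} (hg : g ∈ wBall S r) : g⁻¹ ∈ wBall S r := by
  obtain ⟨l, h1, h2, rfl⟩ := hg
  refine ⟨(l.map fun x => x⁻¹).reverse, fun x hx => ?_, by simpa using h2,
    (List.prod_inv_reverse l).symm⟩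
  obtain ⟨y, hy, rfl⟩ := List.mem_map.1 (List.mem_reverse.1 hx)
  simpa using (h1 y hy).symm

theorem st_exists (hS : Subgroup.closure (S : Set G) = ⊤) (g : G) : ∃ r, g ∈ wBall S r := by
  have hg : g ∈ Subgroup.closure (S : Set G) := hS ▸ Subgroup.mem_top g
  induction hg using Subgroup.closure_induction with
  | mem x hx => exact ⟨1, [x], fun y hy => Or.inl (by simp_all), le_rfl, by simp⟩
  | one => exact ⟨0, st_one_mem 0⟩
  | mul x y _ _ h1 h2 =>
    obtain ⟨r, h1⟩ := h1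
    obtain ⟨r', h2⟩ := h2
    exact ⟨_, st_mul_mem h1 h2⟩
  | inv x _ h1 =>
    obtain ⟨r, h1⟩ := h1
    exact ⟨r, st_inv_mem h1⟩

theorem st_of_length (hS : Subgroup.closure (S : Set G) = ⊤) {g : G} {K : ℕ}
    (h : wordLength S g ≤ K) : g ∈ wBall S K := by
  obtain ⟨r, l, h1, -, h3⟩ := st_exists hS g
  obtain ⟨l', h4, h5, h6⟩ := Nat.sInf_mem (s := {n | ∃ l : List G, l.length = n ∧
    (∀ x ∈ l, x ∈ S ∨ x⁻¹ ∈ S) ∧ l.prod = g}) ⟨_, l, rfl, h1, h3⟩
  exact ⟨l', h5, h4.le.trans h, h6⟩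

theorem st_finite (S : Finset G) (r : ℕ) : (wBall S r).Finite := by
  classical
  induction r with
  | zero =>
    refine (Set.finite_singleton (1 : G)).subset ?_
    rintro g ⟨l, -, h2, rfl⟩
    simp [List.length_eq_zero_iff.1 (Nat.le_zero.1 h2)]
  | succ r ih =>
    refine ((((S ∪ S.image fun x => x⁻¹).finite_toSet).mul ih).insert 1).subset ?_
    rintro g ⟨l, h1, h2, rfl⟩
    cases l with
    | nil => simp
    | cons x l =>
      refine Or.inr ⟨x, ?_, l.prod, ⟨l, fun y hy => h1 y (List.mem_cons_of_mem _ hy),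
        by simpa using h2, rfl⟩, by simp⟩
      rcases h1 x List.mem_cons_self with h | h
      · simp [h]
      · simp only [Finset.coe_union, Finset.coe_image, Set.mem_union]
        exact Or.inr ⟨_, h, inv_inv x⟩

theorem st_countable (hS : Subgroup.closure (S : Set G) = ⊤) : Countable G := by
  rw [← Set.countable_univ_iff]
  exact (Set.countable_iUnion fun r => (st_finite S r).countable).mono
    fun g _ => Set.mem_iUnion.2 (st_exists hS g)

theorem st_q_mem (hS : Subgroup.closure (S : Set G) = ⊤) {K : ℕ} {Z : Type} [MulAction G Z]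
    [MeasurableSpace Z] (Q : QS S K Z) {p : G} {r : ℕ} (hp : p ∈ wBall S r) (z : Z) :
    Q.q z p ∈ wBall S (K * r) := by
  obtain ⟨l, h1, h2, rfl⟩ := hp
  refine st_mono (r := K * l.length) ?_ (Nat.mul_le_mul_left _ h2)
  clear h2
  induction l generalizing z with
  | nil => simpa [Q.q_one] using st_one_mem 0
  | cons x l ih =>
    rw [List.prod_cons, Q.q_mul, List.length_cons, mul_add, mul_one, add_comm]
    refine st_mul_mem ?_ (ih _ fun y hy => h1 y (List.mem_cons_of_mem _ hy))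
    rcases h1 x List.mem_cons_self with h | h
    · exact st_of_length hS (Q.q_lip z x h)
    · have e := Q.q_mul z x x⁻¹
      rw [mul_inv_cancel, Q.q_one] at e
      rw [eq_inv_of_mul_eq_one_left e.symm]
      exact st_inv_mem (st_of_length hS (Q.q_lip _ _ h))

variable {k : ℕ} (π : G →* Zk k)

theorem st_toR_mul (a b : Zk k) : toR (a * b) = toR a + toR b := by
  funext i
  simp [toR]

theorem st_ht_mul (g h : G) : ht π (g * h) = ht π g + ht π h := by
  simp only [ht, map_mul, st_toR_mul]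

theorem st_ht_one : ht π 1 = 0 := by
  funext i
  simp [ht, toR]

theorem st_ht_inv (g : G) : ht π g⁻¹ = -ht π g := by
  funext i
  simp [ht, toR]

theorem st_ht_le (S : Finset G) :
    ∃ C : ℕ, ∀ (r : ℕ) (g : G), g ∈ wBall S r → ‖ht π g‖ ≤ (C * r : ℕ) := by
  obtain ⟨C, hC⟩ := exists_nat_ge (∑ s ∈ S, ‖ht π s‖)
  have h0 : ∀ s ∈ S, ‖ht π s‖ ≤ C := fun s hs =>
    (Finset.single_le_sum (f := fun s => ‖ht π s‖) (fun _ _ => norm_nonneg _) hs).trans hC
  refine ⟨C, ?_⟩
  rintro r g ⟨l, h1, h2, rfl⟩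
  refine le_trans ?_ (Nat.cast_le.2 (Nat.mul_le_mul_left C h2))
  clear h2
  induction l with
  | nil => simp [st_ht_one]
  | cons x l ih =>
    have h3 := ih fun y hy => h1 y (List.mem_cons_of_mem _ hy)
    have h4 : ‖ht π x‖ ≤ C := by
      rcases h1 x List.mem_cons_self with h | h
      · exact h0 x h
      · simpa [st_ht_inv] using h0 _ h
    rw [List.prod_cons, st_ht_mul]
    refine (norm_add_le _ _).trans ?_
    push_cast [List.length_cons] at h3 ⊢
    linarith

theorem st_step {C L r : ℕ} {ρ : ℝ}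
    (hC : ∀ (r : ℕ) (g : G), g ∈ wBall S r → ‖ht π g‖ ≤ (C * r : ℕ)) {g x : G}
    (hg : g ∈ hBall S (ht π) r (ρ + (C * L : ℕ))) (h1 : ‖ht π g‖ ≤ ρ) (hx : x ∈ wBall S L) :
    g * x ∈ hBall S (ht π) (r + L) (ρ + (C * L : ℕ)) := by
  obtain ⟨l, h2, h3, rfl, h4⟩ := hg
  obtain ⟨l', h5, h6, rfl⟩ := hx
  refine ⟨l ++ l', fun x hx => (List.mem_append.1 hx).elim (h2 x) (h5 x),
    by rw [List.length_append]; omega, List.prod_append, fun i => ?_⟩
  rcases le_total i l.length with h | h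
  · rw [List.take_append_of_le_length h]
    exact h4 i
  · rw [List.take_append, List.take_of_length_le h, List.prod_append, st_ht_mul]
    refine (norm_add_le _ _).trans (add_le_add h1 (hC L _ ⟨_, fun y hy =>
      h5 y (List.mem_of_mem_take hy), ?_, rfl⟩))
    exact (List.length_take_le' _ _).trans h6

end Words

theorem st_recur {X : Type} [PseudoMetricSpace X] {s : Set X} (hs : IsCompact s) (f : ℕ → X)
    (hf : ∀ n, f n ∈ s) {δ : ℝ} (hδ : 0 < δ) : ∃ m n, m < n ∧ dist (f m) (f n) < δ := by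
  obtain ⟨x, -, φ, h1, h2⟩ := hs.tendsto_subseq hf
  obtain ⟨N, hN⟩ := Metric.cauchySeq_iff.1 h2.cauchySeq δ hδ
  exact ⟨φ N, φ (N + 1), h1 (Nat.lt_succ_self N), hN N le_rfl (N + 1) (Nat.le_succ N)⟩

theorem st_dirichlet {k : ℕ} (a : Rk k) {δ : ℝ} (hδ : 0 < δ) :
    ∃ (n : ℕ) (b : Zk k), 1 ≤ n ∧ ‖toR b - (n : ℝ) • a‖ < δ := by
  obtain ⟨m, n, h1, h2⟩ := st_recur (isCompact_Icc (a := (0 : Rk k)) (b := 1))
    (fun n i => Int.fract ((n : ℝ) * a i))
    (fun n => ⟨fun i => Int.fract_nonneg _, fun i => (Int.fract_lt_one _).le⟩) hδ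
  refine ⟨n - m, Multiplicative.ofAdd fun i => ⌊(n : ℝ) * a i⌋ - ⌊(m : ℝ) * a i⌋, by omega, ?_⟩
  rw [dist_eq_norm] at h2
  refine lt_of_eq_of_lt (congrArg _ (funext fun i => ?_)) h2
  simp only [toR, Int.fract, Pi.sub_apply, Pi.smul_apply, toAdd_ofAdd, Nat.cast_sub h1.le,
    smul_eq_mul]
  push_cast
  ring

theorem st_geom {x : ℝ} (h : 3 ≤ x) (J : ℕ) :
    2 * ∑ i ∈ Finset.range J, x ^ (i + 1) < x ^ (J + 1) := by
  induction J with
  | zero => simp; linarith
  | succ J ih =>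
    have : 0 < x ^ (J + 1) := pow_pos (by linarith) _
    rw [Finset.sum_range_succ, pow_succ x (J + 1)]
    nlinarith

theorem st_inj {l : ℂ} (h : 3 ≤ ‖l‖) (ω ω' : ℕ → Bool) (J : ℕ)
    (e : ∑ i ∈ Finset.range J, (if ω i = true then l ^ (i + 1) else 0) =
      ∑ i ∈ Finset.range J, if ω' i = true then l ^ (i + 1) else 0) : ∀ i < J, ω i = ω' i := by
  induction J with
  | zero => simp
  | succ J ih =>
    have hb : ∀ ω : ℕ → Bool, ‖∑ i ∈ Finset.range J, if ω i = true then l ^ (i + 1) else 0‖ ≤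
        ∑ i ∈ Finset.range J, ‖l‖ ^ (i + 1) := fun ω =>
      norm_sum_le_of_le _ fun i _ => by split_ifs <;> simp
    have h1 := st_geom h J
    have h2 := hb ω
    have h3 := hb ω'
    rw [Finset.sum_range_succ, Finset.sum_range_succ] at e
    have h4 : ω J = ω' J := by
      by_contra hne
      rcases Bool.eq_false_or_eq_true (ω J) with a | a <;>
        rcases Bool.eq_false_or_eq_true (ω' J) with b | b <;> simp only [a, b] at e hne
      · exact hne trivial
      · simp only [if_true, Bool.false_eq_true, if_false, add_zero] at e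
        have := norm_sub_le_of_le h3 h2
        rw [← e, add_sub_cancel_left, norm_pow] at this
        linarith
      · simp only [if_true, Bool.false_eq_true, if_false, add_zero] at e
        have := norm_sub_le_of_le h2 h3
        rw [e, add_sub_cancel_left, norm_pow] at this
        linarith
      · exact hne trivial
    rw [h4] at e
    intro i hi
    rcases Nat.lt_succ_iff_lt_or_eq.1 hi with h5 | rfl
    · exact ih (add_right_cancel e) i h5
    · exact h4

theorem st_dense {V : Type} [NormedAddCommGroup V] [NormedSpace ℝ V] (Λ : AddSubgroup V)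
    (E : Submodule ℝ V) [FiniteDimensional ℝ E] (hE : E = Submodule.span ℝ (Λ : Set V)) :
    ∃ K0 : ℝ, 0 ≤ K0 ∧ ∀ R : ℝ, ∃ F : Finset V, (∀ x ∈ F, x ∈ Λ) ∧
      ∀ e ∈ E, ‖e‖ ≤ R → ∃ x ∈ F, ‖x - e‖ ≤ K0 := by
  have hfg : (Submodule.span ℝ (Λ : Set V)).FG := hE ▸ (Submodule.fg_iff_finiteDimensional E).2 ‹_›
  obtain ⟨T, hT, hs⟩ := (Submodule.fg_span_iff_fg_span_finset_subset _).1 hfg
  refine ⟨∑ t ∈ T, ‖t‖ + 1, by positivity, fun R => ?_⟩
  have h1 : ∀ e ∈ E, ∃ x ∈ Λ, e ∈ Metric.ball x (∑ t ∈ T, ‖t‖ + 1) := by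
    intro e he
    rw [hE, hs] at he
    obtain ⟨c, -, rfl⟩ := Submodule.mem_span_finset.1 he
    refine ⟨∑ t ∈ T, ⌊c t⌋ • t, Λ.sum_mem fun t ht => Λ.zsmul_mem (hT ht) _, ?_⟩
    rw [mem_ball_iff_norm, ← Finset.sum_sub_distrib]
    refine (norm_sum_le_of_le _ fun t _ => ?_).trans_lt (lt_add_one _)
    rw [← Int.cast_smul_eq_zsmul ℝ, ← sub_smul, norm_smul]
    refine mul_le_of_le_one_left (norm_nonneg _) ?_
    rw [Int.self_sub_floor, Real.norm_of_nonneg (Int.fract_nonneg _)]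
    exact (Int.fract_lt_one _).le
  have h2 : IsCompact (Subtype.val '' Metric.closedBall (0 : E) R) :=
    (isCompact_closedBall _ _).image continuous_subtype_val
  obtain ⟨F, h3, h4, h5⟩ := h2.elim_finite_subcover_image (b := (Λ : Set V))
    (c := fun x => Metric.ball x (∑ t ∈ T, ‖t‖ + 1)) (fun _ _ => Metric.isOpen_ball) (by
      rintro _ ⟨e, -, rfl⟩
      obtain ⟨x, h6, h7⟩ := h1 e e.2
      exact Set.mem_biUnion h6 h7)
  refine ⟨h4.toFinset, fun x hx => h3 (h4.mem_toFinset.1 hx), fun e he hR => ?_⟩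
  obtain ⟨x, h6, h7⟩ := Set.mem_iUnion₂.1 (h5 ⟨⟨e, he⟩, mem_closedBall_zero_iff.2 hR, rfl⟩)
  exact ⟨x, h4.mem_toFinset.2 h6, (mem_ball_iff_norm'.1 h7).le⟩

theorem st_growth (A : ℝ) (D : ℕ) : ∀ᶠ n : ℕ in atTop, A * ((n : ℝ) + 1) ^ D < 2 ^ n := by
  have h := (tendsto_pow_const_div_const_pow_of_one_lt D (show (1 : ℝ) < 2 by norm_num)).comp
    (tendsto_add_atTop_nat 1)
  filter_upwards [(h.const_mul (2 * A)).eventually (gt_mem_nhds (show 2 * A * 0 < 1 by simp))]
    with n hn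
  simp only [Function.comp_apply, pow_succ] at hn
  push_cast at hn
  rw [← mul_div_assoc, div_lt_one (by positivity)] at hn
  linarith

end Vale.Agent.P188
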