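import Vale.Agent.P188.STa

/-! Measure-theoretic lemmas for the structure theorem. -/

namespace Vale.Agent.P188

open Function Filter Topology MeasureTheory

section Meas

variable {Z : Type} [MeasurableSpace Z] {ν : Measure Z}

theorem st_cheb {F : Type} [NormedAddCommGroup F] [IsFiniteMeasure ν] {f : Z → F}
    (hf : AEStronglyMeasurable f ν) {a c : ℝ} (ha : 0 ≤ a) (hc : 0 < c)
    (h : eLpNorm f 2 ν ≤ ENNReal.ofReal a) : ν.real {z | c ≤ ‖f z‖} ≤ (a / c) ^ 2 := by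
  have h1 := mul_meas_ge_le_pow_eLpNorm' ν (p := 2) two_ne_zero ENNReal.ofNat_ne_top hf
    (ENNReal.ofReal c)
  simp only [ENNReal.toReal_ofNat, ENNReal.rpow_ofNat, ← ofReal_norm,
    ENNReal.ofReal_le_ofReal_iff (norm_nonneg _)] at h1
  have h2 := ENNReal.toReal_mono (by simp) (h1.trans (pow_le_pow_left' h 2))
  rw [ENNReal.toReal_mul, ENNReal.toReal_pow, ENNReal.toReal_pow, ENNReal.toReal_ofReal hc.le,
    ENNReal.toReal_ofReal ha] at h2
  rw [div_pow, le_div_iff₀ (by positivity), mul_comm]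
  exact h2

variable {W : Type} [NormedAddCommGroup W] [InnerProductSpace ℝ W]

omit [InnerProductSpace ℝ W] in
theorem st_chebL [IsFiniteMeasure ν] (x : Lp W 2 ν) {a c : ℝ} (hc : 0 < c) (h : ‖x‖ ≤ a) :
    ν.real {z | c ≤ ‖x z‖} ≤ (a / c) ^ 2 :=
  st_cheb (Lp.aestronglyMeasurable x) ((norm_nonneg _).trans h) hc (by
    rw [← Lp.enorm_def, ← ofReal_norm]
    exact ENNReal.ofReal_le_ofReal h)

theorem st_ev (E : Submodule ℝ (Lp W 2 ν)) [FiniteDimensional ℝ E] :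
    ∃ A : Z → ℝ, ∀ x ∈ E, ∀ᵐ z ∂ν, ‖x z‖ ≤ A z * ‖x‖ := by
  let b := stdOrthonormalBasis ℝ E
  refine ⟨fun z => ∑ i, ‖(b i : Lp W 2 ν) z‖, fun x hx => ?_⟩
  have h1 : x = ∑ i, inner ℝ (b i) (⟨x, hx⟩ : E) • (b i : Lp W 2 ν) := by
    have := congrArg Subtype.val (b.sum_repr' ⟨x, hx⟩)
    simpa using this.symm
  have h2 := Lp.coeFn_finsetSum Finset.univ
    fun i => inner ℝ (b i) (⟨x, hx⟩ : E) • (b i : Lp W 2 ν)
  rw [← h1] at h2
  filter_upwards [h2, ae_all_iff.2 fun i =>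
    Lp.coeFn_smul (inner ℝ (b i) (⟨x, hx⟩ : E)) (b i : Lp W 2 ν)] with z h3 h4
  rw [h3, Finset.sum_apply, Finset.sum_mul]
  refine norm_sum_le_of_le _ fun i _ => ?_
  rw [h4 i, Pi.smul_apply, norm_smul, mul_comm]
  refine mul_le_mul_of_nonneg_left ((norm_inner_le_norm _ _).trans ?_) (norm_nonneg _)
  rw [b.orthonormal.1 i, one_mul]
  rfl

theorem st_comb {k : ℕ} (d : Fin k → Lp W 2 ν) (a : Rk k) :
    ∀ᵐ z ∂ν, (∑ i, a i • d i : Lp W 2 ν) z = ∑ i, a i • d i z := by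
  filter_upwards [Lp.coeFn_finsetSum Finset.univ fun i => a i • d i,
    ae_all_iff.2 fun i => Lp.coeFn_smul (a i) (d i)] with z h1 h2
  rw [h1, Finset.sum_apply]
  exact Finset.sum_congr rfl fun i _ => h2 i

theorem st_ess {k : ℕ} {w : List (Wt k)} (hw : Definite w) [FiniteDimensional ℝ W]
    (hW : Module.finrank ℝ W = k) (d : Fin k → Lp W 2 ν) {e : Lp W 2 ν} (he : e ≠ 0) {δ : ℝ}
    (hδ : 0 < δ) : ∃ χ ∈ w, ∃ (b : Zk k) (σ : ℝ), 2 ≤ χ (toR b) ∧
      ν {z | ‖(σ • e + ∑ i, toR b i • d i : Lp W 2 ν) z‖ < δ} ≠ 0 := by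
  let Φ : Z → (Fin k → W) × W := fun z => (fun i => d i z, e z)
  have h0 : OuterMeasure.map Φ ν.toOuterMeasure {x | x.2 ≠ 0} ≠ 0 := fun h =>
    he (Lp.eq_zero_iff_ae_eq_zero.2 h)
  obtain ⟨⟨c, y⟩, hy, hx⟩ := exists_mem_forall_mem_nhdsWithin_pos_measure h0
  let L : (Rk k × ℝ) →ₗ[ℝ] W := (Fintype.linearCombination ℝ c).coprod
    (LinearMap.toSpanSingleton ℝ W y)
  obtain ⟨⟨a, s⟩, h1, h2⟩ := (Submodule.ne_bot_iff _).1
    (LinearMap.ker_ne_bot_of_finrank_lt (f := L) (by simp [hW]))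
  have h3 : ∑ i, a i • c i + s • y = 0 := by
    simpa [L, Fintype.linearCombination_apply] using h1
  have ha : a ≠ 0 := by
    rintro rfl
    simp only [Pi.zero_apply, zero_smul, Finset.sum_const_zero, zero_add, smul_eq_zero] at h3
    exact h2 (by rw [h3.resolve_right hy]; rfl)
  obtain ⟨χ, hχ, h4⟩ := hw a ha
  have h5 : ∀ᶠ h : Rk k in 𝓝 0, ‖∑ i, h i • c i‖ < δ ∧ |χ h| < 1 := by
    refine (Continuous.continuousAt (by fun_prop)).eventually_lt continuousAt_const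
      (by simpa using hδ) |>.and
      ((Continuous.continuousAt (by fun_prop)).eventually_lt continuousAt_const (by simp))
  obtain ⟨η, hη, h6⟩ := Metric.eventually_nhds_iff.1 h5
  obtain ⟨n, b, h7, h8⟩ := st_dirichlet ((3 / χ a) • a) hη
  obtain ⟨h9, h10⟩ := h6 (by rwa [dist_zero_right])
  refine ⟨χ, hχ, b, n * (3 / χ a) * s, ?_, ?_⟩
  · rw [map_sub, map_smul, map_smul, smul_eq_mul, smul_eq_mul, div_mul_cancel₀ _ h4] at h10
    have : (1 : ℝ) ≤ n := by exact_mod_cast h7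
    linarith [(abs_lt.1 h10).1]
  · have h11 := hx {x | ‖(n * (3 / χ a) * s) • x.2 + ∑ i, toR b i • x.1 i‖ < δ}
      (mem_nhdsWithin_of_mem_nhds ((isOpen_lt (by fun_prop) continuous_const).mem_nhds ?_))
    · refine fun h => h11.ne' ?_
      rw [OuterMeasure.map_apply, Measure.coe_toOuterMeasure, ← h]
      refine measure_congr ?_
      filter_upwards [Lp.coeFn_add ((n * (3 / χ a) * s) • e) (∑ i, toR b i • d i),
        Lp.coeFn_smul (n * (3 / χ a) * s) e, st_comb d (toR b)] with z h12 h13 h14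
      refine propext ?_
      change _ ↔ ‖_‖ < δ
      rw [h12, Pi.add_apply, h13, h14]
      rfl
    · refine lt_of_eq_of_lt (congrArg _ ?_) h9
      have h12 : s • y = -∑ i, a i • c i := eq_neg_of_add_eq_zero_right h3
      simp only [Pi.sub_apply, Pi.smul_apply, sub_smul, Finset.sum_sub_distrib, smul_assoc,
        ← Finset.smul_sum, mul_smul, h12, smul_neg]
      abel

omit [InnerProductSpace ℝ W] in
theorem st_bad [IsProbabilityMeasure ν] (x y : ℕ → Lp W 2 ν) {X ε δ : ℝ} (hδ : 0 < δ)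
    (hx : ∀ j, ‖x j‖ ≤ X) (hy : ∀ j, ‖y j‖ ≤ ε) {J : ℕ} (hJ : 0 < J) :
    ∃ B : Set Z, ν.real B ≤ (ε / δ) ^ 2 + (J + 1) * (X / (δ * J)) ^ 2 ∧ ∀ᵐ z ∂ν, z ∉ B →
      ∀ j ≤ J, ‖(x j - x 0 + ∑ i ∈ Finset.range j, y i : Lp W 2 ν) z‖ ≤ 3 * (δ * J) := by
  have hJ' : (0 : ℝ) < J := by exact_mod_cast hJ
  have hε : 0 ≤ ε := (norm_nonneg _).trans (hy 0)
  refine ⟨{z | δ * J ≤ ‖(∑ i ∈ Finset.range J, fun z => ‖y i z‖) z‖} ∪
    ⋃ j ∈ Finset.range (J + 1), {z | δ * J ≤ ‖x j z‖}, ?_, ?_⟩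
  · refine (measureReal_union_le _ _).trans (add_le_add ?_ ?_)
    · refine (st_cheb (a := J * ε) (Finset.aestronglyMeasurable_sum _ fun i _ =>
        (Lp.aestronglyMeasurable _).norm) (by positivity) (by positivity) ?_).trans_eq ?_
      · refine (eLpNorm_sum_le (fun i _ => (Lp.aestronglyMeasurable _).norm) one_le_two).trans ?_
        refine (Finset.sum_le_card_nsmul _ _ (ENNReal.ofReal ε) fun i _ => ?_).trans_eq ?_
        · rw [eLpNorm_norm, ← Lp.enorm_def, ← ofReal_norm]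
          exact ENNReal.ofReal_le_ofReal (hy i)
        · simp [ENNReal.ofReal_mul]
      · congr 1
        field_simp
    · refine (measureReal_biUnion_finset_le _ _).trans ?_
      refine (Finset.sum_le_card_nsmul _ _ _ fun j _ =>
        st_chebL (x j) (by positivity) (hx j)).trans_eq ?_
      simp
  · filter_upwards [ae_all_iff.2 fun j => Lp.coeFn_add (x j - x 0) (∑ i ∈ Finset.range j, y i),
      ae_all_iff.2 fun j => Lp.coeFn_sub (x j) (x 0),
      ae_all_iff.2 fun j => Lp.coeFn_finsetSum (Finset.range j) y] with z h1 h2 h3 hz j hj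
    simp only [Set.mem_union, Set.mem_ofPred_eq, Set.mem_iUnion, not_or, not_le, not_exists,
      Finset.mem_range, Finset.sum_apply] at hz
    rw [h1, Pi.add_apply, h2, h3, Pi.sub_apply, Finset.sum_apply]
    have h4 := hz.2 j (by omega)
    have h5 := hz.2 0 (by omega)
    have h6 : ‖∑ i ∈ Finset.range j, y i z‖ ≤ ∑ i ∈ Finset.range J, ‖y i z‖ :=
      (norm_sum_le _ _).trans (Finset.sum_le_sum_of_subset_of_nonneg
        (Finset.range_subset_range.2 hj) fun _ _ _ => norm_nonneg _)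
    have h7 := (le_abs_self _).trans_lt hz.1
    have h8 := norm_add_le (x j z - x 0 z) (∑ i ∈ Finset.range j, y i z)
    linarith [norm_sub_le (x j z) (x 0 z)]

variable {Γ : Type} [Group Γ] [MulAction Γ Z]

theorem st_count [IsProbabilityMeasure ν] {S : Finset Γ} {K : ℕ} (Q : QS S K Z) {Ω : Type}
    [Fintype Ω] {P : Ω → Γ} (hP : Injective P) {B : Set Γ} (hB : B.Finite) :
    ∑ ω, ν.real {z | Q.q z (P ω) ∈ B} ≤ K * B.ncard := by
  classical
  have hm : ∀ ω, MeasurableSet {z | Q.q z (P ω) ∈ B} := fun ω => by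
    have : {z | Q.q z (P ω) ∈ B} = ⋃ y ∈ B, {z | Q.q z (P ω) = y} := by
      ext z
      simp
    rw [this]
    exact hB.measurableSet_biUnion fun y _ => Q.q_meas _ _
  simp only [← integral_indicator_one (hm _)]
  rw [← integral_finsetSum _ fun ω _ => (integrable_const _).indicator (hm ω)]
  refine (integral_mono (integrable_finsetSum _ fun ω _ => (integrable_const _).indicator (hm ω))
    (integrable_const ((K : ℝ) * B.ncard)) fun z => ?_).trans_eq (by simp)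
  simp only [Set.indicator_apply, Set.mem_ofPred_eq, Pi.one_apply, Finset.sum_boole]
  rw [Set.ncard_eq_toFinset_card B hB]
  norm_cast
  refine Finset.card_le_mul_card_image_of_maps_to (f := fun ω => Q.q z (P ω))
    (fun ω hω => hB.mem_toFinset.2 (Finset.mem_filter.1 hω).2) K fun y _ => ?_
  refine le_trans ?_ (Q.q_fib z y).2
  rw [← Set.ncard_coe_finset]
  exact Set.ncard_le_ncard_of_injOn P (fun ω hω => (Finset.mem_filter.1 hω).2) hP.injOn
    (Q.q_fib z y).1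

theorem st_rep (h : ∀ g : Γ, MeasurePreserving (g • ·) ν ν) :
    ∃ U : Γ →* (Lp W 2 ν ≃ₗᵢ[ℝ] Lp W 2 ν), ∀ g F, ∀ᵐ z ∂ν, U g F z = F (g⁻¹ • z) := by
  let T : Γ → Lp W 2 ν →ₗᵢ[ℝ] Lp W 2 ν := fun g => Lp.compMeasurePreservingₗᵢ ℝ _ (h g⁻¹)
  have hT : ∀ g F, ∀ᵐ z ∂ν, T g F z = F (g⁻¹ • z) := fun g F =>
    Lp.coeFn_compMeasurePreserving F (h g⁻¹)
  have h1 : ∀ g g' F, T (g * g') F = T g (T g' F) := fun g g' F => by
    refine Lp.ext ?_
    filter_upwards [hT (g * g') F, hT g (T g' F),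
      (h g⁻¹).quasiMeasurePreserving.ae (hT g' F)] with z h1 h2 h3
    rw [h1, h2, h3, mul_inv_rev, mul_smul]
  have h2 : ∀ g, Surjective (T g) := fun g F => ⟨T g⁻¹ F, by
    rw [← h1]
    refine Lp.ext ?_
    filter_upwards [hT (g * g⁻¹) F] with z h1
    simpa using h1⟩
  exact ⟨MonoidHom.mk' (fun g => LinearIsometryEquiv.ofSurjective (T g) (h2 g))
    fun g g' => LinearIsometryEquiv.ext fun F => h1 g g' F, hT⟩

end Meas

theorem st_D_sum {V : Type} [AddCommGroup V] [Module ℝ V] {k : ℕ} (D : Zk k →* Multiplicative V)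
    (a : Zk k) : Multiplicative.toAdd (D a) =
      ∑ i, toR a i • Multiplicative.toAdd (D (Multiplicative.ofAdd (Pi.single i 1))) := by
  have h := (MonoidHom.toAdditive D : (Fin k → ℤ) →+ V).toIntLinearMap.pi_apply_eq_sum_univ
    (Multiplicative.toAdd a)
  refine h.trans (Finset.sum_congr rfl fun i _ => ?_)
  have e : (fun j => if i = j then 1 else 0 : Fin k → ℤ) = Pi.single i 1 := by
    funext j
    simp [Pi.single_apply, eq_comm]
  rw [toR, Int.cast_smul_eq_zsmul, e]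
  rfl

end Vale.Agent.P188
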