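import Vale.Agent.P188.STb

/-! Cocycle lemmas for the structure theorem. -/

namespace Vale.Agent.P188

open Function Filter Topology MeasureTheory

section Coc

variable {Γ V : Type} [Group Γ] [NormedAddCommGroup V] [InnerProductSpace ℝ V]
  {U : Γ →* (V ≃ₗᵢ[ℝ] V)} {b : Γ → V}

theorem st_c_one (h : IsCocycle U b) : b 1 = 0 := by
  simpa using h 1 1

theorem st_U_mul (g h : Γ) (x : V) : U (g * h) x = U g (U h x) := by
  rw [map_mul]
  rfl

theorem st_U_inv (g : Γ) (x : V) : U g (U g⁻¹ x) = x := by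
  rw [← st_U_mul, mul_inv_cancel, map_one]
  rfl

theorem st_c_res (h : IsCocycle U b) (ξ : V) : IsCocycle U fun g => b g - (U g ξ - ξ) := by
  intro g g'
  simp only [h g g', st_U_mul, map_sub]
  abel

theorem st_c_tel (h : IsCocycle U b) (P : ℕ → Γ) (h0 : P 0 = 1) (j : ℕ) :
    b (P j) = ∑ i ∈ Finset.range j, U (P i) (b ((P i)⁻¹ * P (i + 1))) := by
  induction j with
  | zero => simp [h0, st_c_one h]
  | succ j ih => rw [Finset.sum_range_succ, ← ih, ← h, mul_inv_cancel_left]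

variable {k : ℕ} {π : Γ →* Zk k} {E : Submodule ℝ V}

theorem st_c_diff (h : IsCocycle U b) {b' : Γ → V} (h' : IsCocycle U b')
    {D : Zk k →* Multiplicative V}
    (hD : ∀ g a, U g (Multiplicative.toAdd (D a)) = Multiplicative.toAdd (D a)) :
    IsCocycle U fun g => b g - b' g - Multiplicative.toAdd (D (π g)) := by
  intro g g'
  simp only [h g g', h' g g', map_mul, toAdd_mul, map_sub, hD]
  abel

theorem st_c_conj (h : IsCocycle U b) (hb : ∀ g, b g ∈ E) (hn : ∀ n ∈ π.ker, ∀ e ∈ E, U n e = e)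
    (g : Γ) {n : Γ} (h1 : n ∈ π.ker) : b (g * n * g⁻¹) = U g (b n) := by
  have h2 := h g g⁻¹
  rw [mul_inv_cancel, st_c_one h] at h2
  rw [h, h, st_U_mul, hn n h1 _ (hb _), add_right_comm, ← h2, zero_add]

theorem st_v [FiniteDimensional ℝ E] (h : IsCocycle U b) (hb : ∀ g, b g ∈ E)
    (hn : ∀ n ∈ π.ker, ∀ e ∈ E, U n e = e) {N : Subgroup Γ} (hN : N.Normal) (hle : N ≤ π.ker)
    {φ : Γ → ℂ} (hφ : ∀ u ∈ N, ∀ u' ∈ N, φ (u * u') = φ u + φ u') {u : Γ} (hu : u ∈ N)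
    (h0 : φ u ≠ 0) {l : Zk k →* ℂˣ} (hl : ∀ g, ∀ u ∈ N, φ (g * u * g⁻¹) = l (π g) * φ u) (t : Γ)
    (ht : 1 < ‖(l (π t) : ℂ)‖) {δ : ℝ} (hδ : 0 < δ) : ∃ v ∈ N, φ v ≠ 0 ∧ ‖b v‖ ≤ δ := by
  obtain ⟨m, n, h1, h2⟩ := st_recur (isCompact_closedBall (0 : E) ‖b u‖)
    (fun n => ⟨b (t ^ n * u * (t ^ n)⁻¹), hb _⟩) (fun n => by
      rw [mem_closedBall_zero_iff]
      change ‖b _‖ ≤ _
      rw [st_c_conj h hb hn _ (hle hu), LinearIsometryEquiv.norm_map]) hδ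
  have h3 := hN.conj_mem u hu (t ^ m)
  have h4 := N.mul_mem (N.inv_mem h3) (hN.conj_mem u hu (t ^ n))
  refine ⟨_, h4, fun h5 => ?_, ?_⟩
  · have h6 := hφ _ h3 _ h4
    rw [mul_inv_cancel_left, h5, add_zero, hl _ _ hu, hl _ _ hu, mul_left_inj' h0] at h6
    have h7 := congrArg norm h6
    simp only [map_pow, Units.val_pow_eq_pow_val, norm_pow] at h7
    exact (pow_lt_pow_right₀ ht h1).ne' h7
  · have h6 := h (t ^ m * u * (t ^ m)⁻¹) ((t ^ m * u * (t ^ m)⁻¹)⁻¹ * (t ^ n * u * (t ^ n)⁻¹))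
    rw [mul_inv_cancel_left, hn _ (hle h3) _ (hb _)] at h6
    rw [dist_comm, Subtype.dist_eq, dist_eq_norm] at h2
    dsimp only at h2
    rw [h6, add_sub_cancel_left] at h2
    exact h2.le

theorem st_path [FiniteDimensional ℝ E] (h : IsCocycle U b) (hb : ∀ g, b g ∈ E)
    (hU : ∀ g, ∀ e ∈ E, U g e ∈ E) (hn : ∀ n ∈ π.ker, ∀ e ∈ E, U n e = e)
    (hE : E = Submodule.span ℝ (b '' (π.ker : Set Γ))) (t : Γ) {e : V} (he : e ∈ E) :
    ∃ (K0 : ℝ) (F : Finset Γ) (p : ℕ → Γ), p 0 = 1 ∧ (∀ j, (p j)⁻¹ * p (j + 1) ∈ F) ∧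
      (∀ j, π (p j) = π t ^ j) ∧ ∀ j : ℕ, ‖b (p j) - (j : ℝ) • e‖ ≤ K0 := by
  classical
  have ha : ∀ n ∈ π.ker, ∀ g, b (n * g) = b n + b g := fun n h1 g => by
    rw [h, hn n h1 _ (hb _)]
  let Λ : AddSubgroup V :=
    { carrier := b '' (π.ker : Set Γ)
      zero_mem' := ⟨1, π.ker.one_mem, st_c_one h⟩
      add_mem' := by
        rintro _ _ ⟨n, h1, rfl⟩ ⟨n', h2, rfl⟩
        exact ⟨_, π.ker.mul_mem h1 h2, ha n h1 n'⟩
      neg_mem' := by
        rintro _ ⟨n, h1, rfl⟩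
        refine ⟨_, π.ker.inv_mem h1, eq_neg_of_add_eq_zero_right ?_⟩
        rw [← ha n h1, mul_inv_cancel, st_c_one h] }
  obtain ⟨K0, h0, h1⟩ := st_dense Λ E hE
  obtain ⟨F, h2, h3⟩ := h1 (K0 + ‖e‖ + ‖b t‖)
  choose! s h4 h5 using (h2 : ∀ x ∈ F, ∃ n ∈ (π.ker : Set Γ), b n = x)
  have h6 : ∀ (j : ℕ) (g : Γ), ∃ x ∈ F.image fun x => s x * t, π x = π t ∧
      (‖b g - (j : ℝ) • e‖ ≤ K0 → ‖b (g * x) - ((j + 1 : ℕ) : ℝ) • e‖ ≤ K0) := by
    intro j g
    by_cases hg : ‖b g - (j : ℝ) • e‖ ≤ K0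
    · obtain ⟨x, h7, h8⟩ := h3 (U g⁻¹ (e - (b g - (j : ℝ) • e)) - b t)
        (E.sub_mem (hU _ _ (E.sub_mem he (E.sub_mem (hb _) (E.smul_mem _ he)))) (hb _)) (by
          refine (norm_sub_le _ _).trans ?_
          rw [LinearIsometryEquiv.norm_map]
          linarith [norm_sub_le e (b g - (j : ℝ) • e)])
      refine ⟨_, Finset.mem_image_of_mem _ h7, by rw [map_mul, h4 x h7, one_mul], fun _ => ?_⟩
      rw [← (U g).norm_map] at h8
      refine le_of_eq_of_le (congrArg _ ?_) h8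
      rw [h, ha _ (h4 x h7), h5 x h7, map_sub, map_sub, st_U_inv, map_add, Nat.cast_succ, add_smul,
        one_smul]
      abel
    · obtain ⟨x, h7, -⟩ := h3 0 E.zero_mem (by rw [norm_zero]; positivity)
      exact ⟨_, Finset.mem_image_of_mem _ h7, by rw [map_mul, h4 x h7, one_mul],
        fun h => absurd h hg⟩
  choose x h7 h8 h9 using h6
  let p : ℕ → Γ := fun j => Nat.rec 1 (fun j g => g * x j g) j
  have hp : ∀ j, p (j + 1) = p j * x j (p j) := fun _ => rfl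
  refine ⟨K0, _, p, rfl, fun j => by rw [hp, inv_mul_cancel_left]; exact h7 j _, fun j => ?_,
    fun j => ?_⟩
  · induction j with
    | zero => simp [p]
    | succ j ih => rw [hp, map_mul, ih, h8, pow_succ]
  · induction j with
    | zero => simpa [p, st_c_one h] using h0
    | succ j ih => exact h9 j _ ih

open Classical in
theorem st_words (h : IsCocycle U b) (hb : ∀ g, b g ∈ E) (hn : ∀ n ∈ π.ker, ∀ e ∈ E, U n e = e)
    {N : Subgroup Γ} (hN : N.Normal) (hle : N ≤ π.ker)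
    {φ : Γ → ℂ} (hφ : ∀ u ∈ N, ∀ u' ∈ N, φ (u * u') = φ u + φ u') {v : Γ} (hv : v ∈ N)
    (h0 : φ v ≠ 0) {l : Zk k →* ℂˣ} (hl : ∀ g, ∀ u ∈ N, φ (g * u * g⁻¹) = l (π g) * φ u)
    {a : Zk k} (ha : 3 ≤ ‖(l a : ℂ)‖) {F : Finset Γ} {p : ℕ → Γ} (h1 : p 0 = 1)
    (h2 : ∀ j, (p j)⁻¹ * p (j + 1) ∈ F) (h3 : ∀ j, π (p j) = a ^ j) :
    ∃ P : (ℕ → Bool) → ℕ → Γ, (∀ ω, P ω 0 = 1) ∧
      (∀ ω j, (P ω j)⁻¹ * P ω (j + 1) ∈ F ∪ F.image (· * v)) ∧ (∀ ω j, π (P ω j) = a ^ j) ∧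
      (∀ ω (j : ℕ), ‖b (P ω j) - b (p j)‖ ≤ j * ‖b v‖) ∧
      ∀ ω ω' J, P ω J = P ω' J → ∀ i < J, ω i = ω' i := by
  let c : (ℕ → Bool) → ℕ → Γ := fun ω j => p (j + 1) * (if ω j = true then v else 1) * (p (j + 1))⁻¹
  let u : (ℕ → Bool) → ℕ → Γ := fun ω j => Nat.rec 1 (fun j g => g * c ω j) j
  have hu : ∀ ω j, u ω (j + 1) = u ω j * c ω j := fun _ _ => rfl
  have hv' : ∀ x : Bool, (if x = true then v else 1) ∈ N := fun x => by
    split_ifs
    exacts [hv, N.one_mem]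
  have hc : ∀ ω j, c ω j ∈ N := fun ω j => hN.conj_mem _ (hv' _) _
  have h4 : ∀ ω j, u ω j ∈ N := fun ω j => by
    induction j with
    | zero => exact N.one_mem
    | succ j ih => exact N.mul_mem ih (hc ω j)
  have h5 : φ 1 = 0 := by simpa using hφ 1 N.one_mem 1 N.one_mem
  have h6 : ∀ ω j, φ (u ω j) =
      (∑ i ∈ Finset.range j, if ω i = true then (l a : ℂ) ^ (i + 1) else 0) * φ v := fun ω j => by
    induction j with
    | zero => simpa [u] using h5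
    | succ j ih =>
      rw [hu, hφ _ (h4 ω j) _ (hc ω j), ih, Finset.sum_range_succ, add_mul, hl _ _ (hv' _), h3]
      split_ifs <;> simp [h5]
  refine ⟨fun ω j => u ω j * p j, fun ω => by simp [u, h1], fun ω j => ?_, fun ω j => ?_,
    fun ω j => ?_, fun ω ω' J e => st_inj ha ω ω' J ?_⟩
  · have : (u ω j * p j)⁻¹ * (u ω (j + 1) * p (j + 1)) =
        (p j)⁻¹ * p (j + 1) * if ω j = true then v else 1 := by
      rw [hu]
      simp only [c]
      group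
    dsimp only
    rw [this]
    split_ifs
    · exact Finset.mem_union_right _ (Finset.mem_image_of_mem (· * v) (h2 j))
    · exact Finset.mem_union_left _ (by simpa using h2 j)
  · rw [map_mul, hle (h4 ω j), one_mul, h3]
  · dsimp only
    rw [h, hn _ (hle (h4 ω j)) _ (hb _), add_sub_cancel_right]
    induction j with
    | zero => simp [u, st_c_one h]
    | succ j ih =>
      rw [hu, h, hn _ (hle (h4 ω j)) _ (hb _), st_c_conj h hb hn _ (hle (hv' _)), Nat.cast_succ,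
        add_mul, one_mul]
      refine (norm_add_le _ _).trans (add_le_add ih ?_)
      rw [LinearIsometryEquiv.norm_map]
      split_ifs <;> simp [st_c_one h]
  · have := congrArg φ (mul_right_cancel e)
    rwa [h6, h6, mul_left_inj' h0] at this

end Coc

end Vale.Agent.P188
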