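import Vale.Agent.P188.STc

/-! The finite-dimensional part of the height cocycle vanishes. -/

namespace Vale.Agent.P188

open Function Filter Topology MeasureTheory

theorem st_unif {Γ : Type} [Group Γ] {S : Finset Γ} (hS : Subgroup.closure (S : Set Γ) = ⊤)
    (F : Finset Γ) : ∃ L, ∀ g ∈ F, g ∈ wBall S L := by
  choose r hr using st_exists hS
  exact ⟨F.sup r, fun g hg => st_mono (hr g) (Finset.le_sup hg)⟩

theorem st_image {Γ : Type} [Group Γ] {S : Finset Γ} (hS : Subgroup.closure (S : Set Γ) = ⊤)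
    {k : ℕ} (π : Γ →* Zk k) {K : ℕ} {Z : Type} [MulAction Γ Z] [MeasurableSpace Z] (Q : QS S K Z)
    {C L : ℕ} (hC : ∀ (r : ℕ) (g : Γ), g ∈ wBall S r → ‖ht π g‖ ≤ (C * r : ℕ)) {P : ℕ → Γ}
    (h0 : P 0 = 1) (h1 : ∀ j, (P j)⁻¹ * P (j + 1) ∈ wBall S L) (z : Z) {ρ : ℝ} (J : ℕ)
    (h2 : ∀ j ≤ J, ‖ht π (Q.q z (P j))‖ ≤ ρ) :
    Q.q z (P J) ∈ hBall S (ht π) (K * L * J) (ρ + (C * (K * L) : ℕ)) := by
  induction J with
  | zero =>
    have h3 := h2 0 le_rfl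
    rw [h0, Q.q_one] at h3 ⊢
    exact ⟨[], fun _ h => by simp at h, by simp, rfl, fun i => by
      simpa using h3.trans (le_add_of_nonneg_right (by positivity))⟩
  | succ J ih =>
    rw [← mul_inv_cancel_left (P J) (P (J + 1)), Q.q_mul, mul_add, mul_one]
    exact st_step π hC (ih fun j hj => h2 j (by omega)) (h2 J (by omega)) (st_q_mem hS Q (h1 J) _)

theorem st_arith {m A : ℝ} (hm : 0 < m) (K D B c : ℕ) (δ : ℝ) : ∃ n : ℕ, 0 < n ∧
    ((n * (D + 1) : ℕ) + 1) * (A / (δ * (n * (D + 1) : ℕ))) ^ 2 ≤ m / 4 ∧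
    (K : ℝ) * ((D * (B * (n * (D + 1)) + 1) * 2 ^ (n + c)) ^ D : ℕ) <
      2 ^ (n * (D + 1)) * (m / 2) := by
  obtain ⟨n, h1, h2, h3⟩ := ((eventually_gt_atTop 0).and
    ((tendsto_natCast_atTop_atTop.eventually_ge_atTop (8 * (A / δ) ^ 2 / m)).and
      (st_growth (2 / m * (K * (D * (B * (D + 1) + 1) * 2 ^ c) ^ D)) D))).exists
  refine ⟨n, h1, ?_, ?_⟩
  · have h4 : (n : ℝ) ≤ (n * (D + 1) : ℕ) := by exact_mod_cast Nat.le_mul_of_pos_right _ D.succ_pos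
    have h5 : (1 : ℝ) ≤ n := by exact_mod_cast h1
    generalize ((n * (D + 1) : ℕ) : ℝ) = J at h4
    have h6 : 0 < J := by linarith
    rw [div_le_iff₀ hm] at h2
    rw [← div_div, div_pow (A / δ), ← mul_div_assoc, div_le_iff₀ (by positivity)]
    have h7 : 8 * (A / δ) ^ 2 ≤ J * m := h2.trans (by gcongr)
    have h8 : (J + 1) * (A / δ) ^ 2 ≤ (2 * J) * (A / δ) ^ 2 := by gcongr; linarith
    nlinarith
  · have h4 : ((B * (n * (D + 1)) + 1 : ℕ) : ℝ) ≤ (B * (D + 1) + 1) * (n + 1) := by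
      push_cast
      have : (0 : ℝ) ≤ B * (D + 1) + n := by positivity
      nlinarith
    calc (K : ℝ) * ((D * (B * (n * (D + 1)) + 1) * 2 ^ (n + c)) ^ D : ℕ)
        = K * (D * (B * (n * (D + 1)) + 1 : ℕ) * 2 ^ (n + c)) ^ D := by push_cast; rfl
      _ ≤ K * (D * ((B * (D + 1) + 1) * (n + 1)) * 2 ^ (n + c)) ^ D := by gcongr
      _ = 2 / m * (K * (D * (B * (D + 1) + 1) * 2 ^ c) ^ D) * (n + 1) ^ D * (2 ^ (n * D) * (m / 2))
          := by
        rw [pow_mul, pow_add]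
        simp only [mul_pow]
        field_simp
      _ < 2 ^ n * (2 ^ (n * D) * (m / 2)) := by gcongr
      _ = 2 ^ (n * (D + 1)) * (m / 2) := by ring

theorem st_noE (hE : Eig_stmt) (hC : Count_stmt) {k : ℕ} {Γ : Type} [Group Γ] {π : Γ →* Zk k}
    {w : List (Wt k)} (hT : Tower Γ π w) (hw : Definite w) (hπ : Surjective π) {S : Finset Γ}
    (hS : Subgroup.closure (S : Set Γ) = ⊤) {K : ℕ} {Z : Type} [MulAction Γ Z]
    [MeasurableSpace Z] (Q : QS S K Z) {ν : Measure Z} [IsProbabilityMeasure ν]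
    {U : Γ →* (Lp (EuclideanSpace ℝ (Fin k)) 2 ν ≃ₗᵢ[ℝ] Lp (EuclideanSpace ℝ (Fin k)) 2 ν)}
    {b bE : Γ → Lp (EuclideanSpace ℝ (Fin k)) 2 ν} (hb : IsCocycle U b)
    (hb' : ∀ g, ∀ᵐ z ∂ν, ‖ht π (Q.q z g)‖ ≤ ‖b g z‖)
    {E : Submodule ℝ (Lp (EuclideanSpace ℝ (Fin k)) 2 ν)} [FiniteDimensional ℝ E]
    {D : Zk k →* Multiplicative (Lp (EuclideanSpace ℝ (Fin k)) 2 ν)} (h1 : IsCocycle U bE)
    (h2 : ∀ g, bE g ∈ E) (h3 : ∀ g, ∀ e ∈ E, U g e ∈ E) (h4 : ∀ n ∈ π.ker, ∀ e ∈ E, U n e = e)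
    (h5 : E = Submodule.span ℝ (bE '' (π.ker : Set Γ)))
    (h6 : ∀ g a, U g (Multiplicative.toAdd (D a)) = Multiplicative.toAdd (D a))
    (h7 : HACob U fun g => b g - bE g - Multiplicative.toAdd (D (π g))) : E = ⊥ := by
  classical
  by_contra hne
  obtain ⟨e, he, he0⟩ := (Submodule.ne_bot_iff _).1 hne
  obtain ⟨D0, hD0⟩ := hC k Γ π w hT S
  obtain ⟨δ, hδ, hδ'⟩ : ∃ δ : ℝ, 0 < δ ∧ 5 * δ * (D0 + 1) = 1 :=
    ⟨1 / (5 * (D0 + 1)), by positivity, by field_simp⟩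
  obtain ⟨χ, hχ, a, σ, h8, h9⟩ := st_ess hw (by simp)
    (fun i => Multiplicative.toAdd (D (Multiplicative.ofAdd (Pi.single i 1)))) he0 hδ
  rw [← st_D_sum] at h9
  obtain ⟨A, hA⟩ := st_ev E
  obtain ⟨A0, h10⟩ : ∃ A0 : ℕ, ν ({z | ‖(σ • e + Multiplicative.toAdd (D a)) z‖ < δ} ∩
      {z | A z ≤ A0 + 1}) ≠ 0 := by
    by_contra! h
    refine h9 (measure_mono_null (fun z hz => ?_) (measure_iUnion_null h))
    obtain ⟨n, hn⟩ := exists_nat_ge (A z)
    exact Set.mem_iUnion.2 ⟨n, hz, hn.trans (le_add_of_nonneg_right zero_le_one)⟩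
  set S0 := {z | ‖(σ • e + Multiplicative.toAdd (D a)) z‖ < δ} ∩ {z | A z ≤ A0 + 1}
  have hm : 0 < ν.real S0 := ENNReal.toReal_pos h10 (measure_ne_top _ _)
  obtain ⟨N, φ, l, hN, hle, hφ, ⟨u, hu, hu0⟩, hl, hl'⟩ := hE k Γ π w hT χ hχ
  have h11 : 3 ≤ ‖(l a : ℂ)‖ := by
    rw [hl']
    linarith [Real.add_one_le_exp (χ (toR a))]
  obtain ⟨t, rfl⟩ := hπ a
  obtain ⟨v, hv, hv0, h12⟩ := st_v h1 h2 h4 hN hle hφ hu hu0 hl t (by linarith)
    (show 0 < δ / (A0 + 1) by positivity)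
  obtain ⟨K0, F, p, h13, h14, h15, h16⟩ := st_path h1 h2 h3 h4 h5 t (E.smul_mem σ he)
  obtain ⟨P, h17, h18, h19, h20, h21⟩ := st_words h1 h2 h4 hN hle hφ hv hv0 hl h11 h13 h14 h15
  obtain ⟨L, hL⟩ := st_unif hS (F ∪ F.image (· * v))
  obtain ⟨C, hC'⟩ := st_ht_le π S
  obtain ⟨ξ, hξ⟩ := h7 (F ∪ F.image (· * v)) (δ * (√(ν.real S0) / 2)) (by positivity)
  obtain ⟨c, hc⟩ := exists_nat_ge ((A0 + 1) * K0)
  obtain ⟨n, hn, h22, h23⟩ := st_arith (A := ‖ξ‖) hm K D0 (K * L) (c + C * (K * L)) δ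
  set J := n * (D0 + 1) with hJ
  have hK0 : 0 ≤ K0 := (norm_nonneg _).trans (h16 0)
  have key : ∀ ω, ν.real S0 / 2 ≤ ν.real {z | Q.q z (P ω J) ∈
      hBall S (ht π) (K * L * J) (n + (c + C * (K * L)) : ℕ)} := by
    intro ω
    obtain ⟨r, hr, hcoc⟩ : ∃ r : Γ → _, (∀ g, r g = b g - bE g - Multiplicative.toAdd (D (π g)) -
      (U g ξ - ξ)) ∧ IsCocycle U r := ⟨_, fun _ => rfl, st_c_res (st_c_diff hb h1 h6) ξ⟩
    simp only [← hr] at hξ
    obtain ⟨B, h24, h25⟩ := st_bad (fun j => U (P ω j) ξ)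
      (fun i => U (P ω i) (r ((P ω i)⁻¹ * P ω (i + 1)))) hδ (fun j => ((U _).norm_map ξ).le)
      (fun j => ((U _).norm_map _).trans_le (hξ _ (h18 ω j)))
      (show 0 < J by positivity)
    rw [mul_div_cancel_left₀ _ hδ.ne', div_pow, Real.sq_sqrt hm.le] at h24
    have h26 : ∀ j : ℕ, b (P ω j) = (bE (P ω j) - (j : ℝ) • σ • e) +
        (j : ℝ) • (σ • e + Multiplicative.toAdd (D (π t))) + (U (P ω j) ξ - U (P ω 0) ξ +
        ∑ i ∈ Finset.range j, U (P ω i) (r ((P ω i)⁻¹ * P ω (i + 1)))) :=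
      fun j => by
        rw [← st_c_tel hcoc (P ω) (h17 ω) j, hr, h17, map_one, h19, map_pow, toAdd_pow, smul_add,
          Nat.cast_smul_eq_nsmul ℝ j (Multiplicative.toAdd _), LinearIsometryEquiv.coe_one, id]
        abel
    have h27 : S0 ≤ᵐ[ν] ({z | Q.q z (P ω J) ∈
        hBall S (ht π) (K * L * J) (n + (c + C * (K * L)) : ℕ)} ∪ B : Set Z) := by
      filter_upwards [h25, ae_all_iff.2 fun j => hb' (P ω j),
        ae_all_iff.2 fun j : ℕ => hA _ (E.sub_mem (h2 (P ω j)) (E.smul_mem j (E.smul_mem σ he))),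
        ae_all_iff.2 fun j : ℕ => (h26 j).symm ▸ Lp.coeFn_add _ _,
        ae_all_iff.2 fun j : ℕ => Lp.coeFn_add (bE (P ω j) - (j : ℝ) • σ • e)
          ((j : ℝ) • (σ • e + Multiplicative.toAdd (D (π t)))),
        ae_all_iff.2 fun j : ℕ => Lp.coeFn_smul (j : ℝ) (σ • e + Multiplicative.toAdd (D (π t)))]
        with z a1 a2 a3 a4 a5 a6 hz
      by_cases hB : z ∈ B
      · exact Or.inr hB
      have := st_image hS π Q hC' (h17 ω) (fun j => hL _ (h18 ω j)) z (ρ := n + c) J fun j hj => ?_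
      · rw [← Nat.cast_add, ← Nat.cast_add, add_assoc] at this
        exact Or.inl this
      refine (a2 j).trans ?_
      have a7 : ‖bE (P ω j) - (j : ℝ) • σ • e‖ ≤ j * (δ / (A0 + 1)) + K0 :=
        (norm_sub_le_norm_sub_add_norm_sub _ (bE (p j)) _).trans
          (add_le_add ((h20 ω j).trans (by gcongr)) (h16 j))
      have a8 := (a3 j).trans (mul_le_mul hz.2 a7 (norm_nonneg _) (by positivity))
      have a9 : ((A0 : ℝ) + 1) * (j * (δ / (A0 + 1)) + K0) = δ * j + (A0 + 1) * K0 := by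
        field_simp
      have a10 : δ * j ≤ δ * J := by gcongr
      have a11 : (j : ℝ) * ‖(σ • e + Multiplicative.toAdd (D (π t))) z‖ ≤ j * δ :=
        mul_le_mul_of_nonneg_left hz.1.le (Nat.cast_nonneg j)
      have a12 : 5 * (δ * J) = n := by
        rw [hJ]
        push_cast
        linear_combination n * hδ'
      rw [a4, Pi.add_apply, a5, Pi.add_apply, a6, Pi.smul_apply]
      refine norm_add₃_le.trans ?_
      rw [norm_smul, Real.norm_natCast]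
      linarith [a1 hB j hj]
    have h28 : ν.real S0 ≤ _ := ENNReal.toReal_mono (measure_ne_top _ _) (measure_mono_ae h27)
    linarith [h28.trans (measureReal_union_le _ _)]
  let ext : (Fin J → Bool) → ℕ → Bool := fun ω i => if h : i < J then ω ⟨i, h⟩ else false
  have h29 := st_count (ν := ν) Q (P := fun ω => P (ext ω) J)
    (fun ω ω' h => funext fun i => by simpa [ext] using h21 _ _ J h i i.2)
    ((st_finite S (K * L * J)).subset
      (t := hBall S (ht π) (K * L * J) (n + (c + C * (K * L)) : ℕ))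
      fun g ⟨l, a1, a2, a3, _⟩ => ⟨l, a1, a2, a3⟩)
  have h30 := Finset.card_nsmul_le_sum Finset.univ _ _ fun ω _ => key (ext ω)
  simp only [Finset.card_univ, Fintype.card_pi, Fintype.card_bool, Finset.prod_const,
    Fintype.card_fin, nsmul_eq_mul, Nat.cast_pow, Nat.cast_ofNat] at h30
  refine h23.not_ge (h30.trans (h29.trans ?_))
  exact mul_le_mul_of_nonneg_left (Nat.cast_le.2 (hD0 _ _)) (Nat.cast_nonneg K)

end Vale.Agent.P188
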