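import Vale.Agent.P188.Iid

/-! P188: the deterministic part of the scale argument. -/

namespace Vale.Agent.P188.Sc

open Function MeasureTheory
open scoped ENNReal NNReal

/-- One-sided deterministic lemma. -/
theorem scale_det1 {V : Type} [SeminormedAddCommGroup V] (s : ℤ → V) (b : ℤ → ℝ)
    (c ε₀ κ₀ ε : ℝ) (hc : 0 < c) (hε₀ : 0 ≤ ε₀) (hκ : 14 * (ε₀ + 3) ≤ c * κ₀ - ε₀)
    (hε1 : ε ≤ 1) (L : ℕ) (hL : 1 ≤ L) (Λ : ℝ) (hΛ0 : 0 ≤ Λ) (hΛ : ε * L ≤ c * Λ)
    (hLD : ∀ L' : ℕ, L ≤ L' → ∀ i j : ℤ, -(4 * (L' : ℤ)) ≤ i → i ≤ j → j ≤ 4 * (L' : ℤ) →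
      c * ‖s j - s i‖ - (b j - b i) - ε₀ * ((j : ℝ) - i) ≤ ε * L')
    (hst : ∀ i : ℤ, |i| ≤ 2 * (L : ℤ) → b i ≤ -L → ∃ m : ℕ, κ₀ * m + Λ < ‖s (i + m) - s i‖)
    (hG : ∀ L' : ℕ, L < L' → ∀ n : ℤ, |n| ≤ L' → |b n| < (ε₀ + 3) * L')
    (n : ℤ) (hn : |n| ≤ L) : -((ε₀ + 3) * L) < b n := by
  by_contra hcon
  rw [not_lt] at hcon
  have hL1 : (1 : ℝ) ≤ L := by exact_mod_cast hL
  obtain ⟨hn1, hn2⟩ := abs_le.1 hn
  set δ := ε₀ + 3 with hδ
  have hδ3 : 3 ≤ δ := by linarith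
  have hG2 : ∀ i : ℤ, |i| ≤ 2 * (L : ℤ) → |b i| < δ * (2 * L) := by
    intro i hi
    have := hG (2 * L) (by omega) i (by push_cast; exact hi)
    push_cast at this
    exact this
  -- exit times
  have hexit : ∀ i : ℤ, n - L ≤ i → i ≤ n → b i ≤ -L →
      ∃ j : ℤ, i < j ∧ j ≤ i + L ∧ 14 * δ * ((j : ℝ) - i) ≤ b j - b i := by
    intro i h1 h2 h3
    have hi : |i| ≤ 2 * (L : ℤ) := abs_le.2 ⟨by omega, by omega⟩
    obtain ⟨m, hm⟩ := hst i hi h3
    have hm0 : m ≠ 0 := by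
      rintro rfl
      simp at hm
      linarith
    have hm1 : 1 ≤ m := Nat.one_le_iff_ne_zero.2 hm0
    have hmR : (1 : ℝ) ≤ m := by exact_mod_cast hm1
    have hcm : c * (κ₀ * m + Λ) ≤ c * ‖s (i + m) - s i‖ := by gcongr
    have hk : 14 * δ * m ≤ (c * κ₀ - ε₀) * m := by gcongr
    have hbi := abs_lt.1 (hG2 i hi)
    by_cases hj : i + m ≤ 4 * (L : ℤ)
    · have h4 := hLD L le_rfl i (i + m) (by omega) (by omega) hj
      push_cast at h4
      have h5 : 14 * δ * m ≤ b (i + m) - b i := by nlinarith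
      have h6 := hG (4 * L) (by omega) (i + m) (by
        push_cast; exact abs_le.2 ⟨by omega, by omega⟩)
      push_cast at h6
      have h7 := (abs_lt.1 h6).2
      refine ⟨i + m, by omega, ?_, ?_⟩
      · have : (m : ℝ) ≤ L := by nlinarith
        have : m ≤ L := by exact_mod_cast this
        omega
      · push_cast
        nlinarith
    · exfalso
      rw [not_le] at hj
      obtain ⟨J, hJ⟩ : ∃ J : ℕ, (J : ℤ) = i + m := ⟨(i + m).toNat, by omega⟩
      have h4 := hLD J (by omega) i (i + m) (by omega) (by omega) (by omega)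
      have h6 := hG J (by omega) (i + m) (by rw [← hJ]; simp)
      have h7 := (abs_lt.1 h6).2
      push_cast at h4
      have h8 : (4 : ℝ) * L ≤ J := by
        have : 4 * L ≤ J := by omega
        exact_mod_cast this
      have h9 : (J : ℝ) - L ≤ m := by
        have : J ≤ m + L := by omega
        have : (J : ℝ) ≤ m + L := by exact_mod_cast this
        linarith
      have h10 : ε * J ≤ J := by nlinarith
      have h11 : 0 ≤ c * Λ := by positivity
      have h12 : 14 * δ * m - J ≤ b (i + m) - b i := by nlinarith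
      have h13 : 14 * δ * (J - L) ≤ 14 * δ * m := by gcongr
      have h14 : δ * (4 * L) ≤ δ * J := by gcongr
      have h15 : 3 * (J : ℝ) ≤ δ * J := by gcongr
      nlinarith
  by_cases hall : ∀ i : ℤ, n - L ≤ i → i ≤ n → b i ≤ -L
  · have hch : ∀ t : ℕ, ∀ i : ℤ, n - L ≤ i → i ≤ n → n - i ≤ t →
        ∃ j : ℤ, n < j ∧ j ≤ n + L ∧ 14 * δ * ((j : ℝ) - i) ≤ b j - b i := by
      intro t
      induction t with
      | zero =>
        intro i h1 h2 h3
        obtain ⟨j, j1, j2, j3⟩ := hexit i h1 h2 (hall i h1 h2)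
        exact ⟨j, by omega, by omega, j3⟩
      | succ t ih =>
        intro i h1 h2 h3
        obtain ⟨j, j1, j2, j3⟩ := hexit i h1 h2 (hall i h1 h2)
        by_cases hj : n < j
        · exact ⟨j, hj, by omega, j3⟩
        · obtain ⟨j', k1, k2, k3⟩ := ih j (by omega) (by omega) (by omega)
          exact ⟨j', k1, k2, by nlinarith⟩
    obtain ⟨j, j1, j2, j3⟩ := hch L (n - L) le_rfl (by omega) (by omega)
    have h1 := (abs_lt.1 (hG2 j (abs_le.2 ⟨by omega, by omega⟩))).2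
    have h2 := (abs_lt.1 (hG2 (n - L) (abs_le.2 ⟨by omega, by omega⟩))).1
    have h3 : (n : ℝ) ≤ j := by exact_mod_cast j1.le
    push_cast at j3
    have h4 : 14 * δ * L ≤ 14 * δ * ((j : ℝ) - (n - L)) := by gcongr; linarith
    nlinarith
  · push Not at hall
    obtain ⟨i, h1, h2, h3⟩ := hall
    have h4 := hLD L le_rfl i n (by omega) h2 (by omega)
    have h5 : 0 ≤ c * ‖s n - s i‖ := by positivity
    have h6 : (n : ℝ) - i ≤ L := by
      have : n ≤ i + L := by omega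
      have : (n : ℝ) ≤ i + L := by exact_mod_cast this
      linarith
    have h7 : ε₀ * ((n : ℝ) - i) ≤ ε₀ * L := by gcongr
    have h8 : ε * L ≤ 1 * L := by gcongr
    rw [hδ] at hcon
    nlinarith

/-- Two-sided deterministic lemma. -/
theorem scale_det2 {V : Type} [SeminormedAddCommGroup V] (s : ℤ → V) (b : ℤ → ℝ)
    (c ε₀ κ₀ ε lam : ℝ) (hc : 0 < c) (hε₀ : 0 ≤ ε₀) (hκ : 14 * (ε₀ + 3) ≤ c * κ₀ - ε₀)
    (hε1 : ε ≤ 1) (hlam : 0 ≤ lam) (hεl : ε ≤ c * lam) (l : ℕ) (hl : 1 ≤ l)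
    (hLD : ∀ L : ℕ, l ≤ L → ∀ i j : ℤ, -(4 * (L : ℤ)) ≤ i → i ≤ j → j ≤ 4 * (L : ℤ) →
      c * ‖s j - s i‖ - (b j - b i) - ε₀ * ((j : ℝ) - i) ≤ ε * L)
    (hst : ∀ L : ℕ, l ≤ L → ∀ i : ℤ, |i| ≤ 2 * (L : ℤ) → b i ≤ -L →
      ∃ m : ℕ, κ₀ * m + lam * L < ‖s (i + m) - s i‖)
    (hst' : ∀ L : ℕ, l ≤ L → ∀ i : ℤ, |i| ≤ 2 * (L : ℤ) → (L : ℝ) ≤ b i →
      ∃ m : ℕ, κ₀ * m + lam * L < ‖s (i - m) - s i‖)
    (A : ℝ) (hA : ∀ n : ℤ, |b n| ≤ |(n : ℝ)| + A) : |b 0| < (ε₀ + 3) * l := by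
  obtain ⟨L₀, hL₀⟩ := exists_nat_gt A
  have key : ∀ t L : ℕ, l ≤ L → L₀ ≤ L + t → ∀ n : ℤ, |n| ≤ L → |b n| < (ε₀ + 3) * L := by
    intro t
    induction t with
    | zero =>
      intro L h1 h2 n hn
      have h3 : |(n : ℝ)| ≤ L := by exact_mod_cast hn
      have h4 : (L₀ : ℝ) ≤ L := by exact_mod_cast h2
      have h5 : (0 : ℝ) ≤ L := by positivity
      have := hA n
      nlinarith
    | succ t ih =>
      intro L h1 h2 n hn
      have hG : ∀ L' : ℕ, L < L' → ∀ n : ℤ, |n| ≤ L' → |b n| < (ε₀ + 3) * L' :=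
        fun L' h => ih L' (by omega) (by omega)
      have h0 : 0 ≤ lam * L := by positivity
      have h3 : ε * L ≤ c * (lam * L) := by
        rw [← mul_assoc]; gcongr
      refine abs_lt.2 ⟨?_, ?_⟩
      · exact scale_det1 s b c ε₀ κ₀ ε hc hε₀ hκ hε1 L (by omega) (lam * L) h0 h3
          (fun L' h => hLD L' (by omega)) (hst L h1) hG n hn
      · have := scale_det1 (fun i => s (-i)) (fun i => -b (-i)) c ε₀ κ₀ ε hc hε₀ hκ hε1 L
          (by omega) (lam * L) h0 h3 ?_ ?_ ?_ (-n) (by rwa [abs_neg])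
        · simp only [neg_neg] at this
          linarith
        · intro L' h i j i1 i2 i3
          have := hLD L' (by omega) (-j) (-i) (by omega) (by omega) (by omega)
          rw [norm_sub_rev] at this
          push_cast at this
          linarith
        · intro i hi hb
          obtain ⟨m, hm⟩ := hst' L h1 (-i) (by rwa [abs_neg]) (by linarith)
          refine ⟨m, ?_⟩
          rwa [show -(i + (m : ℤ)) = -i - m by ring]
        · intro L' h i hi
          rw [abs_neg]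
          exact hG L' h (-i) (by rwa [abs_neg])
  exact key L₀ l le_rfl (by omega) 0 (by simp)

/-- Discrete primitives on `ℤ`. -/
theorem exists_prim {V : Type} [AddCommGroup V] (f : ℤ → V) :
    ∃ s : ℤ → V, ∀ i, s (i + 1) = s i + f i := by
  refine ⟨fun i => Int.rec (fun n => ∑ t ∈ Finset.range n, f t)
    (fun n => -∑ t ∈ Finset.range (n + 1), f (Int.negSucc t)) i, fun i => ?_⟩
  rcases i with n | n
  · exact Finset.sum_range_succ _ _
  · rcases n with _ | n
    · show ∑ t ∈ Finset.range 0, f t = -∑ t ∈ Finset.range (0 + 1), f (Int.negSucc t) +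
        f (Int.negSucc 0)
      simp
    · show -∑ t ∈ Finset.range (n + 1), f (Int.negSucc t) =
        -∑ t ∈ Finset.range (n + 1 + 1), f (Int.negSucc t) + f (Int.negSucc (n + 1))
      rw [Finset.sum_range_succ _ (n + 1)]
      abel

theorem prim_add {V : Type} [AddCommGroup V] {f s : ℤ → V} (h : ∀ i, s (i + 1) = s i + f i)
    (i : ℤ) (m : ℕ) : s (i + m) - s i = ∑ t ∈ Finset.range m, f (i + t) := by
  induction m with
  | zero => simp
  | succ m ih =>
    rw [Finset.sum_range_succ, ← ih, Nat.cast_succ, ← add_assoc, h]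
    abel

theorem prim_sub {V : Type} [AddCommGroup V] {f s : ℤ → V} (h : ∀ i, s (i + 1) = s i + f i)
    (i : ℤ) (m : ℕ) : s (i - m) - s i = ∑ t ∈ Finset.range m, -f (i - (t + 1 : ℕ)) := by
  induction m with
  | zero => simp
  | succ m ih =>
    rw [Finset.sum_range_succ, ← ih]
    have := h (i - (m + 1 : ℕ))
    rw [show i - ((m + 1 : ℕ) : ℤ) + 1 = i - m by push_cast; ring] at this
    rw [this]
    abel

/-- Exponential integrability from exponentially rare bad events. -/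
theorem exp_int {Ω : Type} [MeasurableSpace Ω] (Q : Measure Ω) [IsProbabilityMeasure Q]
    (f : Ω → ℝ) (E : Set Ω) (hE : MeasurableSet E) (δ : ℝ) (hδ : 0 < δ) (Bad : ℕ → Set Ω)
    (hdet : ∀ᵐ x ∂Q, x ∈ E → ∀ l : ℕ, 1 ≤ l → δ * l ≤ |f x| → ∃ L, l ≤ L ∧ x ∈ Bad L)
    (A η₁ : ℝ) (hη : 0 < η₁)
    (hBad : ∀ L : ℕ, Q (Bad L) ≤ ENNReal.ofReal (A * (L + 1) * Real.exp (-(2 * η₁) * L))) :
    ∫⁻ x in E, ENNReal.ofReal (Real.exp (η₁ / δ * |f x|)) ∂Q < ⊤ := by
  set g : ℕ → Ω → ℝ≥0∞ := fun L =>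
    (toMeasurable Q (Bad L)).indicator fun _ => ENNReal.ofReal (Real.exp (η₁ * (L + 1))) with hg
  have h1 : ∫⁻ x in E, ENNReal.ofReal (Real.exp (η₁ / δ * |f x|)) ∂Q ≤
      ∫⁻ x, (ENNReal.ofReal (Real.exp η₁) + ∑' L, g L x) ∂Q := by
    rw [← lintegral_indicator hE]
    refine lintegral_mono_ae ?_
    filter_upwards [hdet] with x hx
    by_cases hxE : x ∈ E
    · rw [Set.indicator_of_mem hxE]
      set l := ⌊|f x| / δ⌋₊ with hl
      have h2 : |f x| / δ < l + 1 := Nat.lt_floor_add_one _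
      have h3 : η₁ / δ * |f x| ≤ η₁ * (l + 1) := by
        rw [div_mul_eq_mul_div, mul_div_assoc]; gcongr
      rcases Nat.eq_zero_or_pos l with h0 | h0
      · refine le_add_right (ENNReal.ofReal_le_ofReal (Real.exp_le_exp.2 ?_))
        rw [h0] at h3
        simpa using h3
      · obtain ⟨L, hL1, hL2⟩ := hx hxE l h0 (by
          have : (l : ℝ) ≤ |f x| / δ := Nat.floor_le (by positivity)
          rwa [le_div_iff₀' hδ] at this)
        refine le_add_left (le_trans ?_ (ENNReal.le_tsum L))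
        rw [hg]
        simp only
        rw [Set.indicator_of_mem (subset_toMeasurable Q _ hL2)]
        refine ENNReal.ofReal_le_ofReal (Real.exp_le_exp.2 (h3.trans ?_))
        gcongr
    · rw [Set.indicator_of_notMem hxE]
      exact zero_le
  refine h1.trans_lt ?_
  have hgm : ∀ L, Measurable (g L) := fun L =>
    measurable_const.indicator (measurableSet_toMeasurable _ _)
  rw [lintegral_add_left measurable_const, lintegral_tsum fun L => (hgm L).aemeasurable]
  refine ENNReal.add_lt_top.2 ⟨by simp, ?_⟩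
  have h4 : ∀ L : ℕ, ∫⁻ x, g L x ∂Q ≤
      ENNReal.ofReal (|A| * Real.exp η₁ * ((L + 1) * Real.exp (-η₁ * L))) := by
    intro L
    rw [hg]
    simp only
    rw [lintegral_indicator_const (measurableSet_toMeasurable _ _), measure_toMeasurable]
    refine le_trans (mul_le_mul_right (hBad L) _) ?_
    rw [← ENNReal.ofReal_mul (Real.exp_pos _).le]
    refine ENNReal.ofReal_le_ofReal ?_
    have h5 : Real.exp (η₁ * (L + 1)) * Real.exp (-(2 * η₁) * L) =
        Real.exp η₁ * Real.exp (-η₁ * L) := by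
      rw [← Real.exp_add, ← Real.exp_add]; congr 1; ring
    calc Real.exp (η₁ * (L + 1)) * (A * (L + 1) * Real.exp (-(2 * η₁) * L))
        = A * ((L + 1) * (Real.exp (η₁ * (L + 1)) * Real.exp (-(2 * η₁) * L))) := by ring
      _ ≤ |A| * ((L + 1) * (Real.exp (η₁ * (L + 1)) * Real.exp (-(2 * η₁) * L))) := by
          gcongr; exact le_abs_self A
      _ = _ := by rw [h5]; ring
  refine (ENNReal.tsum_le_tsum h4).trans_lt ?_
  have hs : Summable fun L : ℕ => |A| * Real.exp η₁ * ((L + 1) * Real.exp (-η₁ * L)) := by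
    refine Summable.mul_left _ ?_
    have := (Real.summable_pow_mul_exp_neg_nat_mul 1 hη).add
      (Real.summable_pow_mul_exp_neg_nat_mul 0 hη)
    refine this.congr fun L => ?_
    ring
  rw [← ENNReal.ofReal_tsum_of_nonneg (fun L => by positivity) hs]
  exact ENNReal.ofReal_lt_top

end Vale.Agent.P188.Sc
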