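import Vale.Agent.P188.LayerB

/-! P188: auxiliary lemmas for tail triviality along an extension. -/

namespace Vale.Agent.P188.TT

open Function MeasureTheory Filter Matrix
open scoped ENNReal NNReal Topology

lemma noiseM_ac (m : ℕ) : noiseM m ≪ volume := by
  induction m with
  | zero =>
    rw [noiseM, volume_pi, Measure.pi_of_empty, Measure.pi_of_empty]
  | succ m ih =>
    have h1 := ((measurePreserving_piFinSuccAbove (fun _ : Fin (m + 1) => rho1) 0).symm _).map_eq
    have h2 := ((measurePreserving_piFinSuccAbove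
      (fun _ : Fin (m + 1) => (volume : Measure ℝ)) 0).symm _).map_eq
    rw [noiseM, volume_pi, ← h1, ← h2]
    exact ((withDensity_absolutelyContinuous _ _).prod ih).map (MeasurableEquiv.measurable _)

lemma avg_ball {n : Type} [Fintype n] (f : (n → ℝ) → ℝ) (z : n → ℝ) (r : ℝ) :
    ⨍ y in Metric.ball z r, f y = ⨍ y in Metric.ball 0 r, f (z + y) := by
  have h1 : (fun y => z + y) ⁻¹' Metric.ball z r = Metric.ball (0 : n → ℝ) r := by
    ext y; simp [dist_eq_norm]
  have h2 := (measurePreserving_add_left (volume : Measure (n → ℝ)) z).setIntegral_preimage_emb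
    (measurableEmbedding_addLeft z) f (Metric.ball z r)
  rw [setAverage_eq, setAverage_eq, ← h2, h1, Measure.real, Measure.real,
    Measure.addHaar_ball_center]

lemma measurable_avg {Z n : Type} [MeasurableSpace Z] [Fintype n] {f : Z → (n → ℝ) → ℝ}
    (hf : Measurable (uncurry f)) (r : ℝ) :
    Measurable fun z => ⨍ y in Metric.ball (0 : n → ℝ) r, f z y := by
  simp only [setAverage_eq, smul_eq_mul]
  exact ((hf.stronglyMeasurable.integral_prod_right (ν := volume.restrict _)).measurable).const_mul _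

lemma subseq_ae {Γ Ω : Type} [Countable Γ] [Nonempty Γ] [MeasurableSpace Ω] (P : Measure Ω)
    (bad : Γ → ℕ → Set Ω) (h : ∀ γ, Tendsto (fun n => P (bad γ n)) atTop (𝓝 0)) :
    ∃ φ : ℕ → ℕ, ∀ γ, ∀ᵐ p ∂P, ∀ᶠ j in atTop, p ∉ bad γ (φ j) := by
  obtain ⟨e, he⟩ := exists_surjective_nat Γ
  have h1 : ∀ j : ℕ, ∃ n, ∀ i ∈ Finset.range (j + 1), P (bad (e i) n) ≤ 2⁻¹ ^ j := by
    intro j
    refine ((eventually_all_finset (Finset.range (j + 1))).2 fun i _ => ?_).exists (f := atTop)
    exact (h (e i)).eventually (ge_mem_nhds (ENNReal.pow_pos (by simp) j))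
  choose φ hφ using h1
  refine ⟨φ, fun γ => ?_⟩
  obtain ⟨i, rfl⟩ := he γ
  have h2 : ∑' j, P (bad (e i) (φ (j + i))) ≠ ∞ := by
    refine ne_top_of_le_ne_top (b := ∑' j : ℕ, (2⁻¹ : ℝ≥0∞) ^ j) (by simp) ?_
    refine ENNReal.tsum_le_tsum fun j => (hφ _ i (by simp)).trans ?_
    exact pow_le_pow_of_le_one (by simp) (by simp) (by omega)
  filter_upwards [ae_eventually_notMem h2] with p hp
  obtain ⟨N, hN⟩ := eventually_atTop.1 hp
  refine eventually_atTop.2 ⟨N + i, fun j hj => ?_⟩
  have := hN (j - i) (by omega)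
  rwa [Nat.sub_add_cancel (by omega)] at this

section
variable {k : ℕ} (L : Layer k) (a : Rk k)

lemma continuous_pr : Continuous (L.pr a) := continuous_pi fun i => continuous_apply i.1

lemma continuous_emb : Continuous (L.emb a) := continuous_pi fun i => by
  unfold Layer.emb
  split_ifs
  · exact continuous_apply _
  · exact continuous_const

/-- One increment of the new coordinate. -/
noncomputable def inc (b : Zk k) (R : ℝ) (t : Fin L.m → ℝ) : L.Neg a → ℝ :=
  (L.Bm a b).mulVec (L.pr a (R • clamp t))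

lemma continuous_inc (b : Zk k) (R : ℝ) : Continuous (inc L a b R) :=
  continuous_const.matrix_mulVec
    ((continuous_pr L a).comp (continuous_clamp.const_smul R))

lemma summable_inc {β : ℕ → Zk k} {C : ℝ}
    (h : ∀ l y, ‖(L.Bm a (β l)).mulVec y‖ ≤ C * (1 / 2) ^ l * ‖y‖) (R : ℝ)
    (t : ℕ → Fin L.m → ℝ) : Summable fun l => inc L a (β l) R (t l) := by
  refine Summable.of_norm_bounded
    ((summable_geometric_two.mul_left |C|).mul_right |R|) fun l => (h l _).trans ?_
  have h1 : ‖L.pr a (R • clamp (t l))‖ ≤ |R| := (L.norm_pr_le a _).trans (by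
    rw [norm_smul, Real.norm_eq_abs]
    exact mul_le_of_le_one_right (abs_nonneg _) (norm_clamp_le _))
  exact mul_le_mul (mul_le_mul_of_nonneg_right (le_abs_self C) (by positivity)) h1
    (norm_nonneg _) (by positivity)

lemma ae_inc (b : Zk k) {R : ℝ} (hR : R ≠ 0) (z : L.Neg a → ℝ) {N : Set (L.Neg a → ℝ)}
    (hN : MeasurableSet N) (h0 : volume N = 0) :
    ∀ᵐ t ∂noiseM L.m, z + inc L a b R t ∉ N := by
  let f : (Fin L.m → ℝ) →ₗ[ℝ] (L.Neg a → ℝ) :=
    (Matrix.mulVecLin (L.Bm a b)).comp (R • LinearMap.funLeft ℝ ℝ Subtype.val)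
  have hf : ∀ t, f t = (L.Bm a b).mulVec (L.pr a (R • t)) := fun t => rfl
  have hs : Surjective f := fun y => ⟨R⁻¹ • L.emb a ((L.Bm a b⁻¹).mulVec y), by
    rw [hf, smul_smul, mul_inv_cancel₀ hR, one_smul, L.pr_emb, ← L.Bm_mulVec_mul,
      mul_inv_cancel, L.Bm_one, one_mulVec]⟩
  have h1 : ∀ᵐ y ∂(volume : Measure (L.Neg a → ℝ)), y ∈ ((fun y => z + y) ⁻¹' N)ᶜ := by
    rw [← compl_mem_ae_iff, ← Set.preimage_compl] at *
    exact (measurePreserving_add_left volume z).quasiMeasurePreserving.ae h0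
  have h2 := (ae_comp_linearMap_mem_iff f volume volume hs
    ((measurable_const_add z) hN).compl).2 h1
  filter_upwards [(noiseM_ac L.m).ae_le h2, ae_clamp (m := L.m)] with t h3 h4
  rw [inc, h4]
  exact h3

lemma ae_sum {β : ℕ → Zk k} {C : ℝ}
    (h : ∀ l y, ‖(L.Bm a (β l)).mulVec y‖ ≤ C * (1 / 2) ^ l * ‖y‖) {R : ℝ} (hR : R ≠ 0)
    (z : L.Neg a → ℝ) {P : (L.Neg a → ℝ) → Prop} (hP : ∀ᵐ y, P y) :
    ∀ᵐ t ∂iid (noiseM L.m), P (z + ∑' l, inc L a (β l) R (t l)) := by
  obtain ⟨N, h1, hN, h0⟩ := exists_measurable_superset_of_null (ae_iff.1 hP)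
  have hm : Measurable fun t : ℕ → Fin L.m → ℝ => ∑' l, inc L a (β l) R (t l) := by
    refine measurable_of_tendsto_metrizable
      (f := fun n t => ∑ l ∈ Finset.range n, inc L a (β l) R (t l)) (fun n => ?_) ?_
    · exact Finset.measurable_fun_sum _ fun l _ =>
        (continuous_inc L a _ R).measurable.comp (measurable_pi_apply l)
    · exact tendsto_pi_nhds.2 fun t => (summable_inc L a h R t).hasSum.tendsto_sum_nat
  have h2 : MeasurableSet {t : ℕ → Fin L.m → ℝ | z + ∑' l, inc L a (β l) R (t l) ∈ N} :=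
    (hm.const_add z) hN
  have h3 := (mp_consN (noiseM L.m)).comp Measure.measurePreserving_swap
  have h4 : iid (noiseM L.m) {t | z + ∑' l, inc L a (β l) R (t l) ∈ N} = 0 := by
    rw [← h3.measure_preimage h2.nullMeasurableSet, Measure.measure_prod_null (h3.measurable h2)]
    refine ae_of_all _ fun t => ?_
    have h5 := ae_inc L a (β 0) hR (z + ∑' l, inc L a (β (l + 1)) R (t l)) hN h0
    rw [ae_iff] at h5
    refine Eq.trans (congrArg (noiseM L.m) (Set.ext fun u => ?_)) h5
    simp only [Set.mem_preimage, Set.mem_ofPred_eq, Function.comp_apply, Prod.swap_prod_mk, not_not]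
    rw [(summable_inc L a h R _).tsum_eq_zero_add, add_assoc, add_comm (∑' _, _)]
    rfl
  filter_upwards [compl_mem_ae_iff.2 h4] with t ht
  by_contra hc
  exact ht (h1 hc)

end

lemma measurable_place {k : ℕ} {L : Layer k} {Γ Γ' : Type} [Group Γ] [Group Γ'] [Countable Γ]
    [MeasurableSpace Γ] [DiscreteMeasurableSpace Γ] {π' : Γ' →* Zk k} (E : Ext L Γ Γ' π') :
    Measurable fun p : Γ × (Fin L.m → ℝ) => E.place p.1 p.2 := by
  refine measurable_from_prod_countable_right fun γ => ?_
  have h1 : Continuous fun X : Fin L.m → ℝ => (L.R (π' (E.p γ))⁻¹).mulVec (L.Q.mulVec X) :=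
    continuous_const.matrix_mulVec (continuous_const.matrix_mulVec continuous_id)
  have h2 : Measurable fun x : Fin L.m → ℝ => fun i => ⌊x i⌋ :=
    measurable_pi_lambda _ fun i => Int.measurable_floor.comp (measurable_pi_apply i)
  have h3 : Measurable fun v : Fin L.m → ℤ => γ * E.ι (Multiplicative.ofAdd v) :=
    Measurable.of_discrete
  exact (h3.comp (h2.comp h1.measurable)).prodMk (continuous_prj.comp h1).measurable

end Vale.Agent.P188.TT
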