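import Vale.Agent.P188.Iid

/-! P188 tails, part A: the abstract argument for random iterations. -/

namespace Vale.Agent.P188

open Function MeasureTheory Filter
open scoped ENNReal NNReal Topology

namespace Tail

variable {Y N : Type} [MeasurableSpace Y] [MeasurableSpace N] {μ : Measure Y} {P : Measure N}
  {T : N → Y → Y} {k : ℕ}

/-- The Ville-type bound along the random orbit. -/
def VS (μ : Measure Y) (P : Measure N) (T : N → Y → Y) (U : Y → N → Rk k) (κ : Wt k) (κ₀ : ℝ)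
    (G : Set Y) (C : ℝ) : Prop :=
  ∀ Λ h : ℝ, 0 ≤ Λ → (μ.prod (iid P)).real {p | ∃ n, orb T p.1 p.2 n ∈ G ∧
    h ≤ κ (sumU T U p.1 p.2 n) ∧ ∀ j ≤ n, ‖sumU T U p.1 p.2 j‖ ≤ κ₀ * j + Λ} ≤
      C * Real.exp (C * Λ - h)

/-- Sublinear growth along the random orbit. -/
def RS (μ : Measure Y) (P : Measure N) (T : N → Y → Y) (U : Y → N → Rk k) : Prop :=
  ∀ ε : ℝ, 0 < ε → ∀ᵐ p ∂(μ.prod (iid P)), ∃ Λ : ℕ, ∀ n : ℕ, ‖sumU T U p.1 p.2 n‖ ≤ ε * n + Λ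

lemma real_mono_ae {X : Type} [MeasurableSpace X] {m : Measure X} [IsFiniteMeasure m]
    {s t : Set X} (h : ∀ᵐ x ∂m, x ∈ s → x ∈ t) : m.real s ≤ m.real t :=
  ENNReal.toReal_mono (measure_ne_top _ _) (measure_mono_ae h)

omit [MeasurableSpace Y] [MeasurableSpace N] in
lemma map_sumU (κ : Wt k) (U : Y → N → Rk k) (y : Y) (ω : ℕ → N) (n : ℕ) :
    κ (sumU T U y ω n) = sumU T (fun y g => κ (U y g)) y ω n := by
  simp only [sumU, map_sum]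

lemma RS.lin {U : Y → N → Rk k} (h : RS μ P T U) (κ : Wt k) (ε : ℝ) (hε : 0 < ε) :
    ∀ᵐ p ∂(μ.prod (iid P)), ∃ Λ : ℕ, ∀ n : ℕ, |κ (sumU T U p.1 p.2 n)| ≤ ε * n + Λ := by
  filter_upwards [h (ε / (‖κ‖ + 1)) (by positivity)] with p ⟨Λ, hp⟩
  refine ⟨⌈(‖κ‖ + 1) * Λ⌉₊, fun n => ?_⟩
  have h1 : |κ (sumU T U p.1 p.2 n)| ≤ (‖κ‖ + 1) * (ε / (‖κ‖ + 1) * n + Λ) :=
    (κ.le_opNorm _).trans (mul_le_mul (by linarith) (hp n) (norm_nonneg _) (by positivity))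
  have h2 : (‖κ‖ + 1) * (ε / (‖κ‖ + 1) * n + Λ) = ε * n + (‖κ‖ + 1) * Λ := by field_simp
  linarith [Nat.le_ceil ((‖κ‖ + 1) * Λ)]

variable [IsProbabilityMeasure μ] [IsProbabilityMeasure P]

lemma mp_orb (h : RMP μ T) (n : ℕ) : MeasurePreserving
    (fun p : Y × (ℕ → N) => (orb T p.1 p.2 n, p.2 n)) (μ.prod (iid P)) (μ.prod P) := by
  induction n with
  | zero => exact (MeasurePreserving.id μ).prod (measurePreserving_eval_infinitePi (fun _ => P) 0)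
  | succ n ih =>
    have := ih.comp (h.mp_skewShift P)
    simpa only [orb_succ', Function.comp_def] using this

lemma path (h : RMP μ T) {I : Set Y} {b : Y → ℝ} {V : Y → N → ℝ}
    (hI : ∀ᵐ p ∂(μ.prod P), (T p.2 p.1 ∈ I ↔ p.1 ∈ I))
    (hb : ∀ᵐ p ∂(μ.prod P), p.1 ∈ I → b (T p.2 p.1) - b p.1 = V p.1 p.2) :
    ∀ᵐ p ∂(μ.prod (iid P)), p.1 ∈ I → ∀ n, orb T p.1 p.2 n ∈ I ∧
      b (orb T p.1 p.2 n) - b p.1 = sumU T V p.1 p.2 n := by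
  have := ae_all_iff.2 fun n => (mp_orb h n).quasiMeasurePreserving.ae (hI.and hb)
  filter_upwards [this] with p hp h0 n
  induction n with
  | zero => exact ⟨h0, by simp [orb, sumU]⟩
  | succ n ih =>
    refine ⟨(hp n).1.2 ih.1, ?_⟩
    have h1 := (hp n).2 ih.1
    rw [sumU, Finset.sum_range_succ, ← sumU, ← ih.2, ← h1]
    simp [orb]

lemma star (h : RMP μ T) {U : Y → N → Rk k} {κ : Wt k} {κ₀ C h₀ : ℝ} {G H I I' E : Set Y}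
    {b : Y → ℝ} (hV : VS μ P T U κ κ₀ G C) (hH : MeasurableSet H) (hI' : MeasurableSet I')
    (hit : ∀ y ∈ I', ∀ᵐ ω ∂(iid P), ∃ n, orb T y ω n ∈ H) (h1 : ∀ y ∈ H, y ∈ G ∧ -h₀ ≤ b y)
    (hI : ∀ᵐ p ∂(μ.prod P), (T p.2 p.1 ∈ I ↔ p.1 ∈ I))
    (hb : ∀ᵐ p ∂(μ.prod P), p.1 ∈ I → b (T p.2 p.1) - b p.1 = κ (U p.1 p.2))
    (hE : ∀ y ∈ E, y ∈ I ∧ y ∈ I') {C' : ℝ} (hC : 0 ≤ C) (h0 : 0 ≤ h₀)
    (hC' : C * Real.exp h₀ ≤ C') (Λ a : ℝ) (hΛ : 0 ≤ Λ) :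
    (μ.prod (iid P)).real {p | p.1 ∈ E ∧ b p.1 ≤ -a ∧
      ∀ n : ℕ, ‖sumU T U p.1 p.2 n‖ ≤ κ₀ * n + Λ} ≤ C' * Real.exp (C' * Λ - a) := by
  have hm : MeasurableSet {p : Y × (ℕ → N) | p.1 ∈ I' → ∃ n, orb T p.1 p.2 n ∈ H} :=
    measurableSet_setOfPred.2 ((measurableSet_setOfPred.1 (measurable_fst hI')).imp
      (Measurable.exists fun n => measurableSet_setOfPred.1 (h.measurable_orb n hH)))
  have h2 : ∀ᵐ p ∂(μ.prod (iid P)), p.1 ∈ I' → ∃ n, orb T p.1 p.2 n ∈ H :=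
    (Measure.ae_prod_iff_ae_ae hm).2 (ae_of_all _ fun y => by
      by_cases hy : y ∈ I'
      · exact (hit y hy).mono fun _ h _ => h
      · exact ae_of_all _ fun _ h => absurd h hy)
  refine le_trans (real_mono_ae ?_) ((hV Λ (a - h₀) hΛ).trans ?_)
  · filter_upwards [h2, path (V := fun y g => κ (U y g)) h hI hb] with p p1 p2 ⟨e1, e2, e3⟩
    obtain ⟨n, hn⟩ := p1 (hE _ e1).2
    refine ⟨n, (h1 _ hn).1, ?_, fun j _ => e3 j⟩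
    rw [map_sumU, ← (p2 (hE _ e1).1 n).2]
    linarith [(h1 _ hn).2]
  · have h3 : C ≤ C' := le_trans (le_mul_of_one_le_right hC (Real.one_le_exp h0)) hC'
    calc C * Real.exp (C * Λ - (a - h₀)) = C * Real.exp h₀ * Real.exp (C * Λ - a) := by
          rw [mul_assoc, ← Real.exp_add]; congr 2; ring
      _ ≤ _ := by gcongr; exact hC.trans h3

lemma bdd_good {U : Y → N → Rk k} {κ : Wt k} {κ₀ C : ℝ} {G : Set Y} (hκ : 0 < κ₀)
    (hV : VS μ P T U κ κ₀ G C) (hR : RS μ P T U) : ∀ᵐ p ∂(μ.prod (iid P)), ∃ a : ℝ, ∀ n,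
      orb T p.1 p.2 n ∈ G → sumU T (fun y g => κ (U y g)) p.1 p.2 n ≤ a := by
  have h1 : ∀ Λ : ℕ, ∀ᵐ p ∂(μ.prod (iid P)), (∀ n : ℕ, ‖sumU T U p.1 p.2 n‖ ≤ κ₀ * n + Λ) →
      ∃ a : ℝ, ∀ n, orb T p.1 p.2 n ∈ G → sumU T (fun y g => κ (U y g)) p.1 p.2 n ≤ a := by
    intro Λ
    rw [ae_iff, ← measureReal_eq_zero_iff]
    refine le_antisymm ?_ measureReal_nonneg
    have h2 : Tendsto (fun a : ℝ => C * Real.exp (C * Λ - a)) atTop (𝓝 (C * 0)) :=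
      (Real.tendsto_exp_atBot.comp
        (tendsto_atBot_add_const_left _ _ tendsto_neg_atTop_atBot)).const_mul C
    rw [mul_zero] at h2
    refine ge_of_tendsto' h2 fun a => le_trans (measureReal_mono ?_) (hV Λ a Λ.cast_nonneg)
    intro p hp
    simp only [Set.mem_ofPred_eq, not_forall, not_exists, not_le] at hp
    obtain ⟨p1, p2⟩ := hp
    obtain ⟨n, q1, q2⟩ := p2 a
    exact ⟨n, q1, by rw [map_sumU]; exact q2.le, fun j _ => p1 j⟩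
  filter_upwards [ae_all_iff.2 h1, hR κ₀ hκ] with p p1 ⟨Λ, p2⟩
  exact p1 Λ p2

lemma exists_level {b : Y → ℝ} (hb : Measurable b) {δ : ℝ} (hδ : 0 < δ) :
    ∃ n : ℕ, μ.real {y | |b y| ≤ n}ᶜ ≤ δ := by
  have h1 := tendsto_measure_iInter_atTop (μ := μ) (s := fun n : ℕ => {y | |b y| ≤ n}ᶜ)
    (fun n => (measurableSet_le hb.abs measurable_const).compl.nullMeasurableSet)
    (fun m n hmn => Set.compl_subset_compl.2 fun y (hy : |b y| ≤ m) =>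
      hy.trans (Nat.cast_le.2 hmn)) ⟨0, measure_ne_top _ _⟩
  have h2 : ⋂ n : ℕ, {y | |b y| ≤ n}ᶜ = ∅ := by
    refine Set.eq_empty_of_forall_notMem fun y hy => ?_
    obtain ⟨n, hn⟩ := exists_nat_ge |b y|
    exact Set.mem_iInter.1 hy n hn
  rw [h2, measure_empty] at h1
  obtain ⟨n, hn⟩ := (h1.eventually (ge_mem_nhds (ENNReal.ofReal_pos.2 hδ))).exists
  exact ⟨n, ENNReal.toReal_le_of_le_ofReal hδ.le hn⟩

theorem abstract (h1 : Hit_stmt) (h2 : Cob_stmt) (h4 : Scale_stmt) {T' : N → Y → Y}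
    (hT : RMP μ T) (hT' : RMP μ T') (i1 : ∀ g y, T' g (T g y) = y) (i2 : ∀ g y, T g (T' g y) = y)
    {U : Y → N → Rk k} {CU : ℝ} (hU : Measurable fun p : Y × N => U p.1 p.2)
    (hCU : ∀ y g, ‖U y g‖ ≤ CU) {κ : Wt k} {c ε₀ κ₀ : ℝ} (hc : 0 < c) (hε : 0 ≤ ε₀)
    (hκ : 14 * (ε₀ + 3) ≤ c * κ₀ - ε₀) (hL : LDev μ P T U κ c ε₀) {G G' : Set Y}
    (hG : MeasurableSet G) (hG' : MeasurableSet G') {C C' : ℝ} (hC : 0 < C) (hC' : 0 < C')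
    (hV : VS μ P T U κ κ₀ G C) (hV' : VS μ P T' (fun y g => -U (T' g y) g) (-κ) κ₀ G' C')
    (hR : RS μ P T U) (hR' : RS μ P T' fun y g => -U (T' g y) g) {δ : ℝ} (hδ : 0 < δ) :
    ∃ (E : Set Y) (b : Y → ℝ) (η : ℝ), MeasurableSet E ∧ Measurable b ∧
      μ.real Eᶜ ≤ μ.real Gᶜ + μ.real G'ᶜ + δ ∧
      (∀ᵐ p ∂(μ.prod P), (T p.2 p.1 ∈ E ↔ p.1 ∈ E)) ∧
      (∀ᵐ p ∂(μ.prod P), p.1 ∈ E → b (T p.2 p.1) - b p.1 = κ (U p.1 p.2)) ∧
      0 < η ∧ IntegrableOn (fun y => Real.exp (η * |b y|)) E μ := by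
  have hκ0 : 0 < κ₀ := (mul_pos_iff_of_pos_left hc).1 (by linarith)
  obtain ⟨I, b, mI, sI, mb, iI, eb⟩ := h2 Y N μ P T hT (fun y g => κ (U y g)) (‖κ‖ * CU)
    (κ.continuous.measurable.comp hU)
    (fun y g => (κ.le_opNorm _).trans (mul_le_mul_of_nonneg_left (hCU y g) (norm_nonneg _))) G hG
    (bdd_good hκ0 hV hR) fun ε hε => by simpa only [map_sumU] using hR.lin κ ε hε
  obtain ⟨n, hn⟩ := exists_level (μ := μ) mb hδ
  have mL : MeasurableSet {y | |b y| ≤ n} := measurableSet_le mb.abs measurable_const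
  obtain ⟨J, mJ, sJ, iJ, hJ⟩ := h1 Y N μ P T hT _ (hG.inter mL)
  obtain ⟨J', mJ', sJ', iJ', hJ'⟩ := h1 Y N μ P T' hT' _ (hG'.inter mL)
  have q := (hT.mp_pair P).quasiMeasurePreserving
  have q' := (hT'.mp_pair P).quasiMeasurePreserving
  have iE : ∀ᵐ p ∂(μ.prod P), (T p.2 p.1 ∈ I ∩ J ∩ J' ↔ p.1 ∈ I ∩ J ∩ J') := by
    filter_upwards [iI, iJ, q.ae iJ'] with p p1 p2 p3
    simp only [i1] at p3
    simp only [Set.mem_inter_iff, p1, p2, p3]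
  have eE : ∀ᵐ p ∂(μ.prod P), p.1 ∈ I ∩ J ∩ J' → b (T p.2 p.1) - b p.1 = κ (U p.1 p.2) :=
    eb.mono fun p hp h => hp h.1.1
  have iI' : ∀ᵐ p ∂(μ.prod P), (T' p.2 p.1 ∈ I ↔ p.1 ∈ I) := by
    filter_upwards [q'.ae iI] with p p1
    simpa only [i2] using p1.symm
  have eb' : ∀ᵐ p ∂(μ.prod P), p.1 ∈ I →
      -b (T' p.2 p.1) - -b p.1 = (-κ) (-U (T' p.2 p.1) p.2) := by
    filter_upwards [q'.ae eb, iI'] with p p1 p2 h
    have := p1 (p2.2 h)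
    simp only [i2] at this
    simp only [neg_apply, map_neg, neg_neg]
    linarith
  have c1 : C * Real.exp n ≤ (C + C') * Real.exp n := by gcongr; linarith
  have c2 : C' * Real.exp n ≤ (C + C') * Real.exp n := by gcongr; linarith
  obtain ⟨η, hη, hint⟩ := h4 Y N μ P T T' hT hT' i1 i2 k U CU hU hCU κ c ε₀ κ₀ hc hε hκ hL
    (I ∩ J ∩ J') b ((mI.inter mJ).inter mJ') mb iE eE (by simpa using hR.lin κ 1 one_pos)
    (by simpa using hR'.lin κ 1 one_pos) ((C + C') * Real.exp n) (by positivity)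
    (star hT hV (hG.inter mL) mJ hJ (fun y hy => ⟨hy.1, neg_le_of_abs_le hy.2⟩) iI eb
      (fun y hy => hy.1) hC.le n.cast_nonneg c1)
    (by
      simpa only [neg_le_neg_iff] using star (b := fun y => -b y) (E := I ∩ J ∩ J') hT' hV'
        (hG'.inter mL) mJ' hJ' (fun y hy => ⟨hy.1, neg_le_neg (le_of_abs_le hy.2)⟩) iI' eb'
        (fun y hy => ⟨hy.1.1, hy.2⟩) hC'.le n.cast_nonneg c2)
  refine ⟨_, b, η, (mI.inter mJ).inter mJ', mb, ?_, iE, eE, hη, hint⟩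
  have : (I ∩ J ∩ J')ᶜ ⊆ Gᶜ ∪ G'ᶜ ∪ {y | |b y| ≤ n}ᶜ := by
    rw [← Set.compl_inter, ← Set.compl_inter]
    exact Set.compl_subset_compl.2 fun y hy =>
      ⟨⟨sI hy.1.1, sJ ⟨hy.1.1, hy.2⟩⟩, sJ' ⟨hy.1.2, hy.2⟩⟩
  linarith [measureReal_mono (μ := μ) this,
    measureReal_union_le (μ := μ) (Gᶜ ∪ G'ᶜ) {y | |b y| ≤ n}ᶜ,
    measureReal_union_le (μ := μ) Gᶜ G'ᶜ]

end Tail

end Vale.Agent.P188
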