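import Vale.Agent.P188.TailA
import Vale.Agent.P188.SzBasic

/-! P188 tails, part B: the skew system of a chain. -/

namespace Vale.Agent.P188

open Function MeasureTheory Filter
open scoped ENNReal NNReal Topology

namespace Tail

open SzBasic

lemma measurable_sumU {Y N : Type} [MeasurableSpace Y] [MeasurableSpace N] {μ : Measure Y}
    {T : N → Y → Y} (h : RMP μ T) {k : ℕ} {U : Y → N → Rk k}
    (hU : Measurable fun p : Y × N => U p.1 p.2) (n : ℕ) :
    Measurable fun p : Y × (ℕ → N) => sumU T U p.1 p.2 n :=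
  Finset.measurable_sum _ fun i _ =>
    hU.comp ((h.measurable_orb i).prodMk ((measurable_pi_apply i).comp measurable_snd))

lemma prod_real_le {X Y : Type} [MeasurableSpace X] [MeasurableSpace Y] {μ : Measure X}
    {m : Measure Y} [IsProbabilityMeasure μ] [IsFiniteMeasure m] {A : Set (X × Y)}
    (hA : MeasurableSet A) {c : ℝ} (hc : 0 ≤ c) (h : ∀ᵐ x ∂μ, m.real (Prod.mk x ⁻¹' A) ≤ c) :
    (μ.prod m).real A ≤ c := by
  refine ENNReal.toReal_le_of_le_ofReal hc ?_
  rw [Measure.prod_apply hA]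
  refine (lintegral_mono_ae (g := fun _ => ENNReal.ofReal c) (h.mono fun x hx => ?_)).trans
    (by simp)
  exact (ENNReal.le_ofReal_iff_toReal_le (measure_ne_top _ _) hc).2 hx

variable {k : ℕ} {Γ : Type} [Group Γ] {π : Γ →* Zk k} {S : Finset Γ} {K : ℕ} {Z : Type}
  [MulAction Γ Z] [MeasurableSpace Z] {ν : Measure Z} {σ N : Type}

lemma q_inv (Q : QS S K Z) (z : Z) (g : Γ) : Q.q (g⁻¹ • z) g⁻¹ = (Q.q z g)⁻¹ := by
  rw [eq_inv_iff_mul_eq_one, mul_eq_one_comm, ← Q.q_mul, mul_inv_cancel, Q.q_one]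

lemma bdd_q (hS : Subgroup.closure (S : Set Γ) = ⊤) (Q : QS S K Z) (g : Γ) :
    ∃ B : ℝ, ∀ z, ‖ht π (Q.q z g)‖ ≤ B := by
  have hg : g ∈ Subgroup.closure (S : Set Γ) := hS ▸ Subgroup.mem_top g
  induction hg using Subgroup.closure_induction with
  | mem s hs =>
    refine ⟨(∑ s ∈ S, ‖ht π s‖) * K, fun z => ?_⟩
    obtain ⟨l, h1, h2, h3⟩ := mem_wBall hS (Q.q z s)
    rw [← h3]
    refine (norm_prod_le (fun s hs => Finset.single_le_sum (f := fun s => ‖ht π s‖)
      (fun _ _ => norm_nonneg _) hs) l h1).trans (mul_le_mul_of_nonneg_left ?_ (by positivity))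
    exact_mod_cast h2.trans (Q.q_lip z s hs)
  | one => exact ⟨0, fun z => by rw [Q.q_one, ht_one, norm_zero]⟩
  | mul x y _ _ hx hy =>
    obtain ⟨A, hA⟩ := hx
    obtain ⟨B, hB⟩ := hy
    exact ⟨A + B, fun z => by rw [Q.q_mul, ht_mul]; exact norm_add_le_of_le (hA _) (hB _)⟩
  | inv x _ hx =>
    obtain ⟨A, hA⟩ := hx
    refine ⟨A, fun z => ?_⟩
    have := q_inv Q (x • z) x
    rw [inv_smul_smul] at this
    rw [this, ht_inv, norm_neg]
    exact hA _

lemma bdd_defect (hS : Subgroup.closure (S : Set Γ) = ⊤) (Q : QS S K Z) {step : σ → N → Γ × σ}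
    (hF : ∃ F : Finset Γ, ∀ u g, (step u g).1 ∈ F) :
    ∃ CU : ℝ, ∀ y g, ‖defect π Q.q step y g‖ ≤ CU := by
  obtain ⟨F, hF⟩ := hF
  choose B hB using bdd_q (π := π) hS Q
  refine ⟨∑ γ ∈ F, (|B γ| + ‖ht π γ‖), fun y g => le_trans ?_ (Finset.single_le_sum
    (f := fun γ => |B γ| + ‖ht π γ‖) (fun _ _ => by positivity) (hF y.2 g))⟩
  exact (norm_sub_le _ _).trans (add_le_add_left ((hB _ _).trans (le_abs_self _)) _)

lemma sum_defect (Q : QS S K Z) (step : σ → N → Γ × σ) (z : Z) (u : σ) (ω : ℕ → N) (n : ℕ) :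
    sumU (skew step) (defect π Q.q step) (z, u) ω n =
      ht π (Q.q z (lp step (1, u) ω n)) - ht π (lp step (1, u) ω n) := by
  induction n with
  | zero => simp [sumU, lp, cpath, Q.q_one]
  | succ n ih =>
    rw [sumU, Finset.sum_range_succ, ← sumU, ih, orb_skew]
    simp only [defect, lp, cpath, mv, Q.q_mul, ht_mul]
    abel

lemma ht_lp {step : σ → N → Γ × σ} {a : Rk k} {Cs : ℝ}
    (h : ∀ u g, ‖ht π (step u g).1 - a‖ ≤ Cs) (u : σ) (ω : ℕ → N) (j : ℕ) :
    ‖ht π (lp step (1, u) ω j) - (j : ℝ) • a‖ ≤ Cs * j := by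
  induction j with
  | zero => simp [lp, cpath, ht_one]
  | succ j ih =>
    have e : ht π (lp step (1, u) ω (j + 1)) - ((j + 1 : ℕ) : ℝ) • a =
        (ht π (lp step (1, u) ω j) - (j : ℝ) • a) +
          (ht π (step (cpath step (1, u) ω j).2 (ω j)).1 - a) := by
      simp only [lp, cpath, mv, ht_mul, Nat.cast_succ, add_smul, one_smul]
      abel
    rw [e, Nat.cast_succ, mul_add, mul_one]
    exact norm_add_le_of_le ih (h _ _)

variable [Countable Γ] [MeasurableSpace Γ] [DiscreteMeasurableSpace Γ] [MeasurableSpace σ]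
  [MeasurableSpace N]

lemma meas_q (Q : QS S K Z) : Measurable fun p : Γ × Z => Q.q p.2 p.1 :=
  measurable_from_prod_countable_right fun g => measurable_to_countable' fun y => Q.q_meas g y

lemma meas_defect (Q : QS S K Z) {step : σ → N → Γ × σ}
    (hm : Measurable fun p : σ × N => step p.1 p.2) :
    Measurable fun p : (Z × σ) × N => defect π Q.q step p.1 p.2 := by
  have h1 : Measurable fun p : (Z × σ) × N => (step p.1.2 p.2).1 :=
    (hm.comp (measurable_fst.snd.prodMk measurable_snd)).fst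
  have h2 : Measurable (ht π) := Measurable.of_discrete
  exact (h2.comp ((meas_q Q).comp (h1.prodMk measurable_fst.fst))).sub (h2.comp h1)

lemma rmp_skew [SFinite ν] {μσ : Measure σ} [SFinite μσ] {step : σ → N → Γ × σ}
    (hm : Measurable fun p : σ × N => step p.1 p.2)
    (hp : ∀ g, MeasurePreserving (fun u => (step u g).2) μσ μσ)
    (hν : ∀ g : Γ, MeasurePreserving (g • ·) ν ν) : RMP (ν.prod μσ) (skew (Z := Z) step) := by
  have h0 : Measurable fun p : Γ × Z => p.1⁻¹ • p.2 :=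
    measurable_from_prod_countable_right fun g => (hν g⁻¹).measurable
  refine ⟨?_, fun g => ?_⟩
  · have h1 : Measurable fun p : (Z × σ) × N => step p.1.2 p.2 :=
      hm.comp (measurable_fst.snd.prodMk measurable_snd)
    exact (h0.comp (h1.fst.prodMk measurable_fst.fst)).prodMk h1.snd
  · have h1 : Measurable fun p : σ × Z => (step p.1 g).1 :=
      (hm.comp (measurable_fst.prodMk measurable_const)).fst
    have h2 := (hp g).skew_product (g := fun u (z : Z) => (step u g).1⁻¹ • z) (μc := ν) (μd := ν)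
      (h0.comp (h1.prodMk measurable_snd)) (ae_of_all _ fun u => (hν _).map_eq)
    exact (Measure.measurePreserving_swap.comp h2).comp Measure.measurePreserving_swap

lemma rs_chain (hR : Reg_stmt) (Q : QS S K Z) (hν : Drift π Q.q 1 ν fun _ => 1) (c : Chain Γ)
    (hm : Measurable fun p : c.σ × c.N => c.step p.1 p.2)
    (hF : ∃ F : Finset Γ, ∀ u g, (c.step u g).1 ∈ F)
    (hp : ∀ g, MeasurePreserving (fun u => (c.step u g).2) c.μσ c.μσ) :
    RS (ν.prod c.μσ) c.μN (skew c.step) (defect π Q.q c.step) := by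
  intro ε hε
  have := hν.prob
  have hs := measurable_sumU (rmp_skew hm hp hν.mp) (meas_defect (π := π) Q hm)
  have m : MeasurableSet {p : (Z × c.σ) × (ℕ → c.N) | ∃ Λ : ℕ, ∀ n : ℕ,
      ‖sumU (skew c.step) (defect π Q.q c.step) p.1 p.2 n‖ ≤ ε * n + Λ} :=
    measurableSet_setOfPred.2 (Measurable.exists fun Λ => Measurable.forall fun n =>
      measurableSet_setOfPred.1 (measurableSet_le (hs n).norm measurable_const))
  have h1 := (Measure.ae_prod_iff_ae_ae (μ := ν) (ν := c.μσ.prod (iid c.μN))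
    (MeasurableEquiv.prodAssoc.symm.measurable m)).2 (by
      filter_upwards [hR k Γ π S K Z Q 1 ν _ hν c hm hF hp ε hε] with z hz
      filter_upwards [hz 1] with x hx
      simp only [Q.q_one, ht_one, sub_zero, Matrix.one_mulVec, ← sum_defect] at hx
      exact hx)
  exact (measurePreserving_prodAssoc ν c.μσ (iid c.μN)).quasiMeasurePreserving.ae h1

lemma vs_chain (hV : V_stmt) (hG : GoodM_stmt) (hS : Subgroup.closure (S : Set Γ) = ⊤)
    (Q : QP S K Z) {ν' : Measure Z} (hν : Drift π Q.q 1 ν fun _ => 1)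
    (hν' : Drift π Q.q 1 ν' fun _ => 1) (ht' : Measure.QuasiMeasurePreserving Q.t ν ν')
    {w : List (Wt k)} {a : Rk k} {Cs κ₀ κ₂ C₀ : ℝ} {c : Chain Γ}
    (hc : ChainProp S π w a Cs (Cs + 3) κ₂ C₀ c) (hκ : κ₀ + Cs + 1 ≤ κ₂) {δ : ℝ} (hδ : 0 < δ) :
    ∃ (G : Set (Z × c.σ)) (C : ℝ), MeasurableSet G ∧ (ν.prod c.μσ).real Gᶜ ≤ δ ∧ 0 < C ∧
      VS (ν.prod c.μσ) c.μN (skew c.step) (defect π Q.q c.step) (kap w a) κ₀ G C := by
  have := hν.prob
  obtain ⟨g1, g2, g3, g4⟩ := hG k Γ π w S hS K Z Q 1 ν ν' _ _ hν hν' ht' a a _ _ _ _ _ _ _ _ c c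
    hc hc (ae_of_all _ fun _ => by simp) (by simp)
  obtain ⟨L, hL, hL1⟩ := ((g4.eventually (lt_mem_nhds (by linarith : 1 - δ < 1))).and
    (eventually_ge_atTop 1)).exists
  obtain ⟨C, hC, hV⟩ := hV k Γ π w S hS a a _ _ _ _ _ _ _ _ c c hc hc K L hL1
  have mG := (measurable_fst : Measurable (Prod.fst : Z × c.σ → Z)) (g2 L)
  refine ⟨_, C, mG, ?_, hC, fun Λ h hΛ => ?_⟩
  · rw [← Set.preimage_compl, measurePreserving_fst.measureReal_preimage
      (g2 L).compl.nullMeasurableSet, probReal_compl_eq_one_sub (g2 L)]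
    linarith
  have hT := rmp_skew hc.meas_step hc.mp hν.mp
  have hs := measurable_sumU hT (meas_defect (π := π) Q.toQS hc.meas_step)
  refine prod_real_le (measurableSet_setOfPred.2 (Measurable.exists fun n =>
    (measurableSet_setOfPred.1 (hT.measurable_orb n mG)).and
      ((measurableSet_setOfPred.1 (measurableSet_le measurable_const
        ((kap w a).continuous.measurable.comp (hs n)))).and
      (Measurable.forall fun j => measurable_const.imp
        (measurableSet_setOfPred.1 (measurableSet_le (hs j).norm measurable_const))))))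
    (by positivity) ?_
  filter_upwards [Measure.quasiMeasurePreserving_fst.ae g1] with ⟨z, u⟩ hz
  refine le_trans (measureReal_mono ?_) (hV (Q.q z) (Q.q' z) (fun p s hs => by
    rw [Q.q_mul, inv_mul_cancel_left]; exact Q.q_lip _ s hs) hz Λ h (1, u) hΛ)
  rintro ω ⟨n, h1, h2, h3⟩
  simp only [orb_skew, sum_defect, Function.comp_apply] at h1 h2 h3
  refine ⟨n, (g3 L z _).2 h1, ?_, fun j hj => ?_⟩
  · simpa only [Q.q_one, ht_one, sub_zero, map_sub] using h2
  · have h4 := norm_add_le_of_le (h3 j hj) (ht_lp hc.dir u ω j)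
    rw [sub_add_sub_cancel] at h4
    simp only [Q.q_one, ht_one, sub_zero]
    nlinarith [mul_le_mul_of_nonneg_right hκ (Nat.cast_nonneg (α := ℝ) j)]

end Tail

end Vale.Agent.P188
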