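import Vale.Agent.P188.TailB

/-! P188 tails, part C: invariance under the group and descent to the base space. -/

namespace Vale.Agent.P188

open Function MeasureTheory Filter
open scoped ENNReal NNReal Topology

namespace Tail

open SzBasic

lemma key_iff {Y : Type} (E : Set Y) (b : Y → ℝ) (v v' : Y) (x t : ℝ) :
    E.indicator (fun y => Real.exp (b y)) v' * Real.exp (-(x + t)) =
      E.indicator (fun y => Real.exp (b y)) v * Real.exp (-x) ↔
    ((v' ∈ E ↔ v ∈ E) ∧ (v ∈ E → b v' - b v = t)) := by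
  by_cases h : v ∈ E <;> by_cases h' : v' ∈ E <;>
    simp only [h, h', Set.indicator_of_mem, Set.indicator_of_notMem, not_false_eq_true,
      ← Real.exp_add, Real.exp_eq_exp, zero_mul, true_and, forall_const, iff_true, iff_false,
      not_true_eq_false, false_and, false_imp_iff, and_self]
  · constructor <;> intro <;> linarith
  · exact (Real.exp_pos _).ne
  · exact (Real.exp_pos _).ne'

variable {k : ℕ} {Γ : Type} [Group Γ] {π : Γ →* Zk k} {S : Finset Γ} {K : ℕ} {Z : Type}
  [MulAction Γ Z] [MeasurableSpace Z] {ν : Measure Z}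

/-- The real cocycle. -/
noncomputable def th (π : Γ →* Zk k) (Q : QS S K Z) (κ : Wt k) (g : Γ) (z : Z) : ℝ :=
  κ (ht π (Q.q z g) - ht π g)

/-- The skew action on `Z × ℝ`. -/
@[reducible] noncomputable def actR (π : Γ →* Zk k) (Q : QS S K Z) (κ : Wt k) :
    MulAction Γ (Z × ℝ) where
  smul g p := (g • p.1, p.2 + th π Q κ g⁻¹ p.1)
  one_smul p := by
    change ((1 : Γ) • p.1, p.2 + th π Q κ 1⁻¹ p.1) = p
    simp [th, Q.q_one]
  mul_smul g h p := by
    change ((g * h) • p.1, p.2 + th π Q κ (g * h)⁻¹ p.1) =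
      (g • h • p.1, p.2 + th π Q κ h⁻¹ p.1 + th π Q κ g⁻¹ (h • p.1))
    simp only [th, mul_inv_rev, Q.q_mul, ht_mul, inv_inv, mul_smul, add_assoc, ← map_add]
    congr 3
    abel

variable [Countable Γ]

lemma inv_step [MeasurableSpace Γ] [DiscreteMeasurableSpace Γ] (h5 : Inv_stmt)
    (hS : Subgroup.closure (S : Set Γ) = ⊤) (hS' : Subgroup.closure ((S : Set Γ) ∩ π.ker) = π.ker)
    (Q : QS S K Z) [SFinite ν] (hν : ∀ g : Γ, MeasurePreserving (g • ·) ν ν) (P : Pair Γ k)
    (hP : PairProp S π P) (hm : Measurable fun p : P.σ × P.N => P.step p.1 p.2)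
    (hp : ∀ g, MeasurePreserving (fun u => (P.step u g).2) P.μσ P.μσ) (κ : Wt k)
    {E : Set (Z × P.σ)} {b : Z × P.σ → ℝ} (mE : MeasurableSet E) (mb : Measurable b)
    (iE : ∀ᵐ p ∂((ν.prod P.μσ).prod P.μN), (skew P.step p.2 p.1 ∈ E ↔ p.1 ∈ E))
    (eE : ∀ᵐ p ∂((ν.prod P.μσ).prod P.μN), p.1 ∈ E →
      b (skew P.step p.2 p.1) - b p.1 = κ (defect π Q.q P.step p.1 p.2)) (γ : Γ) :
    ∀ᵐ z ∂ν, ∀ᵐ u ∂P.μσ, ((γ⁻¹ • z, P.act (π γ) u) ∈ E ↔ (z, u) ∈ E) ∧
      ((z, u) ∈ E → b (γ⁻¹ • z, P.act (π γ) u) - b (z, u) = th π Q κ γ z) := by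
  obtain ⟨C, hC⟩ := h5 k Γ π S hS hS' P hP hm hp γ
  let := actR π Q κ
  have hmp : ∀ g : Γ, MeasurePreserving (g • ·) (ν.prod (volume : Measure ℝ))
      (ν.prod (volume : Measure ℝ)) := fun g => by
    have h1 : Measurable (th π Q κ g⁻¹) := κ.continuous.measurable.comp
      (((Measurable.of_discrete (f := ht π)).comp
        ((meas_q Q).comp (measurable_const.prodMk measurable_id))).sub measurable_const)
    exact (hν g).skew_product (g := fun z (x : ℝ) => x + th π Q κ g⁻¹ z)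
      (measurable_snd.add (h1.comp measurable_fst))
      (ae_of_all _ fun z => map_add_right_eq_self _ _)
  let G : (Z × ℝ) × P.σ → ℝ := fun y =>
    E.indicator (fun v => Real.exp (b v)) (y.1.1, y.2) * Real.exp (-y.1.2)
  have mG : Measurable G := ((mb.exp.indicator mE).comp
    (measurable_fst.fst.prodMk measurable_snd)).mul measurable_fst.snd.neg.exp
  have h1 := hC (Z × ℝ) _ hmp G G mG mG
  have q : Measure.QuasiMeasurePreserving
      (Prod.map (Prod.map Prod.fst id) id : ((Z × ℝ) × P.σ) × P.N → (Z × P.σ) × P.N)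
      (((ν.prod (volume : Measure ℝ)).prod P.μσ).prod P.μN) ((ν.prod P.μσ).prod P.μN) :=
    QuasiMeasurePreserving.prodMap (QuasiMeasurePreserving.prodMap
      Measure.quasiMeasurePreserving_fst (Measure.QuasiMeasurePreserving.id _))
      (Measure.QuasiMeasurePreserving.id _)
  have hG : ∀ (g : Γ) (y : Z × ℝ) (u : P.σ), G (g⁻¹ • y, u) =
      E.indicator (fun v => Real.exp (b v)) (g⁻¹ • y.1, u) *
        Real.exp (-(y.2 + th π Q κ g y.1)) := fun g y u => by
    conv_rhs => rw [← inv_inv g]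
    rw [inv_inv g⁻¹]
    rfl
  rw [lintegral_congr_ae (g := fun _ => 0) (μ := ((ν.prod (volume : Measure ℝ)).prod P.μσ).prod _)
    (by
      filter_upwards [q.ae iE, q.ae eE] with p p1 p2
      have : G (skew P.step p.2 p.1) = G p.1 :=
        (hG _ _ _).trans ((key_iff E b _ _ p.1.1.2 _).2 ⟨p1, p2⟩)
      simp [this]), lintegral_zero, mul_zero, nonpos_iff_eq_zero] at h1
  have h2 := (lintegral_eq_zero_iff (((mG.comp (((hmp γ⁻¹).measurable.comp measurable_fst).prodMk
    ((hP.act_mp _).measurable.comp measurable_snd))).sub mG).enorm.pow_const 2)).1 h1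
  filter_upwards [Measure.ae_ae_of_ae_prod (Measure.ae_ae_of_ae_prod h2)] with z hz
  obtain ⟨x, hx⟩ := hz.exists
  filter_upwards [hx] with u hu
  simp only [Pi.zero_apply, pow_eq_zero_iff two_ne_zero, enorm_eq_zero, Pi.sub_apply,
    sub_eq_zero] at hu
  exact (key_iff E b _ _ x _).1 ((hG γ (z, x) _).symm.trans hu)

lemma descent {σ : Type} [MeasurableSpace σ] {μ : Measure σ} [IsProbabilityMeasure μ]
    [IsProbabilityMeasure ν] (hν : ∀ g : Γ, MeasurePreserving (g • ·) ν ν) {A : Γ → σ → σ}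
    (hA : ∀ g, MeasurePreserving (A g) μ μ) {E : Set (Z × σ)} {b : Z × σ → ℝ} {θ : Γ → Z → ℝ}
    (mE : MeasurableSet E) (mb : Measurable b) {η : ℝ} (hη : 0 < η)
    (hi : IntegrableOn (fun y => Real.exp (η * |b y|)) E (ν.prod μ))
    (h : ∀ γ : Γ, ∀ᵐ z ∂ν, ∀ᵐ u ∂μ, ((γ⁻¹ • z, A γ u) ∈ E ↔ (z, u) ∈ E) ∧
      ((z, u) ∈ E → b (γ⁻¹ • z, A γ u) - b (z, u) = θ γ z)) :
    ∃ (F : Set Z) (β : Z → ℝ), MeasurableSet F ∧ (∀ (g : Γ) z, g • z ∈ F ↔ z ∈ F) ∧
      ν.real Fᶜ ≤ 2 * (ν.prod μ).real Eᶜ ∧ Measurable β ∧ (∀ z, 0 ≤ β z) ∧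
      Integrable (fun z => Real.exp (η / 2 * β z)) ν ∧
      ∀ g : Γ, ∀ᵐ z ∂ν, z ∈ F → |θ g z| ≤ β z + β (g⁻¹ • z) := by
  let m : Z → ℝ := fun z => μ.real (Prod.mk z ⁻¹' Eᶜ)
  have mm : Measurable m := (measurable_measure_prodMk_left mE.compl).ennreal_toReal
  let f : Z × σ → ℝ := E.indicator fun y => Real.exp (η * |b y|)
  have mf : Measurable f := (mb.abs.const_mul η).exp.indicator mE
  have fi : Integrable f (ν.prod μ) := (integrable_indicator_iff mE).2 hi
  have f0 : ∀ y, 0 ≤ f y := Set.indicator_nonneg fun _ _ => (Real.exp_pos _).le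
  let Φ : Z → ℝ := fun z => ∫ u, f (z, u) ∂μ
  have mΦ : Measurable Φ := mf.stronglyMeasurable.integral_prod_right'.measurable
  have Φ0 : ∀ z, 0 ≤ Φ z := fun z => integral_nonneg fun u => f0 _
  have im : ∀ γ : Γ, ∀ᵐ z ∂ν, m (γ⁻¹ • z) = m z := fun γ => by
    filter_upwards [h γ] with z hz
    refine ((hA γ).measureReal_preimage (s := Prod.mk (γ⁻¹ • z) ⁻¹' Eᶜ)
      (measurable_prodMk_left mE.compl).nullMeasurableSet).symm.trans ?_
    exact measureReal_congr (hz.mono fun u hu => propext (not_congr hu.1))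
  refine ⟨{z | ∀ g : Γ, m (g⁻¹ • z) < 1 / 2}, fun z => 2 / η * Real.log (1 + Φ z), ?_,
    fun g z => ⟨fun hz g' => ?_, fun hz g' => ?_⟩, ?_, (mΦ.const_add 1).log.const_mul _,
    fun z => mul_nonneg (by positivity) (Real.log_nonneg (by linarith [Φ0 z])), ?_, fun g => ?_⟩
  · exact measurableSet_setOfPred.2 (Measurable.forall fun g => measurableSet_setOfPred.1
      (measurableSet_lt (mm.comp (hν g⁻¹).measurable) measurable_const))
  · simpa [mul_smul] using hz (g * g')
  · simpa [mul_smul] using hz (g⁻¹ * g')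
  · have h1 := mul_meas_ge_le_integral_of_nonneg (μ := ν) (f := m)
      (ae_of_all _ fun z => measureReal_nonneg)
      (Integrable.of_bound mm.aestronglyMeasurable 1 (ae_of_all _ fun z => by
        rw [Real.norm_of_nonneg measureReal_nonneg]; exact measureReal_le_one)) (1 / 2)
    have h2 : ∫ z, m z ∂ν = (ν.prod μ).real Eᶜ := by
      rw [measureReal_def, Measure.prod_apply mE.compl, ← integral_toReal
        (measurable_measure_prodMk_left mE.compl).aemeasurable
        (ae_of_all _ fun z => measure_lt_top _ _)]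
      rfl
    have h3 : ν.real {z | ∀ g : Γ, m (g⁻¹ • z) < 1 / 2}ᶜ ≤ ν.real {z | 1 / 2 ≤ m z} := by
      refine real_mono_ae ?_
      filter_upwards [ae_all_iff.2 im] with z hz hz'
      by_contra hc
      exact hz' fun g => by rw [hz g]; exact not_le.1 hc
    linarith
  · refine ((integrable_const 1).add fi.integral_prod_left).congr (ae_of_all _ fun z => ?_)
    have : η / 2 * (2 / η * Real.log (1 + Φ z)) = Real.log (1 + Φ z) := by field_simp
    simp only [this]
    rw [Real.exp_log (by linarith [Φ0 z])]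
    rfl
  · filter_upwards [h g, fi.prod_right_ae, (hν g⁻¹).quasiMeasurePreserving.ae fi.prod_right_ae]
      with z hz i1 i2 hF
    have h0 : m z < 1 / 2 := by simpa using hF 1
    have i3 : Integrable (fun u => f (g⁻¹ • z, A g u)) μ := (hA g).integrable_comp_of_integrable i2
    have e3 : ∫ u, f (g⁻¹ • z, A g u) ∂μ = Φ (g⁻¹ • z) := by
      have := integral_map (hA g).measurable.aemeasurable (μ := μ)
        (f := fun u => f (g⁻¹ • z, u)) (mf.comp measurable_prodMk_left).aestronglyMeasurable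
      rw [(hA g).map_eq] at this
      exact this.symm
    have mz := measurable_prodMk_left (x := z) mE
    have h1 : ∫ u, (Prod.mk z ⁻¹' E).indicator (fun _ => 2 * Real.exp (η / 2 * |θ g z|)) u ∂μ ≤
        ∫ u, (f (z, u) + f (g⁻¹ • z, A g u)) ∂μ := by
      refine integral_mono_ae ((integrable_const _).indicator mz) (i1.add i3) ?_
      filter_upwards [hz] with u hu
      by_cases he : (z, u) ∈ E
      · simp only [f, Set.indicator_of_mem he, Set.indicator_of_mem (hu.1.2 he),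
          Set.indicator_of_mem (show u ∈ Prod.mk z ⁻¹' E from he), ← hu.2 he]
        generalize b (g⁻¹ • z, A g u) = s
        generalize b (z, u) = t
        have a1 : Real.exp (η / 2 * |s - t|) ≤ Real.exp (η / 2 * |s|) * Real.exp (η / 2 * |t|) := by
          rw [← Real.exp_add, ← mul_add]
          gcongr
          exact abs_sub s t
        have a2 : ∀ r : ℝ, Real.exp (η * r) = Real.exp (η / 2 * r) ^ 2 := fun r => by
          rw [sq, ← Real.exp_add]; congr 1; ring
        rw [a2, a2]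
        nlinarith [sq_nonneg (Real.exp (η / 2 * |s|) - Real.exp (η / 2 * |t|))]
      · rw [Set.indicator_of_notMem (show u ∉ Prod.mk z ⁻¹' E from he)]
        exact add_nonneg (f0 _) (f0 _)
    rw [integral_add i1 i3, e3, integral_indicator_const _ mz, smul_eq_mul] at h1
    have h2 : m z = 1 - μ.real (Prod.mk z ⁻¹' E) := probReal_compl_eq_one_sub mz
    have h3 : Real.exp (η / 2 * |θ g z|) ≤ (1 + Φ z) * (1 + Φ (g⁻¹ • z)) := by
      nlinarith [Real.exp_pos (η / 2 * |θ g z|), mul_nonneg (Φ0 z) (Φ0 (g⁻¹ • z))]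
    have p1 : 0 < 1 + Φ z := by linarith [Φ0 z]
    have p2 : 0 < 1 + Φ (g⁻¹ • z) := by linarith [Φ0 (g⁻¹ • z)]
    rw [← Real.le_log_iff_exp_le (mul_pos p1 p2), Real.log_mul p1.ne' p2.ne'] at h3
    rw [← mul_add, div_mul_eq_mul_div, le_div_iff₀ hη]
    linarith

end Tail

end Vale.Agent.P188
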