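import Vale.Agent.P188.Chain

/-! P188, part 3: abstract statements about random iterations of measure-preserving maps. -/

namespace Vale.Agent.P188

open Function MeasureTheory
open scoped ENNReal NNReal

/-- The random orbit. -/
def orb {Y N : Type} (T : N → Y → Y) (y : Y) (ω : ℕ → N) : ℕ → Y
  | 0 => y
  | n + 1 => T (ω n) (orb T y ω n)

/-- Additive functional along the random orbit. -/
def sumU {Y N E : Type} [AddCommMonoid E] (T : N → Y → Y) (U : Y → N → E) (y : Y) (ω : ℕ → N)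
    (n : ℕ) : E :=
  ∑ i ∈ Finset.range n, U (orb T y ω i) (ω i)

/-- A random measure-preserving system. -/
structure RMP {Y N : Type} [MeasurableSpace Y] [MeasurableSpace N] (μ : Measure Y)
    (T : N → Y → Y) : Prop where
  meas : Measurable fun p : Y × N => T p.2 p.1
  mp : ∀ g, MeasurePreserving (T g) μ μ

/-- The set of points that hit `G` almost surely is invariant. -/
def Hit_stmt : Prop :=
  ∀ (Y N : Type) [MeasurableSpace Y] [MeasurableSpace N] (μ : Measure Y) [IsProbabilityMeasure μ]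
    (P : Measure N) [IsProbabilityMeasure P] (T : N → Y → Y), RMP μ T →
    ∀ G : Set Y, MeasurableSet G → ∃ I : Set Y, MeasurableSet I ∧ G ⊆ I ∧
      (∀ᵐ p ∂(μ.prod P), (T p.2 p.1 ∈ I ↔ p.1 ∈ I)) ∧
      ∀ y ∈ I, ∀ᵐ ω ∂(iid P), ∃ n, orb T y ω n ∈ G

/-- A cocycle bounded above at good times and of sublinear growth is a coboundary. -/
def Cob_stmt : Prop :=
  ∀ (Y N : Type) [MeasurableSpace Y] [MeasurableSpace N] (μ : Measure Y) [IsProbabilityMeasure μ]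
    (P : Measure N) [IsProbabilityMeasure P] (T : N → Y → Y), RMP μ T →
    ∀ (U : Y → N → ℝ) (CU : ℝ), (Measurable fun p : Y × N => U p.1 p.2) → (∀ y g, |U y g| ≤ CU) →
    ∀ G : Set Y, MeasurableSet G →
    (∀ᵐ p ∂(μ.prod (iid P)), ∃ h : ℝ, ∀ n, orb T p.1 p.2 n ∈ G → sumU T U p.1 p.2 n ≤ h) →
    (∀ ε : ℝ, 0 < ε → ∀ᵐ p ∂(μ.prod (iid P)), ∃ Λ : ℕ, ∀ n : ℕ, |sumU T U p.1 p.2 n| ≤ ε * n + Λ) →
    ∃ (I : Set Y) (b : Y → ℝ), MeasurableSet I ∧ G ⊆ I ∧ Measurable b ∧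
      (∀ᵐ p ∂(μ.prod P), (T p.2 p.1 ∈ I ↔ p.1 ∈ I)) ∧
      ∀ᵐ p ∂(μ.prod P), p.1 ∈ I → b (T p.2 p.1) - b p.1 = U p.1 p.2

/-- The deficiency functional over the time interval `[i, j]`. -/
noncomputable def defic {Y N : Type} {k : ℕ} (T : N → Y → Y) (U : Y → N → Rk k) (κ : Wt k)
    (c ε₀ : ℝ) (y : Y) (ω : ℕ → N) (i j : ℕ) : ℝ :=
  c * ‖sumU T U y ω j - sumU T U y ω i‖ - κ (sumU T U y ω j - sumU T U y ω i) -
    ε₀ * ((j : ℝ) - i)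

/-- Almost invariant densities see a small deficiency on blocks. -/
def OpBound {Y N : Type} [MeasurableSpace Y] [MeasurableSpace N] {k : ℕ} (μ : Measure Y)
    (P : Measure N) (T : N → Y → Y) (U : Y → N → Rk k) (κ : Wt k) (c ε₀ : ℝ) : Prop :=
  ∀ ε : ℝ, 0 < ε → ∃ (R : ℕ) (δ : ℝ), 0 < R ∧ 0 < δ ∧ ∀ f g : Y → ℝ≥0∞,
    Measurable f → Measurable g → ∫⁻ y, f y ^ 2 ∂μ ≤ 1 → ∫⁻ y, g y ^ 2 ∂μ ≤ 1 →
    ENNReal.ofReal (1 - δ) ≤ ∫⁻ p, g p.1 * f (orb T p.1 p.2 R) ∂(μ.prod (iid P)) →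
    ∫⁻ p, g p.1 ^ 2 * ENNReal.ofReal (defic T U κ c ε₀ p.1 p.2 0 R) ∂(μ.prod (iid P)) ≤
      ENNReal.ofReal (ε * R)

/-- Large deviations for the deficiency. -/
def LDev {Y N : Type} [MeasurableSpace Y] [MeasurableSpace N] {k : ℕ} (μ : Measure Y)
    (P : Measure N) (T : N → Y → Y) (U : Y → N → Rk k) (κ : Wt k) (c ε₀ : ℝ) : Prop :=
  ∀ ε : ℝ, 0 < ε → ∃ C η : ℝ, 0 < η ∧ ∀ l : ℕ,
    (μ.prod (iid P)).real {p | ∃ i j, i ≤ j ∧ j ≤ l ∧ ε * l < defic T U κ c ε₀ p.1 p.2 i j} ≤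
      C * Real.exp (-η * l)

/-- The Feynman-Kac bound. -/
def FK_stmt : Prop :=
  ∀ (Y N : Type) [MeasurableSpace Y] [MeasurableSpace N] (μ : Measure Y) [IsProbabilityMeasure μ]
    (P : Measure N) [IsProbabilityMeasure P] (T : N → Y → Y), RMP μ T →
    ∀ (k : ℕ) (U : Y → N → Rk k) (CU : ℝ), (Measurable fun p : Y × N => U p.1 p.2) →
    (∀ y g, ‖U y g‖ ≤ CU) → ∀ (κ : Wt k) (c ε₀ : ℝ), 0 ≤ c → 0 ≤ ε₀ →
    OpBound μ P T U κ c ε₀ → LDev μ P T U κ c ε₀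

/-- The scale argument on the two-sided stationary path. -/
def Scale_stmt : Prop :=
  ∀ (Y N : Type) [MeasurableSpace Y] [MeasurableSpace N] (μ : Measure Y) [IsProbabilityMeasure μ]
    (P : Measure N) [IsProbabilityMeasure P] (T T' : N → Y → Y), RMP μ T → RMP μ T' →
    (∀ g y, T' g (T g y) = y) → (∀ g y, T g (T' g y) = y) →
    ∀ (k : ℕ) (U : Y → N → Rk k) (CU : ℝ), (Measurable fun p : Y × N => U p.1 p.2) →
    (∀ y g, ‖U y g‖ ≤ CU) → ∀ (κ : Wt k) (c ε₀ κ₀ : ℝ), 0 < c → 0 ≤ ε₀ →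
    14 * (ε₀ + 3) ≤ c * κ₀ - ε₀ → LDev μ P T U κ c ε₀ →
    ∀ (E : Set Y) (b : Y → ℝ), MeasurableSet E → Measurable b →
    (∀ᵐ p ∂(μ.prod P), (T p.2 p.1 ∈ E ↔ p.1 ∈ E)) →
    (∀ᵐ p ∂(μ.prod P), p.1 ∈ E → b (T p.2 p.1) - b p.1 = κ (U p.1 p.2)) →
    (∀ᵐ p ∂(μ.prod (iid P)), ∃ Λ : ℕ, ∀ n : ℕ, |κ (sumU T U p.1 p.2 n)| ≤ n + Λ) →
    (∀ᵐ p ∂(μ.prod (iid P)), ∃ Λ : ℕ, ∀ n : ℕ,
      |κ (sumU T' (fun y g => -U (T' g y) g) p.1 p.2 n)| ≤ n + Λ) →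
    ∀ C : ℝ, 0 < C →
    (∀ Λ h : ℝ, 0 ≤ Λ → (μ.prod (iid P)).real {p | p.1 ∈ E ∧ b p.1 ≤ -h ∧
      ∀ n : ℕ, ‖sumU T U p.1 p.2 n‖ ≤ κ₀ * n + Λ} ≤ C * Real.exp (C * Λ - h)) →
    (∀ Λ h : ℝ, 0 ≤ Λ → (μ.prod (iid P)).real {p | p.1 ∈ E ∧ h ≤ b p.1 ∧
      ∀ n : ℕ, ‖sumU T' (fun y g => -U (T' g y) g) p.1 p.2 n‖ ≤ κ₀ * n + Λ} ≤
        C * Real.exp (C * Λ - h)) →
    ∃ η : ℝ, 0 < η ∧ IntegrableOn (fun y => Real.exp (η * |b y|)) E μ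

/-- The move induced on `Z × σ` by a step of the chain. -/
def skew {Γ σ N Z : Type} [Group Γ] [MulAction Γ Z] (step : σ → N → Γ × σ) (g : N)
    (y : Z × σ) : Z × σ :=
  ((step y.2 g).1⁻¹ • y.1, (step y.2 g).2)

/-- The height defect of one step. -/
def defect {Γ σ N Z : Type} [Group Γ] {k : ℕ} (π : Γ →* Zk k) (q : Z → Γ → Γ)
    (step : σ → N → Γ × σ) (y : Z × σ) (g : N) : Rk k :=
  ht π (q y.1 (step y.2 g).1) - ht π (step y.2 g).1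

/-- Almost invariance under the chain gives almost invariance under the group. -/
def Inv_stmt : Prop :=
  ∀ (k : ℕ) (Γ : Type) [Group Γ] [Countable Γ] [MeasurableSpace Γ] [DiscreteMeasurableSpace Γ]
    (π : Γ →* Zk k) (S : Finset Γ), Subgroup.closure (S : Set Γ) = ⊤ →
    Subgroup.closure ((S : Set Γ) ∩ π.ker) = π.ker → ∀ P : Pair Γ k, PairProp S π P →
    (Measurable fun p : P.σ × P.N => P.step p.1 p.2) →
    (∀ g, MeasurePreserving (fun u => (P.step u g).2) P.μσ P.μσ) →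
    ∀ γ : Γ, ∃ C : ℝ≥0, ∀ (Z : Type) [MulAction Γ Z] [MeasurableSpace Z] (ν : Measure Z)
    [SFinite ν], (∀ g : Γ, MeasurePreserving (g • ·) ν ν) →
    ∀ G F : Z × P.σ → ℝ, Measurable G → Measurable F →
    ∫⁻ y, ‖G (γ⁻¹ • y.1, P.act (π γ) y.2) - G y‖ₑ ^ 2 ∂(ν.prod P.μσ) ≤
      C * ∫⁻ p, ‖G p.1 - F (skew P.step p.2 p.1)‖ₑ ^ 2 ∂((ν.prod P.μσ).prod P.μN)

/-- Uniform smallness of the deficiency, and the operator bound. -/
def Op_stmt : Prop :=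
  ∀ (k : ℕ) (Γ : Type) [Group Γ] [Countable Γ] [MeasurableSpace Γ] [DiscreteMeasurableSpace Γ]
    (π : Γ →* Zk k) (S : Finset Γ), Subgroup.closure (S : Set Γ) = ⊤ →
    Subgroup.closure ((S : Set Γ) ∩ π.ker) = π.ker → ∀ P : Pair Γ k, PairProp S π P →
    (Measurable fun p : P.σ × P.N => P.step p.1 p.2) →
    (∀ g, MeasurePreserving (fun u => (P.step u g).2) P.μσ P.μσ) →
    (∃ F : Finset Γ, ∀ u g, (P.step u g).1 ∈ F) →
    ∀ (a : Rk k) (Cs : ℝ), (∀ u g, ‖ht π (P.step u g).1 - a‖ ≤ Cs) →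
    ∀ (K : ℕ) (Z : Type) [TopologicalSpace Z] [CompactSpace Z]
    [TopologicalSpace.MetrizableSpace Z] [MeasurableSpace Z] [BorelSpace Z] [MulAction Γ Z]
    [ContinuousConstSMul Γ Z] (Q : QS S K Z), (∀ p y, IsClopen {z | Q.q z p = y}) →
    ∀ (K' : ℝ) (κ : Wt k) (c : ℝ), 0 ≤ c → (∀ μ : Measure Z, IsProbabilityMeasure μ →
      (∀ g : Γ, MeasurePreserving (g • ·) μ μ) → ∃ D, Drift π Q.q K' μ D ∧
        ∀ᵐ z ∂μ, c * ‖(D z).mulVec a - a‖ ≤ κ ((D z).mulVec a - a)) →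
    ∀ ν : Measure Z, IsProbabilityMeasure ν → (∀ g : Γ, MeasurePreserving (g • ·) ν ν) →
    OpBound (ν.prod P.μσ) P.μN (skew P.step) (defect π Q.q P.step) κ c
      ((c + ‖κ‖) * (|K'| + 1) * Cs)

end Vale.Agent.P188
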