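import Vale.Agent.P188.TowerKro

/-! Virtually polycyclic groups are virtually towers with definite weights. -/

namespace Vale.Agent.P188

open Function

variable {k : ℕ}

lemma Tower.congr {Γ Γ0 : Type} [Group Γ] [Group Γ0] {π : Γ →* Zk k} {w : List (Wt k)}
    (T : Tower Γ π w) (e : Γ0 →* Γ) (he : Bijective e) : Tower Γ0 (π.comp e) w := by
  cases T with
  | base π h => exact Tower.base _ (h.comp he)
  | ext T L E =>
    let e' := MulEquiv.ofBijective e he
    have h1 : ∀ x, e (e'.symm x) = x := fun x => e'.apply_symm_apply x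
    refine Tower.ext T L ⟨E.p.comp e, E.p_surj.comp he.2, e'.symm.toMonoidHom.comp E.ι,
      e'.symm.injective.comp E.ι_inj, ?_, ?_⟩
    · ext x
      constructor
      · rintro ⟨v, rfl⟩
        have : E.ι v ∈ E.p.ker := E.range_eq ▸ ⟨v, rfl⟩
        change E.p (e (e'.symm (E.ι v))) = 1
        rw [h1]; exact this
      · intro hx
        have : e x ∈ E.ι.range := E.range_eq ▸ hx
        obtain ⟨v, hv⟩ := this
        refine ⟨v, he.1 ?_⟩
        change e (e'.symm (E.ι v)) = _
        rw [h1, hv]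
    · intro g v
      apply he.1
      change e (g * e'.symm (E.ι v) * g⁻¹) = e (e'.symm _)
      rw [map_mul, map_mul, map_inv, h1, h1, E.conj]
      rfl

/-- One more layer. -/
lemma Tower.extend {Γ Γ' : Type} [Group Γ] [Group Γ'] {π' : Γ' →* Zk k} {w : List (Wt k)}
    (T : Tower Γ' π' w) (hπ : Surjective π') (p : Γ →* Γ') (hp : Surjective p) (hfg : p.ker.FG)
    (hle : ∀ u ∈ p.ker, ∀ n, π' (p n) = 1 → n * u * n⁻¹ = u) (htf : TF p.ker) :
    ∃ w', Tower Γ (π'.comp p) w' := by
  obtain ⟨m, ι, hι, hr⟩ := exists_lattice hfg (fun a ha b hb => by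
    have := hle b hb a (by rw [MonoidHom.mem_ker.1 ha, map_one])
    exact mul_inv_eq_iff_eq_mul.1 this) htf
  have : ι.range.Normal := hr ▸ inferInstance
  obtain ⟨R, hR⟩ := exists_matrices hι
  have hker : ∀ n, π' (p n) = 1 → R n = 1 := by
    intro n hn
    apply Matrix.toLin'.injective
    refine LinearMap.ext fun v => ?_
    rw [Matrix.toLin'_apply, Matrix.toLin'_apply, Matrix.one_mulVec]
    have h1 := hR n (Multiplicative.ofAdd v)
    rw [hle _ (hr ▸ ⟨_, rfl⟩) n hn] at h1
    exact (Multiplicative.ofAdd.injective (hι h1)).symm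
  have heq : ∀ g g', π' (p g) = π' (p g') → R g = R g' := by
    intro g g' h
    have h1 := hker (g⁻¹ * g') (by rw [map_mul, map_mul, map_inv, map_inv, h, inv_mul_cancel])
    rw [← mul_inv_cancel_left g g', map_mul, h1, mul_one]
  have hs : Surjective fun g => π' (p g) := hπ.comp hp
  let s := surjInv hs
  have hs' : ∀ a, π' (p (s a)) = a := surjInv_eq hs
  let ρ : Zk k →* Matrix (Fin m) (Fin m) ℤ :=
    { toFun := fun a => R (s a)
      map_one' := hker _ (hs' 1)
      map_mul' := fun a b => by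
        rw [← map_mul]
        exact heq _ _ (by rw [map_mul, map_mul, hs', hs', hs']) }
  obtain ⟨L, hL⟩ := exists_layer ρ (P := fun L => Tower Γ (π'.comp p) (List.ofFn L.wt ++ w))
    fun Q Qi h1 wt h2 h3 h4 h5 => Tower.ext T ⟨m, ρ, Q, Qi, h1, wt, h2, h3, h4, h5⟩
      ⟨p, hp, ι, hι, hr, fun g v => by
        rw [hR, heq g (s (π' (p g))) (hs' _).symm]; rfl⟩
  exact ⟨_, hL⟩

lemma tower_of_cs_aux {Γ : Type} [Group Γ] (hG : PCS (⊤ : Subgroup Γ)) (π : Γ →* Zk k)
    (hπ : Surjective π) {U : Subgroup Γ} (h : CS ⊤ π.ker U) : U ≤ π.ker →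
    ∀ (Γ' : Type) [Group Γ'] (p : Γ →* Γ') (π' : Γ' →* Zk k), Surjective p → p.ker = U →
      π'.comp p = π → (∃ w, Tower Γ' π' w) → ∃ w, Tower Γ π w := by
  induction h with
  | bot =>
    rintro - Γ' _ p π' hp hk he ⟨w, T⟩
    exact ⟨w, he ▸ T.congr p ⟨(MonoidHom.ker_eq_bot_iff p).1 hk, hp⟩⟩
  | @step U U' hU hle h1 h2 h3 ih =>
    rintro hU' Γ' _ p π' hp hk he ⟨w, T⟩
    have := hU.normal
    let q : Γ ⧸ U →* Γ' := QuotientGroup.lift U p (by rw [hk]; exact hle)
    have hq : ∀ x : Γ, q (QuotientGroup.mk x) = p x := fun x => rfl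
    have hπ' : ∀ x, π' (p x) = π x := fun x => DFunLike.congr_fun he x
    refine ih (hle.trans hU') (Γ ⧸ U) (QuotientGroup.mk' U) (π'.comp q)
      (QuotientGroup.mk'_surjective U) (QuotientGroup.ker_mk' U) (MonoidHom.ext hπ') ?_
    refine T.extend (fun a => ?_) q (fun a => ?_) ?_ ?_ ?_
    · obtain ⟨x, rfl⟩ := hπ a
      exact ⟨p x, hπ' x⟩
    · obtain ⟨x, rfl⟩ := hp a
      exact ⟨QuotientGroup.mk x, hq x⟩
    · exact ((hG.top_of_surjective _ (QuotientGroup.mk'_surjective U)).of_le le_top).fg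
    · intro u hu n hn
      obtain ⟨u, rfl⟩ := QuotientGroup.mk_surjective u
      obtain ⟨n, rfl⟩ := QuotientGroup.mk_surjective n
      have hu' : u ∈ U' := hk ▸ (hu : p u = 1)
      have hn' : n ∈ π.ker := by rw [MonoidHom.mem_ker, ← hπ']; exact hn
      have h4 := (QuotientGroup.eq_one_iff _).2 (h2 n hn' u hu')
      rw [QuotientGroup.mk_mul, QuotientGroup.mk_mul, QuotientGroup.mk_mul, QuotientGroup.mk_inv,
        QuotientGroup.mk_inv] at h4
      exact mul_inv_eq_one.1 h4
    · intro u hu m hm hum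
      obtain ⟨u, rfl⟩ := QuotientGroup.mk_surjective u
      have hu' : u ∈ U' := hk ▸ (hu : p u = 1)
      rw [← QuotientGroup.mk_pow, QuotientGroup.eq_one_iff] at hum
      exact (QuotientGroup.eq_one_iff _).2 (h3 u hu' m hm hum)

lemma tower_of_cs {Γ : Type} [Group Γ] (hG : PCS (⊤ : Subgroup Γ)) (π : Γ →* Zk k)
    (hπ : Surjective π) (h : CS ⊤ π.ker π.ker) : ∃ w, Tower Γ π w :=
  tower_of_cs_aux hG π hπ h le_rfl (Zk k) π (MonoidHom.id _) hπ rfl rfl
    ⟨[], Tower.base _ bijective_id⟩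

/-- From a central series over an abelian quotient to a tower of finite index. -/
lemma exists_tower_of_cs {Γ A : Type} [Group Γ] [CommGroup A] (hG : PCS (⊤ : Subgroup Γ))
    (π : Γ →* A) (h : CS ⊤ π.ker π.ker) : ∃ L : Subgroup Γ, L.FiniteIndex ∧
      ∃ (k : ℕ) (π' : L →* Zk k) (w : List (Wt k)) (σ : Zk k →* A), Injective σ ∧
        Tower L π' w := by
  have hR : PCS π.range := by rw [MonoidHom.range_eq_map]; exact hG.map π
  obtain ⟨T, hT, hcov, htf⟩ := hR.vtf
  obtain ⟨k, σ, hσ, hr⟩ := exists_lattice (hR.of_le hT).fg (fun a _ b _ => mul_comm a b) htf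
  have h1 : ∀ x : T.comap π, ∃ a, σ a = π x := fun x => (hr ▸ x.2 : π x ∈ σ.range)
  choose f hf using h1
  let π' : T.comap π →* Zk k := MonoidHom.mk' f fun x y => hσ (by simp [hf])
  have hπ' : ∀ x, σ (π' x) = π x := hf
  have hk : π'.ker = π.ker.comap (T.comap π).subtype := by
    ext x
    change π' x = 1 ↔ π x = 1
    rw [← hπ', map_eq_one_iff σ hσ]
  have hs : Surjective π' := by
    intro a
    have h2 : σ a ∈ T := hr ▸ ⟨a, rfl⟩
    obtain ⟨x, hx⟩ := hT h2
    exact ⟨⟨x, by rw [Subgroup.mem_comap, hx]; exact h2⟩, hσ (by rw [hπ']; exact hx)⟩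
  obtain ⟨w, hw⟩ := tower_of_cs (hG.top_of_injective _ (T.comap π).subtype_injective) π' hs (by
    rw [hk]
    exact CS.pull_inj (S' := ⊤) _ (T.comap π).subtype_injective (fun _ _ => trivial)
      (fun _ hn => hn) h)
  refine ⟨T.comap π, ⟨?_⟩, k, π', w, σ, hσ, hw⟩
  rw [Subgroup.index_comap]
  exact (finCov_iff.1 hcov).1

lemma Fl.pull {G G' V : Type} [Group G] [Group G'] [AddCommGroup V] [Module ℂ V]
    {r : G →* Module.End ℂ V} {S N : Subgroup G} {W : Submodule ℂ V} (h : Fl r S N W)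
    (f : G' →* G) : Fl (r.comp f) (S.comap f) (N.comap f) W := by
  induction h with
  | bot => exact Fl.bot
  | step _ hle h1 h2 ih =>
    exact Fl.step ih hle (fun s hs => h1 (f s) hs) fun n hn => h2 (f n) hn

lemma fl_of_nilpotent {A V : Type} [CommGroup A] [AddCommGroup V] [Module ℂ V]
    (r : A →* Module.End ℂ V) (c : A) (h : IsNilpotent (r c - 1)) :
    Fl r ⊤ (Subgroup.zpowers c) ⊤ := by
  obtain ⟨N, hN⟩ := h
  have hinv : ∀ (j : ℕ) (s : A), ∀ v ∈ LinearMap.ker ((r c - 1) ^ j),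
      r s v ∈ LinearMap.ker ((r c - 1) ^ j) := by
    intro j s v hv
    have hc : Commute ((r c - 1) ^ j) (r s) :=
      (((Commute.all c s).map r).sub_left (Commute.one_left _)).pow_left j
    rw [LinearMap.mem_ker, ← Module.End.mul_apply, hc.eq, Module.End.mul_apply,
      LinearMap.mem_ker.1 hv, map_zero]
  have key : ∀ j : ℕ, Fl r ⊤ (Subgroup.zpowers c) (LinearMap.ker ((r c - 1) ^ j)) := by
    intro j
    induction j with
    | zero =>
      rw [pow_zero, Module.End.one_eq_id, LinearMap.ker_id]; exact Fl.bot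
    | succ j ih =>
      refine Fl.step ih (fun v hv => ?_) (fun s _ => hinv _ s) ?_
      · rw [LinearMap.mem_ker, pow_succ', Module.End.mul_apply, LinearMap.mem_ker.1 hv, map_zero]
      · let Z : Subgroup A :=
          { carrier := {b | ∀ v ∈ LinearMap.ker ((r c - 1) ^ (j + 1)),
              r b v - v ∈ LinearMap.ker ((r c - 1) ^ j)}
            one_mem' := fun v _ => by simp
            mul_mem' := fun {a b} ha hb v hv => by
              have := Submodule.add_mem _ (ha _ (hinv _ b v hv)) (hb v hv)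
              rwa [sub_add_sub_cancel, ← rep_mul_apply] at this
            inv_mem' := fun {a} ha v hv => by
              have := Submodule.neg_mem _ (ha _ (hinv _ a⁻¹ v hv))
              rwa [← rep_mul_apply, mul_inv_cancel, map_one, Module.End.one_apply,
                neg_sub] at this }
        have hc : c ∈ Z := fun v hv => by
          rw [LinearMap.mem_ker, pow_succ, Module.End.mul_apply] at hv
          exact hv
        exact fun n hn => (Subgroup.zpowers_le.2 hc) hn
  have := key N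
  rwa [hN, LinearMap.ker_zero] at this

/-- An element with vanishing weights can be moved into the nilpotent part. -/
lemma Tower.reduce {Γ : Type} [Group Γ] {π : Γ →* Zk k} {w : List (Wt k)} (T : Tower Γ π w)
    {a : Zk k} : (∀ χ ∈ w, χ (toR a) = 0) → ∃ n : ℕ, n ≠ 0 ∧
      CS ⊤ ((Subgroup.zpowers (a ^ n)).comap π) ((Subgroup.zpowers (a ^ n)).comap π) := by
  induction T with
  | base π h =>
    intro _
    refine ⟨1, one_ne_zero, CS.pull_inj (S' := ⊤) (N' := ⊤) π h.1 (fun _ _ => trivial)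
      (fun _ _ => trivial) (CS.step CS.bot bot_le ?_ ?_ ?_)⟩
    · intro s _ u hu
      rwa [mul_inv_cancel_comm]
    · intro s _ u _
      rw [mul_inv_cancel_comm, mul_inv_cancel]; exact one_mem _
    · intro u _ m hm hu
      rw [Subgroup.mem_bot] at hu ⊢
      exact (pow_eq_one_iff_left hm).1 hu
  | @ext Γ Γ' _ _ π' w _ L E ih =>
    intro h
    obtain ⟨n1, hn1, h1⟩ := ih fun χ hχ => h χ (List.mem_append_right _ hχ)
    obtain ⟨n0, hn0, h0⟩ := L.unipotent (a := a)
      fun i => h _ (List.mem_append_left _ (List.mem_ofFn.2 ⟨i, rfl⟩))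
    have h2 := cs_of_fl_top E.ι_inj (R := L.ρ.comp (π'.comp E.p)) E.conj
      ((fl_of_nilpotent _ _ h0).pull (π'.comp E.p))
    have hl0 : Subgroup.zpowers (a ^ (n0 * n1)) ≤ Subgroup.zpowers (a ^ n0) :=
      Subgroup.zpowers_le.2 (by rw [pow_mul]; exact Subgroup.npow_mem_zpowers _ _)
    have hl1 : Subgroup.zpowers (a ^ (n0 * n1)) ≤ Subgroup.zpowers (a ^ n1) :=
      Subgroup.zpowers_le.2 (by rw [mul_comm, pow_mul]; exact Subgroup.npow_mem_zpowers _ _)
    refine ⟨n0 * n1, mul_ne_zero hn0 hn1, ?_⟩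
    rw [E.range_eq] at h2
    have h3 := (CS.pull (S := ⊤) (S' := ⊤)
      (N := (Subgroup.zpowers (a ^ (n0 * n1))).comap (π'.comp E.p))
      E.p (h2.mono (fun _ _ => trivial) (Subgroup.comap_mono hl0)) (fun _ _ => trivial)
      (fun n hn => hl1 hn) h1).inf ((Subgroup.zpowers (a ^ (n0 * n1))).comap (π'.comp E.p))
    rwa [inf_eq_right.2 fun n hn => hl1 hn] at h3

lemma rank_lt {k k' : ℕ} {c : Fin k → ℤ} (hc : c ≠ 0)
    (σ : Zk k' →* Multiplicative ((Fin k → ℤ) ⧸ (ℤ ∙ c))) (hσ : Injective σ) : k' < k := by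
  let f : (Fin k' → ℤ) →+ ((Fin k → ℤ) ⧸ (ℤ ∙ c)) :=
    AddMonoidHom.mk' (fun v => Multiplicative.toAdd (σ (Multiplicative.ofAdd v)))
      fun x y => by rw [ofAdd_add, map_mul, toAdd_mul]
  have hf : Injective f.toIntLinearMap := fun x y h =>
    Multiplicative.ofAdd.injective (hσ (Multiplicative.toAdd.injective h))
  have h1 := LinearMap.finrank_le_finrank_of_injective hf
  have h2 := Submodule.finrank_quotient_add_finrank (ℤ ∙ c)
  have h3 : Module.finrank ℤ (ℤ ∙ c) ≠ 0 := by
    rw [Ne, Submodule.finrank_eq_zero, Submodule.span_singleton_eq_bot]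
    exact hc
  simp only [Module.finrank_fintype_fun_eq_card, Fintype.card_fin] at h1 h2
  omega

/-- Virtually a tower with definite weights. -/
def VTow (G : Type) [Group G] : Prop :=
  ∃ L : Subgroup G, L.FiniteIndex ∧
    ∃ (k : ℕ) (π : L →* Zk k) (w : List (Wt k)), Tower L π w ∧ Definite w

lemma VTow.of_sub {G : Type} [Group G] {T : Subgroup G} (hT : T.FiniteIndex) (h : VTow T) :
    VTow G := by
  obtain ⟨L, hL, k, π, w, h1, h2⟩ := h
  let e := (L.equivMapOfInjective T.subtype T.subtype_injective).symm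
  refine ⟨L.map T.subtype, ⟨?_⟩, k, π.comp e.toMonoidHom, w, h1.congr _ e.bijective, h2⟩
  rw [Subgroup.index_map_subtype]
  exact mul_ne_zero hL.1 hT.1

lemma vTow_of_tower : ∀ (k : ℕ) (Γ : Type) [Group Γ], PCS (⊤ : Subgroup Γ) →
    ∀ (π : Γ →* Zk k) (w : List (Wt k)), Tower Γ π w → VTow Γ := by
  intro k
  induction k using Nat.strong_induction_on with
  | _ k ih =>
    intro Γ _ hG π w T
    by_cases hd : Definite w
    · exact ⟨⊤, inferInstance, k, π.comp (⊤ : Subgroup Γ).subtype, w,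
        T.congr _ ⟨Subtype.val_injective, fun x => ⟨⟨x, trivial⟩, rfl⟩⟩, hd⟩
    · obtain ⟨a, ha, hz⟩ := T.exists_null hd
      obtain ⟨n, hn, hcs⟩ := T.reduce hz
      let c : Fin k → ℤ := Multiplicative.toAdd (a ^ n)
      have hc : c ≠ 0 := fun h => ha ((pow_eq_one_iff_left hn).1 (toAdd_eq_zero.1 h))
      let τ : Zk k →* Multiplicative ((Fin k → ℤ) ⧸ (ℤ ∙ c)) :=
        MonoidHom.mk' (fun v => Multiplicative.ofAdd ((ℤ ∙ c).mkQ (Multiplicative.toAdd v)))
          fun x y => by rw [toAdd_mul, map_add, ofAdd_add]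
      have hτ : τ.ker = Subgroup.zpowers (a ^ n) := by
        ext x
        change Multiplicative.ofAdd ((ℤ ∙ c).mkQ (Multiplicative.toAdd x)) = 1 ↔ _
        rw [ofAdd_eq_one, Submodule.mkQ_apply, Submodule.Quotient.mk_eq_zero,
          Submodule.mem_span_singleton, Subgroup.mem_zpowers_iff]
        refine exists_congr fun j => ?_
        rw [← toAdd_zpow, Multiplicative.toAdd.injective.eq_iff]
      obtain ⟨L, hL, k', π', w', σ, hσ, T'⟩ := exists_tower_of_cs hG (τ.comp π) (by
        rw [← MonoidHom.comap_ker, hτ]; exact hcs)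
      exact VTow.of_sub hL (ih k' (rank_lt hc σ hσ) L
        (hG.top_of_injective _ L.subtype_injective) π' w' T')

theorem tower_alt_pf : Tower_stmt := by
  rintro G _ ⟨L, hL, hP⟩
  refine VTow.of_sub hL ?_
  have hG := pcs_of_isPolycyclic hP
  obtain ⟨L1, hL1, hcs⟩ := exists_cs_commutator hG
  refine VTow.of_sub hL1 ?_
  have hG1 := hG.top_of_injective _ L1.subtype_injective
  obtain ⟨L2, hL2, k, π, w, -, -, T⟩ := exists_tower_of_cs hG1 Abelianization.of (by
    rw [Abelianization.ker_of]; exact hcs)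
  exact VTow.of_sub hL2
    (vTow_of_tower k L2 (hG1.top_of_injective _ L2.subtype_injective) π w T)

end Vale.Agent.P188
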