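import Vale.Agent.P188.TowerMal

/-! Central series with torsion-free factors; polycyclic groups are virtually
(torsion-free nilpotent)-by-abelian. -/

namespace Vale.Agent.P188

open Function

/-- Series of `S`-invariant subgroups with torsion-free factors centralised by `N`. -/
inductive CS {Γ : Type} [Group Γ] (S N : Subgroup Γ) : Subgroup Γ → Prop
  | bot : CS S N ⊥
  | step {U U' : Subgroup Γ} : CS S N U → U ≤ U' → (∀ s ∈ S, ∀ u ∈ U', s * u * s⁻¹ ∈ U') →
      (∀ n ∈ N, ∀ u ∈ U', n * u * n⁻¹ * u⁻¹ ∈ U) →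
      (∀ u ∈ U', ∀ m : ℕ, m ≠ 0 → u ^ m ∈ U → u ∈ U) → CS S N U'

variable {Γ Γ' : Type} [Group Γ] [Group Γ']

lemma CS.pull {S N : Subgroup Γ} {S' N' U : Subgroup Γ'} (f : Γ →* Γ') (h0 : CS S N f.ker)
    (hS : ∀ s ∈ S, f s ∈ S') (hN : ∀ n ∈ N, f n ∈ N') (h : CS S' N' U) :
    CS S N (U.comap f) := by
  induction h with
  | bot => rw [MonoidHom.comap_bot]; exact h0
  | step _ hle h1 h2 h3 ih =>
    refine CS.step ih (Subgroup.comap_mono hle) ?_ ?_ ?_
    · intro s hs u hu
      simpa using h1 _ (hS s hs) _ hu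
    · intro n hn u hu
      simpa using h2 _ (hN n hn) _ hu
    · intro u hu m hm hum
      exact h3 _ hu m hm (by simpa using hum)

lemma CS.pull_inj {S N : Subgroup Γ} {S' N' U : Subgroup Γ'} (f : Γ →* Γ') (hf : Injective f)
    (hS : ∀ s ∈ S, f s ∈ S') (hN : ∀ n ∈ N, f n ∈ N') (h : CS S' N' U) :
    CS S N (U.comap f) :=
  CS.pull f (by rw [(MonoidHom.ker_eq_bot_iff f).2 hf]; exact CS.bot) hS hN h

lemma CS.mono {S N S' N' U : Subgroup Γ} (h : CS S' N' U) (hS : S ≤ S') (hN : N ≤ N') :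
    CS S N U := by
  simpa using CS.pull_inj (MonoidHom.id Γ) injective_id hS hN h

lemma CS.push {S N U : Subgroup Γ} (h : CS S N U) (f : Γ →* Γ') (hf : Injective f) :
    CS (S.map f) (N.map f) (U.map f) := by
  induction h with
  | bot => rw [Subgroup.map_bot]; exact CS.bot
  | step _ hle h1 h2 h3 ih =>
    refine CS.step ih (Subgroup.map_mono hle) ?_ ?_ ?_
    · rintro _ ⟨s, hs, rfl⟩ _ ⟨u, hu, rfl⟩
      exact ⟨_, h1 s hs u hu, by simp⟩
    · rintro _ ⟨s, hs, rfl⟩ _ ⟨u, hu, rfl⟩
      exact ⟨_, h2 s hs u hu, by simp⟩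
    · rintro _ ⟨u, hu, rfl⟩ m hm ⟨v, hv, hv'⟩
      rw [← map_pow] at hv'
      exact ⟨u, h3 u hu m hm (hf hv' ▸ hv), rfl⟩

lemma CS.inf {S N U : Subgroup Γ} (h : CS S N U) (M : Subgroup Γ) [hM : M.Normal] :
    CS S N (U ⊓ M) := by
  induction h with
  | bot => rw [bot_inf_eq]; exact CS.bot
  | step _ hle h1 h2 h3 ih =>
    refine CS.step ih (inf_le_inf_right _ hle) ?_ ?_ ?_
    · exact fun s hs u hu => ⟨h1 s hs u hu.1, hM.conj_mem u hu.2 s⟩
    · exact fun n hn u hu =>
        ⟨h2 n hn u hu.1, M.mul_mem (hM.conj_mem u hu.2 n) (M.inv_mem hu.2)⟩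
    · exact fun u hu m hm hum => ⟨h3 u hu.1 m hm hum.1, hu.2⟩

lemma CS.normal {N U : Subgroup Γ} (h : CS ⊤ N U) : U.Normal := by
  cases h with
  | bot => infer_instance
  | step _ _ h1 _ _ => exact ⟨fun u hu s => h1 s trivial u hu⟩

/-- A finitely generated torsion-free abelian subgroup is a lattice. -/
lemma exists_lattice {V : Subgroup Γ} (hfg : V.FG) (hc : ∀ a ∈ V, ∀ b ∈ V, a * b = b * a)
    (htf : TF V) : ∃ (m : ℕ) (ι : Zk m →* Γ), Injective ι ∧ ι.range = V := by
  let _ : CommGroup V :=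
    { (inferInstance : Group V) with mul_comm := fun a b => Subtype.ext (hc a a.2 b b.2) }
  have := (Group.fg_iff_subgroup_fg V).2 hfg
  have : Module.Finite ℤ (Additive V) := Module.Finite.iff_addGroup_fg.2 inferInstance
  have : IsMulTorsionFree V := by
    refine ⟨fun n hn a b hab => ?_⟩
    have h1 : (a * b⁻¹) ^ n = 1 := by
      have hab' : a ^ n = b ^ n := hab
      rw [mul_pow, inv_pow, hab', mul_inv_cancel]
    have h2 := htf (a * b⁻¹ : V) (a * b⁻¹).2 n hn (congrArg Subtype.val h1)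
    exact mul_inv_eq_one.1 (Subtype.ext h2)
  let b := Module.finBasis ℤ (Additive V)
  let e := b.equivFun.symm
  let ι : Zk (Module.finrank ℤ (Additive V)) →* Γ :=
    { toFun := fun v => (Additive.toMul (e (Multiplicative.toAdd v)) : V)
      map_one' := by simp
      map_mul' := fun x y => by simp }
  refine ⟨_, ι, ?_, ?_⟩
  · intro x y hxy
    exact Multiplicative.toAdd.injective
      (e.injective (Additive.toMul.injective (Subtype.ext hxy)))
  · apply le_antisymm
    · rintro _ ⟨v, rfl⟩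
      exact (Additive.toMul (e (Multiplicative.toAdd v))).2
    · intro x hx
      refine ⟨Multiplicative.ofAdd (e.symm (Additive.ofMul ⟨x, hx⟩)), ?_⟩
      simp [ι]

/-- The conjugation action on a normal lattice, in matrices. -/
lemma exists_matrices {m : ℕ} {ι : Zk m →* Γ} (hι : Injective ι) [hN : ι.range.Normal] :
    ∃ R : Γ →* Matrix (Fin m) (Fin m) ℤ, ∀ g v, g * ι v * g⁻¹ =
      ι (Multiplicative.ofAdd ((R g).mulVec (Multiplicative.toAdd v))) := by
  have h : ∀ g v, ∃ v', ι v' = g * ι v * g⁻¹ := fun g v => hN.conj_mem _ ⟨v, rfl⟩ g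
  choose c hc using h
  let A : Γ → (Fin m → ℤ) →+ (Fin m → ℤ) := fun g =>
    AddMonoidHom.mk' (fun v => Multiplicative.toAdd (c g (Multiplicative.ofAdd v))) fun x y => by
      rw [← toAdd_mul]
      congr 1
      apply hι
      rw [map_mul, hc, hc, hc, ofAdd_add, map_mul]
      group
  have hA : ∀ g v, (LinearMap.toMatrix' (A g).toIntLinearMap).mulVec v =
      Multiplicative.toAdd (c g (Multiplicative.ofAdd v)) := fun g v => by
    rw [← Matrix.toLin'_apply, Matrix.toLin'_toMatrix']; rfl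
  refine ⟨⟨⟨fun g => LinearMap.toMatrix' (A g).toIntLinearMap, ?_⟩, ?_⟩, ?_⟩
  · apply Matrix.toLin'.injective
    refine LinearMap.ext fun v => ?_
    rw [Matrix.toLin'_apply, hA, Matrix.toLin'_apply, Matrix.one_mulVec]
    apply Multiplicative.ofAdd.injective
    apply hι
    rw [ofAdd_toAdd, hc]
    group
  · intro g h
    apply Matrix.toLin'.injective
    refine LinearMap.ext fun v => ?_
    rw [Matrix.toLin'_apply, hA, Matrix.toLin'_apply, ← Matrix.mulVec_mulVec, hA, hA]
    congr 1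
    apply hι
    rw [ofAdd_toAdd, hc, hc, hc]
    group
  · intro g v
    change _ = ι (Multiplicative.ofAdd ((LinearMap.toMatrix' (A g).toIntLinearMap).mulVec _))
    rw [hA, ofAdd_toAdd, ofAdd_toAdd, hc]

/-- The complexification of an integral representation. -/
noncomputable def repC {m : ℕ} {Γ : Type} [Monoid Γ] (R : Γ →* Matrix (Fin m) (Fin m) ℤ) :
    Γ →* Module.End ℂ (Fin m → ℂ) where
  toFun g := Matrix.toLin' ((R g).map (Int.castRingHom ℂ))
  map_one' := by
    rw [map_one, Matrix.map_one _ (map_zero _) (map_one _), Matrix.toLin'_one]; rfl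
  map_mul' g h := by rw [map_mul, Matrix.map_mul, Matrix.toLin'_mul]; rfl

lemma repC_apply {m : ℕ} {Γ : Type} [Monoid Γ] (R : Γ →* Matrix (Fin m) (Fin m) ℤ) (g : Γ)
    (v : Fin m → ℂ) : repC R g v = ((R g).map (Int.castRingHom ℂ)).mulVec v := rfl

/-- An integer vector as a complex vector. -/
def castC {m : ℕ} : (Fin m → ℤ) →+ (Fin m → ℂ) :=
  AddMonoidHom.mk' (fun v i => (v i : ℂ)) fun x y => by ext i; simp

lemma castC_injective {m : ℕ} : Injective (castC (m := m)) := by
  intro x y h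
  ext i
  exact Int.cast_injective (α := ℂ) (congrFun h i)

lemma repC_castC {m : ℕ} {Γ : Type} [Monoid Γ] (R : Γ →* Matrix (Fin m) (Fin m) ℤ) (g : Γ)
    (v : Fin m → ℤ) : repC R g (castC v) = castC ((R g).mulVec v) := by
  ext i
  simp [repC_apply, castC, Matrix.mulVec, dotProduct]

/-- Lattice points in a complex subspace. -/
def latPts {m : ℕ} (W : Submodule ℂ (Fin m → ℂ)) : Subgroup (Zk m) where
  carrier := {v | castC (Multiplicative.toAdd v) ∈ W}
  one_mem' := by simp
  mul_mem' := by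
    intro a b ha hb
    simpa using W.add_mem ha hb
  inv_mem' := by
    intro a ha
    simpa using W.neg_mem ha

lemma cs_of_fl {m : ℕ} {ι : Zk m →* Γ} (hι : Injective ι)
    {R : Γ →* Matrix (Fin m) (Fin m) ℤ} (hR : ∀ g v, g * ι v * g⁻¹ =
      ι (Multiplicative.ofAdd ((R g).mulVec (Multiplicative.toAdd v)))) {S N : Subgroup Γ}
    {W : Submodule ℂ (Fin m → ℂ)} (h : Fl (repC R) S N W) : CS S N ((latPts W).map ι) := by
  induction h with
  | bot =>
    have : latPts (⊥ : Submodule ℂ (Fin m → ℂ)) = ⊥ := by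
      rw [eq_bot_iff]
      intro v hv
      have h1 : castC (Multiplicative.toAdd v) = 0 := hv
      have h2 : Multiplicative.toAdd v = 0 := castC_injective (by rw [h1, map_zero])
      exact Subgroup.mem_bot.2 (toAdd_eq_zero.1 h2)
    rw [this, Subgroup.map_bot]; exact CS.bot
  | @step W W' _ hle h1 h2 ih =>
    refine CS.step ih (Subgroup.map_mono fun v hv => hle hv) ?_ ?_ ?_
    · rintro s hs _ ⟨v, hv, rfl⟩
      refine ⟨_, ?_, (hR s v).symm⟩
      have := h1 s hs _ hv
      rwa [repC_castC] at this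
    · rintro n hn _ ⟨v, hv, rfl⟩
      refine ⟨Multiplicative.ofAdd ((R n).mulVec (Multiplicative.toAdd v)) * v⁻¹, ?_, ?_⟩
      · have := h2 n hn _ hv
        rw [repC_castC, ← map_sub] at this
        change castC _ ∈ W
        rwa [toAdd_mul, toAdd_inv, toAdd_ofAdd, ← sub_eq_add_neg]
      · rw [map_mul, map_inv, hR]
    · rintro _ ⟨v, -, rfl⟩ n hn ⟨v', hv', he⟩
      rw [← map_pow] at he
      obtain rfl := hι he
      refine ⟨v, ?_, rfl⟩
      have h3 : castC (Multiplicative.toAdd (v ^ n)) ∈ W := hv'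
      rw [toAdd_pow, map_nsmul, ← Nat.cast_smul_eq_nsmul ℂ] at h3
      exact (W.smul_mem_iff (Nat.cast_ne_zero.2 hn)).1 h3

lemma cs_of_fl_top {m : ℕ} {ι : Zk m →* Γ} (hι : Injective ι)
    {R : Γ →* Matrix (Fin m) (Fin m) ℤ} (hR : ∀ g v, g * ι v * g⁻¹ =
      ι (Multiplicative.ofAdd ((R g).mulVec (Multiplicative.toAdd v)))) {S N : Subgroup Γ}
    (h : Fl (repC R) S N ⊤) : CS S N ι.range := by
  have h1 := cs_of_fl hι hR h
  have : latPts (⊤ : Submodule ℂ (Fin m → ℂ)) = ⊤ := by
    rw [eq_top_iff]; intro v _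
    exact Submodule.mem_top (R := ℂ) (x := castC (Multiplicative.toAdd v))
  rwa [this, ← MonoidHom.range_eq_map] at h1

/-- Virtually (torsion-free nilpotent)-by-abelian, in terms of series. -/
def PreT (G : Type) [Group G] : Prop :=
  ∃ L : Subgroup G, L.FiniteIndex ∧ ∃ U, CS L ⁅L, L⁆ U ∧ ⁅L, L⁆ ≤ U

lemma PreT.of_sub {T : Subgroup Γ} (hT : T.FiniteIndex) (h : PreT T) : PreT Γ := by
  obtain ⟨L, hL, U, h1, h2⟩ := h
  refine ⟨L.map T.subtype, ⟨?_⟩, U.map T.subtype, ?_, ?_⟩
  · rw [Subgroup.index_map_subtype]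
    exact mul_ne_zero hL.1 hT.1
  · rw [← Subgroup.map_commutator]
    exact h1.push _ T.subtype_injective
  · rw [← Subgroup.map_commutator]
    exact Subgroup.map_mono h2

lemma PreT.of_quot (hG : PCS (⊤ : Subgroup Γ)) {B : Subgroup Γ} [B.Normal]
    (hc : ∀ a ∈ B, ∀ b ∈ B, a * b = b * a) (htf : TF B) (h : PreT (Γ ⧸ B)) : PreT Γ := by
  obtain ⟨L, hL, U, h1, h2⟩ := h
  obtain ⟨m, ι, hι, hr⟩ := exists_lattice (hG.of_le le_top).fg hc htf
  subst hr
  obtain ⟨R, hR⟩ := exists_matrices hι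
  obtain ⟨S, hS, hF⟩ := malcev hG (repC R)
  have h3 := cs_of_fl_top hι hR hF
  let f := QuotientGroup.mk' ι.range
  have hf : (L.comap f).FiniteIndex := ⟨by
    rw [Subgroup.index_comap_of_surjective _ (QuotientGroup.mk'_surjective _)]; exact hL.1⟩
  have hm : ⁅S ⊓ L.comap f, S ⊓ L.comap f⁆ ≤ ⁅L, L⁆.comap f := by
    rw [← Subgroup.map_le_iff_le_comap, Subgroup.map_commutator]
    have : (S ⊓ L.comap f).map f ≤ L := by
      rw [Subgroup.map_le_iff_le_comap]; exact inf_le_right
    exact Subgroup.commutator_mono this this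
  refine ⟨S ⊓ L.comap f, inferInstance, U.comap f, ?_, hm.trans (Subgroup.comap_mono h2)⟩
  refine CS.pull f ?_ (fun s hs => hs.2) (fun n hn => hm hn) h1
  rw [QuotientGroup.ker_mk']
  exact h3.mono inf_le_left (Subgroup.commutator_mono inf_le_left inf_le_left)

lemma preT_of_derived : ∀ (d : ℕ) (G : Type) [Group G], PCS (⊤ : Subgroup G) →
    derivedSeries G d = ⊥ → PreT G := by
  intro d
  induction d with
  | zero =>
    intro G _ _ hd
    refine ⟨⊤, inferInstance, ⊥, CS.bot, ?_⟩
    rw [derivedSeries_zero] at hd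
    exact hd ▸ le_top
  | succ d ih =>
    intro G _ hG hd
    obtain ⟨T, -, hcov, htf⟩ := hG.vtf
    refine PreT.of_sub (finCov_top_iff.1 hcov) ?_
    have hT : PCS (⊤ : Subgroup T) := hG.top_of_injective T.subtype T.subtype_injective
    have hd' : derivedSeries T (d + 1) = ⊥ := by
      rw [← Subgroup.map_eq_bot_iff_of_injective _ T.subtype_injective, eq_bot_iff, ← hd]
      exact map_derivedSeries_le_derivedSeries _ _
    refine PreT.of_quot hT (B := derivedSeries T d) ?_ ?_ ?_
    · intro a ha b hb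
      have := Subgroup.commutator_mem_commutator ha hb
      rw [← derivedSeries_succ, hd', Subgroup.mem_bot,
        commutatorElement_eq_one_iff_mul_comm] at this
      exact this
    · intro x _ m hm hx
      exact Subtype.ext (htf x x.2 m hm (congrArg Subtype.val hx))
    · refine ih _ (hT.top_of_surjective _ (QuotientGroup.mk'_surjective _)) ?_
      rw [← map_derivedSeries_eq (QuotientGroup.mk'_surjective _), QuotientGroup.map_mk'_self]

/-- A polycyclic group has a finite-index subgroup whose commutator subgroup has a normal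
central series with torsion-free factors. -/
lemma exists_cs_commutator (hG : PCS (⊤ : Subgroup Γ)) :
    ∃ L : Subgroup Γ, L.FiniteIndex ∧ CS ⊤ (commutator L) (commutator L) := by
  obtain ⟨d, hd⟩ := hG.exists_derived
  obtain ⟨L, hL, U, h1, h2⟩ := preT_of_derived d Γ hG hd
  have hm : ∀ n ∈ commutator L, L.subtype n ∈ ⁅L, L⁆ := by
    intro n hn
    have : L.subtype n ∈ (commutator L).map L.subtype := ⟨n, hn, rfl⟩
    rwa [commutator_def, Subgroup.map_commutator, ← MonoidHom.range_eq_map,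
      Subgroup.range_subtype] at this
  refine ⟨L, hL, ?_⟩
  have h3 := (CS.pull_inj (S := ⊤) (N := commutator L) L.subtype L.subtype_injective
    (fun s _ => s.2) hm h1).inf (commutator L)
  rwa [inf_eq_right.2 fun n hn => h2 (hm n hn)] at h3

end Vale.Agent.P188
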