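import Vale.Agent.P188.TowerS

/-! P188, module Tower: polycyclic groups. -/

namespace Vale.Agent.P188.TowerAux

open Function Subgroup

/-- Iterated relative kernels of a family of operations. -/
def Rl {G X : Type} (D : Set G) (op : G → X → X) (U : Set X) : ℕ → Set X
  | 0 => U
  | n + 1 => {x | ∀ d ∈ D, op d x ∈ Rl D op U n}

theorem Rl_rel {G X G' Y : Type} {D : Set G} {op : G → X → X} {U : Set X} {D' : Set G'}
    {op' : G' → Y → Y} {U' : Set Y} (r : X → Y → Prop) (h0 : ∀ x y, r x y → y ∈ U' → x ∈ U)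
    (h1 : ∀ x y, r x y → ∀ d ∈ D, ∃ d' ∈ D', r (op d x) (op' d' y)) :
    ∀ {n : ℕ} {x : X} {y : Y}, r x y → y ∈ Rl D' op' U' n → x ∈ Rl D op U n := by
  intro n
  induction n with
  | zero => exact fun h hy => h0 _ _ h hy
  | succ n ih =>
    intro x y h hy d hd
    obtain ⟨d', hd', h'⟩ := h1 x y h d hd
    exact ih h' (hy d' hd')

theorem Rl_mono {G X : Type} {D D' : Set G} {op : G → X → X} {U U' : Set X} (hD : D ⊆ D')
    (hU : U' ⊆ U) {n : ℕ} {x : X} (h : x ∈ Rl D' op U' n) : x ∈ Rl D op U n :=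
  Rl_rel (· = ·) (fun _ _ e hy => e ▸ hU hy) (fun _ _ e d hd => ⟨d, hD hd, e ▸ rfl⟩) rfl h

theorem Rl_add {G X : Type} (D : Set G) (op : G → X → X) (U : Set X) (m n : ℕ) :
    Rl D op (Rl D op U m) n = Rl D op U (m + n) := by
  induction n with
  | zero => rfl
  | succ n ih =>
    change {x | ∀ d ∈ D, op d x ∈ Rl D op (Rl D op U m) n} =
      {x | ∀ d ∈ D, op d x ∈ Rl D op U (m + n)}
    rw [ih]

theorem Rl_trans {G X : Type} {D : Set G} {op : G → X → X} {U W : Set X} {m n : ℕ}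
    (hW : W ⊆ Rl D op U m) {x : X} (h : x ∈ Rl D op W n) : x ∈ Rl D op U (m + n) := by
  rw [← Rl_add]
  exact Rl_mono subset_rfl hW h

/-- Polycyclic groups. -/
inductive PC : (G : Type) → [Group G] → Prop
  | triv {G : Type} [Group G] (h : Subsingleton G) : PC G
  | step {G C : Type} [Group G] [Group C] (hC : IsCyclic C) (φ : G →* C) (h : PC φ.ker) : PC G

theorem exists_gen {G C : Type} [Group G] [Group C] (hC : IsCyclic C) (φ : G →* C) :
    ∃ t : G, ∀ g, ∃ n : ℤ, g * (t ^ n)⁻¹ ∈ φ.ker := by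
  obtain ⟨⟨_, t, rfl⟩, ht⟩ := IsCyclic.exists_generator (α := φ.range)
  refine ⟨t, fun g => ?_⟩
  obtain ⟨n, hn⟩ := ht ⟨_, g, rfl⟩
  have e : φ t ^ n = φ g := congrArg Subtype.val hn
  exact ⟨n, by rw [MonoidHom.mem_ker, map_mul, map_inv, map_zpow, e, mul_inv_cancel]⟩

theorem PC.of_inj {G : Type} [Group G] (h : PC G) :
    ∀ {H : Type} [Group H] (f : H →* G), Injective f → PC H := by
  induction h with
  | triv h => exact fun f hf => .triv hf.subsingleton
  | step hC φ _ ih =>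
    intro H _ f hf
    refine .step hC (φ.comp f) (ih ((f.comp (φ.comp f).ker.subtype).codRestrict _ fun x => x.2) ?_)
    intro x y e
    exact Subtype.ext (hf (congrArg Subtype.val e))

theorem PC.sub {G : Type} [Group G] (h : PC G) (H : Subgroup G) : PC H :=
  h.of_inj H.subtype H.subtype_injective

theorem PC.of_surj {G : Type} [Group G] (h : PC G) :
    ∀ {H : Type} [Group H] (f : G →* H), Surjective f → PC H := by
  induction h with
  | triv h => exact fun f hf => .triv hf.subsingleton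
  | @step G C _ _ hC φ _ ih =>
    intro H _ f hf
    obtain ⟨t, ht⟩ := exists_gen hC φ
    have : (φ.ker.map f).Normal := Normal.map inferInstance f hf
    refine .step (C := H ⧸ φ.ker.map f) ⟨QuotientGroup.mk (f t), fun x => ?_⟩
      (QuotientGroup.mk' _) (ih ((f.comp φ.ker.subtype).codRestrict _ fun x => ?_) ?_)
    · obtain ⟨y, rfl⟩ := QuotientGroup.mk_surjective x
      obtain ⟨g, rfl⟩ := hf y
      obtain ⟨n, hn⟩ := ht g
      refine ⟨n, ?_⟩
      beta_reduce
      rw [← QuotientGroup.mk_zpow, eq_comm, QuotientGroup.eq_iff_div_mem, ← map_zpow, ← map_div,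
        div_eq_mul_inv]
      exact mem_map_of_mem f hn
    · rw [QuotientGroup.ker_mk']
      exact mem_map_of_mem f x.2
    · rintro ⟨y, hy⟩
      rw [QuotientGroup.ker_mk'] at hy
      obtain ⟨x, hx, rfl⟩ := hy
      exact ⟨⟨x, hx⟩, rfl⟩

theorem PC.fg {G : Type} [Group G] (h : PC G) : Group.FG G := by
  induction h with
  | triv h => infer_instance
  | @step G C _ _ hC φ _ ih =>
    obtain ⟨t, ht⟩ := exists_gen hC φ
    have h1 : φ.ker.FG := (Group.fg_iff_subgroup_fg _).1 ih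
    have h2 : (zpowers t).FG := ⟨{t}, by simp [zpowers_eq_closure]⟩
    refine ⟨?_⟩
    have : φ.ker ⊔ zpowers t = ⊤ := eq_top_iff.2 fun g _ => by
      obtain ⟨n, hn⟩ := ht g
      rw [← inv_mul_cancel_right g (t ^ n)]
      exact mul_mem (mem_sup_left hn) (mem_sup_right (zpow_mem_zpowers t n))
    exact this ▸ h1.sup h2

theorem PC.solvable {G : Type} [Group G] (h : PC G) : Group.IsSolvable G := by
  induction h with
  | triv h => infer_instance
  | @step G C _ _ hC φ _ ih =>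
    have : Group.IsSolvable C := Group.isSolvable_of_comm hC.commGroup.mul_comm
    exact Group.isSolvable_of_ker_le_range φ.ker.subtype φ (by simp)

theorem pc_of_poly {G : Type} [Group G] (h : IsPolycyclicGroup G) : PC G := by
  obtain ⟨m, s, h0, hm, hs⟩ := h
  have key : ∀ i ≤ m, PC (s i) := fun i => by
    induction i with
    | zero => exact fun _ => .triv (by rw [h0]; infer_instance)
    | succ i ih =>
      intro hi
      obtain ⟨_, _, hc⟩ := hs i hi
      refine .step hc (QuotientGroup.mk' _) ((ih (Nat.le_of_succ_le hi)).of_inj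
        (((s (i + 1)).subtype.comp (Subgroup.subtype _)).codRestrict _ fun x => ?_) ?_)
      · exact (QuotientGroup.ker_mk' ((s i).subgroupOf (s (i + 1)))).le x.2
      · intro x y e
        have e' : (x.1 : G) = y.1 := congrArg (fun z : s i => (z : G)) e
        exact Subtype.ext (Subtype.ext e')
  refine (key m le_rfl).of_inj ((MonoidHom.id G).codRestrict _ fun x => hm ▸ mem_top x) ?_
  intro x y e
  exact congrArg Subtype.val e

theorem exists_normal {G : Type} [Group G] (K : Subgroup G) [K.Normal] [Group.FG K]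
    (K₁ : Subgroup K) [K₁.FiniteIndex] :
    ∃ K₂ : Subgroup K, K₂ ≤ K₁ ∧ K₂.FiniteIndex ∧ (K₂.map K.subtype).Normal := by
  obtain ⟨S, hS⟩ := (Group.FG.out : (⊤ : Subgroup K).FG)
  have : Finite (K →* Equiv.Perm (K ⧸ K₁)) :=
    Finite.of_injective (fun f (s : S) => f s) fun f g e =>
      MonoidHom.eq_of_eqOn_dense hS fun s hs => congrFun e ⟨s, hs⟩
  have : (⨅ f : K →* Equiv.Perm (K ⧸ K₁), f.ker).Characteristic :=
    characteristic_iff_le_comap.2 fun e x hx => by
      rw [mem_comap, mem_iInf]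
      exact fun f => mem_iInf.1 hx (f.comp e.toMonoidHom)
  refine ⟨⨅ f : K →* Equiv.Perm (K ⧸ K₁), f.ker, ?_, finiteIndex_iInf fun f => inferInstance,
    inferInstance⟩
  exact (iInf_le _ (MulAction.toPermHom K (K ⧸ K₁))).trans
    ((normalCore_eq_ker K₁).ge.trans K₁.normalCore_le)

theorem finiteIndex_of_pow {G : Type} [Group G] {K : Subgroup G} {t : G}
    (ht : ∀ g, ∃ n : ℤ, g * (t ^ n)⁻¹ ∈ K) {K₂ : Subgroup K} [K₂.FiniteIndex]
    (hn : (K₂.map K.subtype).Normal) {L : Subgroup G} (hL : K₂.map K.subtype ≤ L) {r : ℕ}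
    (hr : 0 < r) (htr : t ^ r ∈ L) : L.FiniteIndex := by
  have : Finite (G ⧸ L) := by
    refine Finite.of_surjective (fun x : (K ⧸ K₂) × Fin r =>
      (QuotientGroup.mk (x.1.out * t ^ (x.2 : ℕ)) : G ⧸ L)) fun x => ?_
    obtain ⟨g, rfl⟩ := QuotientGroup.mk_surjective x
    obtain ⟨n, hn'⟩ := ht g
    have h1 : 0 ≤ n % r := Int.emod_nonneg _ (by omega)
    have h2 : n % r < r := Int.emod_lt_of_pos _ (by omega)
    obtain ⟨k, hk⟩ := QuotientGroup.mk_out_eq_mul K₂ ⟨_, hn'⟩
    refine ⟨(QuotientGroup.mk ⟨_, hn'⟩, ⟨(n % r).toNat, by omega⟩), ?_⟩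
    beta_reduce
    rw [hk, QuotientGroup.eq, ← zpow_natCast, Int.toNat_of_nonneg h1]
    have e : ((g * (t ^ n)⁻¹ * (k.1 : G)) * t ^ (n % r))⁻¹ * g =
        ((t ^ (n % r))⁻¹ * (k.1 : G)⁻¹ * (t ^ (n % r))⁻¹⁻¹) * (t ^ r) ^ (n / r) := by
      have : t ^ n = t ^ (n % r) * (t ^ r) ^ (n / r) := by
        rw [← zpow_natCast, ← zpow_mul, ← zpow_add, Int.emod_add_mul_ediv]
      rw [this]
      group
    refine e ▸ mul_mem (hL (hn.conj_mem _ (inv_mem ?_) _)) (zpow_mem htr _)
    exact mem_map_of_mem K.subtype k.2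
  exact finiteIndex_of_finite_quotient

theorem finiteIndex_map {G : Type} [Group G] {K : Subgroup G} [K.FiniteIndex] (L : Subgroup K)
    [L.FiniteIndex] : (L.map K.subtype).FiniteIndex :=
  ⟨by rw [index_map_subtype]; exact mul_ne_zero FiniteIndex.index_ne_zero FiniteIndex.index_ne_zero⟩

theorem PC.torsionFree {G : Type} [Group G] (h : PC G) :
    ∃ L : Subgroup G, L.FiniteIndex ∧ ∀ x ∈ L, IsOfFinOrder x → x = 1 := by
  induction h with
  | triv h => exact ⟨⊤, inferInstance, fun x _ _ => Subsingleton.elim _ _⟩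
  | @step G C _ _ hC φ hK ih =>
    obtain ⟨t, ht⟩ := exists_gen hC φ
    obtain ⟨K₁, _, h1⟩ := ih
    have := hK.fg
    obtain ⟨K₂, h2, _, h3⟩ := exists_normal φ.ker K₁
    have h4 : ∀ x ∈ K₂.map φ.ker.subtype, IsOfFinOrder x → x = 1 := by
      rintro _ ⟨x, hx, rfl⟩ hx'
      rw [h1 x (h2 hx) (φ.ker.subtype_injective.isOfFinOrder_iff.1 hx'), map_one]
    by_cases hf : IsOfFinOrder (φ t)
    · obtain ⟨r, hr, e⟩ := isOfFinOrder_iff_pow_eq_one.1 hf
      have : φ.ker.FiniteIndex := finiteIndex_of_pow ht (K₂ := ⊤)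
        (by rw [← MonoidHom.range_eq_map, range_subtype]; infer_instance)
        (map_subtype_le _) hr (by rwa [MonoidHom.mem_ker, map_pow])
      exact ⟨_, finiteIndex_map K₂, h4⟩
    · refine ⟨K₂.map φ.ker.subtype ⊔ zpowers t, finiteIndex_of_pow ht h3 le_sup_left one_pos
        (mem_sup_right (pow_mem (mem_zpowers t) 1)), fun x hx hx' => ?_⟩
      rw [← SetLike.mem_coe, normal_mul] at hx
      obtain ⟨k, hk, _, ⟨n, rfl⟩, rfl⟩ := hx
      have h5 := φ.isOfFinOrder hx'
      have h6 : φ k = 1 := map_subtype_le _ hk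
      beta_reduce at h5 hx' ⊢
      rw [map_mul, h6, one_mul, map_zpow] at h5
      obtain rfl : n = 0 := by
        by_contra hn
        obtain ⟨r, hr, e⟩ := isOfFinOrder_iff_zpow_eq_one.1 h5
        exact hf (isOfFinOrder_iff_zpow_eq_one.2 ⟨n * r, mul_ne_zero hn hr, by rw [zpow_mul, e]⟩)
      rw [zpow_zero, mul_one] at hx' ⊢
      exact h4 k hk hx'

end Vale.Agent.P188.TowerAux
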