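import Vale.Agent.P188.TowerG1

/-! P188, module Tower: the theorem of Malcev. -/

namespace Vale.Agent.P188.TowerAux

open Function Subgroup
open scoped TensorProduct commutatorElement

theorem rep_inj {G R V : Type} [Group G] [Ring R] [AddCommGroup V] [Module R V]
    (ρ : G →* Module.End R V) (g : G) {v : V} (h : ρ g v = 0) : v = 0 := by
  have : ρ g⁻¹ (ρ g v) = v := by rw [← Module.End.mul_apply, ← map_mul, inv_mul_cancel, map_one]; rfl
  rw [← this, h, map_zero]

/-- The stabiliser of a line. -/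
def lineStab {G V : Type} [Group G] [AddCommGroup V] [Module ℂ V] (ρ : G →* Module.End ℂ V)
    {v : V} (hv : v ≠ 0) : Subgroup G where
  carrier := {g | ∃ c : ℂ, ρ g v = c • v}
  one_mem' := ⟨1, by simp⟩
  mul_mem' := by
    rintro a b ⟨c, hc⟩ ⟨c', hc'⟩
    exact ⟨c' * c, by rw [map_mul, Module.End.mul_apply, hc', map_smul, hc, smul_smul]⟩
  inv_mem' := by
    rintro a ⟨c, hc⟩
    have h0 : c ≠ 0 := fun e => hv (rep_inj ρ a (by rw [hc, e, zero_smul]))
    refine ⟨c⁻¹, ?_⟩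
    have : ρ a⁻¹ (ρ a v) = v := by
      rw [← Module.End.mul_apply, ← map_mul, inv_mul_cancel, map_one]; rfl
    rw [hc, map_smul] at this
    rw [eq_inv_smul_iff₀ h0, this]

theorem PC.eigen {V : Type} [AddCommGroup V] [Module ℂ V] [FiniteDimensional ℂ V] [Nontrivial V]
    {G : Type} [Group G] (h : PC G) : ∀ ρ : G →* Module.End ℂ V,
      ∃ (v : V) (hv : v ≠ 0), (lineStab ρ hv).FiniteIndex := by
  induction h with
  | triv h =>
    intro ρ
    obtain ⟨v, hv⟩ := exists_ne (0 : V)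
    exact ⟨v, hv, inferInstance⟩
  | @step G C _ _ hC φ hK ih =>
    intro ρ
    obtain ⟨t, ht⟩ := exists_gen hC φ
    obtain ⟨v, hv, _⟩ := ih (ρ.comp φ.ker.subtype)
    have := hK.fg
    obtain ⟨K₂, h2, _, h3⟩ := exists_normal φ.ker (lineStab (ρ.comp φ.ker.subtype) hv)
    have h4 : ∀ x ∈ K₂.map φ.ker.subtype, ∃ c : ℂ, ρ x v = c • v := by
      rintro _ ⟨x, hx, rfl⟩
      exact h2 hx
    generalize hM : K₂.map φ.ker.subtype = M at h4
    have h3' : M.Normal := hM ▸ h3
    choose! χ hχ using h4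
    let W : (M → ℂ) → Submodule ℂ V := fun ψ => ⨅ x : M, (ρ x).eigenspace (ψ x)
    have hW : ∀ ψ w, w ∈ W ψ ↔ ∀ x : M, ρ x w = ψ x • w := fun ψ w => by
      simp only [W, Submodule.mem_iInf, Module.End.mem_eigenspace_iff]
    have hfin : {ψ | W ψ ≠ ⊥}.Finite := Submodule.finite_ne_bot_of_iSupIndep
      (iSupIndep.iInf (fun (x : M) c => (ρ x).eigenspace c) fun x => (ρ x).eigenspaces_iSupIndep)
    let ψ : ℕ → M → ℂ := fun n x => χ ((t ^ n)⁻¹ * x * t ^ n)
    have h5 : ∀ n r w, w ∈ W (ψ n) → ρ (t ^ r) w ∈ W (ψ (r + n)) := fun n r w hw => by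
      rw [hW] at hw ⊢
      intro x
      have e := hw ⟨(t ^ r)⁻¹ * x * t ^ r, h3'.conj_mem' _ x.2 _⟩
      have e1 : (x : G) * t ^ r = t ^ r * ((t ^ r)⁻¹ * x * t ^ r) := by group
      rw [← Module.End.mul_apply, ← map_mul, e1, map_mul, Module.End.mul_apply, e, map_smul]
      have e2 : (t ^ n)⁻¹ * ((t ^ r)⁻¹ * x * t ^ r) * t ^ n =
          (t ^ (r + n))⁻¹ * x * t ^ (r + n) := by
        rw [pow_add, mul_inv_rev]
        simp only [mul_assoc]
      exact congrArg (fun c => χ c • ρ (t ^ r) w) e2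
    have h6 : v ∈ W (ψ 0) := (hW _ _).2 fun x => by simpa [ψ] using hχ x x.2
    have h7 : ∀ n, ψ n ∈ {ψ | W ψ ≠ ⊥} := fun n =>
      (Submodule.ne_bot_iff _).2 ⟨_, h5 0 n v h6, fun e => hv (rep_inj ρ _ e)⟩
    obtain ⟨a, b, hab, e⟩ := hfin.exists_lt_map_eq_of_forall_mem h7
    have h8 : ∀ w ∈ W (ψ a), ρ (t ^ (b - a)) w ∈ W (ψ a) := fun w hw => by
      have := h5 a (b - a) w hw
      rwa [Nat.sub_add_cancel hab.le, ← e] at this
    have : Nontrivial (W (ψ a)) := Submodule.nontrivial_iff_ne_bot.2 (h7 a)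
    obtain ⟨c, hc⟩ := Module.End.exists_eigenvalue ((ρ (t ^ (b - a))).restrict h8)
    obtain ⟨w, hw⟩ := hc.exists_hasEigenvector
    have hw0 : (w : V) ≠ 0 := fun e => hw.2 (Subtype.ext e)
    refine ⟨w, hw0, finiteIndex_of_pow ht h3 (fun x hx => ?_) (Nat.sub_pos_of_lt hab)
      ⟨c, congrArg Subtype.val hw.apply_eq_smul⟩⟩
    exact ⟨_, (hW _ _).1 w.2 ⟨x, hM ▸ hx⟩⟩

theorem exists_quot {G R A B : Type} [Group G] [Ring R] [AddCommGroup A] [Module R A]
    [AddCommGroup B] [Module R B] (ρ : G →* Module.End R A) (f : A →ₗ[R] B) (hf : Surjective f)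
    (h : ∀ g a, f a = 0 → f (ρ g a) = 0) :
    ∃ ρ' : G →* Module.End R B, ∀ g a, ρ' g (f a) = f (ρ g a) := by
  have h1 : ∀ g, ∃ T : Module.End R B, ∀ a, T (f a) = f (ρ g a) := fun g =>
    ⟨((LinearMap.ker f).liftQ (f ∘ₗ ρ g) fun a ha => h g a ha) ∘ₗ
      (f.quotKerEquivOfSurjective hf).symm.toLinearMap, fun a => by
        simp only [LinearMap.comp_apply, LinearEquiv.coe_coe,
          LinearMap.quotKerEquivOfSurjective_symm_apply]
        rfl⟩
  choose T hT using h1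
  refine ⟨⟨⟨T, ?_⟩, fun g g' => ?_⟩, hT⟩
  · ext b
    obtain ⟨a, rfl⟩ := hf b
    rw [hT, map_one]
    rfl
  · ext b
    obtain ⟨a, rfl⟩ := hf b
    change T (g * g') (f a) = T g (T g' (f a))
    rw [hT, hT, hT, map_mul]
    rfl

theorem flag : ∀ (n : ℕ) (V : Type) [AddCommGroup V] [Module ℂ V] [FiniteDimensional ℂ V],
    Module.finrank ℂ V = n → ∀ (G : Type) [Group G], PC G → ∀ ρ : G →* Module.End ℂ V,
    ∃ (L : Subgroup G) (c : ℕ), L.FiniteIndex ∧
      ∀ v, v ∈ Rl (↑⁅L, L⁆ : Set G) (fun d v => ρ d v - v) {0} c := by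
  intro n
  induction n with
  | zero =>
    intro V _ _ _ hn G _ _ ρ
    have : Subsingleton V := Module.finrank_zero_iff.1 hn
    exact ⟨⊤, 0, inferInstance, fun v => Subsingleton.elim _ _⟩
  | succ n ih =>
    intro V _ _ _ hn G _ hG ρ
    have : Nontrivial V := Module.nontrivial_of_finrank_eq_succ hn
    obtain ⟨w, hw, _⟩ := hG.eigen ρ
    obtain ⟨ρ', hρ'⟩ := exists_quot (ρ.comp (lineStab ρ hw).subtype) (ℂ ∙ w).mkQ
      (Submodule.mkQ_surjective _) fun g a ha => by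
        rw [Submodule.mkQ_apply, Submodule.Quotient.mk_eq_zero, Submodule.mem_span_singleton]
          at ha ⊢
        obtain ⟨c, rfl⟩ := ha
        obtain ⟨c', hc'⟩ := g.2
        exact ⟨c * c', by rw [map_smul, ← smul_smul, ← hc']; rfl⟩
    obtain ⟨L, c, _, hL⟩ := ih (V ⧸ (ℂ ∙ w)) (by
      have := (ℂ ∙ w).finrank_quotient_add_finrank
      rw [finrank_span_singleton hw] at this
      omega) _ (hG.sub _) ρ'
    refine ⟨L.map (lineStab ρ hw).subtype, 1 + c, finiteIndex_map L, fun v => ?_⟩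
    refine Rl_trans (W := (ℂ ∙ w : Submodule ℂ V)) (fun u hu d hd => ?_)
      (Rl_rel (fun x y => (ℂ ∙ w).mkQ x = y) (fun x y e hy => ?_) (fun x y e d hd => ?_) rfl (hL _))
    · obtain ⟨a, rfl⟩ := Submodule.mem_span_singleton.1 hu
      have h1 : ⁅L.map (lineStab ρ hw).subtype, L.map (lineStab ρ hw).subtype⁆ ≤
          (MulAction.stabilizer (Module.End ℂ V)ˣ w).comap ρ.toHomUnits := by
        refine commutator_le.2 fun x hx y hy => ?_
        obtain ⟨c₁, h₁⟩ := map_subtype_le _ hx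
        obtain ⟨c₂, h₂⟩ := map_subtype_le _ hy
        obtain ⟨c₃, h₃⟩ := inv_mem (map_subtype_le _ hx)
        obtain ⟨c₄, h₄⟩ := inv_mem (map_subtype_le _ hy)
        have h₅ : ρ (x * x⁻¹ * y * y⁻¹) w = w := by simp
        change ρ (x * y * x⁻¹ * y⁻¹) w = w
        simp only [map_mul, Module.End.mul_apply, h₁, h₂, h₃, h₄, map_smul, smul_smul] at h₅ ⊢
        refine Eq.trans ?_ h₅
        congr 1
        ring
      have h2 : ρ d w = w := h1 hd
      change ρ d (a • w) - a • w = 0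
      rw [map_smul, h2, sub_self]
    · exact (Submodule.Quotient.mk_eq_zero _).1 (e.trans hy)
    · rw [← map_commutator] at hd
      obtain ⟨d', hd', rfl⟩ := hd
      exact ⟨d', hd', by rw [← e, hρ', map_sub]; rfl⟩

theorem torsion_of_tmul {A : Type} [AddCommGroup A] [Module.Finite ℤ A] {a : A}
    (h : (1 : ℂ) ⊗ₜ[ℤ] a = 0) : a ∈ Submodule.torsion ℤ A := by
  rw [← Submodule.Quotient.mk_eq_zero, ← Module.forall_dual_apply_eq_zero_iff ℤ]
  intro φ
  have := congrArg (TensorProduct.lift ((LinearMap.lsmul ℤ ℂ).flip.compl₂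
    (φ ∘ₗ (Submodule.torsion ℤ A).mkQ))) h
  simpa using this

theorem modNil {G : Type} [Group G] (hG : PC G) {A : Type} [AddCommGroup A] [Module.Finite ℤ A]
    (ρ : G →* Module.End ℤ A) : ∃ (L : Subgroup G) (c : ℕ), L.FiniteIndex ∧
      ∀ a, a ∈ Rl (↑⁅L, L⁆ : Set G) (fun d v => ρ d v - v) {0} c := by
  obtain ⟨L, c, _, hL⟩ := flag _ (ℂ ⊗[ℤ] A) rfl G hG
    ((Module.End.baseChangeHom ℤ ℂ A).toMonoidHom.comp ρ)
  have : Finite (Submodule.torsion ℤ A) :=
    Module.finite_of_fg_torsion _ (Submodule.torsion_isTorsion)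
  have h1 : ∀ (a : Submodule.torsion ℤ A), ((MulAction.stabilizer (Module.End ℤ A)ˣ (a : A)).comap
      ρ.toHomUnits).FiniteIndex := fun a => by
    have : (MulAction.stabilizer (Module.End ℤ A)ˣ (a : A)).FiniteIndex := ⟨by
      rw [MulAction.index_stabilizer]
      refine ((Set.ncard_pos (Set.Finite.subset (Set.toFinite (Submodule.torsion ℤ A : Set A))
        ?_)).2 (MulAction.nonempty_orbit _)).ne'
      rintro _ ⟨u, rfl⟩
      obtain ⟨r, hr⟩ := a.2
      exact ⟨r, by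
        change (r : ℤ) • (u : Module.End ℤ A) a = 0
        rw [← map_smul]
        exact (congrArg _ hr).trans (map_zero _)⟩⟩
    exact ⟨by rw [index_comap]; exact (isFiniteRelIndex_of_finiteIndex).relIndex_ne_zero⟩
  have := finiteIndex_iInf h1
  refine ⟨L ⊓ ⨅ a : Submodule.torsion ℤ A, (MulAction.stabilizer (Module.End ℤ A)ˣ
    (a : A)).comap ρ.toHomUnits, 1 + c, inferInstance, fun a => ?_⟩
  refine Rl_trans (W := Submodule.torsion ℤ A) (fun u hu d hd => ?_)
    (Rl_rel (fun x y => (1 : ℂ) ⊗ₜ[ℤ] x = y) (fun x y e hy => torsion_of_tmul (e.trans hy))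
      (fun x y e d hd => ⟨d, commutator_mono inf_le_left inf_le_left hd, ?_⟩) rfl (hL _))
  · have h2 : ρ d u = u := mem_iInf.1 (commutator_le_self _ hd).2 ⟨u, hu⟩
    exact sub_eq_zero.2 h2
  · rw [← e, TensorProduct.tmul_sub]
    rfl

theorem stepNil {G : Type} [Group G] (hG : PC G) (B : Subgroup G) [B.Normal] :
    ∃ (L : Subgroup G) (c : ℕ), L.FiniteIndex ∧
      ∀ x ∈ B, x ∈ Rl (↑⁅L, L⁆ : Set G) (fun d x : G => ⁅d, x⁆) (↑⁅B, B⁆) c := by
  have := (hG.sub B).fg
  have : Group.FG (Abelianization B) := QuotientGroup.fg _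
  have : Module.Finite ℤ (Additive (Abelianization B)) := Module.Finite.iff_addGroup_fg.2 inferInstance
  let ρ : G →* Module.End ℤ (Additive (Abelianization B)) :=
    { toFun := fun g =>
        (Abelianization.map (MulAut.conjNormal g : MulAut B).toMonoidHom).toAdditive.toIntLinearMap
      map_one' := by
        refine LinearMap.ext fun x => ?_
        obtain ⟨y, rfl⟩ := QuotientGroup.mk_surjective (Additive.toMul x) |>.imp
          fun y (e : Abelianization.of y = _) => congrArg Additive.ofMul e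
        rw [map_one]
        rfl
      map_mul' := fun g g' => by
        refine LinearMap.ext fun x => ?_
        obtain ⟨y, rfl⟩ := QuotientGroup.mk_surjective (Additive.toMul x) |>.imp
          fun y (e : Abelianization.of y = _) => congrArg Additive.ofMul e
        rw [map_mul]
        rfl }
  obtain ⟨L, c, _, hL⟩ := modNil hG ρ
  refine ⟨L, c, inferInstance, fun x hx => Rl_rel
    (fun x y => ∃ hx : x ∈ B, Additive.ofMul (Abelianization.of ⟨x, hx⟩) = y) ?_ ?_ ⟨hx, rfl⟩ (hL _)⟩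
  · rintro x _ ⟨hx, rfl⟩ hy
    have h1 : (⟨x, hx⟩ : B) ∈ commutator B := (Abelianization.ker_of B).le hy
    have h2 := mem_map_of_mem B.subtype h1
    rwa [map_subtype_commutator] at h2
  · rintro x _ ⟨hx, rfl⟩ d hd
    refine ⟨d, hd, mul_mem (Normal.conj_mem inferInstance x hx d) (inv_mem hx), ?_⟩
    change Abelianization.of _ = Abelianization.of (MulAut.conjNormal d (⟨x, hx⟩ : B)) /
      Abelianization.of ⟨x, hx⟩
    rw [← map_div, div_eq_mul_inv]
    rfl

theorem PC.virtNil {G : Type} [Group G] (hG : PC G) : ∃ (L : Subgroup G) (c : ℕ), L.FiniteIndex ∧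
    ∀ x, x ∈ Rl (↑⁅L, L⁆ : Set G) (fun d x : G => ⁅d, x⁆) {1} c := by
  obtain ⟨n, hn⟩ := hG.solvable.solvable
  have key : ∀ i, ∃ (L : Subgroup G) (c : ℕ), L.FiniteIndex ∧
      ∀ x, x ∈ Rl (↑⁅L, L⁆ : Set G) (fun d x : G => ⁅d, x⁆) (derivedSeries G i) c := fun i => by
    induction i with
    | zero => exact ⟨⊤, 0, inferInstance, fun x => mem_top x⟩
    | succ i ih =>
      obtain ⟨L, c, _, hL⟩ := ih
      have := derivedSeries_normal G i
      obtain ⟨L', c', _, hL'⟩ := stepNil hG (derivedSeries G i)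
      exact ⟨L ⊓ L', c' + c, inferInstance, fun x => Rl_trans
        (fun y hy => Rl_mono (commutator_mono inf_le_right inf_le_right) subset_rfl (hL' y hy))
        (Rl_mono (commutator_mono inf_le_left inf_le_left) subset_rfl (hL x))⟩
  obtain ⟨L, c, h, hL⟩ := key n
  rw [hn] at hL
  exact ⟨L, c, h, hL⟩

end Vale.Agent.P188.TowerAux
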