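import Vale.Agent.P188.TowerG2

/-! P188, module Tower: construction of towers. -/

namespace Vale.Agent.P188.TowerAux

open Function Subgroup
open scoped commutatorElement

theorem exists_lattice {Γ : Type} [Group Γ] (V : Subgroup Γ) (hfg : Group.FG V)
    (hc : ∀ x ∈ V, ∀ y ∈ V, x * y = y * x) (ht : ∀ x ∈ V, IsOfFinOrder x → x = 1) :
    ∃ (m : ℕ) (ι : Zk m →* Γ), Injective ι ∧ ι.range = V := by
  let _ : CommGroup V :=
    { (inferInstance : Group V) with mul_comm := fun x y => Subtype.ext (hc _ x.2 _ y.2) }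
  have : Module.Finite ℤ (Additive V) := Module.Finite.iff_addGroup_fg.2 inferInstance
  have : IsMulTorsionFree V := IsMulTorsionFree.of_not_isOfFinOrder fun x hx h =>
    hx (Subtype.ext (ht _ x.2 (V.subtype.isOfFinOrder h)))
  let e := (Module.finBasis ℤ (Additive V)).equivFun.symm
  refine ⟨_, V.subtype.comp (AddMonoidHom.toMultiplicativeLeft e.toLinearMap.toAddMonoidHom),
    V.subtype_injective.comp e.injective, le_antisymm ?_ fun x hx => ?_⟩
  · rintro _ ⟨v, rfl⟩
    exact Subtype.prop _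
  · obtain ⟨v, hv⟩ := e.surjective (Additive.ofMul ⟨x, hx⟩)
    exact ⟨Multiplicative.ofAdd v, congrArg (fun z : Additive V => ((Additive.toMul z : V) : Γ)) hv⟩

theorem exists_ext (hE : LayerEx_stmt) (hD : LayerDet_stmt) {k : ℕ} {Γ Γ' : Type} [Group Γ]
    [Group Γ'] (π' : Γ' →* Zk k) (p : Γ →* Γ') (hp : Surjective p) (hπ : Surjective π') {m : ℕ}
    (ι : Zk m →* Γ) (hι : Injective ι) (hr : ι.range = p.ker)
    (hc : ∀ g, π' (p g) = 1 → ∀ v, g * ι v = ι v * g) :
    ∃ (L : Layer k) (E : Ext L Γ Γ' π'), E.p = p := by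
  have h1 : ∀ g : Γ, ∃ M : Matrix (Fin m) (Fin m) ℤ, ∀ v, g * ι v * g⁻¹ =
      ι (Multiplicative.ofAdd (M.mulVec (Multiplicative.toAdd v))) := fun g => by
    have h2 : ∀ v, ∃ v', ι v' = g * ι v * g⁻¹ := fun v => by
      have : g * ι v * g⁻¹ ∈ ι.range := by
        rw [hr]
        exact Normal.conj_mem inferInstance _ (hr ▸ ⟨v, rfl⟩) g
      exact this
    choose σ hσ using h2
    let T : Zk m →* Zk m := MonoidHom.mk' σ fun v v' => hι (by
      rw [map_mul, hσ, hσ, hσ, map_mul]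
      group)
    refine ⟨LinearMap.toMatrix' (AddMonoidHom.toMultiplicative.symm T).toIntLinearMap, fun v => ?_⟩
    rw [LinearMap.toMatrix'_mulVec, ← hσ]
    rfl
  choose M hM using h1
  choose s hs using hπ.comp hp
  have h3 : ∀ g v, g * ι v * g⁻¹ =
      ι (Multiplicative.ofAdd ((M (s (π' (p g)))).mulVec (Multiplicative.toAdd v))) := fun g v => by
    have h4 := hc ((s (π' (p g)))⁻¹ * g) (by
      rw [map_mul, map_mul, map_inv, map_inv]
      exact inv_mul_eq_one.2 (hs _)) v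
    rw [← hM]
    generalize s (π' (p g)) = g' at h4
    calc g * ι v * g⁻¹ = g' * (g'⁻¹ * g * ι v) * g⁻¹ := by group
      _ = g' * ι v * g'⁻¹ := by rw [h4]; group
  have h5 : ∀ A B : Matrix (Fin m) (Fin m) ℤ, (∀ v, ι (Multiplicative.ofAdd (A.mulVec v)) =
      ι (Multiplicative.ofAdd (B.mulVec v))) → A = B := fun A B h =>
    Matrix.toLin'.injective (LinearMap.ext fun v => Multiplicative.ofAdd.injective (hι (h v)))
  let ρ : Zk k →* Matrix (Fin m) (Fin m) ℤ :=
    { toFun := fun a => M (s a)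
      map_one' := h5 _ _ fun v => by
        have := h3 1 (Multiplicative.ofAdd v)
        rw [map_one, map_one, one_mul, inv_one, mul_one] at this
        rw [Matrix.one_mulVec]
        exact this.symm
      map_mul' := fun a b => h5 _ _ fun v => by
        have e1 := h3 (s a * s b) (Multiplicative.ofAdd v)
        have ha : π' (p (s a)) = a := hs a
        have hb : π' (p (s b)) = b := hs b
        rw [map_mul, map_mul, ha, hb] at e1
        have e2 := hM (s b) (Multiplicative.ofAdd v)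
        have e3 := hM (s a) (Multiplicative.ofAdd ((M (s b)).mulVec v))
        rw [toAdd_ofAdd] at e1 e2 e3
        rw [← e1, ← Matrix.mulVec_mulVec, ← e3, ← e2]
        group }
  obtain ⟨Q, Qi, wt, q1, q2, q3⟩ := hE k m ρ
  obtain ⟨q4, q5⟩ := hD k m ρ Q Qi wt q1 q2 q3
  exact ⟨⟨m, ρ, Q, Qi, q1, wt, q2, q3, q4, q5⟩, ⟨p, hp, ι, hι, hr, h3⟩, rfl⟩

theorem tower_of_nil (hE : LayerEx_stmt) (hD : LayerDet_stmt) {k : ℕ} (c : ℕ) :
    ∀ (Γ : Type) [Group Γ] (π : Γ →* Zk k), PC Γ → Surjective π →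
      (∀ x ∈ π.ker, x ∈ Rl (π.ker : Set Γ) (fun d x : Γ => ⁅d, x⁆) {1} c) →
      (∀ x ∈ π.ker, (∀ y ∈ π.ker, y * x = x * y) → IsOfFinOrder x → x = 1) → ∃ w, Tower Γ π w := by
  induction c with
  | zero =>
    intro Γ _ π _ hπ h _
    exact ⟨[], .base π ⟨(injective_iff_map_eq_one π).2 h, hπ⟩⟩
  | succ c ih =>
    intro Γ _ π hΓ hπ h ht
    let V : Subgroup Γ := π.ker ⊓ centralizer (π.ker : Set Γ)
    have hV : ∀ x, x ∈ V ↔ x ∈ π.ker ∧ ∀ y ∈ π.ker, y * x = x * y := fun x => Iff.rfl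
    let π' : Γ ⧸ V →* Zk k := QuotientGroup.lift V π fun x hx => hx.1
    have hπ' : Surjective π' := fun a => by
      obtain ⟨g, rfl⟩ := hπ a
      exact ⟨QuotientGroup.mk g, rfl⟩
    obtain ⟨w, hw⟩ := ih (Γ ⧸ V) π' (hΓ.of_surj _ (QuotientGroup.mk'_surjective V)) hπ'
      (fun x hx => by
        obtain ⟨x, rfl⟩ := QuotientGroup.mk_surjective x
        have h1 := h x hx
        rw [add_comm, ← Rl_add] at h1
        refine Rl_rel (fun x' y => y ∈ π.ker ∧ QuotientGroup.mk y = x') ?_ ?_ ⟨hx, rfl⟩ h1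
        · rintro _ y ⟨hy, rfl⟩ h2
          exact (QuotientGroup.eq_one_iff y).2 ((hV y).2 ⟨hy, fun d hd =>
            commutatorElement_eq_one_iff_mul_comm.1 (h2 d hd)⟩)
        · rintro _ y ⟨hy, rfl⟩ d hd
          obtain ⟨d, rfl⟩ := QuotientGroup.mk_surjective d
          exact ⟨d, hd, mul_mem (Normal.conj_mem inferInstance y hy d) (inv_mem hy), rfl⟩)
      (fun x hx hc hf => by
        obtain ⟨x, rfl⟩ := QuotientGroup.mk_surjective x
        obtain ⟨n, hn, e⟩ := isOfFinOrder_iff_pow_eq_one.1 hf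
        have h1 := (hV _).1 ((QuotientGroup.eq_one_iff (x ^ n)).1 e)
        refine (QuotientGroup.eq_one_iff x).2 ((hV x).2 ⟨hx, fun y hy => ?_⟩)
        have h2 : x⁻¹ * (y * x * y⁻¹) ∈ V := by
          rw [← QuotientGroup.eq, QuotientGroup.mk_mul, QuotientGroup.mk_mul, hc y hy,
            QuotientGroup.mk_inv, mul_inv_cancel_right]
        obtain ⟨h3, h4⟩ := (hV _).1 h2
        have h5 : Commute x (x⁻¹ * (y * x * y⁻¹)) := h4 x hx
        have h6 := h5.mul_pow n
        rw [mul_inv_cancel_left, conj_pow, h1.2 y hy, mul_inv_cancel_right, eq_comm,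
          mul_eq_left] at h6
        have h7 := ht _ h3 h4 (isOfFinOrder_iff_pow_eq_one.2 ⟨n, hn, h6⟩)
        rw [inv_mul_eq_one, eq_mul_inv_iff_mul_eq] at h7
        exact h7.symm)
    obtain ⟨m, ι, hι, hr⟩ := exists_lattice V (hΓ.sub V).fg
      (fun x hx y hy => ((hV y).1 hy).2 x hx.1) fun x hx => ht x hx.1 ((hV x).1 hx).2
    obtain ⟨L, E, hE'⟩ := exists_ext hE hD π' (QuotientGroup.mk' V)
      (QuotientGroup.mk'_surjective V) hπ' ι hι (hr.trans (QuotientGroup.ker_mk' V).symm)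
      fun g hg v => ((hV _).1 (hr.le ⟨v, rfl⟩)).2 g hg
    have := Tower.ext hw L E
    rw [hE'] at this
    exact ⟨_, this⟩

theorem tower_equiv {k : ℕ} {Γ : Type} [Group Γ] {π : Γ →* Zk k} {w : List (Wt k)}
    (T : Tower Γ π w) {Γ₂ : Type} [Group Γ₂] (e : Γ₂ ≃* Γ) :
    Tower Γ₂ (π.comp e.toMonoidHom) w := by
  cases T with
  | base π h => exact .base _ (h.comp e.bijective)
  | ext T L E =>
    exact Tower.ext T L
      { p := E.p.comp e.toMonoidHom
        p_surj := E.p_surj.comp e.surjective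
        ι := e.symm.toMonoidHom.comp E.ι
        ι_inj := e.symm.injective.comp E.ι_inj
        range_eq := by
          ext x
          change (∃ v, e.symm (E.ι v) = x) ↔ e x ∈ E.p.ker
          rw [← E.range_eq]
          exact exists_congr fun v => e.symm_apply_eq
        conj := fun g v => e.injective (by
          simpa only [map_mul, map_inv, MonoidHom.comp_apply, MulEquiv.coe_toMonoidHom,
            MulEquiv.apply_symm_apply] using E.conj (e g) v) }

theorem exists_fac {k m : ℕ} (ρ : Zk k →* Matrix (Fin m) (Fin m) ℤ) (z : Zk k) {y : Zk k}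
    (hy : y ∈ zpowers z) : ∃ M, ρ y - 1 = M * (ρ z - 1) := by
  rw [zpowers_eq_closure] at hy
  induction hy using closure_induction with
  | mem x hx => exact ⟨1, by rw [hx, one_mul]⟩
  | one => exact ⟨0, by simp⟩
  | mul x y _ _ hx hy =>
    obtain ⟨M, hM⟩ := hx
    obtain ⟨M', hM'⟩ := hy
    exact ⟨ρ x * M' + M, by rw [add_mul, mul_assoc, ← hM, ← hM', map_mul]; noncomm_ring⟩
  | inv x _ hx =>
    obtain ⟨M, hM⟩ := hx
    exact ⟨-(ρ x⁻¹ * M), by
      rw [neg_mul, mul_assoc, ← hM, mul_sub, ← map_mul, inv_mul_cancel, map_one, mul_one, neg_sub]⟩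

theorem tower_fin (hF : LayerFin_stmt) {k : ℕ} {Γ : Type} [Group Γ] {π : Γ →* Zk k}
    {w : List (Wt k)} (T : Tower Γ π w) (R : ℝ) : ∀ S : Set (Zk k), S.Infinite →
      (∀ a ∈ S, ∀ χ ∈ w, χ (toR a) ≤ R) → ∃ S' ⊆ S, S'.Infinite ∧ ∀ a ∈ S', ∀ a' ∈ S',
        ∃ c, ∀ x, x ∈ Rl ((zpowers (a / a')).comap π : Set Γ) (fun d x : Γ => ⁅d, x⁆) {1} c := by
  induction T with
  | base π h =>
    refine fun S hS _ => ⟨S, subset_rfl, hS, fun a _ a' _ => ⟨1, fun x d _ => h.1 ?_⟩⟩
    rw [map_commutatorElement, map_one, commutatorElement_eq_one_iff_mul_comm, mul_comm]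
  | @ext Γ Γ' _ _ π' w T L E ih =>
    intro S hS hR
    obtain ⟨S₁, h1, h2, h3⟩ := ih S hS fun a ha χ hχ => hR a ha χ (List.mem_append_right _ hχ)
    obtain ⟨S₂, h4, h5, h6⟩ := hF k L R S₁ h2 fun a ha i =>
      hR a (h1 ha) _ (List.mem_append_left _ (List.mem_ofFn.2 ⟨i, rfl⟩))
    refine ⟨S₂, h4.trans h1, h5, fun a ha a' ha' => ?_⟩
    obtain ⟨c, hc⟩ := h3 a (h4 ha) a' (h4 ha')
    obtain ⟨n, hn⟩ := h6 a ha a' ha'
    generalize a / a' = z at hc hn
    have key : ∀ (j : ℕ) (v : Zk L.m), ((L.ρ z - 1) ^ j).mulVec (Multiplicative.toAdd v) = 0 →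
        E.ι v ∈ Rl ((zpowers z).comap (π'.comp E.p) : Set Γ) (fun d x : Γ => ⁅d, x⁆) {1} j := by
      intro j
      induction j with
      | zero =>
        intro v hv
        rw [pow_zero, Matrix.one_mulVec] at hv
        exact (congrArg E.ι (Multiplicative.toAdd.injective hv)).trans (map_one _)
      | succ j ihj =>
        intro v hv d hd
        obtain ⟨M, hM⟩ := exists_fac L.ρ z hd
        have e1 : ⁅d, E.ι v⁆ = E.ι (Multiplicative.ofAdd
            ((L.ρ (π' (E.p d)) - 1).mulVec (Multiplicative.toAdd v))) := by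
          rw [commutatorElement_def, E.conj, ← map_inv, ← map_mul, Matrix.sub_mulVec,
            Matrix.one_mulVec, sub_eq_add_neg]
          rfl
        have e2 : Commute (L.ρ z - 1) (L.ρ (π' (E.p d)) - 1) :=
          (((Commute.all _ _).map L.ρ).sub_left (Commute.one_left _)).sub_right
            (Commute.one_right _)
        beta_reduce
        rw [e1]
        refine ihj _ ?_
        rw [toAdd_ofAdd, Matrix.mulVec_mulVec, (e2.pow_left j).eq]
        change ((L.ρ ((π'.comp E.p) d) - 1) * _).mulVec _ = 0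
        rw [hM, mul_assoc, ← pow_succ', ← Matrix.mulVec_mulVec, hv, Matrix.mulVec_zero]
    refine ⟨n + c, fun x => Rl_trans (W := E.p.ker) (fun y hy => ?_)
      (Rl_rel (fun x y => E.p x = y) (fun x y e hy => e.trans hy)
        (fun x y e d hd => ⟨E.p d, hd, e ▸ map_commutatorElement _ _ _⟩) rfl (hc (E.p x)))⟩
    obtain ⟨v, rfl⟩ := E.range_eq.ge hy
    exact key n v (by rw [hn, Matrix.zero_mulVec])

end Vale.Agent.P188.TowerAux
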