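import Vale.Agent.P188.TowerG3

/-! P188, module Tower: assembly of the group theory. -/

namespace Vale.Agent.P188.TowerAux

open Function Subgroup
open scoped commutatorElement

/-- Virtually a definite tower. -/
def VT (G : Type) [Group G] : Prop :=
  ∃ L : Subgroup G, L.FiniteIndex ∧
    ∃ (k : ℕ) (π : L →* Zk k) (w : List (Wt k)), Tower L π w ∧ Definite w

theorem VT.of_sub {G : Type} [Group G] (K : Subgroup G) [K.FiniteIndex] (h : VT K) : VT G := by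
  obtain ⟨L, _, k, π, w, h1, h2⟩ := h
  exact ⟨L.map K.subtype, finiteIndex_map L, k, _, w,
    tower_equiv h1 (L.equivMapOfInjective K.subtype K.subtype_injective).symm, h2⟩

theorem PC.wf {G : Type} [Group G] (h : PC G) : WellFoundedGT (Subgroup G) := by
  refine wellFoundedGT_iff_monotone_chain_condition.2 fun a => ?_
  obtain ⟨S, hS⟩ := (Group.fg_iff_subgroup_fg _).1 (h.sub (⨆ n, a n)).fg
  have h1 : ∀ s : S, ∃ n, (s : G) ∈ a n := fun s =>
    (mem_iSup_of_directed a.monotone.directed_le).1 (hS ▸ subset_closure s.2)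
  choose f hf using h1
  obtain ⟨n, hn⟩ := (Set.finite_range f).bddAbove
  refine ⟨n, fun m hm => le_antisymm (a.monotone hm) ((le_iSup a m).trans ?_)⟩
  rw [← hS, closure_le]
  exact fun s hs => a.monotone (hn ⟨⟨s, hs⟩, rfl⟩) (hf ⟨s, hs⟩)

theorem exists_set {k : ℕ} (w : List (Wt k)) {b : Rk k} (hb : b ≠ 0) (h : ∀ χ ∈ w, χ b = 0) :
    ∃ (R : ℝ) (S : Set (Zk k)), S.Infinite ∧ ∀ a ∈ S, ∀ χ ∈ w, χ (toR a) ≤ R := by
  let a : ℕ → Zk k := fun n => Multiplicative.ofAdd fun i => ⌊(n : ℝ) * b i⌋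
  have ha : ∀ n, ‖toR (a n) - (n : ℝ) • b‖ ≤ 1 := fun n =>
    (pi_norm_le_iff_of_nonneg zero_le_one).2 fun i => by
      change |((⌊(n : ℝ) * b i⌋ : ℤ) : ℝ) - n * b i| ≤ 1
      rw [abs_le]
      constructor <;> linarith [Int.floor_le ((n : ℝ) * b i), Int.lt_floor_add_one ((n : ℝ) * b i)]
  refine ⟨(w.map norm).sum, Set.range a, fun hfin => ?_, ?_⟩
  · obtain ⟨C, hC⟩ := (hfin.image fun x => ‖toR x‖).bddAbove
    obtain ⟨n, hn⟩ := exists_nat_gt ((C + 1) / ‖b‖)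
    have h1 : ‖toR (a n)‖ ≤ C := hC ⟨_, ⟨n, rfl⟩, rfl⟩
    have h2 := norm_sub_norm_le ((n : ℝ) • b) (toR (a n))
    rw [norm_sub_rev, norm_smul, Real.norm_natCast] at h2
    rw [div_lt_iff₀ (norm_pos_iff.2 hb)] at hn
    linarith [ha n]
  · rintro _ ⟨n, rfl⟩ χ hχ
    have h1 : χ (toR (a n)) = χ (toR (a n) - (n : ℝ) • b) := by
      rw [map_sub, map_smul, h χ hχ, smul_zero, sub_zero]
    have h2 := χ.le_opNorm (toR (a n) - (n : ℝ) • b)
    have h3 : ‖χ‖ ≤ (w.map norm).sum :=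
      List.single_le_sum (fun x hx => by
        obtain ⟨y, _, rfl⟩ := List.mem_map.1 hx
        exact norm_nonneg y) _ (List.mem_map_of_mem hχ)
    have h4 := mul_le_mul_of_nonneg_left (ha n) (norm_nonneg χ)
    rw [h1]
    linarith [le_abs_self (χ (toR (a n) - (n : ℝ) • b)),
      Real.norm_eq_abs (χ (toR (a n) - (n : ℝ) • b))]

theorem vt_of_nil (hE : LayerEx_stmt) (hD : LayerDet_stmt) (hF : LayerFin_stmt) {G : Type}
    [Group G] (hG : PC G) (ht : ∀ x : G, IsOfFinOrder x → x = 1) {c₀ : ℕ}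
    (h₀ : ∀ x, x ∈ Rl (commutator G : Set G) (fun d x : G => ⁅d, x⁆) {1} c₀) : VT G := by
  obtain ⟨N, ⟨hN, c, hc⟩, hmax⟩ := hG.wf.wf.has_min {N : Subgroup G | commutator G ≤ N ∧
    ∃ c, ∀ x ∈ N, x ∈ Rl (N : Set G) (fun d x : G => ⁅d, x⁆) {1} c}
    ⟨commutator G, le_rfl, c₀, fun x _ => h₀ x⟩
  have : N.Normal := Normal.of_commutator_le _ hN
  have hA := hG.of_surj _ (QuotientGroup.mk'_surjective N)
  obtain ⟨L', _, hL'⟩ := hA.torsionFree
  obtain ⟨k, ι, hι, hr⟩ := exists_lattice L' (hA.sub L').fg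
    (fun x _ y _ => (Normal.quotient_commutative_iff_commutator_le.2 hN).is_comm.comm x y) hL'
  let L := L'.comap (QuotientGroup.mk' N)
  have hL : L.FiniteIndex := ⟨by
    rw [index_comap_of_surjective _ (QuotientGroup.mk'_surjective N)]
    exact FiniteIndex.index_ne_zero⟩
  obtain ⟨π, hπ⟩ : ∃ π : L →* Zk k, ∀ x, ι (π x) = QuotientGroup.mk (x : G) :=
    ⟨(MonoidHom.ofInjective hι).symm.toMonoidHom.comp
      (((QuotientGroup.mk' N).comp L.subtype).codRestrict _ fun x => hr.ge x.2),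
      fun x => MonoidHom.apply_ofInjective_symm hι _⟩
  have hk : ∀ x : L, x ∈ π.ker ↔ (x : G) ∈ N := fun x => by
    rw [MonoidHom.mem_ker, ← QuotientGroup.eq_one_iff, ← hπ, ← map_one ι, hι.eq_iff]
  have hs : Surjective π := fun a => by
    obtain ⟨g, hg⟩ := QuotientGroup.mk_surjective (ι a)
    have : g ∈ L := by
      change QuotientGroup.mk g ∈ L'
      rw [hg]
      exact hr.le ⟨a, rfl⟩
    exact ⟨⟨g, this⟩, hι ((hπ _).trans hg)⟩
  obtain ⟨w, hw⟩ := tower_of_nil hE hD c L π (hG.sub L) hs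
    (fun x hx => by
      refine Rl_rel (fun (x : L) (y : G) => x = y) ?_ ?_ rfl (hc x ((hk x).1 hx))
      · exact fun x y e hy => Subtype.ext (e.trans hy)
      · rintro x _ rfl d hd
        exact ⟨d, (hk d).1 hd, rfl⟩)
    fun x _ _ hx => Subtype.ext (ht x (L.subtype.isOfFinOrder hx))
  refine ⟨L, hL, k, π, w, hw, fun b hb => ?_⟩
  by_contra! hcon
  obtain ⟨R, S, hS, hR⟩ := exists_set w hb hcon
  obtain ⟨S', -, hS', h⟩ := tower_fin hF hw R S hS hR
  obtain ⟨a, ha, a', ha', hne⟩ := hS'.nontrivial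
  obtain ⟨c', hc'⟩ := h a ha a' ha'
  obtain ⟨g, hg⟩ := hs (a / a')
  have h1 : N ≤ ((zpowers (a / a')).comap π).map L.subtype := fun x hx => by
    have hx' : x ∈ L := by
      change QuotientGroup.mk x ∈ L'
      rw [(QuotientGroup.eq_one_iff x).2 hx]
      exact one_mem _
    refine ⟨⟨x, hx'⟩, ?_, rfl⟩
    change π ⟨x, hx'⟩ ∈ zpowers (a / a')
    rw [(hk ⟨x, hx'⟩).2 hx]
    exact one_mem _
  have h2 := hmax (((zpowers (a / a')).comap π).map L.subtype) ⟨hN.trans h1, c', by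
    rintro _ ⟨x, -, rfl⟩
    refine Rl_rel (fun (x : G) (y : L) => x = y) (fun x y e hy => e.trans (congrArg _ hy)) ?_ rfl
      (hc' x)
    rintro x y e _ ⟨d, hd, rfl⟩
    exact ⟨d, hd, e ▸ rfl⟩⟩
  have h3 : (g : G) ∈ N := (eq_of_le_of_not_lt h1 h2).ge
    ⟨g, by change π g ∈ zpowers (a / a'); rw [hg]; exact mem_zpowers _, rfl⟩
  exact hne (div_eq_one.1 (hg ▸ (hk g).2 h3))

theorem tower_of (hE : LayerEx_stmt) (hD : LayerDet_stmt) (hF : LayerFin_stmt) : Tower_stmt := by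
  rintro G _ ⟨L₀, _, h₀⟩
  refine VT.of_sub L₀ ?_
  have hG := pc_of_poly h₀
  obtain ⟨L₁, _, h₁⟩ := hG.torsionFree
  obtain ⟨L₂, c, _, h₂⟩ := hG.virtNil
  refine VT.of_sub (L₁ ⊓ L₂) (vt_of_nil hE hD hF (hG.sub _) (fun x hx =>
    Subtype.ext (h₁ x x.2.1 ((L₁ ⊓ L₂).subtype.isOfFinOrder hx))) (c₀ := c) fun x => ?_)
  refine Rl_rel (fun (x : ↥(L₁ ⊓ L₂)) (y : L₀) => x = y) ?_ ?_ rfl (h₂ x)
  · exact fun x y e hy => Subtype.ext (e.trans hy)
  · rintro x _ rfl d hd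
    have := mem_map_of_mem (L₁ ⊓ L₂).subtype hd
    rw [map_subtype_commutator] at this
    exact ⟨d, commutator_mono inf_le_right inf_le_right this, rfl⟩

end Vale.Agent.P188.TowerAux
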