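import Vale.Agent.P188.TowerCS

/-! Growth of powers of operators with a single eigenvalue. -/

namespace Vale.Agent.P188

open Function Filter Topology

section alg

variable {A : Type} [NormedRing A] [NormedAlgebra ℂ A]

omit [NormedAlgebra ℂ A] in
lemma grow_unip_aux (y : A) {N : ℕ} (h : (y - 1) ^ N = 0) : ∀ r s : ℕ, s + r = N →
    ∃ C : ℝ, 0 ≤ C ∧ ∀ j : ℕ, ‖y ^ j * (y - 1) ^ s‖ ≤ C * (1 + j) ^ r := by
  intro r
  induction r with
  | zero =>
    intro s hs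
    refine ⟨0, le_rfl, fun j => ?_⟩
    rw [show s = N by omega, h]; simp
  | succ r ih =>
    intro s hs
    obtain ⟨C, hC, hb⟩ := ih (s + 1) (by omega)
    refine ⟨‖(y - 1) ^ s‖ + C, by positivity, fun j => ?_⟩
    have key : ∀ j : ℕ, ‖y ^ j * (y - 1) ^ s‖ ≤ ‖(y - 1) ^ s‖ + j * (C * (1 + j) ^ r) := by
      intro j
      induction j with
      | zero => simp
      | succ j ihj =>
        have e : y ^ (j + 1) * (y - 1) ^ s = y ^ j * (y - 1) ^ s + y ^ j * (y - 1) ^ (s + 1) := by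
          rw [pow_succ' (y - 1) s, pow_succ y j]; noncomm_ring
        have h1 : C * (1 + (j : ℝ)) ^ r ≤ C * (1 + ((j + 1 : ℕ) : ℝ)) ^ r := by
          gcongr; omega
        have h2 : (j : ℝ) * (C * (1 + (j : ℝ)) ^ r) ≤ j * (C * (1 + ((j + 1 : ℕ) : ℝ)) ^ r) := by
          gcongr
        have h3 := hb j
        have h4 := norm_add_le (y ^ j * (y - 1) ^ s) (y ^ j * (y - 1) ^ (s + 1))
        rw [e]
        have e2 : ((j + 1 : ℕ) : ℝ) * (C * (1 + ((j + 1 : ℕ) : ℝ)) ^ r) =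
            j * (C * (1 + ((j + 1 : ℕ) : ℝ)) ^ r) + C * (1 + ((j + 1 : ℕ) : ℝ)) ^ r := by
          push_cast; ring
        rw [e2]
        linarith
    have h1 : (1 : ℝ) ≤ (1 + j) ^ (r + 1) := one_le_pow₀ (by simp)
    have h2 : ‖(y - 1) ^ s‖ ≤ ‖(y - 1) ^ s‖ * (1 + j) ^ (r + 1) :=
      le_mul_of_one_le_right (norm_nonneg _) h1
    have h3 : (j : ℝ) * (C * (1 + j) ^ r) ≤ (1 + j) * (C * (1 + j) ^ r) := by
      gcongr; simp
    have e : (1 + (j : ℝ)) * (C * (1 + j) ^ r) = C * (1 + j) ^ (r + 1) := by ring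
    have := key j
    rw [add_mul]
    linarith

lemma grow_nat (x : A) {μ : ℂ} (hμ : μ ≠ 0) (h : IsNilpotent (x - μ • (1 : A))) :
    ∃ (C : ℝ) (d : ℕ), 0 ≤ C ∧ ∀ j : ℕ, ‖x ^ j‖ ≤ C * (1 + j) ^ d * ‖μ‖ ^ j := by
  obtain ⟨N, hN⟩ := h
  have h1 : (μ⁻¹ • x - 1) ^ N = 0 := by
    have : μ⁻¹ • x - 1 = μ⁻¹ • (x - μ • (1 : A)) := by
      rw [smul_sub, smul_smul, inv_mul_cancel₀ hμ, one_smul]
    rw [this, smul_pow, hN, smul_zero]
  obtain ⟨C, hC, hb⟩ := grow_unip_aux _ h1 N 0 (by simp)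
  refine ⟨C, N, hC, fun j => ?_⟩
  have e : x ^ j = μ ^ j • (μ⁻¹ • x) ^ j := by
    rw [← smul_pow, smul_smul, mul_inv_cancel₀ hμ, one_smul]
  have := hb j
  rw [pow_zero, mul_one] at this
  rw [e, norm_smul, norm_pow, mul_comm]
  gcongr

lemma grow_int {Γ : Type} [Group Γ] (r : Γ →* A) (a : Γ) {μ : ℂ} (hμ : μ ≠ 0)
    (h : IsNilpotent (r a - μ • (1 : A))) :
    ∃ (C : ℝ) (d : ℕ), 0 ≤ C ∧ ∀ j : ℤ, ‖r (a ^ j)‖ ≤
      C * (1 + |(j : ℝ)|) ^ d * Real.exp (Real.log ‖μ‖ * j) := by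
  have h' : IsNilpotent (r a⁻¹ - μ⁻¹ • (1 : A)) := by
    have e : r a⁻¹ - μ⁻¹ • (1 : A) = (-μ⁻¹) • (r a⁻¹ * (r a - μ • (1 : A))) := by
      rw [mul_sub, ← map_mul, inv_mul_cancel, map_one, mul_smul_comm, mul_one, smul_sub,
        smul_smul, neg_mul, inv_mul_cancel₀ hμ, neg_smul, neg_smul, one_smul]
      abel
    rw [e]
    refine IsNilpotent.smul (Commute.isNilpotent_mul_left ?_ h) _
    refine Commute.sub_right ?_ ((Commute.one_right _).smul_right μ)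
    exact ((Commute.refl a).inv_left).map r
  obtain ⟨C1, d1, hC1, h1⟩ := grow_nat _ hμ h
  obtain ⟨C2, d2, hC2, h2⟩ := grow_nat _ (inv_ne_zero hμ) h'
  have hμ' : 0 < ‖μ‖ := norm_pos_iff.2 hμ
  refine ⟨C1 + C2, d1 + d2, by positivity, fun j => ?_⟩
  obtain ⟨n, rfl | rfl⟩ := Int.eq_nat_or_neg j
  · have e : Real.exp (Real.log ‖μ‖ * ((n : ℤ) : ℝ)) = ‖μ‖ ^ n := by
      rw [Int.cast_natCast, mul_comm, Real.exp_nat_mul, Real.exp_log hμ']
    rw [e, zpow_natCast, map_pow, Int.cast_natCast, Nat.abs_cast]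
    refine (h1 n).trans ?_
    gcongr
    · linarith
    · simp
    · omega
  · have e : Real.exp (Real.log ‖μ‖ * ((-(n : ℤ) : ℤ) : ℝ)) = ‖μ⁻¹‖ ^ n := by
      rw [Int.cast_neg, Int.cast_natCast, mul_neg, Real.exp_neg, mul_comm, Real.exp_nat_mul,
        Real.exp_log hμ', norm_inv, inv_pow]
    rw [e, zpow_neg, zpow_natCast, ← inv_pow, map_pow, Int.cast_neg, abs_neg, Int.cast_natCast,
      Nat.abs_cast]
    refine (h2 n).trans ?_
    gcongr
    · linarith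
    · simp
    · omega

/-- The standard generators of the lattice. -/
def eZ {k : ℕ} (i : Fin k) : Zk k := Multiplicative.ofAdd (Pi.single i 1)

lemma prod_eZ {k : ℕ} (b : Zk k) : ∏ i, eZ i ^ (Multiplicative.toAdd b i) = b := by
  apply Multiplicative.toAdd.injective
  rw [toAdd_prod]
  ext j
  simp [eZ, Pi.single_apply]

/-- The weight with prescribed exponentials on the generators. -/
noncomputable def chi {k : ℕ} (μ : Fin k → ℂ) : Wt k :=
  ∑ i, Real.log ‖μ i‖ • ContinuousLinearMap.proj i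

lemma chi_apply {k : ℕ} (μ : Fin k → ℂ) (x : Rk k) : chi μ x = ∑ i, Real.log ‖μ i‖ * x i := by
  simp [chi]

lemma grow_lat {k : ℕ} (r : Zk k →* A) {μ : Fin k → ℂ} (hμ : ∀ i, μ i ≠ 0)
    (h : ∀ i, IsNilpotent (r (eZ i) - μ i • (1 : A))) :
    ∃ (C : ℝ) (d : ℕ), 0 ≤ C ∧ ∀ b, ‖r b‖ ≤
      C * (1 + ‖toR b‖) ^ d * Real.exp (chi μ (toR b)) := by
  suffices H : ∀ s : Finset (Fin k), ∃ (C : ℝ) (d : ℕ), 0 ≤ C ∧ ∀ b : Zk k,
      ‖r (∏ i ∈ s, eZ i ^ (Multiplicative.toAdd b i))‖ ≤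
        C * (1 + ‖toR b‖) ^ d * Real.exp (∑ i ∈ s, Real.log ‖μ i‖ * toR b i) by
    obtain ⟨C, d, hC, hb⟩ := H Finset.univ
    refine ⟨C, d, hC, fun b => ?_⟩
    have := hb b
    rwa [prod_eZ, ← chi_apply] at this
  intro s
  induction s using Finset.induction_on with
  | empty => exact ⟨‖r 1‖, 0, norm_nonneg _, fun b => by simp⟩
  | insert i s hi ih =>
    obtain ⟨C, d, hC, hb⟩ := ih
    obtain ⟨C1, d1, hC1, h1⟩ := grow_int r (eZ i) (hμ i) (h i)
    refine ⟨C1 * C, d1 + d, by positivity, fun b => ?_⟩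
    rw [Finset.prod_insert hi, Finset.sum_insert hi, map_mul, Real.exp_add]
    have h2 : |toR b i| ≤ ‖toR b‖ := norm_le_pi_norm (toR b) i
    have h3 : ‖r (eZ i ^ (Multiplicative.toAdd b i))‖ ≤
        C1 * (1 + ‖toR b‖) ^ d1 * Real.exp (Real.log ‖μ i‖ * toR b i) := by
      refine (h1 _).trans ?_
      change C1 * (1 + |toR b i|) ^ d1 * Real.exp (Real.log ‖μ i‖ * toR b i) ≤ _
      gcongr
    refine (norm_mul_le _ _).trans ((mul_le_mul h3 (hb b) (norm_nonneg _) (by positivity)).trans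
      (le_of_eq ?_))
    ring

end alg

lemma le_of_pow_le {x y K c : ℝ} {d : ℕ} (hy : 0 < y) (hc : 0 ≤ c)
    (h : ∀ n : ℕ, x ^ n ≤ K * (1 + n * c) ^ d * y ^ n) : x ≤ y := by
  by_contra hlt
  push Not at hlt
  have hr : 1 < x / y := (one_lt_div hy).2 hlt
  have hK : 0 ≤ K := by
    have := h 0
    simp at this
    linarith
  have h1 := (tendsto_pow_const_div_const_pow_of_one_lt d hr).const_mul (K * (1 + c) ^ d)
  rw [mul_zero] at h1
  have h2 : ∀ᶠ n : ℕ in atTop, 1 ≤ K * (1 + c) ^ d * ((n : ℝ) ^ d / (x / y) ^ n) := by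
    filter_upwards [eventually_ge_atTop 1] with n hn
    have hn' : (1 : ℝ) ≤ n := by exact_mod_cast hn
    have h3 : (x / y) ^ n ≤ K * (1 + n * c) ^ d := by
      rw [div_pow, div_le_iff₀ (by positivity)]; exact h n
    have h4 : K * (1 + n * c) ^ d ≤ K * ((1 + c) * n) ^ d := by
      gcongr; linarith
    rw [← mul_div_assoc, le_div_iff₀ (by positivity), one_mul, mul_assoc, ← mul_pow]
    exact h3.trans h4
  have := ge_of_tendsto h1 h2
  linarith

lemma toR_mul {k : ℕ} (a b : Zk k) : toR (a * b) = toR a + toR b := by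
  ext i; simp [toR]

lemma toR_pow {k : ℕ} (a : Zk k) (n : ℕ) : toR (a ^ n) = (n : ℝ) • toR a := by
  ext i; simp [toR]

lemma toR_inv {k : ℕ} (a : Zk k) : toR a⁻¹ = -toR a := by
  ext i; simp [toR]

lemma toR_eZ {k : ℕ} (i : Fin k) : toR (eZ i) = Pi.single i 1 := by
  ext j; simp [toR, eZ, Pi.single_apply]

lemma le_exp_of_growth {k : ℕ} {x K : ℝ} {d : ℕ} (s : Wt k) (b : Zk k)
    (h : ∀ n : ℕ, x ^ n ≤ K * (1 + ‖toR (b ^ n)‖) ^ d * Real.exp (s (toR (b ^ n)))) :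
    x ≤ Real.exp (s (toR b)) := by
  refine le_of_pow_le (K := K) (d := d) (Real.exp_pos _) (norm_nonneg (toR b)) fun n => ?_
  have := h n
  rwa [toR_pow, norm_smul, Real.norm_natCast, map_smul, smul_eq_mul, Real.exp_nat_mul] at this

lemma abs_eq_exp_of_growth {k : ℕ} (D : Zk k →* ℝ) {K : ℝ} {d : ℕ} (s : Wt k)
    (h : ∀ b, |D b| ≤ K * (1 + ‖toR b‖) ^ d * Real.exp (s (toR b))) (b : Zk k) :
    |D b| = Real.exp (s (toR b)) := by
  have h1 : ∀ b, |D b| ≤ Real.exp (s (toR b)) := fun b =>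
    le_exp_of_growth s b fun n => by rw [← abs_pow, ← map_pow]; exact h _
  refine le_antisymm (h1 b) ?_
  have h2 := h1 b⁻¹
  rw [toR_inv, map_neg, Real.exp_neg] at h2
  have h3 : |D b| * |D b⁻¹| = 1 := by rw [← abs_mul, ← map_mul, mul_inv_cancel, map_one, abs_one]
  have h4 : |D b| * |D b⁻¹| ≤ |D b| * (Real.exp (s (toR b)))⁻¹ := by gcongr
  rw [h3, ← div_eq_mul_inv, le_div_iff₀ (Real.exp_pos _), one_mul] at h4
  exact h4

lemma abs_det_of_growth {k : ℕ} {ι : Type} [Fintype ι] [DecidableEq ι]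
    (β : Zk k →* Matrix ι ι ℝ) (wt : ι → Wt k) {C : ℝ} {d : ℕ}
    (h : ∀ b i j, |β b i j| ≤ C * (1 + ‖toR b‖) ^ d * Real.exp (wt i (toR b))) (b : Zk k) :
    |(β b).det| = Real.exp (∑ i, wt i (toR b)) := by
  have := abs_eq_exp_of_growth (Matrix.detMonoidHom.comp β)
    (K := (Fintype.card ι).factorial * C ^ Fintype.card ι) (d := d * Fintype.card ι)
    (∑ i, wt i) (fun b => ?_) b
  · rwa [sum_apply] at this
  let M : Matrix ι ι ℝ := Matrix.of fun i j => (Real.exp (wt i (toR b)))⁻¹ * β b i j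
  have hM : β b = Matrix.of fun i j => Real.exp (wt i (toR b)) * M i j := by
    ext i j
    simp only [M, Matrix.of_apply]
    rw [← mul_assoc, mul_inv_cancel₀ (Real.exp_pos _).ne', one_mul]
  have h1 : ∀ i j, AbsoluteValue.abs (M i j) ≤ C * (1 + ‖toR b‖) ^ d := by
    intro i j
    change |(Real.exp (wt i (toR b)))⁻¹ * β b i j| ≤ _
    rw [abs_mul, abs_of_pos (inv_pos.2 (Real.exp_pos _)), inv_mul_le_iff₀ (Real.exp_pos _),
      mul_comm]
    exact h b i j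
  have h2 : |M.det| ≤ _ := Matrix.det_le h1
  change |(β b).det| ≤ _
  rw [hM, Matrix.det_mul_column, abs_mul, ← Real.exp_sum, abs_of_pos (Real.exp_pos _),
    sum_apply, mul_comm]
  gcongr
  refine h2.trans (le_of_eq ?_)
  rw [nsmul_eq_mul, mul_pow, ← pow_mul, mul_assoc]

end Vale.Agent.P188
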