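import Vale.Agent.P188.TowerLay

/-! Kronecker-type finiteness for the weights of a layer. -/

namespace Vale.Agent.P188

open Function Polynomial

variable {k : ℕ}

/-- The complexified action in the weight basis. -/
noncomputable def Layer.BC (L : Layer k) : Zk k →* Module.End ℂ (Fin L.m → ℂ) where
  toFun b := Matrix.toLin' ((conjHom L.ρ L.Q_mul b).map Complex.ofRealHom)
  map_one' := by
    rw [map_one, Matrix.map_one _ (map_zero _) (map_one _), Matrix.toLin'_one]; rfl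
  map_mul' g h := by rw [map_mul, Matrix.map_mul, Matrix.toLin'_mul]; rfl

lemma Layer.BC_apply (L : Layer k) (b : Zk k) (u : Fin L.m → ℂ) (i : Fin L.m) :
    L.BC b u i = ∑ j, (L.B b i j : ℂ) * u j := rfl

lemma rep_pow_eig {G V : Type} [Group G] [AddCommGroup V] [Module ℂ V]
    (r : G →* Module.End ℂ V) {b : G} {u : V} {z : ℂ} (h : r b u = z • u) (n : ℕ) :
    r (b ^ n) u = z ^ n • u := by
  induction n with
  | zero => simp
  | succ n ih => rw [pow_succ, rep_mul_apply, h, map_smul, ih, smul_smul, pow_succ']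

lemma Layer.norm_le_of_eig (L : Layer k) {b : Zk k} {u : Fin L.m → ℂ} {z : ℂ}
    (h : L.BC b u = z • u) {i : Fin L.m} (hi : u i ≠ 0) :
    ‖z‖ ≤ Real.exp (L.wt i (toR b)) := by
  obtain ⟨C, d, hb⟩ := L.bound
  have hu : 0 < ‖u i‖ := norm_pos_iff.2 hi
  refine le_exp_of_growth (K := C * (∑ j, ‖u j‖) / ‖u i‖) (d := d) _ b fun n => ?_
  have h1 := congrFun (rep_pow_eig L.BC h n) i
  rw [Layer.BC_apply, Pi.smul_apply, smul_eq_mul] at h1
  have h2 : ‖z‖ ^ n * ‖u i‖ ≤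
      ∑ j, C * (1 + ‖toR (b ^ n)‖) ^ d * Real.exp (L.wt i (toR (b ^ n))) * ‖u j‖ := by
    rw [← norm_pow, ← norm_mul, ← h1]
    refine (norm_sum_le _ _).trans (Finset.sum_le_sum fun j _ => ?_)
    rw [norm_mul, Complex.norm_real, Real.norm_eq_abs]
    exact mul_le_mul_of_nonneg_right (hb _ i j) (norm_nonneg _)
  rw [← Finset.mul_sum, ← le_div_iff₀ hu] at h2
  refine h2.trans (le_of_eq ?_)
  ring

lemma Layer.norm_eq_of_eig (L : Layer k) {b : Zk k} {u : Fin L.m → ℂ} {z : ℂ}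
    (h : L.BC b u = z • u) {i : Fin L.m} (hi : u i ≠ 0) :
    ‖z‖ = Real.exp (L.wt i (toR b)) := by
  refine le_antisymm (L.norm_le_of_eig h hi) ?_
  have hu : u ≠ 0 := fun h0 => hi (by rw [h0]; rfl)
  have hz : z ≠ 0 := by
    rintro rfl
    exact rep_ne_zero L.BC b hu (by simpa using h)
  have h1 : L.BC b⁻¹ u = z⁻¹ • u := by
    have := rep_inv_apply L.BC b u
    rw [h, map_smul] at this
    rw [eq_inv_smul_iff₀ hz, this]
  have h2 := L.norm_le_of_eig h1 hi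
  rw [toR_inv, map_neg, Real.exp_neg, norm_inv] at h2
  exact (inv_le_inv₀ (norm_pos_iff.2 hz) (Real.exp_pos _)).1 h2

lemma Layer.repC_eq (L : Layer k) (b : Zk k) :
    (L.ρ b).map (Int.castRingHom ℂ) * L.Q.map Complex.ofRealHom =
      L.Q.map Complex.ofRealHom * (conjHom L.ρ L.Q_mul b).map Complex.ofRealHom := by
  have h1 : L.Q * conjHom L.ρ L.Q_mul b = (L.ρ b).map (Int.cast : ℤ → ℝ) * L.Q := by
    change L.Q * (L.Qi * (L.ρ b).map (Int.cast : ℤ → ℝ) * L.Q) = _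
    rw [← mul_assoc, ← mul_assoc, L.Q_mul, one_mul]
  rw [← Matrix.map_mul, h1, Matrix.map_mul]
  congr 1

lemma Layer.intertwine (L : Layer k) (b : Zk k) (u : Fin L.m → ℂ) :
    repC L.ρ b ((L.Q.map Complex.ofRealHom).mulVec u) =
      (L.Q.map Complex.ofRealHom).mulVec (L.BC b u) := by
  rw [repC_apply, Matrix.mulVec_mulVec, L.repC_eq, ← Matrix.mulVec_mulVec]
  rfl

lemma Layer.Q_Qi (L : Layer k) (v : Fin L.m → ℂ) :
    (L.Q.map Complex.ofRealHom).mulVec ((L.Qi.map Complex.ofRealHom).mulVec v) = v := by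
  rw [Matrix.mulVec_mulVec, ← Matrix.map_mul, L.Q_mul,
    Matrix.map_one _ (map_zero _) (map_one _), Matrix.one_mulVec]

lemma Layer.Qi_Q (L : Layer k) (v : Fin L.m → ℂ) :
    (L.Qi.map Complex.ofRealHom).mulVec ((L.Q.map Complex.ofRealHom).mulVec v) = v := by
  rw [Matrix.mulVec_mulVec, ← Matrix.map_mul, mul_eq_one_comm.1 L.Q_mul,
    Matrix.map_one _ (map_zero _) (map_one _), Matrix.one_mulVec]

/-- Every eigenvalue has the modulus of a weight. -/
lemma Layer.exists_wt_of_eig (L : Layer k) {b : Zk k} {z : ℂ}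
    (h : (repC L.ρ b).HasEigenvalue z) : ∃ i, ‖z‖ = Real.exp (L.wt i (toR b)) := by
  obtain ⟨v, hv1, hv0⟩ := h.exists_hasEigenvector
  have hv := Module.End.mem_eigenspace_iff.1 hv1
  let u := (L.Qi.map Complex.ofRealHom).mulVec v
  have hu : (L.Q.map Complex.ofRealHom).mulVec u = v := L.Q_Qi v
  have h1 : L.BC b u = z • u := by
    have h2 := L.intertwine b u
    rw [hu, hv] at h2
    rw [← L.Qi_Q (L.BC b u), ← h2, Matrix.mulVec_smul]
  have hu0 : u ≠ 0 := fun h0 => hv0 (by rw [← hu, h0, Matrix.mulVec_zero])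
  obtain ⟨i, hi⟩ := Function.ne_iff.1 hu0
  exact ⟨i, L.norm_eq_of_eig h1 hi⟩

/-- Every weight is the modulus of an eigenvalue. -/
lemma Layer.exists_eig_of_wt (L : Layer k) (b : Zk k) (i : Fin L.m) :
    ∃ z, (repC L.ρ b).HasEigenvalue z ∧ ‖z‖ = Real.exp (L.wt i (toR b)) := by
  classical
  let W : Submodule ℂ (Fin L.m → ℂ) :=
    { carrier := {u | ∀ j, L.wt j ≠ L.wt i → u j = 0}
      zero_mem' := fun _ _ => rfl
      add_mem' := fun ha hb j hj => by rw [Pi.add_apply, ha j hj, hb j hj, add_zero]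
      smul_mem' := fun c _ ha j hj => by rw [Pi.smul_apply, ha j hj, smul_zero] }
  have hmap : ∀ u ∈ W, L.BC b u ∈ W := by
    intro u hu j hj
    rw [Layer.BC_apply]
    refine Finset.sum_eq_zero fun l _ => ?_
    by_cases hl : L.wt l = L.wt i
    · have : L.B b j l = 0 := L.block b j l (hl ▸ hj)
      rw [this]; simp
    · rw [hu l hl, mul_zero]
  have hW : (Pi.single i 1 : Fin L.m → ℂ) ∈ W := fun j hj =>
    Pi.single_eq_of_ne (fun e => hj (by rw [e])) _
  have : Nontrivial W := ⟨⟨⟨_, hW⟩, 0, fun h => by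
    have := congrFun (congrArg Subtype.val h) i
    simp at this⟩⟩
  obtain ⟨z, hz⟩ := Module.End.exists_eigenvalue ((L.BC b).restrict hmap)
  obtain ⟨w, hw1, hw0⟩ := hz.exists_hasEigenvector
  have hw : (w : Fin L.m → ℂ) ≠ 0 := fun h => hw0 (Subtype.ext h)
  have hw2 : L.BC b w = z • (w : Fin L.m → ℂ) :=
    congrArg Subtype.val (Module.End.mem_eigenspace_iff.1 hw1)
  obtain ⟨j, hj⟩ := Function.ne_iff.1 hw
  have hji : L.wt j = L.wt i := by
    by_contra hne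
    exact hj (w.2 j hne)
  refine ⟨z, Module.End.hasEigenvalue_of_hasEigenvector
    (x := (L.Q.map Complex.ofRealHom).mulVec w) ⟨Module.End.mem_eigenspace_iff.2 ?_, ?_⟩, ?_⟩
  · rw [L.intertwine, hw2, Matrix.mulVec_smul]
  · intro h0
    apply hw
    rw [← L.Qi_Q w, h0, Matrix.mulVec_zero]
  · rw [← hji]; exact L.norm_eq_of_eig hw2 hj

/-- Eigenvalues of integer matrices with bounded spectrum lie in a finite set. -/
lemma exists_finite_eig {m : ℕ} {Γ : Type} [Monoid Γ] (ρ : Γ →* Matrix (Fin m) (Fin m) ℤ)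
    (R : ℝ) : ∃ F : Set ℂ, F.Finite ∧ ∀ b, (∀ z, (repC ρ b).HasEigenvalue z → ‖z‖ ≤ R) →
      ∀ z, (repC ρ b).HasEigenvalue z → z ∈ F := by
  classical
  obtain ⟨B, hB⟩ := exists_nat_ge (max R 1 ^ m * m.choose (m / 2))
  refine ⟨_, bUnion_roots_finite (Int.castRingHom ℂ) m (Set.finite_Icc (-(B : ℤ)) B),
    fun b hb z hz => ?_⟩
  have hiff : ∀ z, (repC ρ b).HasEigenvalue z ↔
      z ∈ ((ρ b).charpoly.map (Int.castRingHom ℂ)).roots := by
    intro z
    rw [Module.End.hasEigenvalue_iff_isRoot_charpoly,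
      mem_roots ((Matrix.charpoly_monic _).map _).ne_zero, ← Matrix.charpoly_map,
      ← Matrix.charpoly_toLin']
    rfl
  have hdeg : (ρ b).charpoly.natDegree ≤ m := by
    rw [Matrix.charpoly_natDegree_eq_dim, Fintype.card_fin]
  simp only [Set.mem_iUnion]
  refine ⟨(ρ b).charpoly, ⟨hdeg, fun i => ?_⟩, ?_⟩
  · have h1 := coeff_bdd_of_roots_le (Int.castRingHom ℂ) (Matrix.charpoly_monic (ρ b))
      (IsAlgClosed.splits _) hdeg (fun z hz => hb z ((hiff z).2 hz)) i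
    rw [coeff_map, eq_intCast, Complex.norm_intCast] at h1
    have h2 : |(((ρ b).charpoly.coeff i : ℤ) : ℝ)| ≤ B := h1.trans hB
    have h3 : |(ρ b).charpoly.coeff i| ≤ (B : ℤ) := by exact_mod_cast h2
    exact abs_le.1 h3
  · simpa using (hiff z).1 hz

lemma isNilpotent_pow_sub_one {V : Type} [AddCommGroup V] [Module ℂ V] [FiniteDimensional ℂ V]
    (f : Module.End ℂ V) (h : ∀ z, f.HasEigenvalue z → IsOfFinOrder z) :
    ∃ n : ℕ, n ≠ 0 ∧ IsNilpotent (f ^ n - 1) := by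
  have hmem : ∀ z ∈ f.charpoly.roots, IsOfFinOrder z := fun z hz =>
    h z ((Module.End.hasEigenvalue_iff_isRoot_charpoly f z).2 (isRoot_of_mem_roots hz))
  refine ⟨(f.charpoly.roots.map orderOf).prod, ?_, ?_⟩
  · refine Multiset.prod_ne_zero fun h0 => ?_
    obtain ⟨z, hz, hz0⟩ := Multiset.mem_map.1 h0
    exact (hmem z hz).orderOf_pos.ne' hz0
  · generalize hn : (f.charpoly.roots.map orderOf).prod = n
    have h1 : ∀ z ∈ f.charpoly.roots, X - C z ∣ (X ^ n - 1 : ℂ[X]) := by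
      intro z hz
      rw [dvd_iff_isRoot]
      have : orderOf z ∣ n := hn ▸ Multiset.dvd_prod (Multiset.mem_map_of_mem _ hz)
      simp [orderOf_dvd_iff_pow_eq_one.1 this]
    have h2 := Multiset.prod_dvd_prod_of_dvd (fun z => X - C z) (fun _ => (X ^ n - 1 : ℂ[X])) h1
    rw [← (IsAlgClosed.splits _).eq_prod_roots_of_monic f.charpoly_monic, Multiset.map_const',
      Multiset.prod_replicate] at h2
    obtain ⟨q, hq⟩ := h2
    refine ⟨f.charpoly.roots.card, ?_⟩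
    have h3 := congrArg (aeval f) hq
    rw [map_mul, LinearMap.aeval_self_charpoly, zero_mul] at h3
    simpa using h3

/-- Kronecker: an element with vanishing weights is virtually unipotent. -/
lemma Layer.unipotent (L : Layer k) {a : Zk k} (h : ∀ i, L.wt i (toR a) = 0) :
    ∃ n : ℕ, n ≠ 0 ∧ IsNilpotent (repC L.ρ (a ^ n) - 1) := by
  obtain ⟨F, hF, hb⟩ := exists_finite_eig L.ρ 1
  have h1 : ∀ (j : ℕ) z, (repC L.ρ (a ^ j)).HasEigenvalue z → ‖z‖ ≤ 1 := by
    intro j z hz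
    obtain ⟨i, hi⟩ := L.exists_wt_of_eig hz
    rw [hi, toR_pow, map_smul, h, smul_zero, Real.exp_zero]
  obtain ⟨n, hn, hnil⟩ := isNilpotent_pow_sub_one (repC L.ρ a) fun z hz => by
    obtain ⟨i, hi⟩ := L.exists_wt_of_eig hz
    have hz0 : z ≠ 0 := norm_pos_iff.1 (hi ▸ Real.exp_pos _)
    have h2 : ∀ j : ℕ, z ^ j ∈ F := fun j =>
      hb _ (h1 j) _ (by rw [map_pow]; exact hz.pow j)
    have := hF.to_subtype
    obtain ⟨i, j, hij, he⟩ := Finite.exists_ne_map_eq_of_infinite fun j : ℕ => (⟨_, h2 j⟩ : F)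
    have he' : z ^ i = z ^ j := congrArg Subtype.val he
    have key : ∀ i j : ℕ, i < j → z ^ i = z ^ j → IsOfFinOrder z := by
      intro i j hij he
      refine isOfFinOrder_iff_pow_eq_one.2 ⟨j - i, by omega, ?_⟩
      apply mul_left_cancel₀ (pow_ne_zero i hz0)
      rw [← pow_add, Nat.add_sub_cancel' hij.le, mul_one, he]
    rcases lt_or_gt_of_ne hij with h | h
    · exact key i j h he'
    · exact key j i h he'.symm
  exact ⟨n, hn, by rw [map_pow]; exact hnil⟩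

lemma Layer.finite_wt (L : Layer k) (i : Fin L.m) (R : ℝ) :
    {x | ∃ b : Zk k, (∀ j, L.wt j (toR b) ≤ R) ∧ L.wt i (toR b) = x}.Finite := by
  obtain ⟨F, hF, hb⟩ := exists_finite_eig L.ρ (Real.exp R)
  refine (hF.image fun z => Real.log ‖z‖).subset ?_
  rintro _ ⟨b, h1, rfl⟩
  obtain ⟨z, hz, hz'⟩ := L.exists_eig_of_wt b i
  refine ⟨z, hb b (fun y hy => ?_) z hz, by simp only [hz', Real.log_exp]⟩
  obtain ⟨j, hj⟩ := L.exists_wt_of_eig hy
  rw [hj]
  exact Real.exp_le_exp.2 (h1 j)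

lemma Tower.finite_wt {Γ : Type} [Group Γ] {π : Γ →* Zk k} {w : List (Wt k)} (T : Tower Γ π w)
    (R : ℝ) : ∀ χ ∈ w, {x | ∃ b : Zk k, (∀ χ' ∈ w, χ' (toR b) ≤ R) ∧ χ (toR b) = x}.Finite := by
  induction T with
  | base => intro χ h; simp at h
  | ext _ L E ih =>
    intro χ h
    rcases List.mem_append.1 h with h | h
    · obtain ⟨i, rfl⟩ := List.mem_ofFn.1 h
      refine (L.finite_wt i R).subset ?_
      rintro x ⟨b, h1, h2⟩
      exact ⟨b, fun j => h1 _ (List.mem_append_left _ (List.mem_ofFn.2 ⟨j, rfl⟩)), h2⟩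
    · refine (ih χ h).subset ?_
      rintro x ⟨b, h1, h2⟩
      exact ⟨b, fun χ' h' => h1 _ (List.mem_append_right _ h'), h2⟩

/-- If the weights do not separate points, they vanish at a non-zero lattice point. -/
lemma Tower.exists_null {Γ : Type} [Group Γ] {π : Γ →* Zk k} {w : List (Wt k)}
    (T : Tower Γ π w) (h : ¬ Definite w) : ∃ a : Zk k, a ≠ 1 ∧ ∀ χ ∈ w, χ (toR a) = 0 := by
  unfold Definite at h
  push Not at h
  obtain ⟨b0, hb0, hz⟩ := h
  obtain ⟨i0, hi0⟩ := Function.ne_iff.1 hb0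
  have hi0' : b0 i0 ≠ 0 := hi0
  let b1 : Rk k := (b0 i0)⁻¹ • b0
  have hb1 : b1 i0 = 1 := inv_mul_cancel₀ hi0'
  let a : ℕ → Zk k := fun n => Multiplicative.ofAdd fun i => ⌊(n : ℝ) * b1 i⌋
  obtain ⟨R, hR⟩ := ((List.finite_toSet w).image fun χ : Wt k => ‖χ‖).bddAbove
  have hbd : ∀ n, ∀ χ ∈ w, χ (toR (a n)) ≤ R := by
    intro n χ hχ
    have h1 : χ (toR (a n)) = χ (toR (a n) - (n : ℝ) • b1) := by
      rw [map_sub, map_smul, map_smul, hz χ hχ]; simp
    have h2 : ‖toR (a n) - (n : ℝ) • b1‖ ≤ 1 := by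
      refine (pi_norm_le_iff_of_nonneg zero_le_one).2 fun i => ?_
      change |((⌊(n : ℝ) * b1 i⌋ : ℤ) : ℝ) - n * b1 i| ≤ 1
      have h3 := Int.floor_le ((n : ℝ) * b1 i)
      have h4 := Int.lt_floor_add_one ((n : ℝ) * b1 i)
      rw [abs_le]; constructor <;> linarith
    have h3 : ‖χ‖ ≤ R := hR ⟨χ, hχ, rfl⟩
    rw [h1]
    refine (le_abs_self _).trans ((χ.le_opNorm _).trans ?_)
    exact (mul_le_of_le_one_right (norm_nonneg _) h2).trans h3
  have := (List.finite_toSet w).to_subtype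
  have : ∀ χ : {χ | χ ∈ w}, Finite {x | ∃ b : Zk k, (∀ χ' ∈ w, χ' (toR b) ≤ R) ∧
      (χ : Wt k) (toR b) = x} := fun χ => (T.finite_wt R χ χ.2).to_subtype
  obtain ⟨n, n', hne, he⟩ := Finite.exists_ne_map_eq_of_infinite
    fun (n : ℕ) (χ : {χ | χ ∈ w}) => (⟨(χ : Wt k) (toR (a n)), a n, hbd n, rfl⟩ :
      {x | ∃ b : Zk k, (∀ χ' ∈ w, χ' (toR b) ≤ R) ∧ (χ : Wt k) (toR b) = x})
  refine ⟨a n * (a n')⁻¹, fun h1 => hne ?_, fun χ hχ => ?_⟩
  · have h2 := congrFun (congrArg Multiplicative.toAdd (mul_inv_eq_one.1 h1)) i0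
    simpa [a, hb1] using h2
  · have h2 : χ (toR (a n)) = χ (toR (a n')) := congrArg Subtype.val (congrFun he ⟨χ, hχ⟩)
    rw [toR_mul, toR_inv, map_add, map_neg, h2, add_neg_cancel]

end Vale.Agent.P188
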