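import Vale.Agent.P188.TowerGrow

/-! Every integral representation of `ℤ^k` underlies a layer. -/

namespace Vale.Agent.P188

open Function

variable {k m : ℕ}

/-- Simultaneous generalised eigenspaces of the generators. -/
noncomputable def gE (ρ : Zk k →* Matrix (Fin m) (Fin m) ℤ) (μ : Fin k → ℂ) :
    Submodule ℂ (Fin m → ℂ) := ⨅ i, (repC ρ (eZ i)).maxGenEigenspace (μ i)

lemma repC_commute (ρ : Zk k →* Matrix (Fin m) (Fin m) ℤ) (a b : Zk k) :
    Commute (repC ρ a) (repC ρ b) := (Commute.all a b).map (repC ρ)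

lemma gE_inv (ρ : Zk k →* Matrix (Fin m) (Fin m) ℤ) (μ : Fin k → ℂ) (b : Zk k) :
    gE ρ μ ≤ (gE ρ μ).comap (repC ρ b) := by
  intro v hv
  refine (Submodule.mem_iInf _).2 fun i => ?_
  exact Module.End.mapsTo_maxGenEigenspace_of_comm (repC_commute ρ _ b) (μ i)
    ((Submodule.mem_iInf _).1 hv i)

lemma gE_indep (ρ : Zk k →* Matrix (Fin m) (Fin m) ℤ) : iSupIndep (gE ρ) :=
  Module.End.independent_iInf_maxGenEigenspace_of_forall_mapsTo (fun i => repC ρ (eZ i))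
    fun _ _ φ => Module.End.mapsTo_maxGenEigenspace_of_comm (repC_commute ρ _ _) φ

lemma gE_top (ρ : Zk k →* Matrix (Fin m) (Fin m) ℤ) : ⨆ μ, gE ρ μ = ⊤ :=
  Module.End.iSup_iInf_maxGenEigenspace_eq_top_of_forall_mapsTo (fun i => repC ρ (eZ i))
    (fun _ _ φ => Module.End.mapsTo_maxGenEigenspace_of_comm (repC_commute ρ _ _) φ)
    fun _ => Module.End.iSup_maxGenEigenspace_eq_top _

/-- Vectors with growth bounded by the weight `χ`. -/
def grS (ρ : Zk k →* Matrix (Fin m) (Fin m) ℤ) (χ : Wt k) : Submodule ℂ (Fin m → ℂ) where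
  carrier := {v | ∃ (C : ℝ) (d : ℕ), 0 ≤ C ∧ ∀ b, ‖repC ρ b v‖ ≤
    C * (1 + ‖toR b‖) ^ d * Real.exp (χ (toR b))}
  zero_mem' := ⟨0, 0, le_rfl, fun b => by simp⟩
  add_mem' := by
    rintro u v ⟨C1, d1, hC1, h1⟩ ⟨C2, d2, hC2, h2⟩
    refine ⟨C1 + C2, d1 + d2, by positivity, fun b => ?_⟩
    have h3 : (1 : ℝ) ≤ 1 + ‖toR b‖ := by simp
    rw [map_add, add_mul, add_mul]
    refine (norm_add_le _ _).trans (add_le_add ((h1 b).trans ?_) ((h2 b).trans ?_))
    · gcongr; omega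
    · gcongr; omega
  smul_mem' := by
    rintro c v ⟨C, d, hC, h⟩
    refine ⟨‖c‖ * C, d, by positivity, fun b => ?_⟩
    rw [map_smul, norm_smul, mul_assoc, mul_assoc, ← mul_assoc C]
    gcongr
    exact h b

lemma pow_apply_coe {V : Type} [AddCommGroup V] [Module ℂ V] {W : Submodule ℂ V}
    (φ : Module.End ℂ W) (ψ : Module.End ℂ V) (h : ∀ w, (φ w : V) = ψ w) (n : ℕ) :
    ∀ w, ((φ ^ n) w : V) = (ψ ^ n) w := by
  induction n with
  | zero => intro w; simp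
  | succ n ih => intro w; rw [pow_succ, pow_succ, Module.End.mul_apply, ih, h, Module.End.mul_apply]

lemma grow_end {W : Type} [NormedAddCommGroup W] [NormedSpace ℂ W] [FiniteDimensional ℂ W]
    (r' : Zk k →* Module.End ℂ W) {μ : Fin k → ℂ} (hμ : ∀ i, μ i ≠ 0)
    (h : ∀ i, IsNilpotent (r' (eZ i) - μ i • (1 : Module.End ℂ W))) :
    ∃ (C : ℝ) (d : ℕ), 0 ≤ C ∧ ∀ b w, ‖r' b w‖ ≤
      C * (1 + ‖toR b‖) ^ d * Real.exp (chi μ (toR b)) * ‖w‖ := by
  let T : Module.End ℂ W ≃ₐ[ℂ] (W →L[ℂ] W) := Module.End.toContinuousLinearMap W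
  let r : Zk k →* (W →L[ℂ] W) := T.toMulEquiv.toMonoidHom.comp r'
  have hnil : ∀ i, IsNilpotent (r (eZ i) - μ i • (1 : W →L[ℂ] W)) := by
    intro i
    have h2 := (h i).map T
    rw [map_sub, map_smul, map_one] at h2
    exact h2
  obtain ⟨C, d, hC, hb⟩ := grow_lat r hμ hnil
  refine ⟨C, d, hC, fun b w => ?_⟩
  have h1 : ‖r' b w‖ = ‖r b w‖ := rfl
  rw [h1]
  exact ((r b).le_opNorm _).trans (mul_le_mul_of_nonneg_right (hb b) (norm_nonneg _))

lemma gE_le_grS (ρ : Zk k →* Matrix (Fin m) (Fin m) ℤ) (μ : Fin k → ℂ) :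
    gE ρ μ ≤ grS ρ (chi μ) := by
  intro v hv
  by_cases hμ : ∀ i, μ i ≠ 0
  · let r' : Zk k →* Module.End ℂ (gE ρ μ) :=
      Representation.subrepresentation (repC ρ) (gE ρ μ) (gE_inv ρ μ)
    have hr' : ∀ b w, (r' b w : Fin m → ℂ) = repC ρ b w := fun b w => rfl
    have h1 : ∀ i, IsNilpotent (r' (eZ i) - μ i • (1 : Module.End ℂ (gE ρ μ))) := by
      intro i
      rw [Module.End.isNilpotent_iff_of_finite]
      intro w
      obtain ⟨n, hn⟩ := (Module.End.mem_maxGenEigenspace _ _ _).1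
        ((Submodule.mem_iInf _).1 w.2 i)
      refine ⟨n, Subtype.ext ?_⟩
      rw [pow_apply_coe _ (repC ρ (eZ i) - μ i • 1) (fun w => by simp [hr']) n w, hn]
      rfl
    obtain ⟨C, d, hC, hb⟩ := grow_end r' hμ h1
    refine ⟨C * ‖v‖, d, by positivity, fun b => ?_⟩
    have h2 : ‖repC ρ b v‖ ≤ _ * ‖v‖ := hb b ⟨v, hv⟩
    refine h2.trans (le_of_eq ?_)
    ring
  · push Not at hμ
    obtain ⟨i, hi⟩ := hμ
    obtain ⟨n, hn⟩ := (Module.End.mem_maxGenEigenspace _ _ _).1 ((Submodule.mem_iInf _).1 hv i)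
    rw [hi, zero_smul, sub_zero, ← map_pow] at hn
    have : v = 0 := by
      by_contra h
      exact rep_ne_zero _ _ h hn
    rw [this]; exact Submodule.zero_mem _

lemma repC_star (ρ : Zk k →* Matrix (Fin m) (Fin m) ℤ) (b : Zk k) (v : Fin m → ℂ) :
    repC ρ b (star v) = star (repC ρ b v) := by
  ext i
  simp [repC_apply, Matrix.mulVec, dotProduct]

lemma star_mem_gE (ρ : Zk k →* Matrix (Fin m) (Fin m) ℤ) (μ : Fin k → ℂ) {v : Fin m → ℂ}
    (hv : v ∈ gE ρ μ) : star v ∈ gE ρ (star μ) := by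
  refine (Submodule.mem_iInf _).2 fun i => ?_
  obtain ⟨n, hn⟩ := (Module.End.mem_maxGenEigenspace _ _ _).1 ((Submodule.mem_iInf _).1 hv i)
  refine (Module.End.mem_maxGenEigenspace _ _ _).2 ⟨n, ?_⟩
  have key : ∀ (n : ℕ) (v : Fin m → ℂ), ((repC ρ (eZ i) - star μ i • 1) ^ n) (star v) =
      star (((repC ρ (eZ i) - μ i • 1) ^ n) v) := by
    intro n
    induction n with
    | zero => intro v; simp
    | succ n ih =>
      intro v
      rw [pow_succ, pow_succ, Module.End.mul_apply, Module.End.mul_apply, ← ih]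
      congr 1
      simp [repC_star]
  rw [key, hn, star_zero]

lemma chi_star (μ : Fin k → ℂ) : chi (star μ) = chi μ := by
  simp [chi]

/-- The sum of the generalised eigenspaces of weight `χ`. -/
noncomputable def gW (ρ : Zk k →* Matrix (Fin m) (Fin m) ℤ) (χ : Wt k) :
    Submodule ℂ (Fin m → ℂ) := ⨆ μ ∈ {μ | chi μ = χ}, gE ρ μ

/-- A real vector as a complex vector. -/
def ofR : (Fin m → ℝ) →ₗ[ℝ] (Fin m → ℂ) where
  toFun v i := (v i : ℂ)
  map_add' x y := by ext i; simp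
  map_smul' c x := by ext i; simp

/-- Real weight spaces. -/
noncomputable def rW (ρ : Zk k →* Matrix (Fin m) (Fin m) ℤ) (χ : Wt k) :
    Submodule ℝ (Fin m → ℝ) := ((gW ρ χ).restrictScalars ℝ).comap ofR

lemma mem_rW {ρ : Zk k →* Matrix (Fin m) (Fin m) ℤ} {χ : Wt k} {v : Fin m → ℝ} :
    v ∈ rW ρ χ ↔ ofR v ∈ gW ρ χ := Iff.rfl

lemma gE_le_gW (ρ : Zk k →* Matrix (Fin m) (Fin m) ℤ) (μ : Fin k → ℂ) :
    gE ρ μ ≤ gW ρ (chi μ) :=
  le_iSup₂_of_le (f := fun μ' (_ : μ' ∈ {μ' | chi μ' = chi μ}) => gE ρ μ') μ rfl le_rfl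

lemma rW_indep (ρ : Zk k →* Matrix (Fin m) (Fin m) ℤ) : iSupIndep (rW ρ) := by
  intro χ
  rw [Submodule.disjoint_def]
  intro v h1 h2
  have hd : Disjoint (gW ρ χ) (⨆ μ ∈ {μ | chi μ ≠ χ}, gE ρ μ) :=
    (gE_indep ρ).disjoint_biSup_biSup (Set.disjoint_left.2 fun μ h h' => h' h)
  have h3 : (⨆ χ', ⨆ (_ : χ' ≠ χ), rW ρ χ') ≤
      ((⨆ μ ∈ {μ | chi μ ≠ χ}, gE ρ μ).restrictScalars ℝ).comap ofR := by
    refine iSup₂_le fun χ' hχ' x hx => ?_
    have : gW ρ χ' ≤ ⨆ μ ∈ {μ | chi μ ≠ χ}, gE ρ μ :=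
      biSup_mono fun μ (hμ : chi μ = χ') => (hμ ▸ hχ' : chi μ ≠ χ)
    exact this hx
  have h4 : ofR v = 0 := Submodule.disjoint_def.1 hd _ h1 (h3 h2)
  ext i
  exact Complex.ofReal_eq_zero.1 (congrFun h4 i)

lemma rW_top (ρ : Zk k →* Matrix (Fin m) (Fin m) ℤ) : ⨆ χ, rW ρ χ = ⊤ := by
  rw [eq_top_iff]
  intro u _
  have h : ∀ v : Fin m → ℂ, v ∈ ⨆ μ, gE ρ μ → (fun i => (v i).re) ∈ ⨆ χ, rW ρ χ := by
    intro v hv
    induction hv using Submodule.iSup_induction' with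
    | mem μ v hv =>
      refine Submodule.mem_iSup_of_mem (chi μ) (mem_rW.2 ?_)
      have h1 := gE_le_gW ρ μ hv
      have h2 := gE_le_gW ρ _ (star_mem_gE ρ μ hv)
      rw [chi_star] at h2
      have e : ofR (fun i => (v i).re) = (2⁻¹ : ℂ) • (v + star v) := by
        ext i
        simp only [ofR, LinearMap.coe_mk, AddHom.coe_mk, Pi.smul_apply, Pi.add_apply,
          Pi.star_apply, smul_eq_mul, Complex.star_def, Complex.add_conj]
        push_cast; ring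
      rw [e]
      exact Submodule.smul_mem _ _ (Submodule.add_mem _ h1 h2)
    | zero => exact Submodule.zero_mem _
    | add x y _ _ hx hy => exact Submodule.add_mem _ hx hy
  exact h (ofR u) (by rw [gE_top]; trivial)

lemma ofR_mulVec (ρ : Zk k →* Matrix (Fin m) (Fin m) ℤ) (b : Zk k) (x : Fin m → ℝ) :
    ofR (((ρ b).map (Int.cast : ℤ → ℝ)).mulVec x) = repC ρ b (ofR x) := by
  ext i
  simp [ofR, repC_apply, Matrix.mulVec, dotProduct]

lemma rW_inv (ρ : Zk k →* Matrix (Fin m) (Fin m) ℤ) (χ : Wt k) (b : Zk k) {x : Fin m → ℝ}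
    (hx : x ∈ rW ρ χ) : ((ρ b).map (Int.cast : ℤ → ℝ)).mulVec x ∈ rW ρ χ := by
  rw [mem_rW, ofR_mulVec]
  have : gW ρ χ ≤ (gW ρ χ).comap (repC ρ b) := by
    refine iSup₂_le fun μ hμ => (gE_inv ρ μ b).trans (Submodule.comap_mono ?_)
    rw [← show chi μ = χ from hμ]
    exact gE_le_gW ρ μ
  exact this hx

lemma rW_growth (ρ : Zk k →* Matrix (Fin m) (Fin m) ℤ) (χ : Wt k) {x : Fin m → ℝ}
    (hx : x ∈ rW ρ χ) : ∃ (C : ℝ) (d : ℕ), 0 ≤ C ∧ ∀ b,
      ‖((ρ b).map (Int.cast : ℤ → ℝ)).mulVec x‖ ≤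
        C * (1 + ‖toR b‖) ^ d * Real.exp (χ (toR b)) := by
  have : gW ρ χ ≤ grS ρ χ := iSup₂_le fun μ hμ => by
    rw [← show chi μ = χ from hμ]; exact gE_le_grS ρ μ
  obtain ⟨C, d, hC, h⟩ := this hx
  refine ⟨C, d, hC, fun b => le_trans ?_ (h b)⟩
  rw [← ofR_mulVec]
  refine (pi_norm_le_iff_of_nonneg (norm_nonneg _)).2 fun i => ?_
  refine le_trans (le_of_eq ?_) (norm_le_pi_norm _ i)
  simp [ofR]

lemma exists_weight_basis (ρ : Zk k →* Matrix (Fin m) (Fin m) ℤ) :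
    ∃ (e : Module.Basis (Fin m) ℝ (Fin m → ℝ)) (wt : Fin m → Wt k), (∀ i, e i ∈ rW ρ (wt i)) ∧
      ∀ χ, ∀ x ∈ rW ρ χ, ∀ i, wt i ≠ χ → e.repr x i = 0 := by
  classical
  have h := DirectSum.isInternal_submodule_of_iSupIndep_of_iSup_eq_top (rW_indep ρ) (rW_top ρ)
  let b0 := h.collectedBasis fun χ => Module.finBasis ℝ (rW ρ χ)
  let e := b0.indexEquiv (Pi.basisFun ℝ (Fin m))
  refine ⟨b0.reindex e, fun i => (e.symm i).1, fun i => ?_, fun χ x hx i hi => ?_⟩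
  · rw [Module.Basis.reindex_apply]
    exact h.collectedBasis_mem _ _
  · rw [Module.Basis.repr_reindex_apply]
    exact h.collectedBasis_repr_of_mem_ne _ hi.symm hx

lemma exists_layer_data (ρ : Zk k →* Matrix (Fin m) (Fin m) ℤ) :
    ∃ (Q Qi : Matrix (Fin m) (Fin m) ℝ) (wt : Fin m → Wt k), Q * Qi = 1 ∧
      (∀ b i j, wt i ≠ wt j → (Qi * (ρ b).map (Int.cast : ℤ → ℝ) * Q) i j = 0) ∧
      ∃ (C : ℝ) (d : ℕ), ∀ b i j, |(Qi * (ρ b).map (Int.cast : ℤ → ℝ) * Q) i j| ≤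
        C * (1 + ‖toR b‖) ^ d * Real.exp (wt i (toR b)) := by
  obtain ⟨e, wt, h1, h2⟩ := exists_weight_basis ρ
  have hent : ∀ (M : Matrix (Fin m) (Fin m) ℝ) i j,
      (LinearMap.toMatrix' e.equivFun.toLinearMap * M *
        LinearMap.toMatrix' e.equivFun.symm.toLinearMap) i j = e.repr (M.mulVec (e j)) i := by
    intro M i j
    conv_lhs => rw [← LinearMap.toMatrix'_toLin' M]
    rw [← LinearMap.toMatrix'_comp, ← LinearMap.toMatrix'_comp, LinearMap.toMatrix'_apply]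
    simp [Pi.single_apply]
  refine ⟨LinearMap.toMatrix' e.equivFun.symm.toLinearMap,
    LinearMap.toMatrix' e.equivFun.toLinearMap, wt, ?_, ?_, ?_⟩
  · rw [← LinearMap.toMatrix'_comp]; simp
  · intro b i j hij
    rw [hent]
    exact h2 _ _ (rW_inv ρ _ b (h1 j)) i hij
  · choose C d hC hb using fun j => rW_growth ρ _ (h1 j)
    let K : ℝ := ‖(e.equivFunL : (Fin m → ℝ) →L[ℝ] (Fin m → ℝ))‖
    have hK : ∀ x i, |e.repr x i| ≤ K * ‖x‖ := fun x i =>
      (norm_le_pi_norm (e.equivFunL x) i).trans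
        ((e.equivFunL : (Fin m → ℝ) →L[ℝ] (Fin m → ℝ)).le_opNorm x)
    have hK0 : 0 ≤ K := norm_nonneg _
    have hs : 0 ≤ ∑ j, C j := Finset.sum_nonneg fun j _ => hC j
    refine ⟨K * ∑ j, C j, ∑ j, d j, fun b i j => ?_⟩
    rw [hent]
    by_cases hij : wt i = wt j
    · refine (hK _ _).trans ?_
      rw [hij, mul_assoc, mul_assoc, ← mul_assoc (∑ j, C j)]
      gcongr
      refine (hb j b).trans ?_
      have h3 : (1 : ℝ) ≤ 1 + ‖toR b‖ := by simp
      gcongr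
      · exact Finset.single_le_sum (fun j _ => hC j) (Finset.mem_univ j)
      · exact Finset.single_le_sum (fun j _ => Nat.zero_le (d j)) (Finset.mem_univ j)
    · rw [h2 _ _ (rW_inv ρ _ b (h1 j)) i hij, abs_zero]
      positivity

/-- The action in a new basis, as a homomorphism. -/
def conjHom (ρ : Zk k →* Matrix (Fin m) (Fin m) ℤ) {Q Qi : Matrix (Fin m) (Fin m) ℝ}
    (h : Q * Qi = 1) : Zk k →* Matrix (Fin m) (Fin m) ℝ where
  toFun b := Qi * (ρ b).map (Int.cast : ℤ → ℝ) * Q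
  map_one' := by
    rw [map_one, Matrix.map_one _ Int.cast_zero Int.cast_one, mul_one, mul_eq_one_comm.1 h]
  map_mul' a b := by
    have : (ρ a * ρ b).map (Int.cast : ℤ → ℝ) =
        (ρ a).map (Int.cast : ℤ → ℝ) * (ρ b).map (Int.cast : ℤ → ℝ) :=
      Matrix.map_mul (f := Int.castRingHom ℝ)
    rw [map_mul, this]
    simp only [mul_assoc]
    rw [← mul_assoc Q Qi, h, one_mul]

/-- A diagonal block of a block-diagonal action. -/
def blockHom {ι : Type} [Fintype ι] [DecidableEq ι] (β : Zk k →* Matrix ι ι ℝ) (p : ι → Prop)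
    [DecidablePred p] (h : ∀ b i j, p i → ¬ p j → β b i j = 0) :
    Zk k →* Matrix {i // p i} {i // p i} ℝ where
  toFun b := (β b).toSquareBlockProp p
  map_one' := by rw [map_one]; exact Matrix.toBlock_one_self p
  map_mul' a b := by
    have h0 : ((β a).toBlock p fun i => ¬ p i) = 0 := by
      ext i j; exact h a i j i.2 j.2
    rw [map_mul]
    change (β a * β b).toBlock p p = _
    rw [Matrix.toBlock_mul_eq_add p p p, h0, Matrix.zero_mul, add_zero]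
    rfl

lemma wt_eq_zero (s : Wt k) (h : ∀ b, s (toR b) = 0) : s = 0 := by
  ext1 x
  rw [← Finset.univ_sum_single x, map_sum]
  refine Finset.sum_eq_zero fun i _ => ?_
  have e : (Pi.single i (x i) : Rk k) = x i • toR (eZ i) := by
    rw [toR_eZ, ← Pi.single_smul, smul_eq_mul, mul_one]
  rw [e, map_smul, h, smul_zero]

/-- Every integral representation of the lattice comes from a layer. -/
lemma exists_layer (ρ : Zk k →* Matrix (Fin m) (Fin m) ℤ) {P : Layer k → Prop}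
    (hP : ∀ Q Qi h1 wt h2 h3 h4 h5, P ⟨m, ρ, Q, Qi, h1, wt, h2, h3, h4, h5⟩) : ∃ L, P L := by
  obtain ⟨Q, Qi, wt, h1, h2, C, d, h3⟩ := exists_layer_data ρ
  refine ⟨_, hP Q Qi h1 wt h2 ⟨C, d, h3⟩ ?_ ?_⟩
  · intro b p _ hp
    have := abs_det_of_growth (blockHom (conjHom ρ h1) p fun b i j hi hj =>
      h2 b i j fun e => hj ((hp i j e).1 hi)) (fun i => wt i) (C := C) (d := d)
      (fun b i j => h3 b i j) b
    rw [Finset.sum_subtype (p := p) (Finset.univ.filter p) (by simp) fun i => wt i (toR b)]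
    exact this
  · refine wt_eq_zero _ fun b => ?_
    have h4 := abs_det_of_growth (conjHom ρ h1) wt h3 b
    have h5 : (conjHom ρ h1 b).det = ((ρ b).det : ℝ) := by
      change (Qi * (ρ b).map (Int.cast : ℤ → ℝ) * Q).det = _
      rw [Matrix.det_mul_comm, ← mul_assoc, h1, one_mul]
      exact (RingHom.map_det (Int.castRingHom ℝ) (ρ b)).symm
    have h6 : (ρ b).det * (ρ b⁻¹).det = 1 := by
      rw [← Matrix.det_mul, ← map_mul, mul_inv_cancel, map_one, Matrix.det_one]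
    have h7 : |((ρ b).det : ℝ)| = 1 := by
      rcases Int.eq_one_or_neg_one_of_mul_eq_one h6 with h | h <;> simp [h]
    rw [h5, h7, eq_comm, Real.exp_eq_one_iff] at h4
    rw [sum_apply, h4]

end Vale.Agent.P188
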