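import Vale.Agent.P188.TowerPC

/-! Malcev's theorem: polycyclic linear groups are virtually triangularisable. -/

namespace Vale.Agent.P188

open Function

variable {G : Type} [Group G] {V : Type} [AddCommGroup V] [Module ℂ V]

lemma rep_inv_apply (ρ : G →* Module.End ℂ V) (x : G) (v : V) : ρ x⁻¹ (ρ x v) = v := by
  rw [← Module.End.mul_apply, ← map_mul, inv_mul_cancel, map_one, Module.End.one_apply]

lemma rep_mul_apply (ρ : G →* Module.End ℂ V) (x y : G) (v : V) :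
    ρ (x * y) v = ρ x (ρ y v) := by
  rw [map_mul, Module.End.mul_apply]

lemma rep_ne_zero (ρ : G →* Module.End ℂ V) (x : G) {v : V} (hv : v ≠ 0) : ρ x v ≠ 0 := by
  intro h
  apply hv
  rw [← rep_inv_apply ρ x v, h, map_zero]

/-- Elements acting on `u` and `u'` by the same scalar. -/
def eigS (ρ : G →* Module.End ℂ V) (u u' : V) (hu : u ≠ 0) : Subgroup G where
  carrier := {x | ∃ c : ℂ, ρ x u = c • u ∧ ρ x u' = c • u'}
  one_mem' := ⟨1, by simp, by simp⟩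
  mul_mem' := by
    rintro x y ⟨c, h1, h2⟩ ⟨d, h3, h4⟩
    refine ⟨d * c, ?_, ?_⟩
    · rw [rep_mul_apply, h3, map_smul, h1, smul_smul]
    · rw [rep_mul_apply, h4, map_smul, h2, smul_smul]
  inv_mem' := by
    rintro x ⟨c, h1, h2⟩
    have hc : c ≠ 0 := by
      rintro rfl
      exact rep_ne_zero ρ x hu (by simpa using h1)
    refine ⟨c⁻¹, ?_, ?_⟩
    · have := rep_inv_apply ρ x u
      rw [h1, map_smul] at this
      rw [eq_inv_smul_iff₀ hc, this]
    · have := rep_inv_apply ρ x u'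
      rw [h2, map_smul] at this
      rw [eq_inv_smul_iff₀ hc, this]

/-- The weight space of `T` through the vector `u`. -/
def wtSp (ρ : G →* Module.End ℂ V) (T : Subgroup G) (u : V) : Submodule ℂ V where
  carrier := {w | ∀ x ∈ T, ∀ c : ℂ, ρ x u = c • u → ρ x w = c • w}
  zero_mem' := by intro x _ c _; simp
  add_mem' := by
    intro a b ha hb x hx c hc
    rw [map_add, ha x hx c hc, hb x hx c hc, smul_add]
  smul_mem' := by
    intro r a ha x hx c hc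
    rw [map_smul, ha x hx c hc, smul_comm]

lemma exists_pow_wtSp [FiniteDimensional ℂ V] (ρ : G →* Module.End ℂ V) {T : Subgroup G}
    (hT : T.FG) {t : G} (hn : ∀ j : ℕ, ∀ x ∈ T, (t ^ j)⁻¹ * x * t ^ j ∈ T) {v : V} (hv : v ≠ 0)
    (he : ∀ x ∈ T, ∃ c : ℂ, ρ x v = c • v) :
    ∃ (u : V) (n : ℕ), u ≠ 0 ∧ n ≠ 0 ∧ (∀ x ∈ T, ∃ c : ℂ, ρ x u = c • u) ∧
      ρ (t ^ n) u ∈ wtSp ρ T u := by
  obtain ⟨S, hS⟩ := hT
  have he' : ∀ j : ℕ, ∀ x ∈ T, ∃ c : ℂ, ρ x (ρ (t ^ j) v) = c • ρ (t ^ j) v := by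
    intro j x hx
    obtain ⟨c, hc⟩ := he _ (hn j x hx)
    refine ⟨c, ?_⟩
    rw [← map_smul, ← hc, ← rep_mul_apply, ← rep_mul_apply]
    congr 2
    group
  have hST : ∀ s : S, (s : G) ∈ T := fun s => hS ▸ Subgroup.subset_closure s.2
  choose lam hlam using fun (j : ℕ) (s : S) => he' j s (hST s)
  have : ∀ s : S, Finite {c : ℂ // (ρ s).HasEigenvalue c} :=
    fun s => (Module.End.finite_hasEigenvalue (ρ s)).to_subtype
  let f : ℕ → (∀ s : S, {c : ℂ // (ρ s).HasEigenvalue c}) := fun j s =>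
    ⟨lam j s, Module.End.hasEigenvalue_of_hasEigenvector
      ⟨Module.End.mem_eigenspace_iff.2 (hlam j s), rep_ne_zero ρ _ hv⟩⟩
  obtain ⟨i, j, hij, hf⟩ : ∃ i j, i < j ∧ f i = f j := by
    obtain ⟨i, j, hij, hf⟩ := Finite.exists_ne_map_eq_of_infinite f
    rcases lt_or_gt_of_ne hij with h | h
    · exact ⟨i, j, h, hf⟩
    · exact ⟨j, i, h, hf.symm⟩
  have hu : ρ (t ^ i) v ≠ 0 := rep_ne_zero ρ _ hv
  have hle : T ≤ eigS ρ (ρ (t ^ i) v) (ρ (t ^ j) v) hu := by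
    rw [← hS, Subgroup.closure_le]
    intro s hs
    have h1 : lam i ⟨s, hs⟩ = lam j ⟨s, hs⟩ := congrArg Subtype.val (congrFun hf ⟨s, hs⟩)
    exact ⟨lam i ⟨s, hs⟩, hlam i ⟨s, hs⟩, h1 ▸ hlam j ⟨s, hs⟩⟩
  refine ⟨ρ (t ^ i) v, j - i, hu, by omega, he' i, ?_⟩
  rw [← rep_mul_apply, ← pow_add, Nat.sub_add_cancel hij.le]
  intro x hx c hc
  obtain ⟨d, h1, h2⟩ := hle hx
  have : c = d := smul_left_injective ℂ hu (hc.symm.trans h1)
  rw [this, h2]

/-- A finite-index subgroup has a common eigenvector. -/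
lemma PCS.eigv [FiniteDimensional ℂ V] [Nontrivial V] (ρ : G →* Module.End ℂ V)
    {K : Subgroup G} (h : PCS K) :
    ∃ T ≤ K, FinCov T K ∧ ∃ v : V, v ≠ 0 ∧ ∀ x ∈ T, ∃ c : ℂ, ρ x v = c • v := by
  induction h with
  | bot =>
    obtain ⟨v, hv⟩ := exists_ne (0 : V)
    refine ⟨⊥, le_rfl, FinCov.refl _, v, hv, fun x hx => ⟨1, ?_⟩⟩
    rw [Subgroup.mem_bot.1 hx]; simp
  | @step H K t hH hle ht hn hg ih =>
    obtain ⟨T, -, hcov, v, hv, he⟩ := ih
    obtain ⟨T0, hT0, hT0H, hcov0, hinv⟩ := exists_core hH.fg hcov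
    have hn0 : ∀ k ∈ K, ∀ x ∈ T0, k * x * k⁻¹ ∈ T0 := fun k hk => hinv k (hn k hk)
    have hn1 : ∀ j : ℕ, ∀ x ∈ T0, (t ^ j)⁻¹ * x * t ^ j ∈ T0 := fun j x hx => by
      simpa using hn0 _ (K.inv_mem (K.pow_mem ht j)) x hx
    obtain ⟨u, n, hu, hn', heu, hW⟩ :=
      exists_pow_wtSp ρ (hH.of_le hT0H).fg hn1 hv fun x hx => he x (hT0 hx)
    have hmap : ∀ w ∈ wtSp ρ T0 u, ρ (t ^ n) w ∈ wtSp ρ T0 u := by
      intro w hw x hx c hc
      have h1 := hW x hx c hc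
      have h2 : ρ ((t ^ n)⁻¹ * x * t ^ n) u = c • u := by
        rw [rep_mul_apply, rep_mul_apply, h1, map_smul, rep_inv_apply]
      have h3 := hw _ (hn1 n x hx) c h2
      rw [← map_smul, ← h3, ← rep_mul_apply, ← rep_mul_apply]
      congr 2
      group
    have : Nontrivial (wtSp ρ T0 u) :=
      ⟨⟨⟨u, fun x _ c hc => hc⟩, 0, fun h => hu (congrArg Subtype.val h)⟩⟩
    obtain ⟨c, hc⟩ := Module.End.exists_eigenvalue ((ρ (t ^ n)).restrict hmap)
    obtain ⟨w, hw1, hw0⟩ := hc.exists_hasEigenvector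
    have hw : (w : V) ≠ 0 := fun h => hw0 (Subtype.ext h)
    have hw2 : ρ (t ^ n) w = c • (w : V) :=
      congrArg Subtype.val (Module.End.mem_eigenspace_iff.1 hw1)
    have hn2 : ∀ j : ℤ, ∀ h ∈ T0, (t ^ n) ^ j * h * ((t ^ n) ^ j)⁻¹ ∈ T0 :=
      fun j h hh => hn0 _ (K.zpow_mem (K.pow_mem ht n) j) h hh
    refine ⟨extS T0 (t ^ n) hn2, ?_, finCov_extS ht hg hcov0 hn0 hn' hn2, w, hw, ?_⟩
    · intro x hx
      obtain ⟨j, hj⟩ := mem_extS.1 hx
      simpa using K.mul_mem (hle (hT0H hj)) (K.zpow_mem (K.pow_mem ht n) j)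
    · intro x hx
      obtain ⟨j, hj⟩ := mem_extS.1 hx
      have h1 : x * ((t ^ n) ^ j)⁻¹ ∈ eigS ρ w w hw := by
        obtain ⟨d, hd⟩ := heu _ hj
        exact ⟨d, w.2 _ hj d hd, w.2 _ hj d hd⟩
      have h2 : t ^ n ∈ eigS ρ w w hw := ⟨c, hw2, hw2⟩
      have h3 := Subgroup.mul_mem _ h1 (Subgroup.zpow_mem _ h2 j)
      rw [inv_mul_cancel_right] at h3
      obtain ⟨d, hd, -⟩ := h3
      exact ⟨d, hd⟩

/-- Flags of `S`-invariant subspaces on whose factors `N` acts trivially. -/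
inductive Fl (ρ : G →* Module.End ℂ V) (S N : Subgroup G) : Submodule ℂ V → Prop
  | bot : Fl ρ S N ⊥
  | step {W W' : Submodule ℂ V} : Fl ρ S N W → W ≤ W' → (∀ s ∈ S, ∀ v ∈ W', ρ s v ∈ W') →
      (∀ n ∈ N, ∀ v ∈ W', ρ n v - v ∈ W) → Fl ρ S N W'

lemma Fl.mono {ρ : G →* Module.End ℂ V} {S N S' N' : Subgroup G} {W : Submodule ℂ V}
    (h : Fl ρ S N W) (hS : S' ≤ S) (hN : N' ≤ N) : Fl ρ S' N' W := by
  induction h with
  | bot => exact Fl.bot
  | step _ hle h1 h2 ih => exact Fl.step ih hle (fun s hs => h1 s (hS hs)) fun n hn => h2 n (hN hn)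

lemma Fl.inv {ρ : G →* Module.End ℂ V} {S N : Subgroup G} {W : Submodule ℂ V}
    (h : Fl ρ S N W) : ∀ s ∈ S, ∀ v ∈ W, ρ s v ∈ W := by
  cases h with
  | bot => intro s _ v hv; rw [(Submodule.mem_bot ℂ).1 hv]; simp
  | step _ _ h1 _ => exact h1

lemma commutator_fix (ρ : G →* Module.End ℂ V) {T : Subgroup G} {v : V}
    (he : ∀ x ∈ T, ∃ c : ℂ, ρ x v = c • v) : ∀ x ∈ ⁅T, T⁆, ρ x v = v := by
  let Z : Subgroup G :=
    { carrier := {x | ρ x v = v}
      one_mem' := by simp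
      mul_mem' := by
        intro a b ha hb
        have ha' : ρ a v = v := ha
        have hb' : ρ b v = v := hb
        change ρ (a * b) v = v
        rw [rep_mul_apply, hb', ha']
      inv_mem' := by
        intro a ha
        have ha' : ρ a v = v := ha
        change ρ a⁻¹ v = v
        have := rep_inv_apply ρ a v
        rwa [ha'] at this }
  have : ⁅T, T⁆ ≤ Z := by
    rw [Subgroup.commutator_le]
    intro x hx y hy
    obtain ⟨c, hc⟩ := he x hx
    obtain ⟨d, hd⟩ := he y hy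
    obtain ⟨e, he'⟩ := he _ (T.inv_mem (T.mul_mem hy hx))
    have h1 : ρ (x * y) v = ρ (y * x) v := by
      rw [rep_mul_apply, rep_mul_apply, hc, hd, map_smul, map_smul, hc, hd, smul_comm]
    have h2 := rep_inv_apply ρ (y * x)⁻¹ v
    rw [inv_inv, he', map_smul, ← h1, ← map_smul, ← he', ← rep_mul_apply] at h2
    change ρ (x * y * x⁻¹ * y⁻¹) v = v
    rwa [mul_inv_rev, ← mul_assoc] at h2
  exact fun x hx => this hx

lemma Fl.grow [FiniteDimensional ℂ V] (hG : PCS (⊤ : Subgroup G)) {ρ : G →* Module.End ℂ V}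
    {S : Subgroup G} (hS : S.FiniteIndex) {W : Submodule ℂ V} (h : Fl ρ S ⁅S, S⁆ W)
    (hW : W ≠ ⊤) : ∃ (S' : Subgroup G) (W' : Submodule ℂ V), S'.FiniteIndex ∧
      Fl ρ S' ⁅S', S'⁆ W' ∧ W < W' := by
  have hinv : ∀ s : S, W ≤ W.comap ((ρ.comp S.subtype) s) := fun s v hv => h.inv s s.2 v hv
  let ρ' : S →* Module.End ℂ (V ⧸ W) := Representation.quotient (ρ.comp S.subtype) W hinv
  have hρ' : ∀ (s : S) (v : V), ρ' s (W.mkQ v) = W.mkQ (ρ s v) := fun s v => rfl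
  have : Nontrivial (V ⧸ W) := Submodule.Quotient.nontrivial_iff.2 hW
  obtain ⟨T, -, hcov, vb, hvb, he⟩ :=
    (hG.top_of_injective S.subtype S.subtype_injective).eigv ρ'
  obtain ⟨v, rfl⟩ := W.mkQ_surjective vb
  have hT := finCov_top_iff.1 hcov
  have hS' : T.map S.subtype ≤ S := Subgroup.map_subtype_le _
  have hvW : v ∉ W := fun hv => hvb ((Submodule.Quotient.mk_eq_zero W).2 hv)
  refine ⟨T.map S.subtype, W ⊔ ℂ ∙ v, ⟨?_⟩, ?_, ?_⟩
  · rw [Subgroup.index_map_subtype]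
    exact mul_ne_zero hT.1 hS.1
  · refine Fl.step (h.mono hS' (Subgroup.commutator_mono hS' hS')) le_sup_left ?_ ?_
    · rintro _ ⟨s, hs, rfl⟩ u hu
      obtain ⟨a, ha, b, hb, rfl⟩ := Submodule.mem_sup.1 hu
      obtain ⟨r, rfl⟩ := Submodule.mem_span_singleton.1 hb
      obtain ⟨c, hc⟩ := he s hs
      rw [hρ', ← map_smul, ← sub_eq_zero, ← map_sub] at hc
      have hc' : ρ s v - c • v ∈ W := (Submodule.Quotient.mk_eq_zero W).1 hc
      have e : ρ (S.subtype s) (a + r • v) = (ρ s a + r • (ρ s v - c • v)) + (r * c) • v := by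
        simp only [Subgroup.subtype_apply, map_add, map_smul, smul_sub, smul_smul]
        abel
      rw [e]
      exact Submodule.add_mem_sup (W.add_mem (h.inv s s.2 a ha) (W.smul_mem r hc'))
        (Submodule.smul_mem _ _ (Submodule.mem_span_singleton_self v))
    · intro n hn u hu
      rw [← Subgroup.map_commutator] at hn
      obtain ⟨s, hs, rfl⟩ := hn
      obtain ⟨a, ha, b, hb, rfl⟩ := Submodule.mem_sup.1 hu
      obtain ⟨r, rfl⟩ := Submodule.mem_span_singleton.1 hb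
      have hc := commutator_fix ρ' he s hs
      rw [hρ', ← sub_eq_zero, ← map_sub] at hc
      have hc' : ρ s v - v ∈ W := (Submodule.Quotient.mk_eq_zero W).1 hc
      have e : ρ (S.subtype s) (a + r • v) - (a + r • v) = (ρ s a - a) + r • (ρ s v - v) := by
        simp only [Subgroup.subtype_apply, map_add, map_smul, smul_sub]
        abel
      rw [e]
      exact W.add_mem (W.sub_mem (h.inv s s.2 a ha) ha) (W.smul_mem r hc')
  · refine lt_of_le_of_ne le_sup_left fun heq => hvW ?_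
    rw [heq]
    exact Submodule.mem_sup_right (Submodule.mem_span_singleton_self v)

/-- Malcev's theorem. -/
lemma malcev [FiniteDimensional ℂ V] (hG : PCS (⊤ : Subgroup G)) (ρ : G →* Module.End ℂ V) :
    ∃ S : Subgroup G, S.FiniteIndex ∧ Fl ρ S ⁅S, S⁆ ⊤ := by
  suffices H : ∀ W : Submodule ℂ V, ∀ S : Subgroup G, S.FiniteIndex → Fl ρ S ⁅S, S⁆ W →
      ∃ S : Subgroup G, S.FiniteIndex ∧ Fl ρ S ⁅S, S⁆ ⊤ from
    H ⊥ ⊤ inferInstance Fl.bot
  intro W
  induction W using WellFoundedGT.induction with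
  | ind W ih =>
    intro S hS h
    by_cases hW : W = ⊤
    · exact ⟨S, hS, hW ▸ h⟩
    · obtain ⟨S', W', h1, h2, h3⟩ := h.grow hG hS hW
      exact ih W' h3 S' h1 h2

end Vale.Agent.P188
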