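import Vale.Agent.P188.Stmts

/-! Polycyclic subgroups: closure properties, finite covers, virtual torsion-freeness. -/

namespace Vale.Agent.P188

open Function

/-- Polycyclic subgroups of a fixed group. -/
inductive PCS {G : Type} [Group G] : Subgroup G → Prop
  | bot : PCS ⊥
  | step {H K : Subgroup G} (t : G) : PCS H → H ≤ K → t ∈ K →
      (∀ k ∈ K, ∀ h ∈ H, k * h * k⁻¹ ∈ H) →
      (∀ k ∈ K, ∃ j : ℤ, k * (t ^ j)⁻¹ ∈ H) → PCS K

variable {G G' : Type} [Group G] [Group G']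

/-- Pairs `(g, j)` with `g ∈ H t ^ j`. -/
def pairS (H : Subgroup G) (t : G) (hn : ∀ j : ℤ, ∀ h ∈ H, t ^ j * h * (t ^ j)⁻¹ ∈ H) :
    Subgroup (G × Multiplicative ℤ) where
  carrier := {p | p.1 * (t ^ (Multiplicative.toAdd p.2))⁻¹ ∈ H}
  one_mem' := by simp
  mul_mem' := by
    rintro ⟨a, i⟩ ⟨b, j⟩ ha hb
    have h := H.mul_mem ha (hn (Multiplicative.toAdd i) _ hb)
    simp only [Set.mem_ofPred_eq, Prod.mk_mul_mk, toAdd_mul, zpow_add] at h ⊢
    have e : a * b * (t ^ Multiplicative.toAdd i * t ^ Multiplicative.toAdd j)⁻¹ =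
        a * (t ^ Multiplicative.toAdd i)⁻¹ * (t ^ Multiplicative.toAdd i *
          (b * (t ^ Multiplicative.toAdd j)⁻¹) * (t ^ Multiplicative.toAdd i)⁻¹) := by group
    rw [e]; exact h
  inv_mem' := by
    rintro ⟨a, i⟩ ha
    have h := hn (-Multiplicative.toAdd i) _ (H.inv_mem ha)
    simp only [Set.mem_ofPred_eq, Prod.inv_mk, toAdd_inv] at h ⊢
    have e : a⁻¹ * (t ^ (-Multiplicative.toAdd i))⁻¹ =
        t ^ (-Multiplicative.toAdd i) * (a * (t ^ Multiplicative.toAdd i)⁻¹)⁻¹ *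
          (t ^ (-Multiplicative.toAdd i))⁻¹ := by group
    rw [e]; exact h

lemma mem_pairS {H : Subgroup G} {t : G} {hn} {a : G} {j : ℤ} :
    (a, Multiplicative.ofAdd j) ∈ pairS H t hn ↔ a * (t ^ j)⁻¹ ∈ H := Iff.rfl

/-- The subgroup `H ⟨t⟩`. -/
def extS (H : Subgroup G) (t : G) (hn : ∀ j : ℤ, ∀ h ∈ H, t ^ j * h * (t ^ j)⁻¹ ∈ H) :
    Subgroup G := (pairS H t hn).map (MonoidHom.fst _ _)

lemma mem_extS {H : Subgroup G} {t : G} {hn} {a : G} :
    a ∈ extS H t hn ↔ ∃ j : ℤ, a * (t ^ j)⁻¹ ∈ H := by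
  constructor
  · rintro ⟨⟨b, j⟩, h, rfl⟩
    exact ⟨Multiplicative.toAdd j, h⟩
  · rintro ⟨j, h⟩
    exact ⟨(a, Multiplicative.ofAdd j), h, rfl⟩

lemma PCS.map {K : Subgroup G} (h : PCS K) (f : G →* G') : PCS (K.map f) := by
  induction h with
  | bot => rw [Subgroup.map_bot]; exact PCS.bot
  | @step H K t _ hle ht hn hg ih =>
    refine PCS.step (f t) ih (Subgroup.map_mono hle) ⟨t, ht, rfl⟩ ?_ ?_
    · rintro _ ⟨k, hk, rfl⟩ _ ⟨h, hh, rfl⟩
      exact ⟨k * h * k⁻¹, hn k hk h hh, by simp⟩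
    · rintro _ ⟨k, hk, rfl⟩
      obtain ⟨j, hj⟩ := hg k hk
      exact ⟨j, k * (t ^ j)⁻¹, hj, by simp⟩

lemma PCS.comap {K : Subgroup G} (h : PCS K) (f : G' →* G) (hf : Injective f) :
    PCS (K.comap f) := by
  induction h with
  | bot =>
    rw [MonoidHom.comap_bot, (MonoidHom.ker_eq_bot_iff f).2 hf]; exact PCS.bot
  | @step H K t _ hle ht hn hg ih =>
    have hn' : ∀ j : ℤ, ∀ h ∈ H, t ^ j * h * (t ^ j)⁻¹ ∈ H :=
      fun j h hh => hn _ (K.zpow_mem ht j) h hh
    let A : Subgroup (Multiplicative ℤ) :=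
      ((pairS H t hn').comap (f.prodMap (MonoidHom.id _))).map (MonoidHom.snd _ _)
    obtain ⟨d, hd⟩ := Int.subgroup_cyclic (Subgroup.toAddSubgroup' A)
    have hdA : d ∈ Subgroup.toAddSubgroup' A := by
      rw [hd]; exact AddSubgroup.subset_closure rfl
    obtain ⟨⟨x0, d'⟩, hx0, hd'⟩ : Multiplicative.ofAdd d ∈ A := hdA
    have hd'' : d' = Multiplicative.ofAdd d := hd'
    rw [hd''] at hx0
    have hx0' : (f x0, Multiplicative.ofAdd d) ∈ pairS H t hn' := hx0
    refine PCS.step x0 ih (Subgroup.comap_mono hle) ?_ ?_ ?_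
    · have h1 : f x0 * (t ^ d)⁻¹ ∈ K := hle hx0'
      have h2 := K.mul_mem h1 (K.zpow_mem ht d)
      simpa using h2
    · intro k hk h hh
      have := hn (f k) hk (f h) hh
      simpa using this
    · intro k hk
      obtain ⟨j, hj⟩ := hg (f k) hk
      have hjA : j ∈ Subgroup.toAddSubgroup' A := ⟨(k, Multiplicative.ofAdd j), hj, rfl⟩
      rw [hd, AddSubgroup.mem_closure_singleton] at hjA
      obtain ⟨q, hq⟩ := hjA
      refine ⟨q, ?_⟩
      have h1 : (f k, Multiplicative.ofAdd j) ∈ pairS H t hn' := hj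
      have h2 := (pairS H t hn').mul_mem h1
        ((pairS H t hn').inv_mem ((pairS H t hn').zpow_mem hx0' q))
      have e : (f k, Multiplicative.ofAdd j) * ((f x0, Multiplicative.ofAdd d) ^ q)⁻¹ =
          (f (k * (x0 ^ q)⁻¹), Multiplicative.ofAdd (0 : ℤ)) := by
        ext
        · simp
        · subst hq; simp [mul_comm]
      rw [e, mem_pairS] at h2
      simpa using h2

lemma PCS.fg {K : Subgroup G} (h : PCS K) : K.FG := by
  classical
  induction h with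
  | bot => exact Subgroup.FG.bot
  | @step H K t _ hle ht hn hg ih =>
    obtain ⟨S, hS⟩ := ih
    refine ⟨insert t S, le_antisymm ?_ ?_⟩
    · rw [Subgroup.closure_le, Finset.coe_insert]
      rintro x (rfl | hx)
      · exact ht
      · exact hle (hS ▸ Subgroup.subset_closure hx)
    · intro k hk
      obtain ⟨j, hj⟩ := hg k hk
      have h1 : k * (t ^ j)⁻¹ ∈ Subgroup.closure ((insert t S : Finset G) : Set G) := by
        rw [← hS] at hj
        exact Subgroup.closure_mono (by simp) hj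
      have h2 : t ^ j ∈ Subgroup.closure ((insert t S : Finset G) : Set G) :=
        Subgroup.zpow_mem _ (Subgroup.subset_closure (by simp)) j
      simpa using Subgroup.mul_mem _ h1 h2

lemma PCS.of_le {K M : Subgroup G} (h : PCS K) (hM : M ≤ K) : PCS M := by
  have h1 := (h.comap M.subtype M.subtype_injective).map M.subtype
  have e : (K.comap M.subtype).map M.subtype = M := by
    rw [Subgroup.map_comap_eq, Subgroup.range_subtype, inf_eq_left.2 hM]
  rwa [e] at h1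

lemma PCS.top_of_injective (h : PCS (⊤ : Subgroup G)) (f : G' →* G) (hf : Injective f) :
    PCS (⊤ : Subgroup G') := by
  simpa using h.comap f hf

lemma PCS.top_of_surjective (h : PCS (⊤ : Subgroup G)) (f : G →* G') (hf : Surjective f) :
    PCS (⊤ : Subgroup G') := by
  have := h.map f
  rwa [← MonoidHom.range_eq_map, MonoidHom.range_eq_top.2 hf] at this

lemma pcs_of_isPolycyclic (h : IsPolycyclicGroup G) : PCS (⊤ : Subgroup G) := by
  obtain ⟨m, s, h0, hm, hs⟩ := h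
  suffices H : ∀ i ≤ m, PCS (s i) by rw [← hm]; exact H m le_rfl
  intro i
  induction i with
  | zero => intro _; rw [h0]; exact PCS.bot
  | succ i ih =>
    intro hi
    obtain ⟨hle, hN, hc⟩ := hs i (by omega)
    obtain ⟨g, hg⟩ := hc.exists_generator
    obtain ⟨t, rfl⟩ := QuotientGroup.mk_surjective g
    refine PCS.step (t : G) (ih (by omega)) hle t.2 ?_ ?_
    · intro k hk h hh
      exact hN.conj_mem ⟨h, hle hh⟩ hh ⟨k, hk⟩
    · intro k hk
      obtain ⟨j, hj⟩ := Subgroup.mem_zpowers_iff.1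
        (hg (QuotientGroup.mk (⟨k, hk⟩ : s (i + 1))))
      refine ⟨j, ?_⟩
      rw [← QuotientGroup.mk_zpow, QuotientGroup.eq] at hj
      exact hN.mem_comm hj

/-- Iterated commutator subgroups. -/
def dS : ℕ → Subgroup G → Subgroup G
  | 0, K => K
  | n + 1, K => ⁅dS n K, dS n K⁆

lemma dS_succ_le {H K : Subgroup G} (h : ⁅K, K⁆ ≤ H) : ∀ n, dS (n + 1) K ≤ dS n H
  | 0 => h
  | n + 1 => Subgroup.commutator_mono (dS_succ_le h n) (dS_succ_le h n)

lemma dS_top : ∀ n, dS n (⊤ : Subgroup G) = derivedSeries G n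
  | 0 => rfl
  | n + 1 => by rw [derivedSeries_succ, ← dS_top n]; rfl

lemma PCS.exists_dS {K : Subgroup G} (h : PCS K) : ∃ n, dS n K = ⊥ := by
  induction h with
  | bot => exact ⟨0, rfl⟩
  | @step H K t _ hle ht hn hg ih =>
    obtain ⟨n, hn0⟩ := ih
    have hn' : ∀ j : ℤ, ∀ h ∈ H, t ^ j * h * (t ^ j)⁻¹ ∈ H :=
      fun j h hh => hn _ (K.zpow_mem ht j) h hh
    refine ⟨n + 1, le_bot_iff.1 (hn0 ▸ dS_succ_le ?_ n)⟩
    rw [Subgroup.commutator_le]
    intro a ha b hb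
    obtain ⟨i, hi⟩ := hg a ha
    obtain ⟨j, hj⟩ := hg b hb
    have h1 : (a, Multiplicative.ofAdd i) ∈ pairS H t hn' := hi
    have h2 : (b, Multiplicative.ofAdd j) ∈ pairS H t hn' := hj
    have h3 := Subgroup.mul_mem _ (Subgroup.mul_mem _ (Subgroup.mul_mem _ h1 h2)
      (Subgroup.inv_mem _ h1)) (Subgroup.inv_mem _ h2)
    have e : (a, Multiplicative.ofAdd i) * (b, Multiplicative.ofAdd j) *
        (a, Multiplicative.ofAdd i)⁻¹ * (b, Multiplicative.ofAdd j)⁻¹ =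
        (a * b * a⁻¹ * b⁻¹, Multiplicative.ofAdd (0 : ℤ)) := by
      ext
      · simp
      · simp
    rw [e, mem_pairS] at h3
    simpa [commutatorElement_def] using h3

lemma PCS.exists_derived (h : PCS (⊤ : Subgroup G)) : ∃ n, derivedSeries G n = ⊥ := by
  obtain ⟨n, hn⟩ := h.exists_dS
  exact ⟨n, by rw [← dS_top, hn]⟩

/-- `K` is covered by finitely many left cosets of `T`. -/
def FinCov (T K : Subgroup G) : Prop :=
  ∃ F : Set G, F.Finite ∧ ∀ k ∈ K, ∃ f ∈ F, f⁻¹ * k ∈ T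

lemma finCov_iff {T K : Subgroup G} : FinCov T K ↔ (T.subgroupOf K).FiniteIndex := by
  classical
  constructor
  · rintro ⟨F, hF, h⟩
    have := hF.to_subtype
    let φ : F → K ⧸ T.subgroupOf K := fun f =>
      if h : ∃ k : K, (f : G)⁻¹ * k ∈ T then QuotientGroup.mk h.choose else QuotientGroup.mk 1
    have hφ : Surjective φ := by
      intro q
      obtain ⟨k, rfl⟩ := QuotientGroup.mk_surjective q
      obtain ⟨f, hf, hk⟩ := h k k.2
      refine ⟨⟨f, hf⟩, ?_⟩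
      have hex : ∃ k : K, f⁻¹ * k ∈ T := ⟨k, hk⟩
      simp only [φ, dif_pos hex]
      rw [QuotientGroup.eq, Subgroup.mem_subgroupOf]
      have := T.mul_mem (T.inv_mem hex.choose_spec) hk
      simpa [mul_assoc] using this
    have : Finite (K ⧸ T.subgroupOf K) := Finite.of_surjective φ hφ
    exact Subgroup.finiteIndex_of_finite_quotient
  · intro h
    refine ⟨Set.range fun q : K ⧸ T.subgroupOf K => (q.out : G), Set.finite_range _, ?_⟩
    intro k hk
    refine ⟨_, ⟨QuotientGroup.mk ⟨k, hk⟩, rfl⟩, ?_⟩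
    have := QuotientGroup.eq.1
      (QuotientGroup.out_eq' (QuotientGroup.mk ⟨k, hk⟩ : K ⧸ T.subgroupOf K))
    exact this

lemma finCov_top_iff {T : Subgroup G} : FinCov T ⊤ ↔ T.FiniteIndex := by
  rw [finCov_iff]
  constructor
  · intro h
    exact ⟨by rw [← Subgroup.relIndex_top_right]; exact h.1⟩
  · intro h
    exact ⟨by have := h.1; rwa [← Subgroup.relIndex_top_right] at this⟩

lemma FinCov.refl (K : Subgroup G) : FinCov K K :=
  ⟨{1}, Set.finite_singleton _, fun k hk => ⟨1, rfl, by simpa using hk⟩⟩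

lemma FinCov.mono {T T' K : Subgroup G} (h : FinCov T K) (hT : T ≤ T') : FinCov T' K := by
  obtain ⟨F, hF, h⟩ := h
  exact ⟨F, hF, fun k hk => (h k hk).imp fun f hf => ⟨hf.1, hT hf.2⟩⟩

lemma FinCov.trans {T H K : Subgroup G} (h1 : FinCov T H) (h2 : FinCov H K) : FinCov T K := by
  obtain ⟨F1, hF1, h1⟩ := h1
  obtain ⟨F2, hF2, h2⟩ := h2
  refine ⟨Set.image2 (· * ·) F2 F1, hF2.image2 _ hF1, fun k hk => ?_⟩
  obtain ⟨f2, hf2, hk2⟩ := h2 k hk
  obtain ⟨f1, hf1, hk1⟩ := h1 _ hk2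
  exact ⟨f2 * f1, Set.mem_image2_of_mem hf2 hf1, by simpa [mul_assoc] using hk1⟩

lemma finite_hom_of_fg (A P : Type) [Group A] [Group P] [Group.FG A] [Finite P] :
    Finite (A →* P) := by
  obtain ⟨S, hS⟩ := Group.fg_def.1 ‹_›
  refine Finite.of_injective (fun f : A →* P => fun s : S => f s) ?_
  intro f g h
  exact MonoidHom.eq_of_eqOn_dense hS fun s hs => congrFun h ⟨s, hs⟩

/-- A finite-index subgroup of a finitely generated group contains a finite-index subgroup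
invariant under every conjugation that preserves the ambient group. -/
lemma exists_core {T H : Subgroup G} (hH : H.FG) (hT : FinCov T H) :
    ∃ T0 : Subgroup G, T0 ≤ T ∧ T0 ≤ H ∧ FinCov T0 H ∧
      ∀ g, (∀ h ∈ H, g * h * g⁻¹ ∈ H) → ∀ x ∈ T0, g * x * g⁻¹ ∈ T0 := by
  have := (Group.fg_iff_subgroup_fg H).2 hH
  have hfi := finCov_iff.1 hT
  have : Finite (H ⧸ T.subgroupOf H) := Subgroup.finite_quotient_of_finiteIndex
  have := finite_hom_of_fg H (Equiv.Perm (H ⧸ T.subgroupOf H))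
  let C : Subgroup H := ⨅ f : H →* Equiv.Perm (H ⧸ T.subgroupOf H), f.ker
  have hC : C.FiniteIndex := Subgroup.finiteIndex_iInf fun f => inferInstance
  refine ⟨C.map H.subtype, ?_, Subgroup.map_subtype_le _, ?_, ?_⟩
  · rintro _ ⟨x, hx, rfl⟩
    have h1 : MulAction.toPermHom H (H ⧸ T.subgroupOf H) x = 1 :=
      Subgroup.mem_iInf.1 hx (MulAction.toPermHom H (H ⧸ T.subgroupOf H))
    have h2 : x ∈ (T.subgroupOf H).normalCore := by
      rw [Subgroup.normalCore_eq_ker]; exact h1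
    exact Subgroup.mem_subgroupOf.1 (Subgroup.normalCore_le _ h2)
  · rw [finCov_iff]
    have e : (C.map H.subtype).subgroupOf H = C :=
      Subgroup.comap_map_eq_self_of_injective H.subtype_injective C
    rw [e]; exact hC
  · rintro g hg _ ⟨x, hx, rfl⟩
    let c : H →* H := ((MulAut.conj g).toMonoidHom.comp H.subtype).codRestrict H
      fun y => hg y y.2
    refine ⟨c x, Subgroup.mem_iInf.2 fun f => ?_, rfl⟩
    exact Subgroup.mem_iInf.1 hx (f.comp c)

lemma finCov_extS {H K T : Subgroup G} {t : G} (ht : t ∈ K)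
    (hg : ∀ k ∈ K, ∃ j : ℤ, k * (t ^ j)⁻¹ ∈ H) (hT : FinCov T H)
    (hn : ∀ k ∈ K, ∀ x ∈ T, k * x * k⁻¹ ∈ T) {n : ℕ} (hn0 : n ≠ 0) (hn') :
    FinCov (extS T (t ^ n) hn') K := by
  obtain ⟨F, hF, hcov⟩ := hT
  refine ⟨Set.image2 (fun f (r : ℤ) => f * t ^ r) F (Set.Ico 0 (n : ℤ)),
    hF.image2 _ (Set.finite_Ico _ _), fun k hk => ?_⟩
  obtain ⟨j, hj⟩ := hg k hk
  obtain ⟨f, hf, hx⟩ := hcov _ hj
  have hn1 : (0 : ℤ) < n := by omega
  refine ⟨f * t ^ (j % n), Set.mem_image2_of_mem hf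
    ⟨Int.emod_nonneg _ hn1.ne', Int.emod_lt_of_pos _ hn1⟩, mem_extS.2 ⟨j / n, ?_⟩⟩
  have h1 := hn _ (K.inv_mem (K.zpow_mem ht (j % n))) _ hx
  have h2 : t ^ j = t ^ (j % n) * (t ^ n) ^ (j / n) := by
    rw [← zpow_natCast, ← zpow_mul, ← zpow_add, Int.emod_add_mul_ediv]
  have h3 : (t ^ n) ^ (j / n) * t ^ (j % n) = t ^ (j % n) * (t ^ n) ^ (j / n) := by
    rw [← zpow_natCast, ← zpow_mul, ← zpow_add, ← zpow_add, add_comm]
  have e : (f * t ^ (j % n))⁻¹ * k * ((t ^ n) ^ (j / n))⁻¹ =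
      (t ^ (j % n))⁻¹ * (f⁻¹ * (k * (t ^ j)⁻¹)) * (t ^ (j % n))⁻¹⁻¹ := by
    rw [h2]
    generalize t ^ (j % n) = a
    generalize (t ^ n) ^ (j / n) = b
    group
  rw [e]; exact h1

/-- No non-trivial torsion. -/
def TF (T : Subgroup G) : Prop := ∀ x ∈ T, ∀ m : ℕ, m ≠ 0 → x ^ m = 1 → x = 1

/-- Polycyclic groups are virtually torsion free. -/
lemma PCS.vtf {K : Subgroup G} (h : PCS K) : ∃ T ≤ K, FinCov T K ∧ TF T := by
  induction h with
  | bot => exact ⟨⊥, le_rfl, FinCov.refl _, fun x hx _ _ _ => hx⟩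
  | @step H K t hH hle ht hn hg ih =>
    obtain ⟨T, -, hcov, htf⟩ := ih
    obtain ⟨T0, hT0, hT0H, hcov0, hinv⟩ := exists_core hH.fg hcov
    have hn0 : ∀ k ∈ K, ∀ x ∈ T0, k * x * k⁻¹ ∈ T0 := fun k hk => hinv k (hn k hk)
    by_cases hfin : ∃ n : ℕ, n ≠ 0 ∧ t ^ n ∈ H
    · obtain ⟨n, hn1, hn2⟩ := hfin
      refine ⟨T0, hT0H.trans hle, hcov0.trans ?_, fun x hx => htf x (hT0 hx)⟩
      have hn' : ∀ j : ℤ, ∀ h ∈ H, (t ^ n) ^ j * h * ((t ^ n) ^ j)⁻¹ ∈ H :=
        fun j h hh => hn _ (K.zpow_mem (K.pow_mem ht n) j) h hh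
      refine (finCov_extS ht hg (FinCov.refl H) hn hn1 hn').mono fun x hx => ?_
      obtain ⟨j, hj⟩ := mem_extS.1 hx
      simpa using H.mul_mem hj (H.zpow_mem hn2 j)
    · have hn' : ∀ j : ℤ, ∀ h ∈ T0, (t ^ 1) ^ j * h * ((t ^ 1) ^ j)⁻¹ ∈ T0 :=
        fun j h hh => hn0 _ (K.zpow_mem (K.pow_mem ht 1) j) h hh
      refine ⟨extS T0 (t ^ 1) hn', ?_, finCov_extS ht hg hcov0 hn0 one_ne_zero hn', ?_⟩
      · intro x hx
        obtain ⟨j, hj⟩ := mem_extS.1 hx
        simpa using K.mul_mem (hle (hT0H hj)) (K.zpow_mem (K.pow_mem ht 1) j)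
      · intro x hx m hm hxm
        obtain ⟨j, hj⟩ := mem_extS.1 hx
        have h1 : (x, Multiplicative.ofAdd j) ∈ pairS T0 (t ^ 1) hn' := hj
        have h2 := Subgroup.pow_mem _ h1 m
        have e : (x, Multiplicative.ofAdd j) ^ m = ((1 : G), Multiplicative.ofAdd (m * j : ℤ)) := by
          ext
          · simpa using hxm
          · simp [← ofAdd_nsmul]
        rw [e, mem_pairS, one_mul, pow_one] at h2
        have h3 : t ^ (m * j : ℤ) ∈ H := by simpa using H.inv_mem (hT0H h2)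
        have hj0 : j = 0 := by
          by_contra hj0
          refine hfin ⟨(m * j : ℤ).natAbs, ?_, ?_⟩
          · simp [hm, hj0]
          · rcases Int.natAbs_eq (m * j : ℤ) with h | h
            · rw [h, zpow_natCast] at h3; exact h3
            · rw [h, zpow_neg, zpow_natCast] at h3; simpa using H.inv_mem h3
        subst hj0
        exact htf x (hT0 (by simpa using hj)) m hm hxm

end Vale.Agent.P188
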