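import Vale.Agent.P188.Stmts

/-! P188, module Tower: statements of the linear algebra steps. -/

namespace Vale.Agent.P188

/-- A real basis adapted to the moduli of the joint eigenvalues. -/
def LayerEx_stmt : Prop :=
  ∀ (k m : ℕ) (ρ : Zk k →* Matrix (Fin m) (Fin m) ℤ),
    ∃ (Q Qi : Matrix (Fin m) (Fin m) ℝ) (wt : Fin m → Wt k), Q * Qi = 1 ∧
      (∀ b i j, wt i ≠ wt j → (Qi * (ρ b).map (Int.cast : ℤ → ℝ) * Q) i j = 0) ∧
      ∃ (C : ℝ) (d : ℕ), ∀ b i j, |(Qi * (ρ b).map (Int.cast : ℤ → ℝ) * Q) i j| ≤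
        C * (1 + ‖toR b‖) ^ d * Real.exp (wt i (toR b))

/-- The determinant conditions follow from the block form and the bound. -/
def LayerDet_stmt : Prop :=
  ∀ (k m : ℕ) (ρ : Zk k →* Matrix (Fin m) (Fin m) ℤ) (Q Qi : Matrix (Fin m) (Fin m) ℝ)
    (wt : Fin m → Wt k), Q * Qi = 1 →
    (∀ b i j, wt i ≠ wt j → (Qi * (ρ b).map (Int.cast : ℤ → ℝ) * Q) i j = 0) →
    (∃ (C : ℝ) (d : ℕ), ∀ b i j, |(Qi * (ρ b).map (Int.cast : ℤ → ℝ) * Q) i j| ≤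
      C * (1 + ‖toR b‖) ^ d * Real.exp (wt i (toR b))) →
    (∀ b (p : Fin m → Prop) [DecidablePred p], (∀ i j, wt i = wt j → (p i ↔ p j)) →
      |((Qi * (ρ b).map (Int.cast : ℤ → ℝ) * Q).toSquareBlockProp p).det| =
        Real.exp (∑ i with p i, wt i (toR b))) ∧ ∑ i, wt i = 0

/-- Kronecker type finiteness. -/
def LayerFin_stmt : Prop :=
  ∀ (k : ℕ) (L : Layer k) (R : ℝ) (S : Set (Zk k)), S.Infinite →
    (∀ a ∈ S, ∀ i, L.wt i (toR a) ≤ R) →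
    ∃ S' ⊆ S, S'.Infinite ∧ ∀ a ∈ S', ∀ a' ∈ S', IsNilpotent (L.ρ (a / a') - 1)

end Vale.Agent.P188
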