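import Vale.Agent.P188.VPath

/-! P188: measurable images, the Markov property and the pointwise shadow bound. -/

namespace Vale.Agent.P188.Vx

open Function MeasureTheory
open scoped ENNReal NNReal

/-- A measurable set inside the image that carries the image measure. -/
theorem img {X Y : Type} [MeasurableSpace X] [StandardBorelSpace X] [MeasurableSpace Y]
    [StandardBorelSpace Y] (P : Measure X) [IsFiniteMeasure P] {f : X → Y} (hf : Measurable f)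
    {G : Set X} (hG : MeasurableSet G) :
    ∃ D, MeasurableSet D ∧ D ⊆ f '' G ∧ ∀ᵐ x ∂P, x ∈ G → f x ∈ D := by
  let := upgradeStandardBorel X
  let := upgradeStandardBorel Y
  have hg : Measurable fun x => (x, f x) := measurable_id.prodMk hf
  set ν : Measure (X × Y) := P.map fun x => (x, f x) with hν
  have hGr : MeasurableSet {z : X × Y | z.1 ∈ G ∧ f z.1 = z.2} :=
    (measurable_fst hG).inter (measurableSet_eq_fun (hf.comp measurable_fst) measurable_snd)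
  have h1 : ∀ n : ℕ, ∃ K, K ⊆ {z : X × Y | z.1 ∈ G ∧ f z.1 = z.2} ∧ IsCompact K ∧
      ν ({z : X × Y | z.1 ∈ G ∧ f z.1 = z.2} \ K) < ((n : ℝ≥0∞))⁻¹ := fun n =>
    hGr.exists_isCompact_sdiff_lt (measure_ne_top _ _) (by simp)
  choose K hK1 hK2 hK3 using h1
  refine ⟨⋃ n, Prod.snd '' K n, MeasurableSet.iUnion fun n =>
    ((hK2 n).image continuous_snd).measurableSet, ?_, ?_⟩
  · rintro _ ⟨_, ⟨n, rfl⟩, z, hz, rfl⟩
    exact ⟨z.1, (hK1 n hz).1, (hK1 n hz).2⟩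
  · rw [ae_iff]
    refine le_antisymm (ge_of_tendsto' ENNReal.tendsto_inv_nat_nhds_zero fun n => ?_) zero_le
    refine le_trans ?_ ((Measure.le_map_apply hg.aemeasurable _).trans (hK3 n).le)
    refine measure_mono fun x hx => ?_
    rw [Set.mem_ofPred_eq, Classical.not_imp] at hx
    exact ⟨⟨hx.1, rfl⟩, fun h => hx.2 (Set.mem_iUnion.2 ⟨n, _, h, rfl⟩)⟩

variable {Γ : Type} [Group Γ] {k : ℕ} {S : Finset Γ} {π : Γ →* Zk k} {a : Rk k}
  [MeasurableSpace Γ] {w : List (Wt k)} {Cs κ₁ κ₂ C₀ : ℝ} {c : Chain Γ}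
  [Countable Γ] [DiscreteMeasurableSpace Γ]

theorem meas_th (hc : ChainProp S π w a Cs κ₁ κ₂ C₀ c) :
    Measurable fun p : (Γ × c.σ) × (ℕ → c.N) => c.Θ (lp c.step p.1 p.2) :=
  hc.meas_Θ.comp (measurable_lp c.step hc.meas_step)

theorem meas_th₁ (hc : ChainProp S π w a Cs κ₁ κ₂ C₀ c) (x : Γ × c.σ) :
    Measurable fun ω : ℕ → c.N => c.Θ (lp c.step x ω) :=
  (meas_th hc).comp (measurable_const.prodMk measurable_id)

theorem meas_lp₂ (hc : ChainProp S π w a Cs κ₁ κ₂ C₀ c) (γ : Γ) :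
    Measurable fun x : c.σ × (ℕ → c.N) => lp c.step (γ, x.1) x.2 :=
  (measurable_lp c.step hc.meas_step).comp
    ((measurable_const.prodMk measurable_fst).prodMk measurable_snd)

/-- The Markov property at a fixed time. -/
theorem markov (hc : ChainProp S π w a Cs κ₁ κ₂ C₀ c) (x : Γ × c.σ) (n : ℕ) {W : Set (ℕ → c.N)}
    (hW : MeasurableSet W) (hWn : ∀ ω ω', ω ∈ W → splice n ω ω' ∈ W) {D : Set c.B}
    (hD : MeasurableSet D) (lam : ℝ≥0∞)
    (hlam : ∀ ω ∈ W, lam ≤ iid c.μN {ω' | c.Θ (lp c.step (cpath c.step x ω n) ω') ∈ D}) :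
    lam * iid c.μN W ≤ iid c.μN (W ∩ {ω | c.Θ (lp c.step x ω) ∈ D}) := by
  have hm : MeasurableSet (W ∩ {ω | c.Θ (lp c.step x ω) ∈ D}) := hW.inter (meas_th₁ hc x hD)
  rw [← (mp_splice c.μN n).measure_preimage hm.nullMeasurableSet,
    Measure.prod_apply (measurable_splice n hm), ← lintegral_indicator_const hW]
  refine lintegral_mono fun ω => ?_
  by_cases h : ω ∈ W
  · rw [Set.indicator_of_mem h]
    refine (hlam ω h).trans (measure_mono fun ω' h' => ⟨hWn ω ω' h, ?_⟩)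
    change c.Θ (lp c.step x (splice n ω ω')) ∈ D
    rw [theta_lp hc]
    exact h'
  · rw [Set.indicator_of_notMem h]
    exact zero_le

/-- The pointwise shadow bound. -/
theorem shadow (hc : ChainProp S π w a Cs κ₁ κ₂ C₀ c) {C e : ℝ} (he : 0 < e)
    (hub : ∀ (x : Γ × c.σ) (D : Set c.B), MeasurableSet D →
      iid c.μN {ω | c.Θ (lp c.step x ω) ∈ D} ≤
        ENNReal.ofReal (C * Real.exp (-kap w a (ht π x.1))) * c.m D)
    (hlb : ∀ (x : Γ × c.σ) (D : Set c.B), MeasurableSet D →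
      (∀ ξ ∈ D, ∃ y, y 0 = x.1 ∧ Tr S π a κ₂ C₀ y ∧ c.Θ y = ξ) →
      ENNReal.ofReal (e * Real.exp (-kap w a (ht π x.1))) * c.m D ≤
        iid c.μN {ω | c.Θ (lp c.step x ω) ∈ D})
    (x : Γ × c.σ) {ι : Type} (n : ι → ℕ) (p : ι → Γ) (W : ι → Set (ℕ → c.N))
    (hW : ∀ i, MeasurableSet (W i)) (hWd : Pairwise (Disjoint on W))
    (hWn : ∀ i ω ω', ω ∈ W i → splice (n i) ω ω' ∈ W i)
    (hWp : ∀ i, ∀ ω ∈ W i, lp c.step x ω (n i) = p i) (ξ : c.B) (s : Finset ι)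
    (hs : ∀ i ∈ s, ∃ y, y 0 = p i ∧ Tr S π a κ₁ C₀ y ∧ c.Θ y = ξ) :
    ∑ i ∈ s, ENNReal.ofReal (e * Real.exp (-kap w a (ht π (p i)))) * iid c.μN (W i) ≤
      ENNReal.ofReal (C * Real.exp (-kap w a (ht π x.1))) := by
  rcases s.eq_empty_or_nonempty with rfl | ⟨i₀, hi₀⟩
  · simp
  obtain ⟨y', -, hy', hy''⟩ := hs i₀ hi₀
  have hev : ∀ᶠ m in Filter.atTop, ∀ i ∈ s, ∀ u ω, ∃ Y, Y 0 = p i ∧ Tr S π a κ₂ C₀ Y ∧
      c.Θ Y = c.Θ (lp c.step (y' (m + 1), u) ω) := by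
    refine (Filter.eventually_all_finset s).2 fun i hi => ?_
    obtain ⟨y, h1, h2, h3⟩ := hs i hi
    rw [← h1]
    exact core_ev hc h2 hy' (h3.trans hy''.symm)
  obtain ⟨m, hm⟩ := hev.exists
  obtain ⟨D, hD, hD1, hD2⟩ := img (iid c.μN) (meas_th₁ hc (y' (m + 1), x.2)) MeasurableSet.univ
  have hD3 : ∀ i ∈ s, ∀ u : c.σ, ENNReal.ofReal (e * Real.exp (-kap w a (ht π (p i)))) * c.m D ≤
      iid c.μN {ω | c.Θ (lp c.step (p i, u) ω) ∈ D} := fun i hi u =>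
    hlb (p i, u) D hD fun ξ' h' => by
      obtain ⟨ω, -, rfl⟩ := hD1 h'
      exact hm i hi x.2 ω
  have h0 : c.m D ≠ 0 := by
    intro h
    have h1 := hub (y' (m + 1), x.2) D hD
    rw [h, mul_zero, nonpos_iff_eq_zero] at h1
    have h2 : iid c.μN {ω | c.Θ (lp c.step (y' (m + 1), x.2) ω) ∈ D} = 1 :=
      (prob_compl_eq_zero_iff (meas_th₁ hc _ hD)).1 (hD2.mono fun ω hω => hω trivial)
    exact one_ne_zero (h2.symm.trans h1)
  have htop : c.m D ≠ ⊤ := by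
    intro h
    have h1 := (hD3 i₀ hi₀ x.2).trans prob_le_one
    rw [h, ENNReal.mul_top (ENNReal.ofReal_pos.2 (by positivity)).ne'] at h1
    exact absurd h1 (by simp)
  refine (ENNReal.mul_le_mul_iff_left h0 htop).1 (le_trans ?_ (hub x D hD))
  have hG := meas_th₁ hc x hD
  calc (∑ i ∈ s, ENNReal.ofReal (e * Real.exp (-kap w a (ht π (p i)))) * iid c.μN (W i)) * c.m D
      = ∑ i ∈ s, (ENNReal.ofReal (e * Real.exp (-kap w a (ht π (p i)))) * c.m D) *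
          iid c.μN (W i) := by
        rw [Finset.sum_mul]
        exact Finset.sum_congr rfl fun i _ => mul_right_comm _ _ _
    _ ≤ ∑ i ∈ s, iid c.μN (W i ∩ {ω | c.Θ (lp c.step x ω) ∈ D}) := by
        refine Finset.sum_le_sum fun i hi => markov hc x (n i) (hW i) (hWn i) hD _ fun ω hω => ?_
        have h1 := hD3 i hi (cpath c.step x ω (n i)).2
        rwa [← hWp i ω hω] at h1 ⊢
    _ = iid c.μN (⋃ i ∈ s, W i ∩ {ω | c.Θ (lp c.step x ω) ∈ D}) :=
        (measure_biUnion_finset (fun i _ j _ hij => (hWd hij).mono Set.inter_subset_left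
          Set.inter_subset_left) fun i _ => (hW i).inter hG).symm
    _ ≤ _ := measure_mono (Set.iUnion₂_subset fun i _ => Set.inter_subset_right)

/-- Comparison of hitting measures from two starting points. -/
theorem transfer (hc : ChainProp S π w a Cs κ₁ κ₂ C₀ c) {C e : ℝ}
    (hub : ∀ (x : Γ × c.σ) (D : Set c.B), MeasurableSet D →
      iid c.μN {ω | c.Θ (lp c.step x ω) ∈ D} ≤
        ENNReal.ofReal (C * Real.exp (-kap w a (ht π x.1))) * c.m D)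
    (hlb : ∀ (x : Γ × c.σ) (D : Set c.B), MeasurableSet D →
      (∀ ξ ∈ D, ∃ y, y 0 = x.1 ∧ Tr S π a κ₂ C₀ y ∧ c.Θ y = ξ) →
      ENNReal.ofReal (e * Real.exp (-kap w a (ht π x.1))) * c.m D ≤
        iid c.μN {ω | c.Θ (lp c.step x ω) ∈ D})
    (γ₀ γ₁ : Γ) (h : ∀ u ω, ∃ y, y 0 = γ₀ ∧ Tr S π a κ₂ C₀ y ∧ c.Θ y = c.Θ (lp c.step (γ₁, u) ω))
    {E : Set c.B} (hE : MeasurableSet E) :
    ENNReal.ofReal (e * Real.exp (-kap w a (ht π γ₀))) *
        c.μσ.prod (iid c.μN) {x | c.Θ (lp c.step (γ₁, x.1) x.2) ∈ E} ≤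
      ENNReal.ofReal (C * Real.exp (-kap w a (ht π γ₁))) *
        c.μσ.prod (iid c.μN) {x | c.Θ (lp c.step (γ₀, x.1) x.2) ∈ E} := by
  have hm : ∀ γ : Γ, Measurable fun x : c.σ × (ℕ → c.N) => c.Θ (lp c.step (γ, x.1) x.2) :=
    fun γ => hc.meas_Θ.comp (meas_lp₂ hc γ)
  obtain ⟨D, hD, hD1, hD2⟩ := img (c.μσ.prod (iid c.μN)) (hm γ₁) MeasurableSet.univ
  have h1 : c.μσ.prod (iid c.μN) {x | c.Θ (lp c.step (γ₁, x.1) x.2) ∈ E} ≤
      ENNReal.ofReal (C * Real.exp (-kap w a (ht π γ₁))) * c.m (D ∩ E) := by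
    refine le_trans (measure_mono_ae
      (t := {x : c.σ × (ℕ → c.N) | c.Θ (lp c.step (γ₁, x.1) x.2) ∈ D ∩ E})
      (hD2.mono fun x hx hx' => ⟨hx trivial, hx'⟩)) ?_
    refine (Measure.prod_apply (hm γ₁ (hD.inter hE))).trans_le ?_
    refine (lintegral_mono fun u => hub (γ₁, u) _ (hD.inter hE)).trans_eq ?_
    simp
  have h2 : ENNReal.ofReal (e * Real.exp (-kap w a (ht π γ₀))) * c.m (D ∩ E) ≤
      c.μσ.prod (iid c.μN) {x | c.Θ (lp c.step (γ₀, x.1) x.2) ∈ E} := by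
    refine le_trans ?_ (measure_mono
      (s := {x : c.σ × (ℕ → c.N) | c.Θ (lp c.step (γ₀, x.1) x.2) ∈ D ∩ E}) fun x hx => hx.2)
    refine le_trans ?_ (Measure.prod_apply (hm γ₀ (hD.inter hE))).ge
    refine le_trans (le_of_eq ?_) (lintegral_mono fun u => hlb (γ₀, u) (D ∩ E) (hD.inter hE)
      fun ξ hξ => ?_)
    · simp
    · obtain ⟨x, -, rfl⟩ := hD1 hξ.1
      exact h x.1 x.2
  calc _ ≤ ENNReal.ofReal (e * Real.exp (-kap w a (ht π γ₀))) *
        (ENNReal.ofReal (C * Real.exp (-kap w a (ht π γ₁))) * c.m (D ∩ E)) := by gcongr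
    _ = ENNReal.ofReal (C * Real.exp (-kap w a (ht π γ₁))) *
        (ENNReal.ofReal (e * Real.exp (-kap w a (ht π γ₀))) * c.m (D ∩ E)) := mul_left_comm _ _ _
    _ ≤ _ := by gcongr

end Vale.Agent.P188.Vx
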