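import Vale.Agent.P188.Iid

/-! P188: tracking paths, gluing and shifting. -/

namespace Vale.Agent.P188.Vx

open Function MeasureTheory
open scoped ENNReal NNReal

variable {Γ : Type} [Group Γ] {k : ℕ} {S : Finset Γ} {π : Γ →* Zk k} {a : Rk k}

theorem ht_one : ht π 1 = 0 := by
  ext i; simp [ht, toR]

theorem ht_mul (g h : Γ) : ht π (g * h) = ht π g + ht π h := by
  ext i; simp [ht, toR]

theorem ht_inv (g : Γ) : ht π g⁻¹ = -ht π g := by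
  ext i; simp [ht, toR]

theorem ht_pow (g : Γ) (n : ℕ) : ht π (g ^ n) = (n : ℝ) • ht π g := by
  induction n with
  | zero => simp [ht_one]
  | succ n ih => rw [pow_succ, ht_mul, ih, Nat.cast_succ, add_smul, one_smul]

theorem tr_mono {κ κ' Λ Λ' : ℝ} {y : ℕ → Γ} (h : Tr S π a κ Λ y) (h1 : κ ≤ κ') (h2 : Λ ≤ Λ') :
    Tr S π a κ' Λ' y := fun j => by
  have := add_le_add (mul_le_mul_of_nonneg_right h1 j.cast_nonneg) h2
  exact ⟨(h j).1.trans this, (h j).2.trans this⟩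

theorem tr_nonneg {κ Λ : ℝ} {y : ℕ → Γ} (h : Tr S π a κ Λ y) : 0 ≤ Λ := by
  simpa using (norm_nonneg _).trans (h 0).2

theorem tr_shift {κ Λ : ℝ} {y : ℕ → Γ} (hκ : 0 ≤ κ) (h : Tr S π a κ Λ y) :
    Tr S π a κ (2 * κ + 2 * Λ) fun j => y (j + 1) := fun j => by
  have h0 := tr_nonneg h
  have h1 := h (j + 1)
  have h2 := (h 1).2
  push_cast at h1 h2
  refine ⟨by linarith [h1.1], ?_⟩
  have h3 := norm_sub_le_of_le h1.2 h2
  refine le_trans (le_of_eq (congrArg _ ?_)) (h3.trans (by linarith))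
  rw [add_smul]
  abel

theorem tr_unshift {κ Λ : ℝ} {y : ℕ → Γ} (hκ : 0 ≤ κ) (h : Tr S π a κ Λ fun j => y (j + 1)) :
    Tr S π a κ (Λ + sz S π ((y 0)⁻¹ * y 1) + ‖ht π (y 1) - ht π (y 0) - a‖) y := fun j => by
  have h0 := tr_nonneg h
  have h1 : (0 : ℝ) ≤ sz S π ((y 0)⁻¹ * y 1) := Nat.cast_nonneg _
  have h2 : (0 : ℝ) ≤ ‖ht π (y 1) - ht π (y 0) - a‖ := norm_nonneg _
  rcases j with _ | j
  · refine ⟨by simp only [zero_add, Nat.cast_zero, mul_zero]; linarith, ?_⟩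
    simp only [sub_self, Nat.cast_zero, zero_smul, norm_zero, mul_zero, zero_add]
    linarith
  · have h3 := h j
    push_cast
    refine ⟨by linarith [h3.1], ?_⟩
    have h4 := norm_add_le_of_le h3.2 (le_refl ‖ht π (y 1) - ht π (y 0) - a‖)
    refine le_trans (le_of_eq (congrArg _ ?_)) (h4.trans (by linarith))
    rw [add_smul, one_smul]
    abel

theorem tr_shiftn {κ Λ : ℝ} {y : ℕ → Γ} (hκ : 0 ≤ κ) (h : Tr S π a κ Λ y) (n : ℕ) :
    ∃ Λ', Tr S π a κ Λ' fun j => y (j + n) := by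
  induction n with
  | zero => exact ⟨Λ, h⟩
  | succ n ih =>
    obtain ⟨Λ', h'⟩ := ih
    have e : (fun j => y (j + (n + 1))) = fun j => y (j + 1 + n) :=
      funext fun j => congrArg y (by omega)
    have h2 := tr_shift hκ h'
    rw [e]
    exact ⟨_, h2⟩

theorem exists_nat_tr {κ : ℝ} {y : ℕ → Γ} :
    (∃ Λ : ℕ, Tr S π a κ Λ y) ↔ ∃ Λ : ℝ, Tr S π a κ Λ y :=
  ⟨fun ⟨Λ, h⟩ => ⟨Λ, h⟩, fun ⟨Λ, h⟩ => ⟨⌈Λ⌉₊, tr_mono h le_rfl (Nat.le_ceil Λ)⟩⟩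

theorem splice_shift {N : Type} (n : ℕ) (y z : ℕ → N) : (fun j => splice n y z (j + n)) = z := by
  funext j
  simp [splice]

theorem splice_lt {N : Type} {n : ℕ} (y z : ℕ → N) {j : ℕ} (h : j < n) : splice n y z j = y j :=
  if_pos h

theorem splice_add {N : Type} (n : ℕ) (y z : ℕ → N) (j : ℕ) : splice n y z (j + n) = z j :=
  congrFun (splice_shift n y z) j

/-- General gluing lemma. -/
theorem glue {α β : ℕ → ℝ} {n : ℕ} {y z : ℕ → Γ} {y₀ : Γ} (h0 : splice n y z 0 = y₀)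
    (h1 : ∀ j, j + 1 < n → (sz S π ((y j)⁻¹ * y (j + 1)) : ℝ) ≤ α j)
    (h2 : ∀ j, j + 1 = n → (sz S π ((y j)⁻¹ * z 0) : ℝ) ≤ α j)
    (h3 : ∀ t, (sz S π ((z t)⁻¹ * z (t + 1)) : ℝ) ≤ α (t + n))
    (h4 : ∀ j, j < n → ‖ht π (y j) - ht π y₀ - (j : ℝ) • a‖ ≤ β j)
    (h5 : ∀ t, ‖ht π (z t) - ht π y₀ - ((t : ℝ) + n) • a‖ ≤ β (t + n)) (j : ℕ) :
    (sz S π ((splice n y z j)⁻¹ * splice n y z (j + 1)) : ℝ) ≤ α j ∧
      ‖ht π (splice n y z j) - ht π (splice n y z 0) - (j : ℝ) • a‖ ≤ β j := by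
  rw [h0]
  rcases lt_or_ge j n with h | h
  · rw [splice_lt y z h]
    refine ⟨?_, h4 j h⟩
    rcases (Nat.succ_le_of_lt h).lt_or_eq with h' | h'
    · rw [splice_lt y z h']
      exact h1 j h'
    · have e := splice_add n y z 0
      rw [zero_add, ← h'] at e
      rw [← h', e]
      exact h2 j h'
  · obtain ⟨t, rfl⟩ := Nat.exists_eq_add_of_le' h
    rw [Nat.add_right_comm, splice_add, splice_add, Nat.cast_add]
    exact ⟨h3 t, h5 t⟩

/-- Paths with bounded steps. -/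
def Bd (S : Finset Γ) (π : Γ →* Zk k) (a : Rk k) (M κ Λ : ℝ) (y : ℕ → Γ) : Prop :=
  ∀ j : ℕ, (sz S π ((y j)⁻¹ * y (j + 1)) : ℝ) ≤ M ∧
    ‖ht π (y j) - ht π (y 0) - (j : ℝ) • a‖ ≤ κ * j + Λ

theorem Bd.tr {M κ Λ : ℝ} {y : ℕ → Γ} (h : Bd S π a M κ Λ y) (hκ : 0 ≤ κ) :
    Tr S π a κ (M + Λ) y := fun j => by
  have h1 : 0 ≤ M := (Nat.cast_nonneg _).trans (h 0).1
  have h2 : 0 ≤ Λ := by simpa using (norm_nonneg _).trans (h 0).2
  have h3 : 0 ≤ κ * j := by positivity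
  exact ⟨by linarith [(h j).1], by linarith [(h j).2]⟩

theorem Bd.mono {M M' κ κ' Λ : ℝ} {y : ℕ → Γ} (h : Bd S π a M κ Λ y) (h1 : M ≤ M')
    (h2 : κ ≤ κ') : Bd S π a M' κ' Λ y := fun j =>
  ⟨(h j).1.trans h1, (h j).2.trans (by gcongr)⟩

theorem splice_zero {N : Type} {n : ℕ} {y z : ℕ → N} (h0 : z 0 = y n) :
    splice n y z 0 = y 0 := by
  rcases n with _ | n
  · exact h0
  · exact splice_lt y z n.succ_pos

theorem bd_splice {M κ Λ₁ Λ₂ : ℝ} {n : ℕ} {y z : ℕ → Γ} (h0 : z 0 = y n)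
    (h1 : ∀ j, j < n → (sz S π ((y j)⁻¹ * y (j + 1)) : ℝ) ≤ M)
    (h2 : ∀ j, j ≤ n → ‖ht π (y j) - ht π (y 0) - (j : ℝ) • a‖ ≤ κ * j + Λ₁)
    (hz : Bd S π a M κ Λ₂ z) : Bd S π a M κ (Λ₁ + Λ₂) (splice n y z) := by
  have h3 : 0 ≤ Λ₂ := by simpa using (norm_nonneg _).trans (hz 0).2
  refine glue (α := fun _ => M) (β := fun j => κ * j + (Λ₁ + Λ₂)) (splice_zero h0)
    (fun j hj => h1 j (by omega)) (fun j hj => ?_) (fun t => (hz t).1)
    (fun j hj => (h2 j hj.le).trans (by linarith)) fun t => ?_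
  · rw [h0, ← hj]
    exact h1 j (by omega)
  · have h4 := norm_add_le_of_le (hz t).2 (h2 n le_rfl)
    rw [h0] at h4
    refine le_trans (le_of_eq (congrArg _ ?_)) (h4.trans (le_of_eq ?_))
    · rw [add_smul]
      abel
    · push_cast
      ring

theorem tr_ray {Cs C₀ M κ Λ : ℝ} {L : ℕ} {r y₀ : Γ} {z : ℕ → Γ} (h1 : 1 ≤ Cs) (h2 : Cs + 1 ≤ κ)
    (hr : ‖ht π r - a‖ ≤ Cs) (hr' : (sz S π r : ℝ) ≤ C₀) (hz : Bd S π a M κ Λ z) (hM : M ≤ L)
    (hΛ : Λ ≤ L) (h0 : z 0 = y₀ * r ^ L) :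
    Tr S π a κ C₀ (splice L (fun j => y₀ * r ^ j) z) := by
  have c0 : 0 ≤ C₀ := (Nat.cast_nonneg _).trans hr'
  have e0 : ∀ n : ℕ, ‖ht π (y₀ * r ^ n) - ht π y₀ - (n : ℝ) • a‖ ≤ n * Cs := fun n => by
    rw [ht_mul, add_sub_cancel_left, ht_pow, ← smul_sub, norm_smul, Real.norm_natCast]
    exact mul_le_mul_of_nonneg_left hr n.cast_nonneg
  have e1 : ∀ j : ℕ, (sz S π ((y₀ * r ^ j)⁻¹ * (y₀ * r ^ (j + 1))) : ℝ) ≤ κ * j + C₀ := fun j => by
    have : (0 : ℝ) ≤ j := j.cast_nonneg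
    rw [pow_succ, ← mul_assoc y₀, inv_mul_cancel_left]
    nlinarith
  have l0 : (0 : ℝ) ≤ L := L.cast_nonneg
  refine glue (α := fun j => κ * j + C₀) (β := fun j => κ * j + C₀) (y₀ := y₀)
    ((splice_zero (y := fun j => y₀ * r ^ j) h0).trans (by simp))
    (fun j _ => e1 j) (fun j hj => ?_) (fun t => ?_) (fun j _ => ?_) fun t => ?_
  · rw [h0, ← hj]
    exact e1 j
  · have : (0 : ℝ) ≤ t := t.cast_nonneg
    push_cast
    nlinarith [(hz t).1]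
  · have : (0 : ℝ) ≤ j := j.cast_nonneg
    nlinarith [e0 j]
  · have h4 := norm_add_le_of_le (hz t).2 (e0 L)
    rw [h0] at h4
    refine le_trans (le_of_eq (congrArg _ ?_)) (h4.trans ?_)
    · rw [add_smul]
      abel
    · push_cast
      nlinarith

theorem lip_sz (hS : SzBasic_stmt) (π : Γ →* Zk k) (hc : Subgroup.closure (S : Set Γ) = ⊤) (K : ℕ)
    (g : Γ) : ∃ B : ℕ, ∀ q : Γ → Γ, (∀ p, ∀ s ∈ S, wordLength S ((q p)⁻¹ * q (p * s)) ≤ K) →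
      ∀ p, sz S π ((q p)⁻¹ * q (p * g)) ≤ B := by
  obtain ⟨-, h1, h2, h3, -, ⟨C, h4⟩, -⟩ := hS k Γ π S hc
  have hg : g ∈ Subgroup.closure (S : Set Γ) := hc ▸ Subgroup.mem_top g
  induction hg using Subgroup.closure_induction with
  | mem s hs => exact ⟨C * K, fun q hq p => (h4 _).trans (Nat.mul_le_mul_left _ (hq p s hs))⟩
  | one => exact ⟨0, fun q _ p => by rw [mul_one, inv_mul_cancel, h1]⟩
  | mul g g' _ _ ih ih' =>
    obtain ⟨B, hB⟩ := ih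
    obtain ⟨B', hB'⟩ := ih'
    refine ⟨B + B' + 1, fun q hq p => ?_⟩
    have e : (q p)⁻¹ * q (p * (g * g')) =
        ((q p)⁻¹ * q (p * g)) * ((q (p * g))⁻¹ * q (p * g * g')) := by
      rw [mul_assoc p]; group
    rw [e]
    exact (h2 _ _).trans (Nat.add_le_add_right (Nat.add_le_add (hB q hq _) (hB' q hq _)) 1)
  | inv g _ ih =>
    obtain ⟨B, hB⟩ := ih
    refine ⟨2 * B, fun q hq p => ?_⟩
    have e : (q p)⁻¹ * q (p * g⁻¹) = ((q (p * g⁻¹))⁻¹ * q (p * g⁻¹ * g))⁻¹ := by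
      rw [inv_mul_cancel_right]; group
    rw [e]
    exact (h3 _).trans (Nat.mul_le_mul_left _ (hB q hq _))

section
variable [MeasurableSpace Γ] {w : List (Wt k)} {Cs κ₁ κ₂ C₀ : ℝ} {c : Chain Γ}

theorem theta_shiftn (hc : ChainProp S π w a Cs κ₁ κ₂ C₀ c) {Λ : ℝ} {y : ℕ → Γ}
    (h : Tr S π a κ₂ Λ y) (n : ℕ) : c.Θ (fun j => y (j + n)) = c.Θ y := by
  have hκ : 0 ≤ κ₂ := by linarith [hc.one_le, hc.le₁, hc.le₂]
  induction n with
  | zero => rfl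
  | succ n ih =>
    obtain ⟨Λ', h'⟩ := tr_shiftn hκ h n
    rw [← ih, ← hc.shift Λ' _ h']
    simp only [Nat.add_right_comm _ 1 n, add_assoc]

theorem theta_splice (hc : ChainProp S π w a Cs κ₁ κ₂ C₀ c) {Λ : ℝ} {n : ℕ} {y z : ℕ → Γ}
    (h : Tr S π a κ₂ Λ (splice n y z)) : c.Θ (splice n y z) = c.Θ z := by
  rw [← theta_shiftn hc h n, splice_shift]

theorem lp_bd (hc : ChainProp S π w a Cs κ₁ κ₂ C₀ c) : ∃ M : ℝ, ∀ x ω,
    Bd S π a M Cs 0 (lp c.step x ω) := by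
  obtain ⟨F, hF⟩ := hc.fin
  refine ⟨(F.sup (sz S π) : ℕ), fun x ω j => ?_⟩
  have e : ∀ j, lp c.step x ω (j + 1) = lp c.step x ω j *
    (c.step (cpath c.step x ω j).2 (ω j)).1 := fun _ => rfl
  refine ⟨?_, ?_⟩
  · rw [e, inv_mul_cancel_left]
    exact_mod_cast Finset.le_sup (hF _ _)
  · rw [add_zero]
    induction j with
    | zero => simp
    | succ j ih =>
      rw [e, ht_mul, Nat.cast_succ, add_smul, one_smul, mul_add, mul_one]
      refine le_trans (le_of_eq (congrArg _ ?_)) (norm_add_le_of_le ih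
        (hc.dir (cpath c.step x ω j).2 (ω j)))
      abel

theorem theta_lp (hc : ChainProp S π w a Cs κ₁ κ₂ C₀ c) (x : Γ × c.σ) (ω ω' : ℕ → c.N) (n : ℕ) :
    c.Θ (lp c.step x (splice n ω ω')) = c.Θ (lp c.step (cpath c.step x ω n) ω') := by
  obtain ⟨M, hM⟩ := lp_bd hc
  have h1 := hc.one_le
  have h2 : Cs ≤ κ₂ := by linarith [hc.le₁, hc.le₂]
  rw [← theta_shiftn hc (((hM x (splice n ω ω')).mono le_rfl h2).tr (by linarith)) n]
  congr 1
  funext j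
  rw [lp, lp, cpath_add, splice_shift, cpath_congr c.step x n fun j hj => splice_lt ω ω' hj]

/-- Chain paths started far along one ray are rays from any point of the same core. -/
theorem core_ev (hc : ChainProp S π w a Cs κ₁ κ₂ C₀ c) {y y' : ℕ → Γ} (hy : Tr S π a κ₁ C₀ y)
    (hy' : Tr S π a κ₁ C₀ y') (h : c.Θ y = c.Θ y') : ∀ᶠ n in Filter.atTop, ∀ u ω,
      ∃ Y, Y 0 = y 0 ∧ Tr S π a κ₂ C₀ Y ∧ c.Θ Y = c.Θ (lp c.step (y' (n + 1), u) ω) := by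
  obtain ⟨M, hM⟩ := lp_bd hc
  obtain ⟨Λ', hΛ'⟩ := hc.close C₀ y y' hy hy' h
  have h1 := hc.one_le
  have h2 := hc.le₁
  have h3 := hc.le₂
  have c0 := tr_nonneg hy
  have ev : ∀ A : ℝ, ∀ᶠ n : ℕ in Filter.atTop, A ≤ n := fun A =>
    tendsto_natCast_atTop_atTop.eventually_ge_atTop A
  filter_upwards [ev M, ev Λ', ev ‖ht π (y' 0) - ht π (y 0)‖] with n n1 n2 n3 u ω
  have n0 : (0 : ℝ) ≤ n := n.cast_nonneg
  have hT : Tr S π a κ₂ C₀ (splice (n + 1) y (lp c.step (y' (n + 1), u) ω)) := by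
    refine glue (α := fun j => κ₂ * j + C₀) (β := fun j => κ₂ * j + C₀) (y₀ := y 0)
      (splice_lt _ _ n.succ_pos) (fun j _ => (tr_mono hy (by linarith) le_rfl j).1)
      (fun j hj => ?_) (fun t => ?_) (fun j _ => (tr_mono hy (by linarith) le_rfl j).2) fun t => ?_
    · obtain rfl : j = n := by omega
      have := hΛ' j
      change (sz S π ((y j)⁻¹ * y' (j + 1)) : ℝ) ≤ _
      linarith
    · have : (0 : ℝ) ≤ t := t.cast_nonneg
      push_cast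
      nlinarith [(hM (y' (n + 1), u) ω t).1]
    · have t0 : (0 : ℝ) ≤ t := t.cast_nonneg
      have h4 := norm_add_le_of_le (norm_add_le_of_le (hM (y' (n + 1), u) ω t).2 (hy' (n + 1)).2) n3
      change ‖ht π (lp c.step (y' (n + 1), u) ω t) - ht π (y' (n + 1)) - _ + _ + _‖ ≤ _ at h4
      refine le_trans (le_of_eq (congrArg _ ?_)) (h4.trans ?_)
      · rw [add_smul]
        abel
      · push_cast
        nlinarith
  exact ⟨_, splice_lt _ _ n.succ_pos, hT, theta_splice hc hT⟩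

variable [Countable Γ] [DiscreteMeasurableSpace Γ]

theorem meas_tr (κ Λ : ℝ) : MeasurableSet {y : ℕ → Γ | Tr S π a κ Λ y} := by
  refine measurableSet_setOfPred.2 (Measurable.forall fun j => ?_)
  have h1 : Measurable fun y : ℕ → Γ => (y j, y (j + 1), y 0) :=
    (measurable_pi_apply j).prodMk ((measurable_pi_apply (j + 1)).prodMk (measurable_pi_apply 0))
  have h2 : ∀ f : Γ × Γ × Γ → Prop, Measurable fun y : ℕ → Γ => f (y j, y (j + 1), y 0) :=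
    fun f => (Measurable.of_discrete (f := f)).comp h1
  exact h2 fun p => (sz S π (p.1⁻¹ * p.2.1) : ℝ) ≤ κ * j + Λ ∧
      ‖ht π p.1 - ht π p.2.2 - (j : ℝ) • a‖ ≤ κ * j + Λ

end

end Vale.Agent.P188.Vx
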